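/-
R293 / LatDefs.lean  (owner: helper79, written because LAT is on the critical path).
COMMON DEFINITIONS for Euclidean lattices of arbitrary rank (paper A, Section 3; paper B, Section 3).
A lattice is a `Submodule ℤ E` of a real inner product space having a ℤ-basis that is ℝ-linearly independent.
Only definitions, no sorry.
-/
import Mathlib

set_option autoImplicit false

namespace Claimed.Agent.R293

open Submodule Module
open scoped RealInnerProductSpace

section General
variable {E : Type*} [NormedAddCommGroup E] [InnerProductSpace ℝ E]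

/-- `b` is a lattice basis of `L`: ℝ-linearly independent and ℤ-spanning. -/
def IsLatBasis {r : ℕ} (b : Fin r → E) (L : Submodule ℤ E) : Prop :=
  LinearIndependent ℝ b ∧ span ℤ (Set.range b) = L

/-- `L` is a (Euclidean) lattice, of arbitrary rank. -/
def IsLat (L : Submodule ℤ E) : Prop := ∃ (r : ℕ) (b : Fin r → E), IsLatBasis b L

/-- real span of a lattice. -/
def rspan (L : Submodule ℤ E) : Submodule ℝ E := span ℝ (L : Set E)

/-- rank = dimension of the real span. -/
noncomputable def latRank (L : Submodule ℤ E) : ℕ := finrank ℝ (rspan L)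

/-- Gram determinant of a family of vectors. -/
noncomputable def gramDet {r : ℕ} (b : Fin r → E) : ℝ := (Matrix.gram ℝ b).det

open Classical in
/-- determinant (covolume in the span) of a lattice: `sqrt` of the Gram determinant of a basis; `0` for non-lattices.
The zero lattice has determinant `1`. -/
noncomputable def latDet (L : Submodule ℤ E) : ℝ :=
  if h : IsLat L then Real.sqrt (gramDet h.choose_spec.choose) else 0

/-- saturation of `M` inside `L`:  `L ∩ span_ℝ M`. -/
def latSat (L M : Submodule ℤ E) : Submodule ℤ E := L ⊓ (rspan M).restrictScalars ℤ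

/-- `M` is a primitive (saturated) sublattice of `L`. -/
def IsPrim (L M : Submodule ℤ E) : Prop := M ≤ L ∧ latSat L M = M

/-- dual lattice, taken in the real span. -/
def latDual (L : Submodule ℤ E) : Submodule ℤ E where
  carrier := {y | y ∈ rspan L ∧ ∀ x ∈ L, ∃ n : ℤ, ⟪y, x⟫ = n}
  add_mem' := by
    rintro a b ⟨ha, ha'⟩ ⟨hb, hb'⟩
    refine ⟨(rspan L).add_mem ha hb, fun x hx => ?_⟩
    obtain ⟨n, hn⟩ := ha' x hx
    obtain ⟨k, hk⟩ := hb' x hx
    exact ⟨n + k, by rw [inner_add_left, hn, hk]; push_cast; ring⟩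
  zero_mem' := ⟨(rspan L).zero_mem, fun x _ => ⟨0, by simp⟩⟩
  smul_mem' := by
    rintro c a ⟨ha, ha'⟩
    refine ⟨?_, fun x hx => ?_⟩
    · rw [← Int.cast_smul_eq_zsmul ℝ c a]
      exact (rspan L).smul_mem _ ha
    · obtain ⟨n, hn⟩ := ha' x hx
      refine ⟨c * n, ?_⟩
      rw [← Int.cast_smul_eq_zsmul ℝ c a, real_inner_smul_left, hn]
      push_cast; ring

/-- all sublattices `M ⊆ L` satisfy `det M ≥ T^{rank M}` (hypothesis of Reverse Minkowski). -/
def DetLB (T : ℝ) (L : Submodule ℤ E) : Prop := ∀ M : Submodule ℤ E, M ≤ L → T ^ latRank M ≤ latDet M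

/-- Gaussian mass `ρ_s(L) = ∑_{x ∈ L} exp(-π ‖x‖² / s²)`. -/
noncomputable def gaussMass (s : ℝ) (L : Submodule ℤ E) : ℝ :=
  ∑' x : L, Real.exp (-(Real.pi * ‖(x : E)‖ ^ 2 / s ^ 2))

/-- number of lattice points in the closed ball of radius `R`. -/
noncomputable def ballCount (R : ℝ) (L : Submodule ℤ E) : ℕ := Nat.card {x : L // ‖(x : E)‖ ≤ R}

variable [FiniteDimensional ℝ E]

/-- orthogonal projection `E → E` onto `Fᗮ`. -/
noncomputable def perpProj (F : Submodule ℝ E) : E →ₗ[ℝ] E := (Fᗮ.starProjection : E →L[ℝ] E).toLinearMap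

/-- image of the lattice `L` under the orthogonal projection onto `Fᗮ`. -/
noncomputable def latProj (F : Submodule ℝ E) (L : Submodule ℤ E) : Submodule ℤ E :=
  L.map ((perpProj F).restrictScalars ℤ)

/-- Euclidean realisation of the quotient `L / K`:  projection of `L` orthogonally to `span_ℝ K`. -/
noncomputable def latQuot (L K : Submodule ℤ E) : Submodule ℤ E := latProj (rspan K) L

/-- full preimage in `L` of a sublattice `M` of `L / K`. -/
noncomputable def latLift (L K M : Submodule ℤ E) : Submodule ℤ E :=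
  L ⊓ M.comap ((perpProj (rspan K)).restrictScalars ℤ)

/-- rank distance of two subspaces: `dim U + dim V - 2 dim (U ∩ V)`. -/
noncomputable def rkDist (U V : Submodule ℝ E) : ℕ :=
  finrank ℝ U + finrank ℝ V - 2 * finrank ℝ (U ⊓ V : Submodule ℝ E)

end General

section Integer
variable {m : ℕ}

/-- ambient Euclidean space `ℝ^m`. -/
abbrev EucM (m : ℕ) : Type := EuclideanSpace ℝ (Fin m)

/-- the integer lattice `ℤ^m ⊆ ℝ^m`. -/
def intLat (m : ℕ) : Submodule ℤ (EucM m) where
  carrier := {x | ∀ i, ∃ n : ℤ, x i = n}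
  add_mem' := by
    intro a b ha hb i
    obtain ⟨n, hn⟩ := ha i
    obtain ⟨k, hk⟩ := hb i
    exact ⟨n + k, by simp [hn, hk]⟩
  zero_mem' := fun i => ⟨0, by simp⟩
  smul_mem' := by
    intro c a ha i
    obtain ⟨n, hn⟩ := ha i
    exact ⟨c * n, by simp [hn]⟩

/-- integer vector as a point of `ℝ^m`. -/
noncomputable def vecR (x : Fin m → ℤ) : EucM m := WithLp.toLp 2 (fun i => (x i : ℝ))

/-- a subgroup of `ℤ^m` as a `ℤ`-submodule of `ℝ^m`. -/
def latOfSubgroup (K : AddSubgroup (Fin m → ℤ)) : Submodule ℤ (EucM m) where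
  carrier := {x | ∃ y ∈ K, ∀ i, x i = (y i : ℝ)}
  add_mem' := by
    rintro a b ⟨y, hy, hya⟩ ⟨z, hz, hzb⟩
    exact ⟨y + z, K.add_mem hy hz, fun i => by simp [hya i, hzb i]⟩
  zero_mem' := ⟨0, K.zero_mem, fun i => by simp⟩
  smul_mem' := by
    rintro c a ⟨y, hy, hya⟩
    exact ⟨c • y, K.zsmul_mem hy c, fun i => by simp [hya i]⟩

/-- integer points of a subspace, `Λ_W = W ∩ ℤ^m`. -/
def latOf (W : Submodule ℝ (EucM m)) : Submodule ℤ (EucM m) := W.restrictScalars ℤ ⊓ intLat m

/-- `W` is a rational subspace: spanned by its integer points. -/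
def IsRat (W : Submodule ℝ (EucM m)) : Prop := rspan (latOf W) = W

/-- height of a rational subspace, `H(W) = det (W ∩ ℤ^m)`. -/
noncomputable def height (W : Submodule ℝ (EucM m)) : ℝ := latDet (latOf W)

end Integer

end Claimed.Agent.R293
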