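/-
R293 / Model.lean  (owner: helper79).  COMMON DEFINITIONS of the row293 blueprint (S0541).
Finite product-Bernoulli probability, symmetric bit / sign matrices indexed by `Sym2 (Fin m)`,
the "bit model" of paper B (Section 2), the reference range, admissible columns.
Only definitions and a few trivial lemmas; no sorry.
-/
import Mathlib

set_option autoImplicit false

namespace Claimed.Agent.R293

open Finset Filter

/-! ### Product Bernoulli weights on `κ → Bool` -/

section Prob
variable {κ : Type*} [Fintype κ] [DecidableEq κ]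

/-- weight of the bit pattern `s` when bit `k` is `true` with probability `π k`, independently. -/
noncomputable def bern (π : κ → ℝ) (s : κ → Bool) : ℝ :=
  ∏ k, (if s k then π k else 1 - π k)

/-- probability of the event `E` under the product Bernoulli law with parameters `π`. -/
noncomputable def prb (π : κ → ℝ) (E : Set (κ → Bool)) : ℝ :=
  ∑ s, E.indicator (bern π) s

/-- expectation of `f` under the product Bernoulli law with parameters `π`. -/
noncomputable def exq (π : κ → ℝ) (f : (κ → Bool) → ℝ) : ℝ :=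
  ∑ s, bern π s * f s

/-- all parameters are honest probabilities. -/
def IsProbArray (π : κ → ℝ) : Prop := ∀ k, 0 ≤ π k ∧ π k ≤ 1

end Prob

/-! ### Symmetric matrices read off from bits on unordered pairs -/

/-- symmetric `0/1` matrix with entry `(i,j)` given by the bit at the unordered pair `s(i,j)`. -/
def bitMat {ι : Type*} (s : Sym2 ι → Bool) : Matrix ι ι ℤ :=
  fun i j => if s s(i, j) then 1 else 0

/-- symmetric `±1` matrix with entry `(i,j)` given by the bit at the unordered pair `s(i,j)`. -/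
def sgnMat {ι : Type*} (s : Sym2 ι → Bool) : Matrix ι ι ℤ :=
  fun i j => if s s(i, j) then 1 else -1

/-- real version of an integer matrix. -/
def toR {ι : Type*} (B : Matrix ι ι ℤ) : Matrix ι ι ℝ := B.map (Int.cast : ℤ → ℝ)

/-- `0/1` real vector of a bit vector. -/
def bitVec {ι : Type*} (z : ι → Bool) : ι → ℝ := fun i => if z i then 1 else 0

/-- singularity probability of the symmetric sign matrix, `Sym2` form. -/
noncomputable def sgnProb (p : ℝ) (n : ℕ) : ℝ :=
  prb (fun _ : Sym2 (Fin n) => p) {s | (sgnMat s).det = 0}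

/-! ### Constants of paper B, eq. (2.1) -/

/-- `a = -log₂ (1-p)`. -/
noncomputable def cA (p : ℝ) : ℝ := - Real.logb 2 (1 - p)
/-- `Q = p² + (1-p)²`. -/
def cQ (p : ℝ) : ℝ := p ^ 2 + (1 - p) ^ 2
/-- `d_* = -log₂ Q`. -/
noncomputable def cD (p : ℝ) : ℝ := - Real.logb 2 (cQ p)
/-- `h_* = ` binary entropy of `p` (base 2). -/
noncomputable def cH (p : ℝ) : ℝ := - p * Real.logb 2 p - (1 - p) * Real.logb 2 (1 - p)

/-- `ℓ = log log N`. -/
noncomputable def ell (N : ℕ) : ℝ := Real.log (Real.log N)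

/-- `m ∈ I_N = [N - N^{7/10}, N]`. -/
def InRange (N m : ℕ) : Prop := (N : ℝ) - (N : ℝ) ^ ((7 : ℝ) / 10) ≤ m ∧ m ≤ N

/-! ### The bit model (paper B, after Lemma 2.3) -/

/-- mean matrix of the bit model with parameters `π`. -/
def meanMat {ι : Type*} (π : Sym2 ι → ℝ) : Matrix ι ι ℝ := fun i j => π s(i, j)

/-- `π` is an admissible array of success probabilities: values in `{p, 1-p}`, mean matrix of rank `≤ 2`. -/
structure BitModel (p : ℝ) {m : ℕ} (π : Sym2 (Fin m) → ℝ) : Prop where
  val : ∀ e, π e = p ∨ π e = 1 - p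
  rank_le : (meanMat π).rank ≤ 2

/-- **"Typically"** (paper B, Section 2): the property `Good N B` of nonsingular bit matrices of size
`m ∈ I_N` fails (together with nonsingularity) with probability `2^{-ω(N)}`, uniformly in `m` and in the array.
`2^{-ω(N)}` is expressed as: for every constant `A`, eventually `≤ 2^{-A N}`. -/
def Typically (p : ℝ) (Good : ℕ → ∀ m : ℕ, Matrix (Fin m) (Fin m) ℤ → Prop) : Prop :=
  ∀ A : ℝ, ∀ᶠ N : ℕ in atTop, ∀ m : ℕ, InRange N m → ∀ π : Sym2 (Fin m) → ℝ, BitModel p π →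
    prb π {s | (bitMat s).det ≠ 0 ∧ ¬ Good N m (bitMat s)} ≤ (2 : ℝ) ^ (-(A * N))

/-- admissible columns `S_{L₀}(B)`, paper B eq. (2.9):
`zᵀ B⁻¹ z ∈ {0,1}` and `‖B⁻¹ z‖₂ ≤ L₀ √N`  (written `‖B⁻¹z‖₂² ≤ L₀² N`). -/
def IsAdmCol (L0 : ℝ) (N : ℕ) {m : ℕ} (B : Matrix (Fin m) (Fin m) ℤ) (z : Fin m → Bool) : Prop :=
  (bitVec z ⬝ᵥ ((toR B)⁻¹.mulVec (bitVec z)) = 0 ∨ bitVec z ⬝ᵥ ((toR B)⁻¹.mulVec (bitVec z)) = 1) ∧
    ∑ i, ((toR B)⁻¹.mulVec (bitVec z) i) ^ 2 ≤ L0 ^ 2 * N

/-- number of admissible columns. -/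
noncomputable def admCount (L0 : ℝ) (N : ℕ) {m : ℕ} (B : Matrix (Fin m) (Fin m) ℤ) : ℕ :=
  Nat.card {z : Fin m → Bool // IsAdmCol L0 N B z}

end Claimed.Agent.R293
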