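/-
R293 / CovDefs.lean  (owner: helper112, COV sub-captain).
DEFINITIONS for the package COV = paper A, Theorem 4.1 (low-height cover).  Only definitions, no sorry.

Design (see CovIface.lean for the leaves):
* the cover is the set of endpoints of chains of *rational hyperplane steps* `V ⊳ V'` starting at `⊤`;
* each step carries a type `(c, expensive?)`; the number of continuations of a step of a given type is bounded
  by a lattice point count in `latDual (latOf V)`;
* the existence part (minimising chain, flags, expensive positions) is abstract: it only uses a predicate `R`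
  ("rational") on subspaces and a function `h` (`= log_N height`) satisfying the axioms `CovAx`.
-/
import Claimed.Agent.R293.LatDefs
import Claimed.Agent.R293.Model

set_option autoImplicit false

namespace Claimed.Agent.R293

open Submodule Module

/-! ### Counting -/

/-- `s` has at most `B` elements (so it is finite); robust form, no `Nat.card` junk value. -/
def cardLE {α : Type*} (s : Set α) (B : ℝ) : Prop :=
  ∀ S : Finset α, (S : Set α) ⊆ s → (S.card : ℝ) ≤ B

/-- endpoints of the chains `x0 → x1 → ⋯` whose steps have the types listed in `ts`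
(the HEAD of the list is the type of the LAST step). -/
def covReach {T X : Type*} (step : T → X → X → Prop) (x0 : X) : List T → Set X
  | [] => {x0}
  | t :: ts => {y | ∃ x ∈ covReach step x0 ts, step t x y}

/-! ### Abstract heights on subspaces -/

section Abstract
variable {K V : Type*} [Field K] [AddCommGroup V] [Module K V]

/-- real valued rank distance `dim U + dim P - 2 dim (U ∩ P)`. -/
noncomputable def covD (U P : Submodule K V) : ℝ :=
  (finrank K U : ℝ) + (finrank K P : ℝ) - 2 * (finrank K (U ⊓ P : Submodule K V) : ℝ)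

/-- `h U ≤ h W + a (dim U - dim W)` for all rational `W ≤ U`. -/
def covBalDown (R : Submodule K V → Prop) (h : Submodule K V → ℝ) (a : ℝ) (U : Submodule K V) : Prop :=
  ∀ W, R W → W ≤ U → h U ≤ h W + a * ((finrank K U : ℝ) - (finrank K W : ℝ))

/-- `h U ≤ h W + a (dim W - dim U)` for all rational `W ≥ U`. -/
def covBalUp (R : Submodule K V → Prop) (h : Submodule K V → ℝ) (a : ℝ) (U : Submodule K V) : Prop :=
  ∀ W, R W → U ≤ W → h U ≤ h W + a * ((finrank K W : ℝ) - (finrank K U : ℝ))

/-- semi-balanced with slack `2c`: `h U ≤ h W + a (dim U - dim W) + 2 c` for all rational `W ≤ U`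
(A (4.6), "projected determinants"). -/
def covSB (R : Submodule K V → Prop) (h : Submodule K V → ℝ) (a c : ℝ) (U : Submodule K V) : Prop :=
  ∀ W, R W → W ≤ U → h U ≤ h W + a * ((finrank K U : ℝ) - (finrank K W : ℝ)) + 2 * c

/-- `U'` is a rational hyperplane of the rational space `U`. -/
def covHyp (R : Submodule K V → Prop) (U U' : Submodule K V) : Prop :=
  R U ∧ R U' ∧ U' ≤ U ∧ finrank K U = finrank K U' + 1

/-- the threshold for `h U' - h U` in a step: `1/2 + a` (expensive) or `1/2 - 3a` (inexpensive). -/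
noncomputable def covThr (a : ℝ) (e : Bool) : ℝ := if e then 1 / 2 + a else 1 / 2 - 3 * a

/-- a hyperplane step of type `t = (c, expensive?)`. -/
def covStep (R : Submodule K V → Prop) (h : Submodule K V → ℝ) (a : ℝ) (t : ℕ × Bool)
    (U U' : Submodule K V) : Prop :=
  covHyp R U U' ∧ covSB R h a (t.1 : ℝ) U ∧ h U' - h U ≤ covThr a t.2

/-- The axioms on (`R` = rational, `h` = `log_N` height, `e` = coordinate vectors, `lam u = (1/2) log_N u`)
used by the existence part. -/
structure CovAx {ι : Type*} (R : Submodule K V → Prop) (h : Submodule K V → ℝ) (e : ι → V)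
    (lam : ℕ → ℝ) : Prop where
  top : R ⊤
  sup : ∀ U W, R U → R W → R (U ⊔ W)
  inf : ∀ U W, R U → R W → R (U ⊓ W)
  nonneg : ∀ U, R U → 0 ≤ h U
  h_top : h ⊤ = 0
  submod : ∀ U W, R U → R W → h (U ⊔ W) + h (U ⊓ W) ≤ h U + h W
  /-- `h` attains its minimum on every nonempty family of rational spaces (`height² ∈ ℕ`). -/
  wf : ∀ S : Set (Submodule K V), S.Nonempty → (∀ U ∈ S, R U) → ∃ U ∈ S, ∀ W ∈ S, h U ≤ h W
  span_e : span K (Set.range e) = ⊤
  line : ∀ i, R (span K {e i})
  adj : ∀ i U, R U → h (U ⊔ span K {e i}) ≤ h U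
  /-- Minkowski's first theorem for the normal lattice of `U' ≤ U`. -/
  mink : ∀ U U', R U → R U' → U' ≤ U → ∀ u : ℕ, 1 ≤ u → finrank K U = finrank K U' + u →
    ∃ U'', covHyp R U U'' ∧ U' ≤ U'' ∧ h U'' - h U ≤ (h U' - h U) / u + lam u

end Abstract

/-- admissible lists of step types: at most `N` steps, block sizes `≤ N`, at most `25 a S` expensive steps,
sum of the block sizes over all steps `≤ S² + N`. -/
def covAdm (N : ℕ) (a S : ℝ) (ts : List (ℕ × Bool)) : Prop :=
  ts.length ≤ N ∧ (∀ t ∈ ts, t.1 ≤ N) ∧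
    ((ts.filter (fun t => t.2)).length : ℝ) ≤ 25 * a * S ∧
    (ts.map (fun t => (t.1 : ℝ))).sum ≤ S ^ 2 + N

/-! ### The concrete instance -/

section Concrete
variable {m : ℕ}

/-- `h(U) = log_N H(U)`. -/
noncomputable def covHt (N : ℕ) (U : Submodule ℝ (EucM m)) : ℝ := Real.logb N (height U)

/-- coordinate vectors of `ℝ^m`. -/
noncomputable def covE (i : Fin m) : EucM m := EuclideanSpace.single i (1 : ℝ)

/-- `(1/2) log_N u`. -/
noncomputable def covLam (N : ℕ) (u : ℕ) : ℝ := (1 / 2) * Real.logb N u

/-- the normal lattice `𝒩_V(V') = (V ∩ ℤ^m)^* ∩ V'^⊥` (A Lemma 3.3). -/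
noncomputable def normLat (V V' : Submodule ℝ (EucM m)) : Submodule ℤ (EucM m) :=
  latDual (latOf V) ⊓ (V'ᗮ).restrictScalars ℤ

/-- bound for the number of points of norm `≤ N^{covThr a e}` in a lattice of rank `≤ N` all of whose sublattices
have determinant `≥ N^{-2a rank}`; `τ` is the loss in Reverse Minkowski at rank `≤ N`:
`(3/2) exp(π N^{1-2a} τ²)` (inexpensive) resp. `(3/2) exp(π N) (1 + 2 τ N^{3a})^N` (expensive). -/
noncomputable def covImg (N : ℕ) (a τ : ℝ) (e : Bool) : ℝ :=
  if e then (3 / 2) * Real.exp (Real.pi * N) * (1 + 2 * τ * (N : ℝ) ^ (3 * a)) ^ N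
    else (3 / 2) * Real.exp (Real.pi * (N : ℝ) ^ (1 - 2 * a) * τ ^ 2)

/-- bound for the number of steps of type `(c, e)` out of a fixed space: images `covImg`, fibres `N^{6c/a}`. -/
noncomputable def covB (N : ℕ) (a τ : ℝ) (t : ℕ × Bool) : ℝ :=
  covImg N a τ t.2 * (N : ℝ) ^ (6 * (t.1 : ℝ) / a)

/-- bound for `∏ covB` over an admissible list of types. -/
noncomputable def covBmax (N : ℕ) (a τ S : ℝ) : ℝ :=
  covImg N a τ false ^ N * covImg N a τ true ^ (25 * a * S) * (N : ℝ) ^ (6 / a * (S ^ 2 + N))

/-- `a = ℓ^{-B₀}`. -/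
noncomputable def covA (B0 : ℝ) (N : ℕ) : ℝ := ell N ^ (-B0)

/-- `h₀ = N ℓ^D / log N`, the bound for `log_N H(W)`. -/
noncomputable def covH0 (D : ℝ) (N : ℕ) : ℝ := N * ell N ^ D / Real.log N

/-- `S = 4 h₀ / a`, the multi-drop budget A (4.1). -/
noncomputable def covS (D B0 : ℝ) (N : ℕ) : ℝ := 4 * covH0 D N / covA B0 N

end Concrete

end Claimed.Agent.R293
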