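/-
R293 / CovCard.lean  (owner: helper112).  API for `cardLE` and `covReach` (CovDefs.lean).
-/
import Claimed.Agent.R293.CovDefs

set_option autoImplicit false

namespace Claimed.Agent.R293

section Card
variable {α β ι : Type*}

theorem cardLE_mono {s t : Set α} {B C : ℝ} (h : cardLE t B) (hst : s ⊆ t) (hBC : B ≤ C) :
    cardLE s C :=
  fun S hS => (h S (hS.trans hst)).trans hBC

theorem cardLE_nonneg {s : Set α} {B : ℝ} (h : cardLE s B) : 0 ≤ B := by
  simpa using h ∅ (by simp)

theorem cardLE_empty {B : ℝ} (hB : 0 ≤ B) : cardLE (∅ : Set α) B := by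
  intro S hS
  have : S = ∅ := by
    apply Finset.eq_empty_of_forall_notMem
    intro x hx
    exact hS hx
  simpa [this] using hB

theorem cardLE_subsingleton {s : Set α} (hs : s.Subsingleton) : cardLE s 1 := by
  intro S hS
  have : S.card ≤ 1 := Finset.card_le_one.2 (fun a ha b hb => hs (hS ha) (hS hb))
  exact_mod_cast this

theorem cardLE_singleton (x : α) : cardLE ({x} : Set α) 1 :=
  cardLE_subsingleton Set.subsingleton_singleton

theorem cardLE_finite {s : Set α} {B : ℝ} (h : cardLE s B) : s.Finite := by
  by_contra hinf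
  obtain ⟨n, hn⟩ := exists_nat_gt B
  obtain ⟨S, hS, hcard⟩ := (Set.not_finite.mp hinf : s.Infinite).exists_subset_card_eq n
  have := h S hS
  rw [hcard] at this
  linarith

theorem cardLE_toFinset {s : Set α} {B : ℝ} (h : cardLE s B) :
    (((cardLE_finite h).toFinset).card : ℝ) ≤ B :=
  h _ (by simp)

theorem cardLE_of_finset (S : Finset α) : cardLE (S : Set α) S.card := by
  intro T hT
  exact_mod_cast Finset.card_le_card (by exact_mod_cast hT)

/-- an injective map into a set with at most `B` elements. -/
theorem cardLE_of_injOn {s : Set α} {t : Set β} {B : ℝ} (f : α → β) (hf : Set.InjOn f s)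
    (hmaps : Set.MapsTo f s t) (h : cardLE t B) : cardLE s B := by
  classical
  intro S hS
  have h1 : (S.image f).card = S.card := Finset.card_image_of_injOn (hf.mono hS)
  have h2 := h (S.image f) (by
    intro y hy
    simp only [Finset.coe_image, Set.mem_image, Finset.mem_coe] at hy
    obtain ⟨x, hx, rfl⟩ := hy
    exact hmaps (hS hx))
  rw [h1] at h2
  exact h2

/-- fibre product: at most `B1` images, at most `B2` points in each fibre. -/
theorem cardLE_fibres {s : Set α} {B1 B2 : ℝ} (f : α → β) (h1 : cardLE (f '' s) B1) (hB2 : 0 ≤ B2)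
    (h2 : ∀ b, cardLE {x | x ∈ s ∧ f x = b} B2) : cardLE s (B1 * B2) := by
  classical
  intro S hS
  have hcard : S.card = ∑ b ∈ S.image f, (S.filter (fun x => f x = b)).card :=
    Finset.card_eq_sum_card_image f S
  have himg : ((S.image f).card : ℝ) ≤ B1 := h1 _ (by
    intro y hy
    simp only [Finset.coe_image, Set.mem_image, Finset.mem_coe] at hy
    obtain ⟨x, hx, rfl⟩ := hy
    exact ⟨x, hS hx, rfl⟩)
  have hfib : ∀ b ∈ S.image f, ((S.filter (fun x => f x = b)).card : ℝ) ≤ B2 := by
    intro b _
    apply h2 b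
    intro x hx
    simp only [Finset.coe_filter, Set.mem_ofPred_eq] at hx
    exact ⟨hS hx.1, hx.2⟩
  calc (S.card : ℝ) = ∑ b ∈ S.image f, ((S.filter (fun x => f x = b)).card : ℝ) := by
        rw [hcard]; push_cast; rfl
    _ ≤ ∑ _b ∈ S.image f, B2 := Finset.sum_le_sum hfib
    _ = (S.image f).card * B2 := by simp
    _ ≤ B1 * B2 := mul_le_mul_of_nonneg_right himg hB2

/-- union of at most `B1` sets with at most `B2` elements each. -/
theorem cardLE_biUnion {I : Set ι} {B1 B2 : ℝ} (hI : cardLE I B1) (hB2 : 0 ≤ B2) (s : ι → Set α)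
    (h : ∀ i ∈ I, cardLE (s i) B2) : cardLE {x | ∃ i ∈ I, x ∈ s i} (B1 * B2) := by
  classical
  intro S hS
  rcases S.eq_empty_or_nonempty with rfl | ⟨x1, hx1⟩
  · simpa using mul_nonneg (cardLE_nonneg hI) hB2
  have : Nonempty ι := ⟨(hS hx1).choose⟩
  choose! g hg using (fun x (hx : x ∈ S) => hS hx)
  have key : cardLE (S : Set α) (B1 * B2) := by
    apply cardLE_fibres g _ hB2
    · intro b
      by_cases hb : b ∈ I
      · apply cardLE_mono (h b hb) _ le_rfl
        rintro x ⟨hx, rfl⟩
        exact (hg x hx).2
      · apply cardLE_mono (cardLE_empty hB2) _ le_rfl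
        rintro x ⟨hx, rfl⟩
        exact absurd (hg x hx).1 hb
    · apply cardLE_mono hI _ le_rfl
      rintro _ ⟨x, hx, rfl⟩
      exact (hg x hx).1
  exact key S le_rfl

end Card

section Reach
variable {T X : Type*} (step : T → X → X → Prop)

@[simp] theorem covReach_nil (x0 : X) : covReach step x0 [] = {x0} := rfl

theorem mem_covReach_cons {x0 y : X} {t : T} {ts : List T} :
    y ∈ covReach step x0 (t :: ts) ↔ ∃ x ∈ covReach step x0 ts, step t x y := Iff.rfl

/-- concatenation of chains (the head of a list is the LAST step). -/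
theorem covReach_append {x0 x y : X} {ts bs : List T} (hx : x ∈ covReach step x0 ts)
    (hy : y ∈ covReach step x bs) : y ∈ covReach step x0 (bs ++ ts) := by
  induction bs generalizing y with
  | nil =>
    have : y = x := hy
    simpa [this] using hx
  | cons b bs ih =>
    obtain ⟨z, hz, hzy⟩ := hy
    exact ⟨z, ih hz, hzy⟩

/-- number of endpoints of the chains with a fixed list of types. -/
theorem covReach_cardLE (x0 : X) (B : T → ℝ) (hB : ∀ t, 0 ≤ B t)
    (h : ∀ t x, cardLE {y | step t x y} (B t)) (ts : List T) :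
    cardLE (covReach step x0 ts) (ts.map B).prod := by
  induction ts with
  | nil => simpa using cardLE_singleton x0
  | cons t ts ih =>
    have := cardLE_biUnion ih (hB t) (fun x => {y | step t x y}) (fun x _ => h t x)
    simp only [List.map_cons, List.prod_cons]
    rw [mul_comm]
    exact this

end Reach

end Claimed.Agent.R293
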