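/-
R293 / CovIface.lean  (owner: helper112, COV sub-captain).
INTERFACE AND LEAVES of the package COV = paper A, Theorem 4.1 (low-height cover) = paper B, Theorem 3.2.
Every statement is a `def St… : Prop` (no sorry).  A leaf owner proves `theorem cov_xxx : (inputs →) StCovXxx`
in the file named in table `subtask`.  Definitions: CovDefs.lean, LatDefs.lean.

DAG
  StCover  <-  StCovAbs + StCovAxInst + StCovUnion + StCovProd + StCovStepCount τ + StCovAsymp      [CovMain]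
  StCovAbs <-  StCovChain + StCovBlock                                                              [CovFlat]
  StCovBlock <- StCovFlag + StCovExp                                                                [CovBlock]
  StCovAxInst <- StLatRat + StLatHeight + StLatNormal + StLatNormalSub + StLatMink                  [CovInst]
  StCovStepCount τ <- StCovHypInj + StCovMinSub + StCovImg τ + StCovFibre                           [CovStep]
  StCovHypInj <- StLatNormal ;  StCovMinSub <- StLatRat, StLatHeight, StLatNormalSub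
  StCovImg τ <- StRMBall τ + StCovAvg ;  StCovFibre <- StLatEnum + StLatNormalSub + StLatNormal
-/
import Claimed.Agent.R293.CovDefs

set_option autoImplicit false

namespace Claimed.Agent.R293

open Submodule Module Filter

/-! ## The exported theorem -/

/-- **A Theorem 4.1 = B Theorem 3.2 (low-height cover).** -/
def StCover : Prop :=
  ∀ D A : ℝ, 0 < D → 0 < A → ∀ᶠ N : ℕ in atTop, ∀ m : ℕ, m ≤ N →
    ∃ C : Finset (Submodule ℝ (EucM m)),
      (C.card : ℝ) ≤ (2 : ℝ) ^ ((N : ℝ) ^ 2 * ell N ^ (-A)) ∧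
      ∀ F : Submodule ℝ (EucM m), IsRat F → height F ≤ Real.exp (N * ell N ^ D) →
        ∃ U ∈ C, (rkDist F U : ℝ) ≤ N * ell N ^ (-A)

/-! ## Inputs from LAT and RM -/

/-- A 3.2, rationality: `⊤`, coordinate lines, sums and intersections are rational. -/
def StLatRat : Prop :=
  ∀ m : ℕ, IsRat (⊤ : Submodule ℝ (EucM m)) ∧ (∀ i : Fin m, IsRat (span ℝ {covE i})) ∧
    ∀ U W : Submodule ℝ (EucM m), IsRat U → IsRat W → IsRat (U ⊔ W) ∧ IsRat (U ⊓ W)

/-- A 3.2, heights: normalisation, `H² ∈ ℕ_{>0}`, submodularity. -/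
def StLatHeight : Prop :=
  ∀ m : ℕ, height (⊤ : Submodule ℝ (EucM m)) = 1 ∧ (∀ i : Fin m, height (span ℝ {covE i}) = 1) ∧
    (∀ U : Submodule ℝ (EucM m), IsRat U → ∃ k : ℕ, 0 < k ∧ height U ^ 2 = k) ∧
    ∀ U W : Submodule ℝ (EucM m), IsRat U → IsRat W →
      height (U ⊔ W) * height (U ⊓ W) ≤ height U * height W

/-- A 3.3, first part: the normal lattice of `V' ≤ V` has rank `dim V - dim V'` and determinant `H(V')/H(V)`. -/
def StLatNormal : Prop :=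
  ∀ (m : ℕ) (V V' : Submodule ℝ (EucM m)), IsRat V → IsRat V' → V' ≤ V →
    IsLat (normLat V V') ∧ latRank (normLat V V') + finrank ℝ V' = finrank ℝ V ∧
      latDet (normLat V V') * height V = height V'

/-- A 3.3, second part: for a sublattice `M` of `(V ∩ ℤ^m)^*` the space `V_M = V ∩ M^⊥` is rational of
codimension `rank M` and `H(V_M)/H(V) ≤ det M`. -/
def StLatNormalSub : Prop :=
  ∀ (m : ℕ) (V : Submodule ℝ (EucM m)) (M : Submodule ℤ (EucM m)), IsRat V → M ≤ latDual (latOf V) →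
    IsLat M ∧ IsRat (V ⊓ (rspan M)ᗮ) ∧
      finrank ℝ (V ⊓ (rspan M)ᗮ : Submodule ℝ (EucM m)) + latRank M = finrank ℝ V ∧
      height (V ⊓ (rspan M)ᗮ) ≤ latDet M * height V

/-- Minkowski's first theorem (cube version, constant `1`): `λ₁(L) ≤ √u (det L)^{1/u}`, `u = rank L ≥ 1`. -/
def StLatMink : Prop :=
  ∀ (m : ℕ) (L : Submodule ℤ (EucM m)), IsLat L → 1 ≤ latRank L →
    ∃ x ∈ L, x ≠ 0 ∧ ‖x‖ ^ latRank L ≤ Real.sqrt (latRank L) ^ latRank L * latDet L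

/-- Elementary enumeration bound (replaces the volume packing of A (4.9)): if `L` is spanned over `ℝ` by its
vectors of norm `≤ ρ` then every ball of radius `r` contains at most `(2r+ρ)^{rank L} / det L` points of `L`.
Proof: induction on the rank; `K = L ∩ span(w₁..w_{j-1})`, `L/K = ℤ g`, `‖g‖ = det L / det K ≤ ρ`. -/
def StLatEnum : Prop :=
  ∀ (m : ℕ) (L : Submodule ℤ (EucM m)) (ρ : ℝ), IsLat L → 0 ≤ ρ →
    rspan L ≤ span ℝ {x | x ∈ L ∧ ‖x‖ ≤ ρ} →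
    ∀ (z : EucM m) (r : ℝ), 0 ≤ r →
      cardLE {x | x ∈ L ∧ ‖x - z‖ ≤ r} ((2 * r + ρ) ^ latRank L / latDet L)

/-- Reverse Minkowski, ball count form, with loss `τ`. -/
def StRMBall (τ : ℕ → ℝ) : Prop :=
  ∀ (m : ℕ) (L : Submodule ℤ (EucM m)) (T R : ℝ), IsLat L → 0 < T → DetLB T L → 0 ≤ R →
    cardLE {x | x ∈ L ∧ ‖x‖ ≤ R} ((3 / 2) * Real.exp (Real.pi * R ^ 2 * τ (latRank L) ^ 2 / T ^ 2))

/-- what COV needs to know about the loss: monotone, `≥ 1`, polylogarithmic. -/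
def CovTauOK (τ : ℕ → ℝ) : Prop :=
  Monotone τ ∧ (∀ j, 1 ≤ τ j) ∧ ∃ (C : ℝ) (κ : ℕ), ∀ j : ℕ, τ j ≤ C * Real.log ((j : ℝ) + 2) ^ κ

/-! ## Abstract existence part (no lattices) -/

/-- **Leaf CHAIN** (A 4.1, "The minimizing chain").  With `P s = W ⊔ span {e i | s ≤ i}` and `U s` the greatest
minimiser of `h U + a d(U, P s)`: descending chain of balanced spaces from `⊤`, ending within `h W / a` of `W`,
multi-drop budget A (4.1). -/
def StCovChain : Prop :=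
  ∀ (m : ℕ) (R : Submodule ℝ (EucM m) → Prop) (h : Submodule ℝ (EucM m) → ℝ) (lam : ℕ → ℝ),
    CovAx R h (covE (m := m)) lam → ∀ a : ℝ, 0 < a → ∀ W, R W →
    ∃ U : ℕ → Submodule ℝ (EucM m), U 0 = ⊤ ∧ (∀ s, R (U s)) ∧ (∀ s, U (s + 1) ≤ U s) ∧
      (∀ s, covBalDown R h a (U s)) ∧ (∀ s, covBalUp R h a (U s)) ∧
      a * covD (U m) W ≤ h W ∧
      a * (∑ s ∈ Finset.range m, if 2 ≤ finrank ℝ (U s) - finrank ℝ (U (s + 1)) then
          ((finrank ℝ (U s) - finrank ℝ (U (s + 1)) : ℕ) : ℝ) else 0) ≤ 4 * h W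

/-- **Leaf FLAG** (A 4.1, "Normal flags"): `F (i+1)` = a rational hyperplane of `F i` containing `U'` of minimal
height; range inequality A (4.5) from the Minkowski axiom. -/
def StCovFlag : Prop :=
  ∀ (m : ℕ) (R : Submodule ℝ (EucM m) → Prop) (h : Submodule ℝ (EucM m) → ℝ) (lam : ℕ → ℝ),
    CovAx R h (covE (m := m)) lam → ∀ (U U' : Submodule ℝ (EucM m)) (c : ℕ), R U → R U' → U' ≤ U →
    finrank ℝ U = finrank ℝ U' + c →
    ∃ F : ℕ → Submodule ℝ (EucM m), F 0 = U ∧ F c = U' ∧ (∀ i, i < c → covHyp R (F i) (F (i + 1))) ∧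
      (∀ i, i ≤ c → U' ≤ F i) ∧
      ∀ i u : ℕ, 1 ≤ u → i + u ≤ c → h (F (i + 1)) - h (F i) ≤ (h (F (i + u)) - h (F i)) / u + lam u

/-- **Leaf EXP** (A 4.1, expensive positions; pure real numbers).  Suffix bound A (4.4) + range bound A (4.5)
imply `y i ≤ 1/2 + a` and at most `25 a c` positions with `y i > 1/2 - 3a`.
Proof: for an expensive `i` whose range (up to the next expensive position) has length `u`:
`∑_range (y j - a) > u (1/2 - 4a - (1/2) log_N u) ≥ 1/5 - 5 a u` (cases `u ≤ N^{2/5}`, `u > N^{2/5}`); sum over ranges. -/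
def StCovExp : Prop :=
  ∀ (N c : ℕ) (a : ℝ) (y : ℕ → ℝ), 1 ≤ c → c ≤ N → 0 < a → a ≤ 1 / 40 →
    1 / 5 ≤ a * (N : ℝ) ^ ((2 : ℝ) / 5) →
    (∀ i, i < c → ∑ j ∈ Finset.Ico i c, y j ≤ a * ((c : ℝ) - i)) →
    (∀ i u : ℕ, 1 ≤ u → i + u ≤ c → y i ≤ (∑ j ∈ Finset.Ico i (i + u), y j) / u + covLam N u) →
    (∀ i, i < c → y i ≤ 1 / 2 + a) ∧
      (((Finset.range c).filter (fun i => 1 / 2 - 3 * a < y i)).card : ℝ) ≤ 25 * a * c

/-- **Leaf BLOCK**: one transition `U ≥ U'` of drop `c` between balanced spaces is a chain of `c` typed steps. -/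
def StCovBlock : Prop :=
  ∀ (N m : ℕ) (R : Submodule ℝ (EucM m) → Prop) (h : Submodule ℝ (EucM m) → ℝ), m ≤ N →
    CovAx R h (covE (m := m)) (covLam N) → ∀ a : ℝ, 0 < a → a ≤ 1 / 40 →
    1 / 5 ≤ a * (N : ℝ) ^ ((2 : ℝ) / 5) →
    ∀ (U U' : Submodule ℝ (EucM m)) (c : ℕ), R U → R U' → U' ≤ U → finrank ℝ U = finrank ℝ U' + c →
    covBalDown R h a U → covBalUp R h a U' →
    ∃ bs : List (ℕ × Bool), bs.length = c ∧ (∀ t ∈ bs, t.1 = c) ∧
      ((bs.filter (fun t => t.2)).length : ℝ) ≤ 25 * a * c ∧ U' ∈ covReach (covStep R h a) U bs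

/-- **Leaf ABS**: every rational `W` is within `h W / a` of the endpoint of an admissible chain of typed steps. -/
def StCovAbs : Prop :=
  ∀ (N m : ℕ) (R : Submodule ℝ (EucM m) → Prop) (h : Submodule ℝ (EucM m) → ℝ), m ≤ N →
    CovAx R h (covE (m := m)) (covLam N) → ∀ a : ℝ, 0 < a → a ≤ 1 / 40 →
    1 / 5 ≤ a * (N : ℝ) ^ ((2 : ℝ) / 5) → ∀ W, R W → ∀ S : ℝ, 4 * h W / a ≤ S →
    ∃ ts, covAdm N a S ts ∧ ∃ U ∈ covReach (covStep R h a) ⊤ ts, a * covD U W ≤ h W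

/-! ## Counting part (combinatorics) -/

/-- **Leaf UNION**: number of endpoints of all admissible chains. -/
def StCovUnion : Prop :=
  ∀ (X : Type) (step : ℕ × Bool → X → X → Prop) (x0 : X) (B : ℕ × Bool → ℝ) (N : ℕ) (a S Bmax : ℝ),
    0 ≤ Bmax → (∀ t x, cardLE {y | step t x y} (B t)) → (∀ t, 0 ≤ B t) →
    (∀ ts, covAdm N a S ts → (ts.map B).prod ≤ Bmax) →
    cardLE {y | ∃ ts, covAdm N a S ts ∧ y ∈ covReach step x0 ts} ((2 * (N : ℝ) + 3) ^ N * Bmax)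

/-- **Leaf PROD**: the product of the step bounds along an admissible list. -/
def StCovProd : Prop :=
  ∀ (N : ℕ) (a τ S : ℝ) (ts : List (ℕ × Bool)), 1 ≤ N → 0 < a → 1 ≤ τ → covAdm N a S ts →
    (ts.map (covB N a τ)).prod ≤ covBmax N a τ S

/-! ## Step count (lattices) -/

/-- **Leaf AVG** (replaces the Gaussian scale change of A 3.5): averaging over balls in the ambient `ℝ^m`. -/
def StCovAvg : Prop :=
  ∀ (m : ℕ) (X : Set (EucM m)) (r R B : ℝ), 0 < r → 0 ≤ R →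
    (∀ z, cardLE (X ∩ Metric.closedBall z r) B) →
    cardLE (X ∩ Metric.closedBall 0 R) ((1 + R / r) ^ m * B)

/-- **Leaf HYPINJ**: rational hyperplanes `V'` of `V` inject into `(V ∩ ℤ^m)^*`, `‖w‖ = H(V')/H(V)`. -/
def StCovHypInj : Prop :=
  ∀ (N m : ℕ) (V : Submodule ℝ (EucM m)) (y B : ℝ), 2 ≤ N → IsRat V →
    cardLE {w | w ∈ latDual (latOf V) ∧ ‖w‖ ≤ (N : ℝ) ^ y} B →
    cardLE {V' | covHyp IsRat V V' ∧ covHt N V' - covHt N V ≤ y} B

/-- **Leaf MINSUB** (A 3.6 for `(V ∩ ℤ^m)^*`, in terms of subspaces): `V0 ≤ V` minimising `h V0 - 2 a dim V0`. -/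
def StCovMinSub : Prop :=
  ∀ (N m : ℕ) (a c : ℝ) (V : Submodule ℝ (EucM m)), 2 ≤ N → 0 < a → IsRat V →
    covSB IsRat (covHt N) a c V →
    ∃ V0 : Submodule ℝ (EucM m), IsRat V0 ∧ V0 ≤ V ∧ DetLB ((N : ℝ) ^ (-(2 * a))) (latDual (latOf V0)) ∧
      a * ((finrank ℝ V : ℝ) - (finrank ℝ V0 : ℝ)) ≤ 2 * c

/-- **Leaf IMG** (A (4.7) and the display after it). -/
def StCovImg (τ : ℕ → ℝ) : Prop :=
  ∀ (N m : ℕ) (a : ℝ) (e : Bool) (L : Submodule ℤ (EucM m)), m ≤ N → 1 ≤ N → 0 < a → IsLat L →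
    DetLB ((N : ℝ) ^ (-(2 * a))) L →
    cardLE {x | x ∈ L ∧ ‖x‖ ≤ (N : ℝ) ^ covThr a e} (covImg N a (τ N) e)

/-- **Leaf FIBRE** (A (4.9)). -/
def StCovFibre : Prop :=
  ∀ (N m : ℕ) (a c ρ : ℝ) (V V0 : Submodule ℝ (EucM m)), 2 ≤ N → 0 < a → 0 ≤ ρ → IsRat V → IsRat V0 →
    V0 ≤ V → covSB IsRat (covHt N) a c V →
    ∃ j : ℕ, j + finrank ℝ V0 ≤ finrank ℝ V ∧
      cardLE {x | x ∈ normLat V V0 ∧ ‖x‖ ≤ ρ} ((3 * ρ) ^ j * (N : ℝ) ^ (a * j + 2 * c))

/-- **Leaf STEP**: number of typed steps out of a fixed space. -/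
def StCovStepCount (τ : ℕ → ℝ) : Prop :=
  ∀ (N m : ℕ) (a : ℝ) (t : ℕ × Bool) (V : Submodule ℝ (EucM m)), m ≤ N → 6 ≤ N → 0 < a → a ≤ 1 / 40 →
    cardLE {V' | covStep IsRat (covHt N) a t V V'} (covB N a (τ N) t)

/-- **Leaf INST**: the concrete height satisfies the axioms. -/
def StCovAxInst : Prop :=
  ∀ N m : ℕ, 2 ≤ N → CovAx (IsRat (m := m)) (covHt N) (covE (m := m)) (covLam N)

/-! ## Asymptotics -/

/-- **Leaf ASYMP** (A 4.1, "Total encoding cost"). -/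
def StCovAsymp : Prop :=
  ∀ τ : ℕ → ℝ, CovTauOK τ → ∀ D A B0 : ℝ, 0 < D → 0 < A → D + A + 2 < B0 → ∀ᶠ N : ℕ in atTop,
    0 < covA B0 N ∧ covA B0 N ≤ 1 / 40 ∧ 1 / 5 ≤ covA B0 N * (N : ℝ) ^ ((2 : ℝ) / 5) ∧
    covH0 D N / covA B0 N ≤ N * ell N ^ (-A) ∧
    (2 * (N : ℝ) + 3) ^ N * covBmax N (covA B0 N) (τ N) (covS D B0 N) ≤ (2 : ℝ) ^ ((N : ℝ) ^ 2 * ell N ^ (-A))

end Claimed.Agent.R293
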