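/-
R293 / CovAbs.lean  (package COV, owner helper112).  CONSOLIDATED FILE: the abstract existence part of the low-height cover
(rank distance, minimising chain, flags, expensive positions, blocks, flat chains).  Authors: helper245, helper54, helper112 and others.
-/
import Claimed.Agent.R293.CovDefs
import Claimed.Agent.R293.CovIface
import Claimed.Agent.R293.CovCard

set_option autoImplicit false

namespace Claimed.Agent.R293

/-! ## Part CovDist -/

/-
R293 / CovDist.lean  (owner: helper245), package COV-DIST, prefix `covd`.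
Pure linear algebra for the real valued rank distance
`covD U P = dim U + dim P - 2 dim (U ⊓ P)`.
-/

section CovDist

set_option linter.unusedSectionVars false

open Submodule Module

section Dist
variable {K V : Type*} [Field K] [AddCommGroup V] [Module K V] [FiniteDimensional K V]

/-- dimension formula, real valued. -/
theorem covd_dim_sup_inf (U P : Submodule K V) :
    (finrank K (U ⊔ P : Submodule K V) : ℝ) + (finrank K (U ⊓ P : Submodule K V) : ℝ)
      = (finrank K U : ℝ) + (finrank K P : ℝ) := by
  exact_mod_cast Submodule.finrank_sup_add_finrank_inf_eq U P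

theorem covd_dim_mono {U P : Submodule K V} (h : U ≤ P) :
    (finrank K U : ℝ) ≤ (finrank K P : ℝ) := by
  exact_mod_cast Submodule.finrank_mono h

/-- adjoining a new vector raises the dimension by one. -/
theorem covd_dim_sup_span {U : Submodule K V} {e : V} (he : e ∉ U) :
    (finrank K (U ⊔ span K {e} : Submodule K V) : ℝ) = (finrank K U : ℝ) + 1 := by
  have hne : e ≠ 0 := fun h => he (h ▸ U.zero_mem)
  have hinf : U ⊓ span K {e} = ⊥ := by
    rw [eq_bot_iff]
    intro x hx
    obtain ⟨hxU, hxe⟩ := Submodule.mem_inf.mp hx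
    obtain ⟨c, rfl⟩ := Submodule.mem_span_singleton.mp hxe
    by_cases hc : c = 0
    · simp [hc]
    · exfalso
      apply he
      have := U.smul_mem c⁻¹ hxU
      rwa [smul_smul, inv_mul_cancel₀ hc, one_smul] at this
  have h := covd_dim_sup_inf U (span K {e})
  rw [hinf, finrank_bot, finrank_span_singleton hne] at h
  push_cast at h
  linarith

theorem covd_dim_sup_span_le (U : Submodule K V) (e : V) :
    (finrank K (U ⊔ span K {e} : Submodule K V) : ℝ) ≤ (finrank K U : ℝ) + 1 := by
  by_cases he : e ∈ U
  · have : U ⊔ span K {e} = U := sup_eq_left.mpr ((span_singleton_le_iff_mem e U).mpr he)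
    rw [this]; linarith
  · exact (covd_dim_sup_span he).le

theorem covd_eq_sup_sub_inf (U P : Submodule K V) :
    covD U P = (finrank K (U ⊔ P : Submodule K V) : ℝ) - (finrank K (U ⊓ P : Submodule K V) : ℝ) := by
  have := covd_dim_sup_inf U P
  unfold covD
  linarith

theorem covd_nonneg (U P : Submodule K V) : 0 ≤ covD U P := by
  have h1 := covd_dim_mono (inf_le_left : U ⊓ P ≤ U)
  have h2 := covd_dim_mono (inf_le_right : U ⊓ P ≤ P)
  unfold covD
  linarith

theorem covd_self (U : Submodule K V) : covD U U = 0 := by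
  unfold covD
  rw [inf_idem]
  ring

theorem covd_comm (U P : Submodule K V) : covD U P = covD P U := by
  unfold covD
  rw [inf_comm]
  ring

/-- (1) submodularity of the rank distance along `P' ≤ P`. -/
theorem covd_submod (U W : Submodule K V) {P P' : Submodule K V} (hP : P' ≤ P) :
    covD (U ⊔ W) P + covD (U ⊓ W) P' ≤ covD U P + covD W P' := by
  have h1 := covd_dim_sup_inf U W
  have h2 := covd_dim_sup_inf (U ⊓ P) (W ⊓ P')
  have h3 : (U ⊓ P) ⊔ (W ⊓ P') ≤ (U ⊔ W) ⊓ P :=
    sup_le (inf_le_inf_right P le_sup_left)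
      (le_inf (inf_le_left.trans le_sup_right) (inf_le_right.trans hP))
  have h4 : (U ⊓ P) ⊓ (W ⊓ P') = U ⊓ W ⊓ P' := by
    apply le_antisymm
    · exact le_inf (le_inf (inf_le_left.trans inf_le_left) (inf_le_right.trans inf_le_left))
        (inf_le_right.trans inf_le_right)
    · exact le_inf (le_inf (inf_le_left.trans inf_le_left) (inf_le_right.trans hP))
        (le_inf (inf_le_left.trans inf_le_right) inf_le_right)
  have h5 := covd_dim_mono h3
  rw [h4] at h2
  unfold covD
  linarith

/-- (2) adjoining the same vector to both spaces does not increase the distance. -/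
theorem covd_adj (U P : Submodule K V) (e : V) :
    covD (U ⊔ span K {e}) (P ⊔ span K {e}) ≤ covD U P := by
  rw [covd_eq_sup_sub_inf, covd_eq_sup_sub_inf]
  have hsup : (U ⊔ span K {e}) ⊔ (P ⊔ span K {e}) = (U ⊔ P) ⊔ span K {e} := by
    exact (sup_sup_distrib_right U P (span K {e})).symm
  have hinf : (U ⊓ P) ⊔ span K {e} ≤ (U ⊔ span K {e}) ⊓ (P ⊔ span K {e}) :=
    le_inf (sup_le_sup_right inf_le_left _) (sup_le_sup_right inf_le_right _)
  have h1 := covd_dim_mono hinf
  rw [hsup]
  by_cases he : e ∈ U ⊔ P
  · have h2 : (U ⊔ P) ⊔ span K {e} = U ⊔ P :=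
      sup_eq_left.mpr ((span_singleton_le_iff_mem e _).mpr he)
    have h3 := covd_dim_mono (le_sup_left : U ⊓ P ≤ (U ⊓ P) ⊔ span K {e})
    rw [h2]
    linarith
  · have he' : e ∉ U ⊓ P := fun h => he (Submodule.mem_sup_left (Submodule.mem_inf.mp h).1)
    have h2 := covd_dim_sup_span he
    have h3 := covd_dim_sup_span he'
    linarith

/-- (3) adjoining to `U` a vector of `P` outside `U` decreases the distance. -/
theorem covd_gain {U P : Submodule K V} {e : V} (heP : e ∈ P) (heU : e ∉ U) :
    covD (U ⊔ span K {e}) P ≤ covD U P - 1 := by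
  have h1 := covd_dim_sup_span heU
  have he' : e ∉ U ⊓ P := fun h => heU (Submodule.mem_inf.mp h).1
  have h2 := covd_dim_sup_span he'
  have h3 : (U ⊓ P) ⊔ span K {e} ≤ (U ⊔ span K {e}) ⊓ P :=
    le_inf (sup_le_sup_right inf_le_left _)
      (sup_le inf_le_right ((span_singleton_le_iff_mem e P).mpr heP))
  have h4 := covd_dim_mono h3
  unfold covD
  linarith

/-- (4) removing from `P` a direction that lies in `U` increases the distance by one. -/
theorem covd_zero_drop {U P P' : Submodule K V} {e : V} (heU : e ∈ U) (heP : e ∉ P')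
    (hP : P = P' ⊔ span K {e}) : covD U P' = covD U P + 1 := by
  have h1 := covd_dim_sup_span heP
  have he' : e ∉ U ⊓ P' := fun h => heP (Submodule.mem_inf.mp h).2
  have h2 := covd_dim_sup_span he'
  have hle : span K {e} ≤ U := (span_singleton_le_iff_mem e U).mpr heU
  have h3 : U ⊓ (P' ⊔ span K {e}) = (U ⊓ P') ⊔ span K {e} := by
    rw [inf_comm U, inf_comm U, sup_comm P', sup_comm (P' ⊓ U)]
    exact sup_inf_assoc_of_le P' hle
  subst hP
  unfold covD
  rw [h3]
  linarith

theorem covd_inf_sub_le {U W : Submodule K V} (hWU : W ≤ U) (P : Submodule K V) :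
    (finrank K (U ⊓ P : Submodule K V) : ℝ) - (finrank K (W ⊓ P : Submodule K V) : ℝ)
      ≤ (finrank K U : ℝ) - (finrank K W : ℝ) := by
  have h1 := covd_dim_sup_inf W (U ⊓ P)
  have h2 : W ⊓ (U ⊓ P) = W ⊓ P := by
    rw [← inf_assoc, inf_eq_left.mpr hWU]
  have h3 : W ⊔ (U ⊓ P) ≤ U := sup_le hWU inf_le_left
  have h4 := covd_dim_mono h3
  rw [h2] at h1
  linarith

/-- (5) Lipschitz property in the first argument. -/
theorem covd_le_of_le {U W : Submodule K V} (hWU : W ≤ U) (P : Submodule K V) :
    |covD W P - covD U P| ≤ (finrank K U : ℝ) - (finrank K W : ℝ) := by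
  have h1 := covd_inf_sub_le hWU P
  have h2 := covd_dim_mono (inf_le_inf_right P hWU)
  unfold covD
  rw [abs_le]
  constructor <;> linarith

/-- (6) the difference of the dimensions is bounded by the distance. -/
theorem covd_abs_dim (U W : Submodule K V) :
    |(finrank K U : ℝ) - (finrank K W : ℝ)| ≤ covD U W := by
  have h1 := covd_dim_mono (inf_le_left : U ⊓ W ≤ U)
  have h2 := covd_dim_mono (inf_le_right : U ⊓ W ≤ W)
  unfold covD
  rw [abs_le]
  constructor <;> linarith

/-- distance to a subspace. -/
theorem covd_of_le {U W : Submodule K V} (hWU : W ≤ U) :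
    covD W U = (finrank K U : ℝ) - (finrank K W : ℝ) := by
  unfold covD
  rw [inf_eq_left.mpr hWU]
  ring

/-- triangle inequality. -/
theorem covd_triangle (U W P : Submodule K V) : covD U P ≤ covD U W + covD W P := by
  have h1 := covd_dim_sup_inf (U ⊓ W) (W ⊓ P)
  have h2 : (U ⊓ W) ⊔ (W ⊓ P) ≤ W := sup_le inf_le_right inf_le_left
  have h3 : (U ⊓ W) ⊓ (W ⊓ P) ≤ U ⊓ P :=
    le_inf (inf_le_left.trans inf_le_left) (inf_le_right.trans inf_le_right)
  have h4 := covd_dim_mono h2
  have h5 := covd_dim_mono h3
  unfold covD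
  linarith

end Dist

/-- (7) the natural valued rank distance is `covD`. -/
theorem covd_rkDist {E : Type*} [NormedAddCommGroup E] [InnerProductSpace ℝ E]
    [FiniteDimensional ℝ E] (U W : Submodule ℝ E) : (rkDist U W : ℝ) = covD U W := by
  have h1 : finrank ℝ (U ⊓ W : Submodule ℝ E) ≤ finrank ℝ U := Submodule.finrank_mono inf_le_left
  have h2 : finrank ℝ (U ⊓ W : Submodule ℝ E) ≤ finrank ℝ W := Submodule.finrank_mono inf_le_right
  unfold rkDist covD
  rw [Nat.cast_sub (by omega)]
  push_cast
  ring

end CovDist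

/-! ## Part CovChain -/

/-
R293 / CovChain.lean  (owner: helper54).  Leaf COV-CHAIN: `cov_chain : StCovChain`
(paper A, Section 4, "The minimizing chain", in the pivot-free form of helper112).
`P s = W ⊔ span {e i | s ≤ i}`, `U s` = greatest minimiser of `h U + a d(U, P s)` over rational `U`.
The multi-drop budget is obtained from the per-step inequality
  `a [c ≥ 2] c ≤ 2 a (c - δ) + 2 (E (s+1) - E s)`   (`c` = drop of `U`, `δ` = drop of `P`), summed by telescoping.
No sorry.
-/

section CovChain

set_option linter.unusedSectionVars false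

open Submodule Module

section Dist
variable {K V : Type*} [Field K] [AddCommGroup V] [Module K V] [FiniteDimensional K V]

theorem covc_finrank_sup_span {U : Submodule K V} {e : V} (he : e ∉ U) :
    finrank K (U ⊔ span K {e} : Submodule K V) = finrank K U + 1 := by
  have he0 : e ≠ 0 := fun h => he (h ▸ U.zero_mem)
  have h1 := Submodule.finrank_sup_add_finrank_inf_eq U (span K {e})
  have h2 : U ⊓ span K {e} = ⊥ := disjoint_iff.mp ((Submodule.disjoint_span_singleton' he0).mpr he)
  rw [h2, finrank_bot, finrank_span_singleton he0] at h1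
  omega

theorem covc_sup_span_of_mem {U : Submodule K V} {e : V} (he : e ∈ U) : U ⊔ span K {e} = U :=
  sup_eq_left.mpr ((span_singleton_le_iff_mem e U).mpr he)

theorem covc_d_submod (U W P P' : Submodule K V) (hP : P' ≤ P) :
    covD (U ⊔ W) P + covD (U ⊓ W) P' ≤ covD U P + covD W P' := by
  unfold covD
  have h1 := Submodule.finrank_sup_add_finrank_inf_eq U W
  have h2 := Submodule.finrank_sup_add_finrank_inf_eq (U ⊓ P) (W ⊓ P')
  have h3 : finrank K ((U ⊓ P) ⊔ (W ⊓ P') : Submodule K V) ≤ finrank K ((U ⊔ W) ⊓ P : Submodule K V) :=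
    Submodule.finrank_mono (sup_le (inf_le_inf_right _ le_sup_left)
      (le_inf (inf_le_left.trans le_sup_right) (inf_le_right.trans hP)))
  have h4 : (U ⊓ P) ⊓ (W ⊓ P') = U ⊓ W ⊓ P' := by
    apply le_antisymm
    · exact le_inf (le_inf (inf_le_left.trans inf_le_left) (inf_le_right.trans inf_le_left))
        (inf_le_right.trans inf_le_right)
    · exact le_inf (le_inf (inf_le_left.trans inf_le_left) (inf_le_right.trans hP))
        (le_inf (inf_le_left.trans inf_le_right) inf_le_right)
  rw [h4] at h2
  have h1' : (finrank K (U ⊔ W : Submodule K V) : ℝ) + finrank K (U ⊓ W : Submodule K V)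
      = finrank K U + finrank K W := by exact_mod_cast h1
  have h2' : (finrank K ((U ⊓ P) ⊔ (W ⊓ P') : Submodule K V) : ℝ)
      + finrank K (U ⊓ W ⊓ P' : Submodule K V)
      = finrank K (U ⊓ P : Submodule K V) + finrank K (W ⊓ P' : Submodule K V) := by exact_mod_cast h2
  have h3' : (finrank K ((U ⊓ P) ⊔ (W ⊓ P') : Submodule K V) : ℝ)
      ≤ finrank K ((U ⊔ W) ⊓ P : Submodule K V) := by exact_mod_cast h3
  linarith

theorem covc_d_adj (U P : Submodule K V) (e : V) :
    covD (U ⊔ span K {e}) (P ⊔ span K {e}) ≤ covD U P := by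
  by_cases hU : e ∈ U
  · by_cases hP : e ∈ P
    · rw [covc_sup_span_of_mem hU, covc_sup_span_of_mem hP]
    · rw [covc_sup_span_of_mem hU]
      unfold covD
      have h1 := covc_finrank_sup_span hP
      have hUP : e ∉ U ⊓ P := fun h => hP h.2
      have h2 := covc_finrank_sup_span hUP
      have h3 : finrank K ((U ⊓ P) ⊔ span K {e} : Submodule K V)
          ≤ finrank K (U ⊓ (P ⊔ span K {e}) : Submodule K V) :=
        Submodule.finrank_mono (sup_le (inf_le_inf_left _ le_sup_left)
          (le_inf ((span_singleton_le_iff_mem e U).mpr hU) le_sup_right))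
      have h1' : (finrank K (P ⊔ span K {e} : Submodule K V) : ℝ) = finrank K P + 1 := by
        exact_mod_cast h1
      have h3' : (finrank K (U ⊓ P : Submodule K V) : ℝ) + 1
          ≤ finrank K (U ⊓ (P ⊔ span K {e}) : Submodule K V) := by
        rw [h2] at h3; exact_mod_cast h3
      linarith
  · unfold covD
    have h1 := covc_finrank_sup_span hU
    have hUP : e ∉ U ⊓ P := fun h => hU h.1
    have h2 := covc_finrank_sup_span hUP
    have h3 : finrank K ((U ⊓ P) ⊔ span K {e} : Submodule K V)
        ≤ finrank K ((U ⊔ span K {e}) ⊓ (P ⊔ span K {e}) : Submodule K V) :=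
      Submodule.finrank_mono (sup_le (inf_le_inf le_sup_left le_sup_left)
        (le_inf le_sup_right le_sup_right))
    have h4 : finrank K (P ⊔ span K {e} : Submodule K V) ≤ finrank K P + 1 := by
      by_cases hP : e ∈ P
      · rw [covc_sup_span_of_mem hP]; omega
      · rw [covc_finrank_sup_span hP]
    have h1' : (finrank K (U ⊔ span K {e} : Submodule K V) : ℝ) = finrank K U + 1 := by
      exact_mod_cast h1
    have h3' : (finrank K (U ⊓ P : Submodule K V) : ℝ) + 1
        ≤ finrank K ((U ⊔ span K {e}) ⊓ (P ⊔ span K {e}) : Submodule K V) := by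
      rw [h2] at h3; exact_mod_cast h3
    have h4' : (finrank K (P ⊔ span K {e} : Submodule K V) : ℝ) ≤ finrank K P + 1 := by
      exact_mod_cast h4
    linarith

theorem covc_d_gain {U P : Submodule K V} {e : V} (hP : e ∈ P) (hU : e ∉ U) :
    covD (U ⊔ span K {e}) P ≤ covD U P - 1 := by
  unfold covD
  have h1 := covc_finrank_sup_span hU
  have hUP : e ∉ U ⊓ P := fun h => hU h.1
  have h2 := covc_finrank_sup_span hUP
  have h3 : finrank K ((U ⊓ P) ⊔ span K {e} : Submodule K V)
      ≤ finrank K ((U ⊔ span K {e}) ⊓ P : Submodule K V) :=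
    Submodule.finrank_mono (sup_le (inf_le_inf_right _ le_sup_left)
      (le_inf le_sup_right ((span_singleton_le_iff_mem e P).mpr hP)))
  have h1' : (finrank K (U ⊔ span K {e} : Submodule K V) : ℝ) = finrank K U + 1 := by
    exact_mod_cast h1
  have h3' : (finrank K (U ⊓ P : Submodule K V) : ℝ) + 1
      ≤ finrank K ((U ⊔ span K {e}) ⊓ P : Submodule K V) := by
    rw [h2] at h3; exact_mod_cast h3
  linarith

theorem covc_d_zero_drop {U P' : Submodule K V} {e : V} (hU : e ∈ U) (hP : e ∉ P') :
    covD U P' = covD U (P' ⊔ span K {e}) + 1 := by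
  unfold covD
  have h1 := covc_finrank_sup_span hP
  have hUP : e ∉ U ⊓ P' := fun h => hP h.2
  have h2 := covc_finrank_sup_span hUP
  have h3 : U ⊓ (P' ⊔ span K {e}) = (U ⊓ P') ⊔ span K {e} := by
    have hle : span K {e} ≤ U := (span_singleton_le_iff_mem e U).mpr hU
    have := sup_inf_assoc_of_le P' hle
    rw [inf_comm, sup_comm, this, sup_comm, inf_comm]
  rw [h3, h1, h2]
  push_cast
  ring

theorem covc_d_le_down {W U : Submodule K V} (P : Submodule K V) (hWU : W ≤ U) :
    covD W P - covD U P ≤ (finrank K U : ℝ) - finrank K W := by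
  unfold covD
  -- dim (U ⊓ P) - dim (W ⊓ P) ≤ dim U - dim W
  have h1 := Submodule.finrank_sup_add_finrank_inf_eq (U ⊓ P) W
  have h2 : (U ⊓ P) ⊓ W = W ⊓ P := by
    apply le_antisymm
    · exact le_inf inf_le_right (inf_le_left.trans inf_le_right)
    · exact le_inf (le_inf (inf_le_left.trans hWU) inf_le_right) inf_le_left
  have h3 : finrank K ((U ⊓ P) ⊔ W : Submodule K V) ≤ finrank K U :=
    Submodule.finrank_mono (sup_le inf_le_left hWU)
  rw [h2] at h1
  have h1' : (finrank K ((U ⊓ P) ⊔ W : Submodule K V) : ℝ) + finrank K (W ⊓ P : Submodule K V)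
      = finrank K (U ⊓ P : Submodule K V) + finrank K W := by exact_mod_cast h1
  have h3' : (finrank K ((U ⊓ P) ⊔ W : Submodule K V) : ℝ) ≤ finrank K U := by exact_mod_cast h3
  linarith

theorem covc_d_le_up {U W : Submodule K V} (P : Submodule K V) (hUW : U ≤ W) :
    covD W P - covD U P ≤ (finrank K W : ℝ) - finrank K U := by
  unfold covD
  have h3 : finrank K (U ⊓ P : Submodule K V) ≤ finrank K (W ⊓ P : Submodule K V) :=
    Submodule.finrank_mono (inf_le_inf_right _ hUW)
  have h3' : (finrank K (U ⊓ P : Submodule K V) : ℝ) ≤ finrank K (W ⊓ P : Submodule K V) := by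
    exact_mod_cast h3
  linarith

theorem covc_d_self (U : Submodule K V) : covD U U = 0 := by
  unfold covD; rw [inf_idem]; ring

theorem covc_d_nonneg (U P : Submodule K V) : 0 ≤ covD U P := by
  unfold covD
  have h1 : (finrank K (U ⊓ P : Submodule K V) : ℝ) ≤ finrank K U := by
    exact_mod_cast Submodule.finrank_mono (inf_le_left : U ⊓ P ≤ U)
  have h2 : (finrank K (U ⊓ P : Submodule K V) : ℝ) ≤ finrank K P := by
    exact_mod_cast Submodule.finrank_mono (inf_le_right : U ⊓ P ≤ P)
  linarith

theorem covc_d_ge_sub (U P : Submodule K V) : (finrank K P : ℝ) - finrank K U ≤ covD U P := by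
  unfold covD
  have h1 : (finrank K (U ⊓ P : Submodule K V) : ℝ) ≤ finrank K U := by
    exact_mod_cast Submodule.finrank_mono (inf_le_left : U ⊓ P ≤ U)
  linarith

/-- natural number version of the rank distance. -/
theorem covc_d_nat (U P : Submodule K V) :
    ∃ k : ℕ, k ≤ 2 * finrank K V ∧ covD U P = k := by
  have h1 : finrank K (U ⊓ P : Submodule K V) ≤ finrank K U :=
    Submodule.finrank_mono (inf_le_left : U ⊓ P ≤ U)
  have h2 : finrank K (U ⊓ P : Submodule K V) ≤ finrank K P :=
    Submodule.finrank_mono (inf_le_right : U ⊓ P ≤ P)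
  have h3 := Submodule.finrank_le U
  have h4 := Submodule.finrank_le P
  refine ⟨finrank K U + finrank K P - 2 * finrank K (U ⊓ P : Submodule K V), by omega, ?_⟩
  unfold covD
  rw [Nat.cast_sub (by omega)]
  push_cast
  ring

end Dist

section Min
variable {K V : Type*} [Field K] [AddCommGroup V] [Module K V] [FiniteDimensional K V]

/-- the objective `F_P(U) = h U + a d(U,P)`. -/
noncomputable def covcF (h : Submodule K V → ℝ) (a : ℝ) (P U : Submodule K V) : ℝ :=
  h U + a * covD U P

/-- `U` is a rational minimiser of `F_P`. -/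
def covcIsMin (R : Submodule K V → Prop) (h : Submodule K V → ℝ) (a : ℝ) (P U : Submodule K V) :
    Prop :=
  R U ∧ ∀ W, R W → covcF h a P U ≤ covcF h a P W

variable {ι : Type*} {R : Submodule K V → Prop} {h : Submodule K V → ℝ} {e : ι → V} {lam : ℕ → ℝ}

theorem covc_exists_min (ax : CovAx R h e lam) (a : ℝ) (P : Submodule K V) :
    ∃ U, covcIsMin R h a P U := by
  have key : ∀ n : ℕ, ∃ U, R U ∧ ∀ W, R W → (∀ k : ℕ, covD W P = k → k < n) →
      covcF h a P U ≤ covcF h a P W := by
    intro n
    induction n with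
    | zero =>
      refine ⟨⊤, ax.top, fun W _ hk => ?_⟩
      obtain ⟨k, _, hk'⟩ := covc_d_nat W P
      exact absurd (hk k hk') (Nat.not_lt_zero _)
    | succ n ih =>
      obtain ⟨U, hU, hUmin⟩ := ih
      by_cases hS : ∃ W, R W ∧ covD W P = n
      · obtain ⟨M, ⟨hMR, hMd⟩, hMmin⟩ := ax.wf {W | R W ∧ covD W P = n} hS (fun W hW => hW.1)
        have hlevel : ∀ W, R W → covD W P = n → covcF h a P M ≤ covcF h a P W := by
          intro W hW hWd
          unfold covcF
          rw [hMd, hWd]
          linarith [hMmin W ⟨hW, hWd⟩]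
        rcases le_total (covcF h a P U) (covcF h a P M) with hle | hle
        · refine ⟨U, hU, fun W hW hk => ?_⟩
          obtain ⟨k, _, hk'⟩ := covc_d_nat W P
          have hkn := hk k hk'
          rcases Nat.lt_succ_iff_lt_or_eq.mp hkn with hlt | heq
          · refine hUmin W hW fun k' hk'' => ?_
            have : (k' : ℝ) = k := by rw [← hk'', hk']
            have : k' = k := by exact_mod_cast this
            omega
          · exact hle.trans (hlevel W hW (by rw [hk', heq]))
        · refine ⟨M, hMR, fun W hW hk => ?_⟩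
          obtain ⟨k, _, hk'⟩ := covc_d_nat W P
          have hkn := hk k hk'
          rcases Nat.lt_succ_iff_lt_or_eq.mp hkn with hlt | heq
          · refine hle.trans (hUmin W hW fun k' hk'' => ?_)
            have : (k' : ℝ) = k := by rw [← hk'', hk']
            have : k' = k := by exact_mod_cast this
            omega
          · exact hlevel W hW (by rw [hk', heq])
      · refine ⟨U, hU, fun W hW hk => hUmin W hW fun k' hk'' => ?_⟩
        have hkn := hk k' hk''
        rcases Nat.lt_succ_iff_lt_or_eq.mp hkn with hlt | heq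
        · exact hlt
        · exact absurd ⟨W, hW, by rw [hk'', heq]⟩ hS
  obtain ⟨U, hU, hmin⟩ := key (2 * finrank K V + 1)
  refine ⟨U, hU, fun W hW => hmin W hW fun k hk => ?_⟩
  obtain ⟨k', hk', hk''⟩ := covc_d_nat W P
  have : (k : ℝ) = k' := by rw [← hk, hk'']
  have : k = k' := by exact_mod_cast this
  omega

/-- mixed submodularity of the objectives. -/
theorem covc_F_submod (ax : CovAx R h e lam) {a : ℝ} (ha : 0 ≤ a) {P P' : Submodule K V}
    (hP : P' ≤ P) {U W : Submodule K V} (hU : R U) (hW : R W) :
    covcF h a P (U ⊔ W) + covcF h a P' (U ⊓ W) ≤ covcF h a P U + covcF h a P' W := by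
  unfold covcF
  have h1 := ax.submod U W hU hW
  have h2 := mul_le_mul_of_nonneg_left (covc_d_submod U W P P' hP) ha
  linarith

theorem covc_min_sup (ax : CovAx R h e lam) {a : ℝ} (ha : 0 ≤ a) {P P' : Submodule K V}
    (hP : P' ≤ P) {U W : Submodule K V} (hU : covcIsMin R h a P U) (hW : covcIsMin R h a P' W) :
    covcIsMin R h a P (U ⊔ W) := by
  refine ⟨ax.sup U W hU.1 hW.1, fun X hX => ?_⟩
  have h1 := covc_F_submod ax ha hP hU.1 hW.1
  have h2 := hW.2 (U ⊓ W) (ax.inf U W hU.1 hW.1)
  have h3 := hU.2 X hX
  linarith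

theorem covc_exists_gmin (ax : CovAx R h e lam) {a : ℝ} (ha : 0 ≤ a) (P : Submodule K V) :
    ∃ U, covcIsMin R h a P U ∧ ∀ W, covcIsMin R h a P W → W ≤ U := by
  obtain ⟨U, hU, hmax⟩ := (wellFounded_gt (α := Submodule K V)).has_min
    {U | covcIsMin R h a P U} (covc_exists_min ax a P)
  refine ⟨U, hU, fun W hW => ?_⟩
  have h1 : covcIsMin R h a P (U ⊔ W) := covc_min_sup ax ha le_rfl hU hW
  have h2 := hmax _ h1
  have h3 : U ⊔ W = U := by
    by_contra hne
    exact h2 (lt_of_le_of_ne le_sup_left (Ne.symm hne))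
  exact sup_eq_left.mp h3

/-- the greatest minimiser. -/
noncomputable def covcG (ax : CovAx R h e lam) {a : ℝ} (ha : 0 ≤ a) (P : Submodule K V) :
    Submodule K V := Classical.choose (covc_exists_gmin ax ha P)

theorem covcG_min (ax : CovAx R h e lam) {a : ℝ} (ha : 0 ≤ a) (P : Submodule K V) :
    covcIsMin R h a P (covcG ax ha P) := (Classical.choose_spec (covc_exists_gmin ax ha P)).1

theorem covcG_greatest (ax : CovAx R h e lam) {a : ℝ} (ha : 0 ≤ a) (P : Submodule K V)
    {W : Submodule K V} (hW : covcIsMin R h a P W) : W ≤ covcG ax ha P :=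
  (Classical.choose_spec (covc_exists_gmin ax ha P)).2 W hW

theorem covcG_mono (ax : CovAx R h e lam) {a : ℝ} (ha : 0 ≤ a) {P P' : Submodule K V}
    (hP : P' ≤ P) : covcG ax ha P' ≤ covcG ax ha P :=
  le_sup_right.trans
    (covcG_greatest ax ha P (covc_min_sup ax ha hP (covcG_min ax ha P) (covcG_min ax ha P')))

theorem covcG_top (ax : CovAx R h e lam) {a : ℝ} (ha : 0 ≤ a) : covcG ax ha ⊤ = ⊤ := by
  apply top_le_iff.mp
  apply covcG_greatest
  refine ⟨ax.top, fun W hW => ?_⟩
  unfold covcF
  rw [ax.h_top, covc_d_self]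
  have := ax.nonneg W hW
  have := mul_nonneg ha (covc_d_nonneg W ⊤)
  linarith

theorem covc_min_balDown {a : ℝ} (ha : 0 ≤ a) {P U : Submodule K V} (hU : covcIsMin R h a P U) :
    covBalDown R h a U := by
  intro W hW hWU
  have h1 := hU.2 W hW
  unfold covcF at h1
  have h2 := mul_le_mul_of_nonneg_left (covc_d_le_down P hWU) ha
  linarith

theorem covc_min_balUp {a : ℝ} (ha : 0 ≤ a) {P U : Submodule K V} (hU : covcIsMin R h a P U) :
    covBalUp R h a U := by
  intro W hW hUW
  have h1 := hU.2 W hW
  unfold covcF at h1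
  have h2 := mul_le_mul_of_nonneg_left (covc_d_le_up P hUW) ha
  linarith

/-- a coordinate vector of `P` lies in every minimiser. -/
theorem covc_min_mem (ax : CovAx R h e lam) {a : ℝ} (ha : 0 < a) {P U : Submodule K V}
    (hU : covcIsMin R h a P U) (i : ι) (hi : e i ∈ P) : e i ∈ U := by
  by_contra hne
  have h1 := hU.2 _ (ax.sup U _ hU.1 (ax.line i))
  unfold covcF at h1
  have h2 := ax.adj i U hU.1
  have h3 := mul_le_mul_of_nonneg_left (covc_d_gain hi hne) ha.le
  linarith

/-- the energy does not increase when a coordinate vector is adjoined to `P`. -/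
theorem covc_energy_le (ax : CovAx R h e lam) {a : ℝ} (ha : 0 ≤ a) (P : Submodule K V) (i : ι) :
    covcF h a (P ⊔ span K {e i}) (covcG ax ha (P ⊔ span K {e i}))
      ≤ covcF h a P (covcG ax ha P) := by
  have hU := covcG_min ax ha P
  have h1 := (covcG_min ax ha (P ⊔ span K {e i})).2 _ (ax.sup _ _ hU.1 (ax.line i))
  refine h1.trans ?_
  unfold covcF
  have h2 := ax.adj i _ hU.1
  have h3 := mul_le_mul_of_nonneg_left (covc_d_adj (covcG ax ha P) P (e i)) ha
  linarith

end Min

section Chain
variable {K V : Type*} [Field K] [AddCommGroup V] [Module K V] [FiniteDimensional K V]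
variable {m : ℕ} {R : Submodule K V → Prop} {h : Submodule K V → ℝ} {e : Fin m → V} {lam : ℕ → ℝ}

/-- `P s = W ⊔ span {e i | s ≤ i}`. -/
def covcP (e : Fin m → V) (W : Submodule K V) (s : ℕ) : Submodule K V :=
  W ⊔ span K (e '' {i : Fin m | s ≤ i.val})

theorem covcP_zero (hspan : span K (Set.range e) = ⊤) (W : Submodule K V) : covcP e W 0 = ⊤ := by
  unfold covcP
  have : {i : Fin m | 0 ≤ i.val} = Set.univ := by ext i; simp
  rw [this, Set.image_univ, hspan, sup_top_eq]

theorem covcP_succ_le (W : Submodule K V) (s : ℕ) : covcP e W (s + 1) ≤ covcP e W s := by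
  unfold covcP
  refine sup_le_sup_left (span_mono (Set.image_mono ?_)) _
  intro i hi
  have : s + 1 ≤ i.val := hi
  show s ≤ i.val
  omega

theorem covcP_step (W : Submodule K V) {s : ℕ} (hs : s < m) :
    covcP e W s = covcP e W (s + 1) ⊔ span K {e ⟨s, hs⟩} := by
  unfold covcP
  have : {i : Fin m | s ≤ i.val} = insert ⟨s, hs⟩ {i : Fin m | s + 1 ≤ i.val} := by
    ext i
    simp only [Set.mem_ofPred_eq, Set.mem_insert_iff, Fin.ext_iff]
    omega
  rw [this, Set.image_insert_eq, span_insert, sup_assoc, sup_comm (span K {e ⟨s, hs⟩})]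

theorem covcP_last (W : Submodule K V) : covcP e W m = W := by
  unfold covcP
  have : {i : Fin m | m ≤ i.val} = ∅ := by
    ext i
    simp only [Set.mem_ofPred_eq, Set.mem_empty_iff_false, iff_false, not_le]
    exact i.isLt
  rw [this, Set.image_empty, span_empty, sup_bot_eq]

theorem covc_step_ineq (ax : CovAx R h e lam) {a : ℝ} (ha : 0 < a) (W : Submodule K V) {s : ℕ}
    (hs : s < m) :
    a * (if 2 ≤ finrank K (covcG ax ha.le (covcP e W s)) - finrank K (covcG ax ha.le (covcP e W (s + 1)))
        then ((finrank K (covcG ax ha.le (covcP e W s))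
          - finrank K (covcG ax ha.le (covcP e W (s + 1))) : ℕ) : ℝ) else 0)
      ≤ 2 * a * (((finrank K (covcG ax ha.le (covcP e W s)) : ℝ)
            - finrank K (covcG ax ha.le (covcP e W (s + 1))))
          - ((finrank K (covcP e W s) : ℝ) - finrank K (covcP e W (s + 1))))
        + 2 * (covcF h a (covcP e W (s + 1)) (covcG ax ha.le (covcP e W (s + 1)))
          - covcF h a (covcP e W s) (covcG ax ha.le (covcP e W s))) := by
  have hstep := covcP_step (e := e) W hs
  set P' := covcP e W (s + 1) with hP'
  set ee := e ⟨s, hs⟩ with hee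
  by_cases hmem : ee ∈ P'
  · have hPP : covcP e W s = P' := by rw [hstep, covc_sup_span_of_mem hmem]
    rw [hPP]
    simp
  · rw [hstep]
    set P := P' ⊔ span K {ee} with hP
    have hdimP : (finrank K P : ℝ) = finrank K P' + 1 := by
      exact_mod_cast covc_finrank_sup_span hmem
    have hEle : covcF h a P (covcG ax ha.le P) ≤ covcF h a P' (covcG ax ha.le P') :=
      covc_energy_le ax ha.le P' ⟨s, hs⟩
    have hUle : covcG ax ha.le P' ≤ covcG ax ha.le P := covcG_mono ax ha.le le_sup_left
    have hfr := Submodule.finrank_mono hUle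
    set c := finrank K (covcG ax ha.le P) - finrank K (covcG ax ha.le P') with hc
    have hcast : ((finrank K (covcG ax ha.le P) : ℝ) - finrank K (covcG ax ha.le P')) = (c : ℝ) := by
      rw [hc, Nat.cast_sub hfr]
    rw [hcast, hdimP]
    rcases Nat.lt_or_ge c 2 with hc2 | hc2
    · rw [if_neg (by omega)]
      rcases Nat.eq_zero_or_pos c with hc0 | hc1
      · -- drop zero: the two minimisers coincide and the energy grows by exactly `a`
        have heq : covcG ax ha.le P' = covcG ax ha.le P :=
          Submodule.eq_of_le_of_finrank_eq hUle (by omega)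
        have hin : ee ∈ covcG ax ha.le P :=
          covc_min_mem ax ha (covcG_min ax ha.le P) ⟨s, hs⟩
            (le_sup_right (a := P') (mem_span_singleton_self ee))
        have hd := covc_d_zero_drop hin hmem
        have hE : covcF h a P' (covcG ax ha.le P') = covcF h a P (covcG ax ha.le P) + a := by
          rw [heq]; unfold covcF; rw [hd]; ring
        rw [hE, hc0]
        push_cast
        nlinarith
      · have : c = 1 := by omega
        rw [this]
        push_cast
        nlinarith
    · rw [if_pos hc2]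
      have hc2' : (2 : ℝ) ≤ c := by exact_mod_cast hc2
      nlinarith

/-- the chain theorem, general form. -/
theorem covc_chain_gen (ax : CovAx R h e lam) {a : ℝ} (ha : 0 < a) (W : Submodule K V) (hW : R W) :
    ∃ U : ℕ → Submodule K V, U 0 = ⊤ ∧ (∀ s, R (U s)) ∧ (∀ s, U (s + 1) ≤ U s) ∧
      (∀ s, covBalDown R h a (U s)) ∧ (∀ s, covBalUp R h a (U s)) ∧
      a * covD (U m) W ≤ h W ∧
      a * (∑ s ∈ Finset.range m, if 2 ≤ finrank K (U s) - finrank K (U (s + 1)) then
          ((finrank K (U s) - finrank K (U (s + 1)) : ℕ) : ℝ) else 0) ≤ 4 * h W := by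
  set U : ℕ → Submodule K V := fun s => covcG ax ha.le (covcP e W s) with hU
  have hU0 : U 0 = ⊤ := by
    simp only [hU]; rw [covcP_zero ax.span_e, covcG_top]
  have hEm : covcF h a W (U m) ≤ h W := by
    have h1 := (covcG_min ax ha.le (covcP e W m)).2 W hW
    rw [covcP_last] at h1
    simp only [hU]
    rw [covcP_last]
    refine h1.trans (le_of_eq ?_)
    unfold covcF; rw [covc_d_self]; ring
  have hRm : R (U m) := (covcG_min ax ha.le _).1
  have hdist : a * covD (U m) W ≤ h W := by
    unfold covcF at hEm
    linarith [ax.nonneg _ hRm]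
  refine ⟨U, hU0, fun s => (covcG_min ax ha.le _).1, fun s => covcG_mono ax ha.le (covcP_succ_le W s),
    fun s => covc_min_balDown ha.le (covcG_min ax ha.le _),
    fun s => covc_min_balUp ha.le (covcG_min ax ha.le _), hdist, ?_⟩
  rw [Finset.mul_sum]
  refine (Finset.sum_le_sum fun s hs => covc_step_ineq ax ha W (Finset.mem_range.mp hs)).trans ?_
  -- telescoping
  have tel : ∀ f : ℕ → ℝ, ∑ s ∈ Finset.range m, (f s - f (s + 1)) = f 0 - f m :=
    fun f => Finset.sum_range_sub' f m
  have e1 : ∑ s ∈ Finset.range m,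
      (2 * a * (((finrank K (covcG ax ha.le (covcP e W s)) : ℝ)
            - finrank K (covcG ax ha.le (covcP e W (s + 1))))
          - ((finrank K (covcP e W s) : ℝ) - finrank K (covcP e W (s + 1))))
        + 2 * (covcF h a (covcP e W (s + 1)) (covcG ax ha.le (covcP e W (s + 1)))
          - covcF h a (covcP e W s) (covcG ax ha.le (covcP e W s))))
      = 2 * a * (((finrank K (U 0) : ℝ) - finrank K (U m))
          - ((finrank K (covcP e W 0) : ℝ) - finrank K (covcP e W m)))
        - 2 * (covcF h a (covcP e W 0) (U 0) - covcF h a (covcP e W m) (U m)) := by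
    rw [← tel (fun s => (finrank K (U s) : ℝ)), ← tel (fun s => (finrank K (covcP e W s) : ℝ)),
      ← tel (fun s => covcF h a (covcP e W s) (U s)), ← Finset.sum_sub_distrib, Finset.mul_sum,
      Finset.mul_sum, ← Finset.sum_sub_distrib]
    refine Finset.sum_congr rfl fun s _ => ?_
    simp only [hU]
    ring
  rw [e1, hU0, covcP_zero ax.span_e, covcP_last]
  have hE0 : covcF h a (⊤ : Submodule K V) ⊤ = 0 := by
    unfold covcF; rw [ax.h_top, covc_d_self]; ring
  rw [hE0]
  have h3 := mul_le_mul_of_nonneg_left (covc_d_ge_sub (U m) W) ha.le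
  nlinarith

end Chain

/-- **Leaf COV-CHAIN.** -/
theorem cov_chain : StCovChain := by
  intro m R h lam ax a ha W hW
  exact covc_chain_gen ax ha W hW

end CovChain

/-! ## Part CovFlag -/

/-
R293 / CovFlag.lean  (owner: helper112).  Leaf COV-FLAG: flags of minimal rational hyperplanes (`StCovFlag`).
-/

section CovFlag

open Submodule Module

section
variable {K V ι : Type*} [Field K] [AddCommGroup V] [Module K V] [FiniteDimensional K V]

/-- general form of the flag lemma (any field, any finite dimensional space). -/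
theorem covf_flag {R : Submodule K V → Prop} {h : Submodule K V → ℝ} {e : ι → V} {lam : ℕ → ℝ}
    (ax : CovAx R h e lam) (U' : Submodule K V) (hU' : R U') (c : ℕ) :
    ∀ U : Submodule K V, R U → U' ≤ U → finrank K U = finrank K U' + c →
    ∃ F : ℕ → Submodule K V, F 0 = U ∧ F c = U' ∧ (∀ i, i < c → covHyp R (F i) (F (i + 1))) ∧
      (∀ i, i ≤ c → U' ≤ F i) ∧
      (∀ i, i ≤ c → R (F i) ∧ F i ≤ U ∧ finrank K (F i) + i = finrank K U) ∧
      ∀ i u : ℕ, 1 ≤ u → i + u ≤ c → h (F (i + 1)) - h (F i) ≤ (h (F (i + u)) - h (F i)) / u + lam u := by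
  induction c with
  | zero =>
    intro U hU hle hfin
    have hEq : U' = U := Submodule.eq_of_le_of_finrank_eq hle (by omega)
    refine ⟨fun _ => U, rfl, hEq.symm, ?_, ?_, ?_, ?_⟩
    · intro i hi; omega
    · intro i _; exact hle
    · intro i hi
      have : i = 0 := by omega
      subst this
      exact ⟨hU, le_rfl, rfl⟩
    · intro i u hu hiu; omega
  | succ c ih =>
    intro U hU hle hfin
    -- the family of rational hyperplanes of `U` containing `U'`
    let S : Set (Submodule K V) := {W | covHyp R U W ∧ U' ≤ W}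
    have hSne : S.Nonempty := by
      obtain ⟨W, hW, hW', _⟩ := ax.mink U U' hU hU' hle (c + 1) (by omega) hfin
      exact ⟨W, hW, hW'⟩
    obtain ⟨V1, hV1, hmin⟩ := ax.wf S hSne (fun W hW => hW.1.2.1)
    obtain ⟨⟨_, hRV1, hV1U, hV1fin⟩, hU'V1⟩ := hV1
    obtain ⟨F', hF0, hFc, hstep, hge, hinv, hrange⟩ := ih V1 hRV1 hU'V1 (by omega)
    refine ⟨fun i => Nat.casesOn i U F', rfl, hFc, ?_, ?_, ?_, ?_⟩
    · intro i hi
      cases i with
      | zero =>
        change covHyp R U (F' 0)
        rw [hF0]
        exact ⟨hU, hRV1, hV1U, hV1fin⟩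
      | succ i => exact hstep i (by omega)
    · intro i hi
      cases i with
      | zero => exact hle
      | succ i => exact hge i (by omega)
    · intro i hi
      cases i with
      | zero => exact ⟨hU, le_rfl, rfl⟩
      | succ i =>
        obtain ⟨h1, h2, h3⟩ := hinv i (by omega)
        refine ⟨h1, h2.trans hV1U, ?_⟩
        change finrank K (F' i) + (i + 1) = finrank K U
        omega
    · intro i u hu hiu
      cases i with
      | zero =>
        obtain ⟨u', rfl⟩ : ∃ u', u = u' + 1 := ⟨u - 1, by omega⟩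
        change h (F' 0) - h U ≤ (h (F' (0 + u')) - h U) / ((u' + 1 : ℕ) : ℝ) + lam (u' + 1)
        rw [hF0, Nat.zero_add]
        obtain ⟨h1, h2, h3⟩ := hinv u' (by omega)
        obtain ⟨W, hW, hW', hWh⟩ := ax.mink U (F' u') hU h1 (h2.trans hV1U) (u' + 1) (by omega)
          (by omega)
        have hWS : W ∈ S := ⟨hW, (hge u' (by omega)).trans hW'⟩
        have := hmin W hWS
        linarith
      | succ i =>
        have := hrange i u hu (by omega)
        have e1 : i + 1 + u = (i + u) + 1 := by omega
        change h (F' (i + 1)) - h (F' i) ≤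
          (h ((fun i => Nat.casesOn i U F' : ℕ → Submodule K V) (i + 1 + u)) - h (F' i)) / u + lam u
        rw [e1]
        exact this

end

/-- **Leaf COV-FLAG.** -/
theorem cov_flag : StCovFlag := by
  intro m R h lam ax U U' c hU hU' hle hfin
  obtain ⟨F, h0, hc, hstep, hge, _, hrange⟩ := covf_flag ax U' hU' c U hU hle hfin
  exact ⟨F, h0, hc, hstep, hge, hrange⟩

end CovFlag

/-! ## Part CovExp -/

/-
R293 / CovExp.lean  (owner: helper245), package COV-EXP, prefix `cove`.
Expensive positions (paper A, Theorem 4.1): pure real numbers.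
-/

section CovExp

open Finset

/-- the hypotheses force `N ≥ 2`. -/
theorem cove_two_le {N : ℕ} {a : ℝ} (ha : 0 < a) (ha' : a ≤ 1 / 40)
    (hN : 1 / 5 ≤ a * (N : ℝ) ^ ((2 : ℝ) / 5)) : 2 ≤ N := by
  by_contra h
  have hN1 : (N : ℝ) ≤ 1 := by
    have : N ≤ 1 := by omega
    exact_mod_cast this
  have h1 : (N : ℝ) ^ ((2 : ℝ) / 5) ≤ 1 :=
    Real.rpow_le_one (Nat.cast_nonneg N) hN1 (by norm_num)
  nlinarith

/-- numerical inequality for one range. -/
theorem cove_num {N u : ℕ} {a : ℝ} (hN2 : 2 ≤ N) (ha : 0 < a) (ha' : a ≤ 1 / 40)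
    (hN : 1 / 5 ≤ a * (N : ℝ) ^ ((2 : ℝ) / 5)) (hu1 : 1 ≤ u) (huN : u ≤ N) :
    1 / 5 - 5 * a * u ≤ (u : ℝ) * (1 / 2 - 4 * a - covLam N u) := by
  have hb : (1 : ℝ) < N := by exact_mod_cast (by omega : 1 < N)
  have hu0 : (0 : ℝ) < u := by exact_mod_cast (by omega : 0 < u)
  have hu1' : (1 : ℝ) ≤ u := by exact_mod_cast hu1
  have huN' : (u : ℝ) ≤ N := by exact_mod_cast huN
  unfold covLam
  set L := Real.logb N u with hL
  have hL1 : L ≤ 1 := by
    rw [hL, Real.logb_le_iff_le_rpow hb hu0, Real.rpow_one]
    exact huN'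
  by_cases hcase : (u : ℝ) ≤ (N : ℝ) ^ ((2 : ℝ) / 5)
  · have hL2 : L ≤ 2 / 5 := by
      rw [hL, Real.logb_le_iff_le_rpow hb hu0]
      exact hcase
    have h1 : (1 : ℝ) / 5 ≤ 1 / 2 - 4 * a - 1 / 2 * L := by linarith
    have h2 : (1 : ℝ) / 5 ≤ (u : ℝ) * (1 / 2 - 4 * a - 1 / 2 * L) := by nlinarith
    have h3 : 0 ≤ 5 * a * u := by positivity
    linarith
  · push Not at hcase
    have h1 : 1 / 5 ≤ a * u := hN.trans (mul_le_mul_of_nonneg_left hcase.le ha.le)
    have h2 : (u : ℝ) * (-(4 * a)) ≤ (u : ℝ) * (1 / 2 - 4 * a - 1 / 2 * L) :=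
      mul_le_mul_of_nonneg_left (by linarith) hu0.le
    nlinarith

theorem cov_exp : StCovExp := by
  intro N c a y hc1 hcN ha ha' hN hsuf hrange
  have hN2 : 2 ≤ N := cove_two_le ha ha' hN
  have hb : (1 : ℝ) < N := by exact_mod_cast (by omega : 1 < N)
  constructor
  · -- the pointwise bound
    intro i hi
    have hu1 : 1 ≤ c - i := by omega
    have h1 := hrange i (c - i) hu1 (by omega)
    have h2 := hsuf i hi
    have hic : i + (c - i) = c := by omega
    rw [hic] at h1
    have hu0 : (0 : ℝ) < ((c - i : ℕ) : ℝ) := by exact_mod_cast (by omega : 0 < c - i)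
    have hcast : ((c - i : ℕ) : ℝ) = (c : ℝ) - i := by
      rw [Nat.cast_sub hi.le]
    have h3 : (∑ j ∈ Ico i c, y j) / ((c - i : ℕ) : ℝ) ≤ a := by
      rw [div_le_iff₀ hu0, hcast]
      exact h2
    have h4 : covLam N (c - i) ≤ 1 / 2 := by
      unfold covLam
      have : Real.logb N ((c - i : ℕ) : ℝ) ≤ 1 := by
        rw [Real.logb_le_iff_le_rpow hb hu0, Real.rpow_one]
        exact_mod_cast (by omega : c - i ≤ N)
      linarith
    linarith
  · -- counting the expensive positions
    classical
    set Ex : ℕ → Prop := fun i => 1 / 2 - 3 * a < y i with hEx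
    set g : ℕ → ℝ := fun i => ∑ j ∈ Ico i c, (y j - a) with hg
    set e : ℕ → ℕ := fun i => ((Ico i c).filter Ex).card with he
    -- one range
    have hA : ∀ i u : ℕ, Ex i → 1 ≤ u → i + u ≤ c →
        1 / 5 - 5 * a * u ≤ ∑ j ∈ Ico i (i + u), (y j - a) := by
      intro i u hi hu1 hiu
      have hu0 : (0 : ℝ) < u := by exact_mod_cast (by omega : 0 < u)
      have h1 := hrange i u hu1 hiu
      have h2 := cove_num hN2 ha ha' hN hu1 (by omega : u ≤ N)
      have h3 : (u : ℝ) * (y i - covLam N u) ≤ ∑ j ∈ Ico i (i + u), y j := by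
        have : y i - covLam N u ≤ (∑ j ∈ Ico i (i + u), y j) / u := by linarith
        rw [le_div_iff₀ hu0] at this
        linarith
      have h4 : ∑ j ∈ Ico i (i + u), (y j - a) = ∑ j ∈ Ico i (i + u), y j - u * a := by
        rw [Finset.sum_sub_distrib, Finset.sum_const, Nat.card_Ico, nsmul_eq_mul]
        congr 2
        have : i + u - i = u := by omega
        rw [this]
      have h5 : (u : ℝ) * (1 / 2 - 3 * a - covLam N u) ≤ (u : ℝ) * (y i - covLam N u) :=
        mul_le_mul_of_nonneg_left (by have : 1 / 2 - 3 * a < y i := hi; linarith) hu0.le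
      rw [h4]
      nlinarith
    -- downward induction
    have hB : ∀ n i : ℕ, i ≤ c → c - i ≤ n → (i = c ∨ Ex i) →
        (e i : ℝ) / 5 - 5 * a * ((c : ℝ) - i) ≤ g i := by
      intro n
      induction n with
      | zero =>
        intro i hic hn _
        have : i = c := by omega
        subst this
        simp [he, hg]
      | succ n ih =>
        intro i hic hn hi
        rcases Nat.eq_or_lt_of_le hic with rfl | hlt
        · simp [he, hg]
        have hExi : Ex i := by
          rcases hi with h | h
          · omega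
          · exact h
        have hex : ∃ j, i < j ∧ (j = c ∨ Ex j) := ⟨c, hlt, Or.inl rfl⟩
        set i' := Nat.find hex with hi'
        obtain ⟨h1, h2⟩ := Nat.find_spec hex
        have h3 : i' ≤ c := Nat.find_min' hex ⟨hlt, Or.inl rfl⟩
        have h4 : ∀ j, i < j → j < i' → ¬ Ex j := by
          intro j hij hji hj
          exact Nat.find_min hex hji ⟨hij, Or.inr hj⟩
        have h5 := ih i' h3 (by omega) h2
        have h6 := hA i (i' - i) hExi (by omega) (by omega)
        have hii : i + (i' - i) = i' := by omega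
        rw [hii] at h6
        have h7 : g i = ∑ j ∈ Ico i i', (y j - a) + g i' := by
          simp only [hg]
          rw [Finset.sum_Ico_consecutive _ h1.le h3]
        have h8 : e i ≤ 1 + e i' := by
          simp only [he]
          have hsplit : Ico i c = Ico i i' ∪ Ico i' c := (Ico_union_Ico_eq_Ico h1.le h3).symm
          rw [hsplit, Finset.filter_union]
          refine (Finset.card_union_le _ _).trans (Nat.add_le_add_right ?_ _)
          have hsub : (Ico i i').filter Ex ⊆ {i} := by
            intro j hj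
            rw [Finset.mem_filter, Finset.mem_Ico] at hj
            rw [Finset.mem_singleton]
            by_contra hne
            exact h4 j (by omega) hj.1.2 hj.2
          exact (Finset.card_le_card hsub).trans (by simp)
        have h8' : (e i : ℝ) ≤ 1 + e i' := by exact_mod_cast h8
        have h9 : ((i' - i : ℕ) : ℝ) = (i' : ℝ) - i := by rw [Nat.cast_sub h1.le]
        rw [h9] at h6
        rw [h7]
        nlinarith
    -- the first expensive position
    have hex0 : ∃ j, j = c ∨ Ex j := ⟨c, Or.inl rfl⟩
    set i0 := Nat.find hex0 with hi0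
    have h2 := Nat.find_spec hex0
    have h3 : i0 ≤ c := Nat.find_min' hex0 (Or.inl rfl)
    have h4 : ∀ j, j < i0 → ¬ Ex j := fun j hj h => Nat.find_min hex0 hj (Or.inr h)
    have h5 := hB (c - i0) i0 h3 le_rfl h2
    have h6 : g i0 ≤ 0 := by
      rcases Nat.eq_or_lt_of_le h3 with h | h
      · simp only [hg]; rw [h]; simp
      · have := hsuf i0 h
        simp only [hg]
        rw [Finset.sum_sub_distrib, Finset.sum_const, Nat.card_Ico, nsmul_eq_mul,
          Nat.cast_sub h3]
        linarith
    have h7 : ((range c).filter Ex).card ≤ e i0 := by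
      simp only [he]
      apply Finset.card_le_card
      intro j hj
      rw [Finset.mem_filter, Finset.mem_range] at hj
      rw [Finset.mem_filter, Finset.mem_Ico]
      refine ⟨⟨?_, hj.1⟩, hj.2⟩
      by_contra hlt
      exact h4 j (by omega) hj.2
    have h7' : (((range c).filter Ex).card : ℝ) ≤ e i0 := by exact_mod_cast h7
    have h8 : (0 : ℝ) ≤ a * i0 := by positivity
    calc (((range c).filter Ex).card : ℝ) ≤ e i0 := h7'
      _ ≤ 25 * a * ((c : ℝ) - i0) := by linarith
      _ ≤ 25 * a * c := by nlinarith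

end CovExp

/-! ## Part CovBlock -/

/-
R293 / CovBlock.lean  (owner: helper112).  Leaf COV-BLOCK: one transition between balanced spaces is a chain of
typed hyperplane steps (`StCovBlock`).
-/

section CovBlock

open Submodule Module

/-- telescoping sum. -/
theorem covb_tele (g : ℕ → ℝ) (i k : ℕ) (hik : i ≤ k) :
    ∑ j ∈ Finset.Ico i k, (g (j + 1) - g j) = g k - g i := by
  induction k, hik using Nat.le_induction with
  | base => simp
  | succ k hk ih =>
    rw [Finset.sum_Ico_succ_top hk, ih]
    ring

/-- the list of types of the first `k` steps (head = last step). -/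
def covbList (c : ℕ) (p : ℕ → Bool) (k : ℕ) : List (ℕ × Bool) :=
  ((List.range k).map (fun i => (c, p i))).reverse

theorem covbList_succ (c : ℕ) (p : ℕ → Bool) (k : ℕ) :
    covbList c p (k + 1) = (c, p k) :: covbList c p k := by
  simp [covbList, List.range_succ]

theorem covbList_length (c : ℕ) (p : ℕ → Bool) (k : ℕ) : (covbList c p k).length = k := by
  simp [covbList]

theorem covbList_fst (c : ℕ) (p : ℕ → Bool) (k : ℕ) : ∀ t ∈ covbList c p k, t.1 = c := by
  intro t ht
  simp only [covbList, List.mem_reverse, List.mem_map] at ht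
  obtain ⟨i, _, rfl⟩ := ht
  rfl

theorem covbList_filter (c : ℕ) (p : ℕ → Bool) (k : ℕ) :
    ((covbList c p k).filter (fun t => t.2)).length = ((Finset.range k).filter (fun i => p i = true)).card := by
  induction k with
  | zero => simp [covbList]
  | succ k ih =>
    rw [covbList_succ, Finset.range_add_one, Finset.filter_insert]
    by_cases hp : p k = true
    · rw [List.filter_cons_of_pos (by simpa using hp), if_pos hp, List.length_cons, ih,
        Finset.card_insert_of_notMem (by simp)]
    · rw [List.filter_cons_of_neg (by simpa using hp), if_neg hp, ih]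

/-- **Leaf COV-BLOCK.** -/
theorem cov_block (hExp : StCovExp) : StCovBlock := by
  classical
  intro N m R h hmN ax a ha0 ha1 ha2 U U' c hU hU' hle hfin hDown hUp
  obtain ⟨F, hF0, hFc, hstep, hge, hinv, hrange⟩ := covf_flag ax U' hU' c U hU hle hfin
  rcases Nat.eq_zero_or_pos c with rfl | hc
  · refine ⟨[], rfl, by simp, by simp, ?_⟩
    rw [← hFc, hF0]
    rfl
  have hcN : c ≤ N := by
    have h1 : finrank ℝ U ≤ finrank ℝ (EucM m) := Submodule.finrank_le U
    have h2 : finrank ℝ (EucM m) = m := by simp
    omega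
  set y : ℕ → ℝ := fun i => h (F (i + 1)) - h (F i) with hy
  have htele : ∀ i k, i ≤ k → ∑ j ∈ Finset.Ico i k, y j = h (F k) - h (F i) :=
    fun i k hik => covb_tele (fun j => h (F j)) i k hik
  have hsuffix : ∀ i, i < c → ∑ j ∈ Finset.Ico i c, y j ≤ a * ((c : ℝ) - i) := by
    intro i hi
    rw [htele i c hi.le, hFc]
    obtain ⟨h1, _, h3⟩ := hinv i hi.le
    have := hUp (F i) h1 (hge i hi.le)
    have e : (finrank ℝ (F i) : ℝ) - (finrank ℝ U' : ℝ) = (c : ℝ) - i := by
      have : finrank ℝ (F i) + i = finrank ℝ U' + c := by omega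
      have : (finrank ℝ (F i) : ℝ) + i = (finrank ℝ U' : ℝ) + c := by exact_mod_cast this
      linarith
    rw [e] at this
    linarith
  have hrange' : ∀ i u : ℕ, 1 ≤ u → i + u ≤ c →
      y i ≤ (∑ j ∈ Finset.Ico i (i + u), y j) / u + covLam N u := by
    intro i u hu hiu
    rw [htele i (i + u) (by omega)]
    exact hrange i u hu hiu
  obtain ⟨hyle, hcard⟩ := hExp N c a y hc hcN ha0 ha1 ha2 hsuffix hrange'
  set p : ℕ → Bool := fun i => decide (1 / 2 - 3 * a < y i) with hp
  refine ⟨covbList c p c, covbList_length c p c, covbList_fst c p c, ?_, ?_⟩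
  · rw [covbList_filter]
    have : ((Finset.range c).filter (fun i => p i = true)) =
        ((Finset.range c).filter (fun i => 1 / 2 - 3 * a < y i)) := by
      apply Finset.filter_congr
      intro i _
      simp [hp]
    rw [this]
    exact hcard
  · have key : ∀ k, k ≤ c → F k ∈ covReach (covStep R h a) U (covbList c p k) := by
      intro k
      induction k with
      | zero =>
        intro _
        rw [hF0]
        rfl
      | succ k ih =>
        intro hk
        rw [covbList_succ]
        refine ⟨F k, ih (by omega), hstep k (by omega), ?_, ?_⟩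
        · -- semi-balanced
          intro W hW hWF
          obtain ⟨_, h2, h3⟩ := hinv k (by omega)
          have hd := hDown W hW (hWF.trans h2)
          have hsum : h (F k) - h U ≤ k * (1 / 2 + a) := by
            have e := htele 0 k (Nat.zero_le k)
            rw [hF0] at e
            rw [← e]
            calc ∑ j ∈ Finset.Ico 0 k, y j ≤ ∑ _j ∈ Finset.Ico 0 k, (1 / 2 + a) := by
                  apply Finset.sum_le_sum
                  intro j hj
                  rw [Finset.mem_Ico] at hj
                  exact hyle j (by omega)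
              _ = k * (1 / 2 + a) := by
                  rw [Finset.sum_const, Nat.card_Ico, nsmul_eq_mul, Nat.sub_zero]
          have e3 : (finrank ℝ U : ℝ) = (finrank ℝ (F k) : ℝ) + k := by exact_mod_cast h3.symm
          have hkc : (k : ℝ) ≤ c := by exact_mod_cast (by omega : k ≤ c)
          have hk0 : (0 : ℝ) ≤ k := Nat.cast_nonneg k
          rw [e3] at hd
          change h (F k) ≤ h W + a * ((finrank ℝ (F k) : ℝ) - (finrank ℝ W : ℝ)) + 2 * (c : ℝ)
          nlinarith
        · -- threshold
          change y k ≤ covThr a (p k)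
          unfold covThr
          by_cases hpk : 1 / 2 - 3 * a < y k
          · have : p k = true := decide_eq_true hpk
            rw [this, if_pos rfl]
            exact hyle k (by omega)
          · have : p k = false := decide_eq_false hpk
            rw [this]
            simpa using not_lt.mp hpk
    have := key c le_rfl
    rwa [hFc] at this

end CovBlock

/-! ## Part CovFlat -/

/-
R293 / CovFlat.lean  (owner: helper54).  Leaf COV-FLAT: `cov_abs : StCovChain → StCovBlock → StCovAbs`.
The blocks of typed steps of the transitions `U s ≥ U (s+1)` of the minimising chain are concatenated.  No sorry.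
-/

section CovFlat

open Submodule Module

theorem covl_reach_append {T X : Type*} (step : T → X → X → Prop) (x0 x : X) (ts : List T)
    (hx : x ∈ covReach step x0 ts) :
    ∀ (bs : List T) (y : X), y ∈ covReach step x bs → y ∈ covReach step x0 (bs ++ ts) := by
  intro bs
  induction bs with
  | nil =>
    intro y hy
    have : y = x := hy
    rw [this]; exact hx
  | cons t bs ih =>
    intro y hy
    obtain ⟨x', hx', hst⟩ := hy
    exact ⟨x', ih x' hx', hst⟩

theorem covl_sum_const {T : Type*} (f : T → ℝ) (v : ℝ) :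
    ∀ l : List T, (∀ t ∈ l, f t = v) → (l.map f).sum = l.length * v := by
  intro l
  induction l with
  | nil => intro _; simp
  | cons t l ih =>
    intro h
    rw [List.map_cons, List.sum_cons, ih (fun t' ht' => h t' (List.mem_cons_of_mem _ ht')),
      h t List.mem_cons_self, List.length_cons]
    push_cast; ring

/-- **Leaf COV-FLAT.** -/
theorem cov_abs (hchain : StCovChain) (hblock : StCovBlock) : StCovAbs := by
  intro N m R h hmN ax a ha ha40 haN W hW S hS
  obtain ⟨U, hU0, hUR, hUle, hUd, hUu, hdist, hbud⟩ := hchain m R h (covLam N) ax a ha W hW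
  set c : ℕ → ℕ := fun s => finrank ℝ (U s) - finrank ℝ (U (s + 1)) with hc
  set B : ℕ → ℝ := fun s => ∑ s' ∈ Finset.range s, (if 2 ≤ c s' then (c s' : ℝ) else 0) with hB
  have hB0 : ∀ s, 0 ≤ B s := fun s =>
    Finset.sum_nonneg fun s' _ => by split_ifs <;> positivity
  have hfr : ∀ s, finrank ℝ (U s) = finrank ℝ (U (s + 1)) + c s := by
    intro s
    have := Submodule.finrank_mono (hUle s)
    simp only [hc]; omega
  have htop : finrank ℝ (⊤ : Submodule ℝ (EucM m)) = m := by
    rw [finrank_top]; simp
  have key : ∀ s : ℕ, ∃ ts : List (ℕ × Bool), U s ∈ covReach (covStep R h a) ⊤ ts ∧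
      ts.length + finrank ℝ (U s) = m ∧ (∀ t ∈ ts, t.1 ≤ m) ∧
      ((ts.filter (fun t => t.2)).length : ℝ) ≤ 25 * a * B s ∧
      (ts.map (fun t => (t.1 : ℝ))).sum ≤ ts.length + B s ^ 2 := by
    intro s
    induction s with
    | zero =>
      refine ⟨[], ?_, ?_, ?_, ?_, ?_⟩
      · rw [hU0]; exact rfl
      · rw [hU0, htop]; simp
      · intro t ht; simp at ht
      · simp [hB]
      · simp [hB]
    | succ s ih =>
      obtain ⟨ts, h1, h2, h3, h4, h5⟩ := ih
      obtain ⟨bs, b1, b2, b3, b4⟩ := hblock N m R h hmN ax a ha ha40 haN (U s) (U (s + 1)) (c s)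
        (hUR s) (hUR (s + 1)) (hUle s) (hfr s) (hUd s) (hUu (s + 1))
      have hBs : B (s + 1) = B s + (if 2 ≤ c s then (c s : ℝ) else 0) := by
        simp only [hB]; rw [Finset.sum_range_succ]
      have hcm : c s ≤ m := by
        have := hfr s
        omega
      refine ⟨bs ++ ts, covl_reach_append _ _ _ _ h1 bs _ b4, ?_, ?_, ?_, ?_⟩
      · rw [List.length_append, b1]
        have := hfr s
        omega
      · intro t ht
        rcases List.mem_append.mp ht with ht | ht
        · rw [b2 t ht]; exact hcm
        · exact h3 t ht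
      · rw [List.filter_append, List.length_append, hBs]
        push_cast
        have hb : ((bs.filter (fun t => t.2)).length : ℝ)
            ≤ 25 * a * (if 2 ≤ c s then (c s : ℝ) else 0) := by
          split_ifs with h2c
          · exact b3
          · -- `c s ≤ 1`, so the number of expensive positions is `< 1`
            have hc1 : (c s : ℝ) ≤ 1 := by
              have : c s ≤ 1 := by omega
              exact_mod_cast this
            have hlt : ((bs.filter (fun t => t.2)).length : ℝ) < 1 := by
              have : 25 * a * (c s : ℝ) ≤ 25 * a * 1 := by gcongr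
              linarith
            have h0 : (bs.filter (fun t => t.2)).length = 0 := by
              have : (bs.filter (fun t => t.2)).length < 1 := by exact_mod_cast hlt
              omega
            rw [h0]; simp
        linarith
      · rw [List.map_append, List.sum_append, List.length_append, hBs,
          covl_sum_const (fun t : ℕ × Bool => (t.1 : ℝ)) (c s) bs (fun t ht => by rw [b2 t ht]), b1]
        push_cast
        split_ifs with h2c
        · have hcs : (0 : ℝ) ≤ c s := Nat.cast_nonneg _
          nlinarith [hB0 s, mul_nonneg (hB0 s) hcs]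
        · have hc1 : c s = 0 ∨ c s = 1 := by omega
          rcases hc1 with h0 | h1'
          · rw [h0]; push_cast; linarith
          · rw [h1']; push_cast; linarith
  obtain ⟨ts, h1, h2, h3, h4, h5⟩ := key m
  have hBS : B m ≤ S := by
    have : a * B m ≤ 4 * h W := hbud
    have h' : B m ≤ 4 * h W / a := by
      rw [le_div_iff₀ ha]; linarith
    exact h'.trans hS
  have hlen : ts.length ≤ m := by omega
  refine ⟨ts, ⟨hlen.trans hmN, fun t ht => (h3 t ht).trans hmN, ?_, ?_⟩, U m, h1, hdist⟩
  · refine h4.trans ?_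
    have : 0 ≤ 25 * a := by positivity
    exact mul_le_mul_of_nonneg_left hBS this
  · refine h5.trans ?_
    have hl : (ts.length : ℝ) ≤ N := by exact_mod_cast hlen.trans hmN
    have hsq : B m ^ 2 ≤ S ^ 2 := pow_le_pow_left₀ (hB0 m) hBS 2
    linarith

end CovFlat

end Claimed.Agent.R293
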