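/-
R293 / CovAsymp.lean  (helper155; leaves COV-ASYMP-1 and COV-ASYMP-2 in ONE file; prefixes `covy`, `covz`).

`cov_asymp : StCovAsymp` (A 4.1, "Total encoding cost").

Notation: `x = N`, `L = log N`, `l = ell N = log log N`.
Part 1 (`covy`): eventual inequalities  `c l^p ≤ L`, `c L^p ≤ x`, `c l^p L ≤ x`, `c l^{-p} ≤ 1`, `c L^n ≤ exp √L`.
Part 2 (`covz`): a deterministic core (`covz_core`): the logarithm of the total cost is split into seven pieces,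
each `≤ x² l^{-A} / 16`; then the assembly.
-/
import Claimed.Agent.R293.CovIface

set_option autoImplicit false

namespace Claimed.Agent.R293

open Filter Asymptotics Topology

/-! ## Part 1: eventual inequalities -/

theorem covy_tendsto_log : Tendsto (fun N : ℕ => Real.log (N : ℝ)) atTop atTop :=
  Real.tendsto_log_atTop.comp tendsto_natCast_atTop_atTop

theorem covy_tendsto_ell : Tendsto (fun N : ℕ => ell N) atTop atTop :=
  Real.tendsto_log_atTop.comp covy_tendsto_log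

/-- `c t^p ≤ exp t` eventually. -/
theorem covy_rpow_le_exp (c p : ℝ) : ∀ᶠ t : ℝ in atTop, c * t ^ p ≤ Real.exp t := by
  have h := (isLittleO_rpow_exp_atTop p).bound (c := (|c| + 1)⁻¹) (by positivity)
  filter_upwards [h] with t ht
  rw [Real.norm_eq_abs, Real.norm_eq_abs, abs_of_pos (Real.exp_pos t)] at ht
  have h1 : (|c| + 1) * |t ^ p| ≤ Real.exp t := by
    rw [inv_mul_eq_div, le_div_iff₀ (by positivity)] at ht
    linarith
  calc c * t ^ p ≤ |c| * |t ^ p| := by rw [← abs_mul]; exact le_abs_self _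
    _ ≤ (|c| + 1) * |t ^ p| := by nlinarith [abs_nonneg (t ^ p)]
    _ ≤ _ := h1

/-- `c t^n ≤ exp √t` eventually. -/
theorem covy_pow_le_exp_sqrt (c : ℝ) (n : ℕ) : ∀ᶠ t : ℝ in atTop, c * t ^ n ≤ Real.exp (Real.sqrt t) := by
  have h := Real.tendsto_sqrt_atTop.eventually (covy_rpow_le_exp c ((2 * n : ℕ) : ℝ))
  filter_upwards [h, eventually_ge_atTop 0] with t ht h0
  rw [Real.rpow_natCast, pow_mul, Real.sq_sqrt h0] at ht
  exact ht

/-- `c l^p ≤ L` eventually. -/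
theorem covy_ell_le_log (c p : ℝ) : ∀ᶠ N : ℕ in atTop, c * ell N ^ p ≤ Real.log N := by
  filter_upwards [covy_tendsto_ell.eventually (covy_rpow_le_exp c p),
    covy_tendsto_log.eventually_gt_atTop 0] with N h1 h2
  have : Real.exp (ell N) = Real.log N := Real.exp_log h2
  rwa [this] at h1

/-- `c L^p ≤ x` eventually. -/
theorem covy_log_le (c p : ℝ) : ∀ᶠ N : ℕ in atTop, c * Real.log N ^ p ≤ N := by
  filter_upwards [covy_tendsto_log.eventually (covy_rpow_le_exp c p), eventually_gt_atTop 0]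
    with N h1 h2
  rwa [Real.exp_log (by exact_mod_cast h2)] at h1

/-- `c l^p L ≤ x` eventually. -/
theorem covy_ell_log_le (c p : ℝ) : ∀ᶠ N : ℕ in atTop, c * ell N ^ p * Real.log N ≤ N := by
  filter_upwards [covy_ell_le_log 1 p, covy_log_le |c| 2, covy_tendsto_log.eventually_gt_atTop 0,
    covy_tendsto_ell.eventually_gt_atTop 0] with N h1 h2 h3 h4
  have h5 : 0 ≤ ell N ^ p := Real.rpow_nonneg h4.le _
  rw [one_mul] at h1
  rw [Real.rpow_two] at h2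
  calc c * ell N ^ p * Real.log N ≤ |c| * ell N ^ p * Real.log N := by
        gcongr; exact le_abs_self c
    _ ≤ |c| * Real.log N * Real.log N := by gcongr
    _ = |c| * Real.log N ^ 2 := by ring
    _ ≤ N := h2

/-- `c l^{-p} ≤ 1` eventually (`p > 0`). -/
theorem covy_ell_neg (c : ℝ) {p : ℝ} (hp : 0 < p) : ∀ᶠ N : ℕ in atTop, c * ell N ^ (-p) ≤ 1 := by
  have h : Tendsto (fun N : ℕ => c * ell N ^ (-p)) atTop (𝓝 (c * 0)) :=
    ((tendsto_rpow_neg_atTop hp).comp covy_tendsto_ell).const_mul c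
  rw [mul_zero] at h
  exact h.eventually (eventually_le_nhds one_pos)

/-- `c L^n ≤ exp √L` eventually. -/
theorem covy_log_pow_le_exp_sqrt (c : ℝ) (n : ℕ) :
    ∀ᶠ N : ℕ in atTop, c * Real.log N ^ n ≤ Real.exp (Real.sqrt (Real.log N)) :=
  covy_tendsto_log.eventually (covy_pow_le_exp_sqrt c n)

/-! ## Part 2: the deterministic core -/

theorem covz_logF (N : ℕ) (a τ : ℝ) :
    Real.log (covImg N a τ false) = Real.log (3 / 2) + Real.pi * (N : ℝ) ^ (1 - 2 * a) * τ ^ 2 := by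
  unfold covImg
  simp only [Bool.false_eq_true, if_false]
  rw [Real.log_mul (by norm_num) (Real.exp_pos _).ne', Real.log_exp]

theorem covz_logG (N : ℕ) (a τ : ℝ) (h : 0 < 1 + 2 * τ * (N : ℝ) ^ (3 * a)) :
    Real.log (covImg N a τ true) =
      Real.log (3 / 2) + Real.pi * N + N * Real.log (1 + 2 * τ * (N : ℝ) ^ (3 * a)) := by
  unfold covImg
  simp only [if_true]
  rw [Real.log_mul (by positivity) (by positivity), Real.log_mul (by norm_num) (Real.exp_pos _).ne',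
    Real.log_exp, Real.log_pow]

theorem covz_F_pos (N : ℕ) (a τ : ℝ) : 0 < covImg N a τ false := by
  unfold covImg
  simp only [Bool.false_eq_true, if_false]
  positivity

theorem covz_G_pos (N : ℕ) (a τ : ℝ) (h : 0 < 1 + 2 * τ * (N : ℝ) ^ (3 * a)) :
    0 < covImg N a τ true := by
  unfold covImg
  simp only [if_true]
  positivity

theorem covz_log32 : Real.log (3 / 2) ≤ 1 := by
  have := Real.log_le_sub_one_of_pos (show (0 : ℝ) < 3 / 2 by norm_num)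
  linarith

theorem covz_log3 : Real.log 3 ≤ 2 := by
  have := Real.log_le_sub_one_of_pos (show (0 : ℝ) < 3 by norm_num)
  linarith

theorem covz_e25 (x lD lB L : ℝ) (hB : lB ≠ 0) :
    25 * lB⁻¹ * (4 * (x * lD / L) / lB⁻¹) = x * (100 * lD / L) := by
  rw [div_inv_eq_mul]
  have : 25 * lB⁻¹ * (4 * (x * lD / L) * lB) = (lB⁻¹ * lB) * (x * (100 * lD / L)) := by ring
  rw [this, inv_mul_cancel₀ hB, one_mul]

theorem covz_e6 (x lD lB L : ℝ) (hL : L ≠ 0) :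
    6 / lB⁻¹ * ((4 * (x * lD / L) / lB⁻¹) ^ 2 + x) * L =
      x ^ 2 * (96 * lD ^ 2 * lB ^ 3 / L) + x * (6 * lB * L) := by
  rw [div_inv_eq_mul, div_inv_eq_mul]
  have h1 : x * lD / L = x * lD * L⁻¹ := div_eq_mul_inv _ _
  have h2 : 96 * lD ^ 2 * lB ^ 3 / L = 96 * lD ^ 2 * lB ^ 3 * L⁻¹ := div_eq_mul_inv _ _
  rw [h1, h2]
  have h3 : 6 * lB * ((4 * (x * lD * L⁻¹) * lB) ^ 2 + x) * L =
      x ^ 2 * (96 * lD ^ 2 * lB ^ 3 * L⁻¹) * (L⁻¹ * L) + x * (6 * lB * L) := by ring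
  rw [h3, inv_mul_cancel₀ hL, mul_one]

theorem covz_log_prod (y F G x e1 e2 : ℝ) (n : ℕ) (hy : 0 < y) (hF : 0 < F) (hG : 0 < G)
    (hx : 0 < x) : 0 < y ^ n * (F ^ n * G ^ e1 * x ^ e2) ∧
      Real.log (y ^ n * (F ^ n * G ^ e1 * x ^ e2)) =
        n * Real.log y + (n * Real.log F + e1 * Real.log G + e2 * Real.log x) := by
  have h1 := Real.rpow_pos_of_pos hG e1
  have h2 := Real.rpow_pos_of_pos hx e2
  have h3 : 0 < y ^ n := pow_pos hy n
  have h4 : 0 < F ^ n := pow_pos hF n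
  refine ⟨mul_pos h3 (mul_pos (mul_pos h4 h1) h2), ?_⟩
  rw [Real.log_mul h3.ne' (mul_pos (mul_pos h4 h1) h2).ne', Real.log_mul (mul_pos h4 h1).ne' h2.ne',
    Real.log_mul h4.ne' h1.ne', Real.log_pow, Real.log_pow, Real.log_rpow hG, Real.log_rpow hx]

/-- `y ≤ z δ` from `16 y lA ≤ z`, where `δ = 1 / (16 lA)`. -/
theorem covz_key {lA : ℝ} (hA : 0 < lA) (y z : ℝ) (h : 16 * y * lA ≤ z) : y ≤ z * (16 * lA)⁻¹ := by
  rw [← div_eq_mul_inv, le_div_iff₀ (by positivity)]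
  linarith

/-- the logarithm of the expensive image count -/
theorem covz_logG_le (x L l lB τ k : ℝ) (hL : L = Real.log x) (hx3 : 3 ≤ x) (hl1 : 1 ≤ l)
    (hB : 0 < lB) (hτ : 1 ≤ τ) (hlogτ : Real.log τ ≤ k * l) :
    0 < 1 + 2 * τ * x ^ (3 * lB⁻¹) ∧
    Real.log (3 / 2) + Real.pi * x + x * Real.log (1 + 2 * τ * x ^ (3 * lB⁻¹)) ≤
      x * ((k + 7) * l + 3 * lB⁻¹ * L) := by
  have hx0 : 0 < x := by linarith
  obtain ⟨X3, hX3⟩ : ∃ X3 : ℝ, X3 = x ^ (3 * lB⁻¹) := ⟨_, rfl⟩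
  rw [← hX3]
  have hX31 : 1 ≤ X3 := by
    rw [hX3]; exact Real.one_le_rpow (by linarith) (by positivity)
  have hlogX3 : Real.log X3 = 3 * lB⁻¹ * L := by rw [hX3, Real.log_rpow hx0, hL]
  have hτX : 1 ≤ τ * X3 := by nlinarith
  have hpos3 : 0 < 1 + 2 * τ * X3 := by nlinarith
  refine ⟨hpos3, ?_⟩
  have hlog1 : Real.log (1 + 2 * τ * X3) ≤ 2 + k * l + 3 * lB⁻¹ * L := by
    have h1 : Real.log (1 + 2 * τ * X3) ≤ Real.log (3 * (τ * X3)) :=
      Real.log_le_log hpos3 (by linarith)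
    rw [Real.log_mul (by norm_num) (by positivity), Real.log_mul (by positivity) (by positivity),
      hlogX3] at h1
    have := covz_log3
    linarith
  have hpi : Real.pi ≤ 4 := Real.pi_le_four
  have h1 : x * Real.log (1 + 2 * τ * X3) ≤ x * (2 + k * l + 3 * lB⁻¹ * L) :=
    mul_le_mul_of_nonneg_left hlog1 hx0.le
  have h2 : Real.pi * x ≤ 4 * x := mul_le_mul_of_nonneg_right hpi hx0.le
  have h3 := covz_log32
  have h4 : x * 7 ≤ x * (7 * l) := mul_le_mul_of_nonneg_left (by linarith) hx0.le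
  have h5 : x * ((k + 7) * l + 3 * lB⁻¹ * L) = x * (k * l + 3 * lB⁻¹ * L) + x * (7 * l) := by ring
  have h6 : x * (2 + k * l + 3 * lB⁻¹ * L) = x * (k * l + 3 * lB⁻¹ * L) + 2 * x := by ring
  linarith

/-- the seven pieces -/
theorem covz_pieces (x L l lA lB lD τ k lG : ℝ) (hL : L = Real.log x) (hx3 : 3 ≤ x)
    (hA : 0 < lA) (hB : 0 < lB) (hD : 0 < lD)
    (hlG : lG ≤ x * ((k + 7) * l + 3 * lB⁻¹ * L))
    (F1 : 48 * L * lA ≤ x) (F2 : 16 * Real.pi * τ ^ 2 * lA ≤ x ^ (2 * lB⁻¹))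
    (F3b : 1600 * (k + 7) * lD * l * lA ≤ L) (F3c : 4800 * lD * lA ≤ lB)
    (F4a : 1536 * lD ^ 2 * lB ^ 3 * lA ≤ L) (F4b : 96 * lB * lA * L ≤ x) :
    x * Real.log (2 * x + 3) + (x * (Real.log (3 / 2) + Real.pi * x ^ (1 - 2 * lB⁻¹) * τ ^ 2) +
      x * (100 * lD / L) * lG + (x ^ 2 * (96 * lD ^ 2 * lB ^ 3 / L) + x * (6 * lB * L))) ≤
      x ^ 2 * lA⁻¹ * Real.log 2 := by
  have hx0 : 0 < x := by linarith
  have hL1 : 1 ≤ L := by
    rw [hL, Real.le_log_iff_exp_le hx0]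
    have := Real.exp_one_lt_d9
    linarith
  have hL0 : 0 < L := by linarith
  have key := covz_key hA
  obtain ⟨δ, hδ⟩ : ∃ δ : ℝ, δ = (16 * lA)⁻¹ := ⟨_, rfl⟩
  rw [← hδ] at key
  have hδ0 : 0 < δ := by rw [hδ]; positivity
  have q1 : 3 * L ≤ x * δ := key _ _ (by linarith)
  have q2a : Real.log (3 / 2) ≤ x * δ := by have := covz_log32; linarith
  obtain ⟨X2, hX2⟩ : ∃ X2 : ℝ, X2 = x ^ (2 * lB⁻¹) := ⟨_, rfl⟩
  have hX20 : 0 < X2 := by rw [hX2]; exact Real.rpow_pos_of_pos hx0 _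
  rw [← hX2] at F2
  have q2b : Real.pi * x ^ (1 - 2 * lB⁻¹) * τ ^ 2 ≤ x * δ := by
    rw [Real.rpow_sub hx0, Real.rpow_one, ← hX2]
    have h1 : Real.pi * τ ^ 2 ≤ X2 * δ := key _ _ (by linarith)
    have h2 : Real.pi * (x / X2) * τ ^ 2 = x * (Real.pi * τ ^ 2 / X2) := by ring
    rw [h2]
    refine mul_le_mul_of_nonneg_left ?_ hx0.le
    rw [div_le_iff₀ hX20]
    linarith
  have q3a : 100 * lD / L * ((k + 7) * l) ≤ δ := by
    have h1 : 100 * lD * ((k + 7) * l) ≤ L * δ := key _ _ (by linarith)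
    have h2 : 100 * lD / L * ((k + 7) * l) = 100 * lD * ((k + 7) * l) / L := by ring
    rw [h2, div_le_iff₀ hL0]
    linarith
  have q3b : 100 * lD / L * (3 * lB⁻¹ * L) ≤ δ := by
    have h1 : 300 * lD ≤ lB * δ := key _ _ (by linarith)
    have h2 : 100 * lD / L * (3 * lB⁻¹ * L) = 300 * lD / lB * (L⁻¹ * L) := by ring
    rw [h2, inv_mul_cancel₀ hL0.ne', mul_one, div_le_iff₀ hB]
    linarith
  have q4a : 96 * lD ^ 2 * lB ^ 3 / L ≤ δ := by
    have h1 : 96 * lD ^ 2 * lB ^ 3 ≤ L * δ := key _ _ (by linarith)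
    rw [div_le_iff₀ hL0]
    linarith
  have q4b : 6 * lB * L ≤ x * δ := key _ _ (by linarith)
  have hlog23 : Real.log (2 * x + 3) ≤ 3 * L := by
    have h1 : 2 * x + 3 ≤ x ^ 3 := by nlinarith [mul_pos hx0 hx0]
    have h2 := Real.log_le_log (by linarith) h1
    rw [Real.log_pow, ← hL] at h2
    exact_mod_cast h2
  have hx2 : 0 ≤ x ^ 2 := by positivity
  have p1 : x * Real.log (2 * x + 3) ≤ x ^ 2 * δ := by
    calc x * Real.log (2 * x + 3) ≤ x * (x * δ) :=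
          mul_le_mul_of_nonneg_left (by linarith) hx0.le
      _ = x ^ 2 * δ := by ring
  have p2 : x * (Real.log (3 / 2) + Real.pi * x ^ (1 - 2 * lB⁻¹) * τ ^ 2) ≤ 2 * (x ^ 2 * δ) := by
    calc x * (Real.log (3 / 2) + Real.pi * x ^ (1 - 2 * lB⁻¹) * τ ^ 2) ≤ x * (x * δ + x * δ) :=
          mul_le_mul_of_nonneg_left (by linarith) hx0.le
      _ = 2 * (x ^ 2 * δ) := by ring
  have p3 : x * (100 * lD / L) * lG ≤ 2 * (x ^ 2 * δ) := by
    have h0 : 0 ≤ x * (100 * lD / L) := by positivity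
    calc _ ≤ x * (100 * lD / L) * (x * ((k + 7) * l + 3 * lB⁻¹ * L)) :=
          mul_le_mul_of_nonneg_left hlG h0
      _ = x ^ 2 * (100 * lD / L * ((k + 7) * l) + 100 * lD / L * (3 * lB⁻¹ * L)) := by ring
      _ ≤ x ^ 2 * (δ + δ) := mul_le_mul_of_nonneg_left (by linarith) hx2
      _ = 2 * (x ^ 2 * δ) := by ring
  have p4 : x ^ 2 * (96 * lD ^ 2 * lB ^ 3 / L) + x * (6 * lB * L) ≤ 2 * (x ^ 2 * δ) := by
    have h1 : x ^ 2 * (96 * lD ^ 2 * lB ^ 3 / L) ≤ x ^ 2 * δ := mul_le_mul_of_nonneg_left q4a hx2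
    have h2 : x * (6 * lB * L) ≤ x * (x * δ) := mul_le_mul_of_nonneg_left q4b hx0.le
    have h3 : x * (x * δ) = x ^ 2 * δ := by ring
    linarith
  have hlog2 : (1 : ℝ) / 2 ≤ Real.log 2 := by have := Real.log_two_gt_d9; linarith
  have hfin : 7 * (x ^ 2 * δ) ≤ x ^ 2 * lA⁻¹ * Real.log 2 := by
    have h1 : δ = lA⁻¹ / 16 := by rw [hδ, mul_inv]; ring
    have h2 : 0 ≤ x ^ 2 * lA⁻¹ := by positivity
    have h3 : x ^ 2 * lA⁻¹ * (1 / 2) ≤ x ^ 2 * lA⁻¹ * Real.log 2 :=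
      mul_le_mul_of_nonneg_left hlog2 h2
    rw [h1]
    linarith
  linarith

/-- The total cost, all asymptotic facts being hypotheses.
`lA = l^A`, `lB = l^{B₀}`, `lD = l^D`, `a = 1 / lB`, `S = 4 h₀ / a`, `h₀ = x lD / L`. -/
theorem covz_core (N : ℕ) (L l lA lB lD τ k : ℝ) (hL : L = Real.log N) (hx3 : (3 : ℝ) ≤ N)
    (hl1 : 1 ≤ l) (hA : 0 < lA) (hB : 0 < lB) (hD : 0 < lD) (hτ : 1 ≤ τ)
    (hlogτ : Real.log τ ≤ k * l)
    (F1 : 48 * L * lA ≤ N) (F2 : 16 * Real.pi * τ ^ 2 * lA ≤ (N : ℝ) ^ (2 * lB⁻¹))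
    (F3b : 1600 * (k + 7) * lD * l * lA ≤ L) (F3c : 4800 * lD * lA ≤ lB)
    (F4a : 1536 * lD ^ 2 * lB ^ 3 * lA ≤ L) (F4b : 96 * lB * lA * L ≤ N) :
    (2 * (N : ℝ) + 3) ^ N * covBmax N lB⁻¹ τ (4 * ((N : ℝ) * lD / L) / lB⁻¹) ≤
      (2 : ℝ) ^ ((N : ℝ) ^ 2 * lA⁻¹) := by
  have hx0 : (0 : ℝ) < N := by linarith
  have hL0 : L ≠ 0 := by
    have : 0 < Real.log (N : ℝ) := Real.log_pos (by linarith)
    rw [hL]; exact this.ne'
  obtain ⟨g1, g2⟩ := covz_logG_le N L l lB τ k hL hx3 hl1 hB hτ hlogτ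
  rw [← covz_logG N lB⁻¹ τ g1] at g2
  have hp := covz_pieces N L l lA lB lD τ k _ hL hx3 hA hB hD g2 F1 F2 F3b F3c F4a F4b
  rw [← covz_logF N lB⁻¹ τ, ← covz_e25 N lD lB L hB.ne', ← covz_e6 N lD lB L hL0] at hp
  obtain ⟨r1, r2⟩ := covz_log_prod (2 * (N : ℝ) + 3) (covImg N lB⁻¹ τ false) (covImg N lB⁻¹ τ true) N
    (25 * lB⁻¹ * (4 * ((N : ℝ) * lD / L) / lB⁻¹))
    (6 / lB⁻¹ * ((4 * ((N : ℝ) * lD / L) / lB⁻¹) ^ 2 + N)) N (by linarith) (covz_F_pos N _ τ)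
    (covz_G_pos N _ τ g1) hx0
  unfold covBmax
  rw [Real.le_rpow_iff_log_le r1 (by norm_num), r2, ← hL]
  exact hp

/-! ## Part 3: the loss `τ`, assembly -/

/-- `τ N ≤ C' L^κ` eventually. -/
theorem covz_tau_le {τ : ℕ → ℝ} (hτ : CovTauOK τ) :
    ∃ (C' : ℝ) (κ : ℕ), 0 ≤ C' ∧ ∀ᶠ N : ℕ in atTop, τ N ≤ C' * Real.log N ^ κ := by
  obtain ⟨-, -, C, κ, hC⟩ := hτ
  refine ⟨|C| * 2 ^ κ, κ, by positivity, ?_⟩
  filter_upwards [eventually_ge_atTop 2] with N hN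
  have hN2 : (2 : ℝ) ≤ N := by exact_mod_cast hN
  have h1 : Real.log ((N : ℝ) + 2) ≤ 2 * Real.log N := by
    have h2 : (N : ℝ) + 2 ≤ (N : ℝ) ^ 2 := by nlinarith
    have h3 := Real.log_le_log (by linarith) h2
    rw [Real.log_pow] at h3
    exact_mod_cast h3
  have h0 : 0 ≤ Real.log ((N : ℝ) + 2) := Real.log_nonneg (by linarith)
  calc τ N ≤ C * Real.log ((N : ℝ) + 2) ^ κ := hC N
    _ ≤ |C| * Real.log ((N : ℝ) + 2) ^ κ :=
        mul_le_mul_of_nonneg_right (le_abs_self C) (pow_nonneg h0 κ)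
    _ ≤ |C| * (2 * Real.log N) ^ κ :=
        mul_le_mul_of_nonneg_left (pow_le_pow_left₀ h0 h1 κ) (abs_nonneg C)
    _ = |C| * 2 ^ κ * Real.log N ^ κ := by rw [mul_pow]; ring

/-- `log τ N ≤ k l` eventually. -/
theorem covz_log_tau {τ : ℕ → ℝ} (hτ : CovTauOK τ) :
    ∃ k : ℝ, ∀ᶠ N : ℕ in atTop, Real.log (τ N) ≤ k * ell N := by
  obtain ⟨C', κ, hC0, hC⟩ := covz_tau_le hτ
  refine ⟨((κ + 1 : ℕ) : ℝ), ?_⟩
  filter_upwards [hC, covy_tendsto_log.eventually_ge_atTop (max C' 1)] with N h1 h2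
  have hL1 : 1 ≤ Real.log N := le_trans (le_max_right _ _) h2
  have hLC : C' ≤ Real.log N := le_trans (le_max_left _ _) h2
  have hτpos : 0 < τ N := lt_of_lt_of_le one_pos (hτ.2.1 N)
  have h3 : τ N ≤ Real.log N ^ (κ + 1) := by
    calc τ N ≤ C' * Real.log N ^ κ := h1
      _ ≤ Real.log N * Real.log N ^ κ :=
          mul_le_mul_of_nonneg_right hLC (pow_nonneg (by linarith) κ)
      _ = Real.log N ^ (κ + 1) := by ring
  have h4 := Real.log_le_log hτpos h3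
  rwa [Real.log_pow] at h4

/-- `16 π τ² l^A ≤ N^{2a}` eventually. -/
theorem covz_F2 {τ : ℕ → ℝ} (hτ : CovTauOK τ) (A B0 : ℝ) :
    ∀ᶠ N : ℕ in atTop,
      16 * Real.pi * τ N ^ 2 * ell N ^ A ≤ (N : ℝ) ^ (2 * (ell N ^ B0)⁻¹) := by
  obtain ⟨C', κ, hC0, hC⟩ := covz_tau_le hτ
  filter_upwards [hC, covy_ell_le_log 1 A, covy_ell_le_log 1 (B0 + B0),
    covy_log_pow_le_exp_sqrt (16 * Real.pi * C' ^ 2) (2 * κ + 1), eventually_ge_atTop 3,
    covy_tendsto_ell.eventually_ge_atTop 1, covy_tendsto_log.eventually_ge_atTop 1]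
    with N h1 h2 h3 h4 h5 h6 h7
  obtain ⟨L, hL⟩ : ∃ L : ℝ, L = Real.log N := ⟨_, rfl⟩
  obtain ⟨l, hl⟩ : ∃ l : ℝ, l = ell N := ⟨_, rfl⟩
  rw [← hL] at h1 h2 h3 h4 h7
  rw [← hl] at h2 h3 h6 ⊢
  have hl0 : 0 < l := by linarith
  have hx0 : (0 : ℝ) < N := by
    have : (3 : ℝ) ≤ N := by exact_mod_cast h5
    linarith
  have hτ0 : 0 ≤ τ N := le_trans zero_le_one (hτ.2.1 N)
  have hL0 : 0 < L := by linarith
  rw [one_mul] at h2 h3
  have hlA : 0 ≤ l ^ A := Real.rpow_nonneg hl0.le _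
  have hlB : 0 < l ^ B0 := Real.rpow_pos_of_pos hl0 _
  -- left side
  have a1 : τ N ^ 2 ≤ C' ^ 2 * L ^ (2 * κ) := by
    have := pow_le_pow_left₀ hτ0 h1 2
    rwa [mul_pow, ← pow_mul, mul_comm κ 2] at this
  have a2 : 16 * Real.pi * τ N ^ 2 * l ^ A ≤ 16 * Real.pi * C' ^ 2 * L ^ (2 * κ + 1) := by
    have hpi := Real.pi_pos
    calc 16 * Real.pi * τ N ^ 2 * l ^ A ≤ 16 * Real.pi * (C' ^ 2 * L ^ (2 * κ)) * L := by
          gcongr
      _ = 16 * Real.pi * C' ^ 2 * L ^ (2 * κ + 1) := by ring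
  -- right side
  have b1 : l ^ B0 ≤ Real.sqrt L := by
    apply Real.le_sqrt_of_sq_le
    rw [sq, ← Real.rpow_add hl0]
    exact h3
  have hs0 : 0 < Real.sqrt L := Real.sqrt_pos.2 hL0
  have b2 : Real.sqrt L ≤ L * (2 * (l ^ B0)⁻¹) := by
    have c1 : (Real.sqrt L)⁻¹ ≤ (l ^ B0)⁻¹ := inv_anti₀ hlB b1
    have c2 : L * (Real.sqrt L)⁻¹ = Real.sqrt L := by
      rw [← div_eq_mul_inv]; exact Real.div_sqrt
    have c3 : L * (Real.sqrt L)⁻¹ ≤ L * (l ^ B0)⁻¹ := mul_le_mul_of_nonneg_left c1 hL0.le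
    have c4 : 0 ≤ L * (l ^ B0)⁻¹ := by positivity
    linarith
  rw [Real.rpow_def_of_pos hx0, ← hL]
  exact le_trans a2 (le_trans h4 (Real.exp_le_exp.2 b2))

/-- **Leaf ASYMP.** -/
theorem cov_asymp : StCovAsymp := by
  intro τ hτ D A B0 hD hA hB
  have hB0 : 0 < B0 := by linarith
  obtain ⟨k, hk⟩ := covz_log_tau hτ
  filter_upwards [eventually_ge_atTop 3, covy_tendsto_ell.eventually_ge_atTop 1,
    covy_tendsto_log.eventually_ge_atTop 1, covy_ell_neg 40 hB0, covy_ell_le_log 1 B0,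
    covy_log_le 1 (5 / 2), covy_ell_le_log 1 (D + B0 + A), covy_ell_log_le 48 A, covz_F2 hτ A B0, hk,
    covy_ell_le_log (1600 * (k + 7)) (D + 1 + A),
    covy_ell_neg 4800 (p := B0 - D - A) (by linarith),
    covy_ell_le_log 1536 (D + D + (B0 + B0 + B0) + A), covy_ell_log_le 96 (B0 + A)]
    with N e1 e2 e3 e4 e5 e6 e7 e8 e9 e10 e11 e12 e13 e14
  obtain ⟨L, hL⟩ : ∃ L : ℝ, L = Real.log N := ⟨_, rfl⟩
  obtain ⟨l, hl⟩ : ∃ l : ℝ, l = ell N := ⟨_, rfl⟩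
  have hx3 : (3 : ℝ) ≤ N := by exact_mod_cast e1
  have hx0 : (0 : ℝ) < N := by linarith
  unfold covS covH0 covA
  rw [← hL] at e3 e5 e6 e7 e8 e11 e13 e14 ⊢
  rw [← hl] at e2 e4 e5 e7 e8 e9 e10 e11 e12 e13 e14 ⊢
  have hl0 : 0 < l := by linarith
  have hL0 : 0 < L := by linarith
  have hlA : 0 < l ^ A := Real.rpow_pos_of_pos hl0 _
  have hlB : 0 < l ^ B0 := Real.rpow_pos_of_pos hl0 _
  have hlD : 0 < l ^ D := Real.rpow_pos_of_pos hl0 _
  rw [Real.rpow_neg hl0.le, Real.rpow_neg hl0.le]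
  rw [Real.rpow_neg hl0.le] at e4
  refine ⟨by positivity, by linarith, ?_, ?_, ?_⟩
  · -- `1/5 ≤ a N^{2/5}`
    rw [one_mul] at e5 e6
    have h1 : L ≤ (N : ℝ) ^ ((2 : ℝ) / 5) := by
      have h2 := Real.rpow_le_rpow (Real.rpow_nonneg hL0.le _) e6 (show (0 : ℝ) ≤ 2 / 5 by norm_num)
      rw [← Real.rpow_mul hL0.le] at h2
      norm_num at h2
      exact h2
    rw [inv_mul_eq_div, le_div_iff₀ hlB]
    linarith
  · -- `h₀ / a ≤ N l^{-A}`
    rw [one_mul, Real.rpow_add hl0, Real.rpow_add hl0] at e7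
    rw [div_inv_eq_mul, div_mul_eq_mul_div, div_le_iff₀ hL0]
    have h1 : (N : ℝ) * (l ^ A)⁻¹ * L = (N : ℝ) * (L * (l ^ A)⁻¹) := by ring
    have h2 : l ^ D * l ^ B0 ≤ L * (l ^ A)⁻¹ := by
      rw [← div_eq_mul_inv, le_div_iff₀ hlA]; exact e7
    rw [h1, mul_assoc]
    exact mul_le_mul_of_nonneg_left h2 hx0.le
  · refine covz_core N L l (l ^ A) (l ^ B0) (l ^ D) (τ N) k hL hx3 e2 hlA hlB hlD (hτ.2.1 N) e10
      (by linarith) e9 ?_ ?_ ?_ (by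
        rw [Real.rpow_add hl0] at e14; linarith)
    · rw [Real.rpow_add hl0, Real.rpow_add hl0, Real.rpow_one] at e11
      linarith
    · have h1 : -(B0 - D - A) = D + A + -B0 := by ring
      rw [h1, Real.rpow_add hl0, Real.rpow_add hl0, Real.rpow_neg hl0.le] at e12
      have h2 : 4800 * (l ^ D * l ^ A * (l ^ B0)⁻¹) = 4800 * l ^ D * l ^ A / l ^ B0 := by
        rw [div_eq_mul_inv]; ring
      rw [h2, div_le_iff₀ hlB] at e12
      linarith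
    · rw [Real.rpow_add hl0, Real.rpow_add hl0, Real.rpow_add hl0, Real.rpow_add hl0,
        Real.rpow_add hl0] at e13
      have h1 : 1536 * (l ^ D * l ^ D * (l ^ B0 * l ^ B0 * l ^ B0) * l ^ A) =
          1536 * (l ^ D) ^ 2 * (l ^ B0) ^ 3 * l ^ A := by ring
      rw [h1] at e13
      exact e13

end Claimed.Agent.R293
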