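/-
R293 / LatGram.lean  (owner: helper256).  Gram determinants: pure linear algebra, no lattices.
-/
import Claimed.Agent.R293.LatDefs

set_option autoImplicit false

namespace Claimed.Agent.R293

open Submodule Module Matrix
open scoped RealInnerProductSpace

section General
variable {E : Type*} [NormedAddCommGroup E] [InnerProductSpace ℝ E]

/-- Gram matrix of a family of linear combinations. -/
theorem lat_gram_combo {ι κ : Type*} [Fintype ι] (U : Matrix κ ι ℝ) (v : ι → E) :
    Matrix.gram ℝ (fun i => ∑ j, U i j • v j) = U * Matrix.gram ℝ v * Uᵀ := by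
  ext a b
  simp only [Matrix.gram_apply, Matrix.mul_apply, Matrix.transpose_apply, sum_inner, inner_sum,
    real_inner_smul_left, real_inner_smul_right, Finset.sum_mul]
  refine Finset.sum_congr rfl fun j _ => Finset.sum_congr rfl fun i _ => ?_
  ring

/-- determinant of the Gram matrix of a family of linear combinations (square case). -/
theorem lat_det_gram_combo {ι : Type*} [Fintype ι] [DecidableEq ι] (U : Matrix ι ι ℝ) (v : ι → E) :
    (Matrix.gram ℝ (fun i => ∑ j, U i j • v j)).det = U.det ^ 2 * (Matrix.gram ℝ v).det := by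
  rw [lat_gram_combo, Matrix.det_mul, Matrix.det_mul, Matrix.det_transpose]
  ring

theorem lat_det_gram_nonneg {ι : Type*} [Fintype ι] [DecidableEq ι] (v : ι → E) :
    0 ≤ (Matrix.gram ℝ v).det :=
  (Matrix.posSemidef_gram ℝ v).det_nonneg

theorem lat_det_gram_pos {ι : Type*} [Fintype ι] [DecidableEq ι] {v : ι → E}
    (h : LinearIndependent ℝ v) : 0 < (Matrix.gram ℝ v).det :=
  (Matrix.posDef_gram_of_linearIndependent h).det_pos

theorem lat_det_gram_reindex {ι κ : Type*} [Fintype ι] [DecidableEq ι] [Fintype κ] [DecidableEq κ]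
    (e : κ ≃ ι) (v : ι → E) : (Matrix.gram ℝ (v ∘ e)).det = (Matrix.gram ℝ v).det := by
  have : Matrix.gram ℝ (v ∘ e) = (Matrix.gram ℝ v).submatrix e e := rfl
  rw [this, Matrix.det_submatrix_equiv_self]

variable [FiniteDimensional ℝ E]

theorem lat_perpProj_apply_mem (F : Submodule ℝ E) (x : E) : perpProj F x ∈ Fᗮ := by
  unfold perpProj
  exact Submodule.starProjection_apply_mem _ _

theorem lat_sub_perpProj_mem (F : Submodule ℝ E) (x : E) : x - perpProj F x ∈ F := by
  unfold perpProj
  have := Submodule.sub_starProjection_mem_orthogonal (K := Fᗮ) x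
  rwa [Submodule.orthogonal_orthogonal] at this

theorem lat_perpProj_eq_zero {F : Submodule ℝ E} {x : E} (hx : x ∈ F) : perpProj F x = 0 := by
  unfold perpProj
  apply (Submodule.starProjection_apply_eq_zero_iff _).2
  rwa [Submodule.orthogonal_orthogonal]

theorem lat_perpProj_eq_zero_iff {F : Submodule ℝ E} {x : E} : perpProj F x = 0 ↔ x ∈ F := by
  refine ⟨fun h => ?_, lat_perpProj_eq_zero⟩
  have := lat_sub_perpProj_mem F x
  rwa [h, sub_zero] at this

theorem lat_perpProj_eq_self {F : Submodule ℝ E} {x : E} (hx : x ∈ Fᗮ) : perpProj F x = x := by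
  unfold perpProj
  exact Submodule.starProjection_eq_self_iff.2 hx

theorem lat_norm_perpProj_le (F : Submodule ℝ E) (x : E) : ‖perpProj F x‖ ≤ ‖x‖ := by
  unfold perpProj
  exact Submodule.norm_starProjection_apply_le _ _

theorem lat_norm_perpProj_le_sub (F : Submodule ℝ E) (x : E) {w : E} (hw : w ∈ F) :
    ‖perpProj F x‖ ≤ ‖x - w‖ := by
  have : perpProj F x = perpProj F (x - w) := by
    rw [map_sub, lat_perpProj_eq_zero hw, sub_zero]
  rw [this]
  exact lat_norm_perpProj_le _ _

theorem lat_inner_perpProj_of_mem {F : Submodule ℝ E} {w : E} (hw : w ∈ F) (x : E) :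
    ⟪w, perpProj F x⟫ = 0 :=
  (Submodule.mem_orthogonal _ _).1 (lat_perpProj_apply_mem F x) w hw

/-- **Block formula**: `gram (b, c) = gram b * gram (π c)`, `π` the projection off `span b`. -/
theorem lat_det_gram_sum {ι κ : Type*} [Fintype ι] [DecidableEq ι] [Fintype κ] [DecidableEq κ]
    (b : ι → E) (c : κ → E) :
    (Matrix.gram ℝ (Sum.elim b c)).det =
      (Matrix.gram ℝ b).det * (Matrix.gram ℝ (perpProj (span ℝ (Set.range b)) ∘ c)).det := by
  set F := span ℝ (Set.range b) with hF
  -- coefficients of the `F`-components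
  have hcoef : ∀ j : κ, ∃ a : ι → ℝ, ∑ i, a i • b i = c j - perpProj F (c j) := fun j =>
    (Submodule.mem_span_range_iff_exists_fun ℝ).1 (lat_sub_perpProj_mem F (c j))
  choose a ha using hcoef
  let U : Matrix (ι ⊕ κ) (ι ⊕ κ) ℝ := Matrix.fromBlocks 1 0 (Matrix.of a) 1
  have hU : U.det = 1 := by
    simp [U]
  have hcombo : Sum.elim b c = fun x => ∑ y, U x y • (Sum.elim b (perpProj F ∘ c)) y := by
    funext x
    rcases x with i | j
    · simp [U, Fintype.sum_sum_type, Matrix.one_apply, ite_smul]
    · simp [U, Fintype.sum_sum_type, Matrix.one_apply, ite_smul, ha]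
  have hblock : Matrix.gram ℝ (Sum.elim b (perpProj F ∘ c)) =
      Matrix.fromBlocks (Matrix.gram ℝ b) 0 0 (Matrix.gram ℝ (perpProj F ∘ c)) := by
    ext x y
    rcases x with i | j <;> rcases y with i' | j'
    · simp
    · simp only [Matrix.gram_apply, Sum.elim_inl, Sum.elim_inr, Function.comp,
        Matrix.fromBlocks_apply₁₂, Matrix.zero_apply]
      exact lat_inner_perpProj_of_mem (subset_span (Set.mem_range_self i)) _
    · simp only [Matrix.gram_apply, Sum.elim_inl, Sum.elim_inr, Function.comp,
        Matrix.fromBlocks_apply₂₁, Matrix.zero_apply]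
      rw [real_inner_comm]
      exact lat_inner_perpProj_of_mem (subset_span (Set.mem_range_self i')) _
    · simp
  rw [hcombo, lat_det_gram_combo, hU, hblock, Matrix.det_fromBlocks_zero₁₂]
  ring

/-! ### `Fin` versions for `gramDet` -/

omit [FiniteDimensional ℝ E] in
theorem lat_gramDet_nonneg {r : ℕ} (b : Fin r → E) : 0 ≤ gramDet b := lat_det_gram_nonneg b

omit [FiniteDimensional ℝ E] in
theorem lat_gramDet_pos {r : ℕ} {b : Fin r → E} (h : LinearIndependent ℝ b) : 0 < gramDet b :=
  lat_det_gram_pos h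

omit [FiniteDimensional ℝ E] in
theorem lat_gramDet_ne_zero_iff {r : ℕ} {b : Fin r → E} :
    gramDet b ≠ 0 ↔ LinearIndependent ℝ b :=
  Matrix.det_gram_ne_zero_iff_linearIndependent

omit [FiniteDimensional ℝ E] in
theorem lat_gramDet_combo {r : ℕ} (U : Matrix (Fin r) (Fin r) ℝ) (v : Fin r → E) :
    gramDet (fun i => ∑ j, U i j • v j) = U.det ^ 2 * gramDet v :=
  lat_det_gram_combo U v

omit [FiniteDimensional ℝ E] in
theorem lat_gramDet_zero (b : Fin 0 → E) : gramDet b = 1 := by
  unfold gramDet
  exact Matrix.det_isEmpty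

omit [FiniteDimensional ℝ E] in
theorem lat_gramDet_one (b : Fin 1 → E) : gramDet b = ‖b 0‖ ^ 2 := by
  unfold gramDet
  rw [Matrix.det_fin_one, Matrix.gram_apply, real_inner_self_eq_norm_sq]

omit [NormedAddCommGroup E] [InnerProductSpace ℝ E] [FiniteDimensional ℝ E] in
theorem lat_append_comp_equiv {k l : ℕ} (b : Fin k → E) (c : Fin l → E) :
    Fin.append b c ∘ finSumFinEquiv = Sum.elim b c := by
  funext x
  rcases x with i | j
  · simp
  · simp

/-- block formula for `gramDet`. -/
theorem lat_gramDet_append {k l : ℕ} (b : Fin k → E) (c : Fin l → E) :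
    gramDet (Fin.append b c) = gramDet b * gramDet (perpProj (span ℝ (Set.range b)) ∘ c) := by
  unfold gramDet
  rw [← lat_det_gram_reindex finSumFinEquiv (Fin.append b c), lat_append_comp_equiv,
    lat_det_gram_sum]

omit [NormedAddCommGroup E] [InnerProductSpace ℝ E] [FiniteDimensional ℝ E] in
theorem lat_eq_append_last {n : ℕ} (c : Fin (n + 1) → E) :
    c = Fin.append (fun i : Fin n => c i.castSucc) (fun _ : Fin 1 => c (Fin.last n)) := by
  funext i
  refine Fin.lastCases ?_ (fun j => ?_) i
  · have : Fin.last n = Fin.natAdd n (0 : Fin 1) := rfl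
    rw [this, Fin.append_right]
  · have : j.castSucc = Fin.castAdd 1 j := rfl
    rw [this, Fin.append_left]
    rfl

/-- peeling off the last vector. -/
theorem lat_gramDet_succ {n : ℕ} (c : Fin (n + 1) → E) :
    gramDet c = gramDet (fun i : Fin n => c i.castSucc) *
      ‖perpProj (span ℝ (Set.range fun i : Fin n => c i.castSucc)) (c (Fin.last n))‖ ^ 2 := by
  conv_lhs => rw [lat_eq_append_last c]
  rw [lat_gramDet_append, lat_gramDet_one]
  rfl

/-- **Hadamard's inequality**. -/
theorem lat_gramDet_le_prod {n : ℕ} (c : Fin n → E) : gramDet c ≤ ∏ i, ‖c i‖ ^ 2 := by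
  induction n with
  | zero => simp [lat_gramDet_zero]
  | succ n ih =>
    rw [lat_gramDet_succ, Fin.prod_univ_castSucc]
    apply mul_le_mul (ih _) _ (by positivity) (Finset.prod_nonneg fun i _ => by positivity)
    exact pow_le_pow_left₀ (norm_nonneg _) (lat_norm_perpProj_le _ _) 2

/-- A linear contraction does not increase Gram determinants. -/
theorem lat_gramDet_contraction {E' : Type*} [NormedAddCommGroup E'] [InnerProductSpace ℝ E']
    [FiniteDimensional ℝ E'] (P : E →ₗ[ℝ] E') (hP : ∀ x, ‖P x‖ ≤ ‖x‖) {n : ℕ} (c : Fin n → E) :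
    gramDet (P ∘ c) ≤ gramDet c := by
  induction n with
  | zero => simp [lat_gramDet_zero]
  | succ n ih =>
    rw [lat_gramDet_succ, lat_gramDet_succ c]
    apply mul_le_mul (ih _) _ (by positivity) (lat_gramDet_nonneg _)
    apply pow_le_pow_left₀ (norm_nonneg _)
    set F := span ℝ (Set.range fun i : Fin n => c i.castSucc) with hF
    set x := c (Fin.last n) with hx
    -- `y = x - π x ∈ F`, so `P y ∈ span (P ∘ c)`
    have hy : x - perpProj F x ∈ F := lat_sub_perpProj_mem F x
    have hPy : P (x - perpProj F x) ∈ span ℝ (Set.range fun i : Fin n => (P ∘ c) i.castSucc) := by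
      have : span ℝ (Set.range fun i : Fin n => (P ∘ c) i.castSucc) = F.map P := by
        rw [hF, Submodule.map_span, ← Set.range_comp]
        rfl
      rw [this]
      exact Submodule.mem_map_of_mem hy
    calc ‖perpProj _ ((P ∘ c) (Fin.last n))‖ ≤ ‖(P ∘ c) (Fin.last n) - P (x - perpProj F x)‖ :=
          lat_norm_perpProj_le_sub _ _ hPy
      _ = ‖P (perpProj F x)‖ := by
          congr 1
          simp [hx]
      _ ≤ ‖perpProj F x‖ := hP _

theorem lat_gramDet_perpProj_le (F : Submodule ℝ E) {n : ℕ} (c : Fin n → E) :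
    gramDet (perpProj F ∘ c) ≤ gramDet c :=
  lat_gramDet_contraction (perpProj F) (lat_norm_perpProj_le F) c

/-- sub-multiplicativity: `gram (b, c) ≤ gram b * gram c`. -/
theorem lat_gramDet_append_le {k l : ℕ} (b : Fin k → E) (c : Fin l → E) :
    gramDet (Fin.append b c) ≤ gramDet b * gramDet c := by
  rw [lat_gramDet_append]
  exact mul_le_mul_of_nonneg_left (lat_gramDet_perpProj_le _ _) (lat_gramDet_nonneg _)

end General

end Claimed.Agent.R293
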