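/-
R293 / LatBasic.lean  (owner: helper256).  Basic facts on Euclidean lattices (`LatDefs.lean`):
rank, integer coordinates, independence of `latDet` of the basis, discreteness, sublattices,
saturation, tuple form of `DetLB`.
-/
import Claimed.Agent.R293.LatGram

set_option autoImplicit false

namespace Claimed.Agent.R293

open Submodule Module Matrix
open scoped RealInnerProductSpace

section General
variable {E : Type*} [NormedAddCommGroup E] [InnerProductSpace ℝ E]

theorem lat_rspan_eq {r : ℕ} {b : Fin r → E} {L : Submodule ℤ E} (h : IsLatBasis b L) :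
    rspan L = span ℝ (Set.range b) := by
  unfold rspan
  rw [← h.2, Submodule.span_span_of_tower]

theorem lat_rank_eq {r : ℕ} {b : Fin r → E} {L : Submodule ℤ E} (h : IsLatBasis b L) :
    latRank L = r := by
  unfold latRank
  rw [lat_rspan_eq h, finrank_span_eq_card h.1, Fintype.card_fin]

theorem lat_basis_mem {r : ℕ} {b : Fin r → E} {L : Submodule ℤ E} (h : IsLatBasis b L) (i : Fin r) :
    b i ∈ L := by
  rw [← h.2]
  exact subset_span (Set.mem_range_self i)

theorem lat_le_rspan (L : Submodule ℤ E) : L ≤ (rspan L).restrictScalars ℤ :=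
  fun _ hx => subset_span hx

theorem lat_rspan_mono {L M : Submodule ℤ E} (h : M ≤ L) : rspan M ≤ rspan L :=
  span_mono h

/-- integer coordinates (with real scalars). -/
theorem lat_exists_coeff {r : ℕ} {b : Fin r → E} {L : Submodule ℤ E} (h : IsLatBasis b L) {x : E}
    (hx : x ∈ L) : ∃ a : Fin r → ℤ, x = ∑ j, (a j : ℝ) • b j := by
  rw [← h.2] at hx
  obtain ⟨a, ha⟩ := (Submodule.mem_span_range_iff_exists_fun ℤ).1 hx
  exact ⟨a, by simp only [Int.cast_smul_eq_zsmul, ha]⟩

theorem lat_combo_mem {r : ℕ} {b : Fin r → E} {L : Submodule ℤ E} (hb : ∀ i, b i ∈ L)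
    (a : Fin r → ℤ) : ∑ j, (a j : ℝ) • b j ∈ L := by
  simp only [Int.cast_smul_eq_zsmul]
  exact L.sum_mem fun j _ => L.smul_mem _ (hb j)

/-- a family in a lattice is an integer matrix times the basis. -/
theorem lat_exists_matrix {r k : ℕ} {b : Fin r → E} {L : Submodule ℤ E} (h : IsLatBasis b L)
    {c : Fin k → E} (hc : ∀ i, c i ∈ L) :
    ∃ U : Matrix (Fin k) (Fin r) ℤ, c = fun i => ∑ j, (U.map (Int.cast : ℤ → ℝ)) i j • b j := by
  choose a ha using fun i => lat_exists_coeff h (hc i)
  exact ⟨Matrix.of a, funext fun i => by simpa using ha i⟩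

/-- if `c ⊆ L` has as many elements as a basis `b` of `L` and is independent, then
`gramDet b ≤ gramDet c`; more precisely `gramDet c = d² gramDet b` with a non-zero integer `d`. -/
theorem lat_gramDet_eq_int_sq_mul {r : ℕ} {b : Fin r → E} {L : Submodule ℤ E} (h : IsLatBasis b L)
    {c : Fin r → E} (hc : ∀ i, c i ∈ L) :
    ∃ d : ℤ, gramDet c = (d : ℝ) ^ 2 * gramDet b := by
  obtain ⟨U, hU⟩ := lat_exists_matrix h hc
  refine ⟨U.det, ?_⟩
  rw [hU, lat_gramDet_combo]
  congr 2
  exact (Int.cast_det (R := ℝ) U).symm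

theorem lat_gramDet_le_of_mem {r : ℕ} {b : Fin r → E} {L : Submodule ℤ E} (h : IsLatBasis b L)
    {c : Fin r → E} (hc : ∀ i, c i ∈ L) (hli : LinearIndependent ℝ c) :
    gramDet b ≤ gramDet c := by
  obtain ⟨d, hd⟩ := lat_gramDet_eq_int_sq_mul h hc
  have hpos := lat_gramDet_pos hli
  have hd0 : d ≠ 0 := by
    rintro rfl
    simp [hd] at hpos
  have h1 : (1 : ℝ) ≤ (d : ℝ) ^ 2 := by
    have : (1 : ℤ) ≤ d ^ 2 := by
      have := sq_nonneg d
      have h2 : d ^ 2 ≠ 0 := pow_ne_zero 2 hd0
      omega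
    exact_mod_cast this
  rw [hd]
  nlinarith [lat_gramDet_nonneg b]

theorem lat_gramDet_eq_of_bases {r r' : ℕ} {b : Fin r → E} {b' : Fin r' → E} {L : Submodule ℤ E}
    (h : IsLatBasis b L) (h' : IsLatBasis b' L) : gramDet b = gramDet b' := by
  have hr : r = r' := (lat_rank_eq h).symm.trans (lat_rank_eq h')
  subst hr
  exact le_antisymm (lat_gramDet_le_of_mem h (lat_basis_mem h') h'.1)
    (lat_gramDet_le_of_mem h' (lat_basis_mem h) h.1)

theorem lat_det_eq {r : ℕ} {b : Fin r → E} {L : Submodule ℤ E} (h : IsLatBasis b L) :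
    latDet L = Real.sqrt (gramDet b) := by
  have hL : IsLat L := ⟨r, b, h⟩
  unfold latDet
  rw [dif_pos hL, lat_gramDet_eq_of_bases hL.choose_spec.choose_spec h]

theorem lat_det_sq {r : ℕ} {b : Fin r → E} {L : Submodule ℤ E} (h : IsLatBasis b L) :
    latDet L ^ 2 = gramDet b := by
  rw [lat_det_eq h, Real.sq_sqrt (lat_gramDet_nonneg b)]

theorem lat_det_pos {L : Submodule ℤ E} (hL : IsLat L) : 0 < latDet L := by
  obtain ⟨r, b, h⟩ := hL
  rw [lat_det_eq h]
  exact Real.sqrt_pos.2 (lat_gramDet_pos h.1)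

theorem lat_det_nonneg (L : Submodule ℤ E) : 0 ≤ latDet L := by
  by_cases hL : IsLat L
  · exact (lat_det_pos hL).le
  · unfold latDet
    rw [dif_neg hL]

theorem lat_isLatBasis_bot (b : Fin 0 → E) : IsLatBasis b (⊥ : Submodule ℤ E) := by
  refine ⟨linearIndependent_empty_type, ?_⟩
  rw [Set.range_eq_empty, span_empty]

theorem lat_isLat_bot : IsLat (⊥ : Submodule ℤ E) := ⟨0, Fin.elim0, lat_isLatBasis_bot _⟩

theorem lat_det_bot : latDet (⊥ : Submodule ℤ E) = 1 := by
  rw [lat_det_eq (lat_isLatBasis_bot Fin.elim0), lat_gramDet_zero, Real.sqrt_one]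

theorem lat_rank_bot : latRank (⊥ : Submodule ℤ E) = 0 := lat_rank_eq (lat_isLatBasis_bot Fin.elim0)

/-- the `ℤ`-span of an `ℝ`-independent family is a lattice. -/
theorem lat_isLatBasis_span {r : ℕ} {c : Fin r → E} (h : LinearIndependent ℝ c) :
    IsLatBasis c (span ℤ (Set.range c)) := ⟨h, rfl⟩

variable [FiniteDimensional ℝ E]

/-- a lattice is discrete. -/
theorem lat_discrete {L : Submodule ℤ E} (hL : IsLat L) : DiscreteTopology L := by
  obtain ⟨r, b, hli, hspan⟩ := hL
  have hs : LinearIndepOn ℝ id (Set.range b) := hli.linearIndepOn_id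
  let B := Basis.extend hs
  have : Finite (hs.extend (Set.subset_univ _)) := Module.Finite.finite_basis B
  have hd : DiscreteTopology (span ℤ (Set.range B)) := inferInstance
  have hle : L ≤ span ℤ (Set.range B) := by
    rw [← hspan]
    apply span_mono
    rw [Basis.range_extend]
    exact Basis.subset_extend hs
  exact DiscreteTopology.of_subset (s := (span ℤ (Set.range B) : Set E)) hd hle

/-- a discrete `ℤ`-submodule is a lattice. -/
theorem lat_of_discrete (L : Submodule ℤ E) [hd : DiscreteTopology L] : IsLat L := by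
  let c := Module.finBasis ℤ L
  let b : Fin (finrank ℤ L) → E := fun i => (c i : E)
  have hspan : span ℤ (Set.range b) = L := by
    have h1 : Set.range b = L.subtype '' Set.range c := by
      rw [← Set.range_comp]
      rfl
    rw [h1, ← Submodule.map_span, c.span_eq, Submodule.map_subtype_top]
  refine ⟨_, b, ?_, hspan⟩
  rw [linearIndependent_iff_card_eq_finrank_span, Fintype.card_fin]
  have hd' : DiscreteTopology (span ℤ (Set.range b)) := by rw [hspan]; exact hd
  rw [Real.finrank_eq_int_finrank_of_discrete hd', Set.finrank, hspan]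

theorem lat_of_le {L M : Submodule ℤ E} (hL : IsLat L) (h : M ≤ L) : IsLat M := by
  have hd := lat_discrete hL
  have : DiscreteTopology M := DiscreteTopology.of_subset (s := (L : Set E)) hd h
  exact lat_of_discrete M

theorem lat_rank_mono {L M : Submodule ℤ E} (h : M ≤ L) : latRank M ≤ latRank L :=
  Submodule.finrank_mono (lat_rspan_mono h)

/-- sublattice of the same rank has larger determinant. -/
theorem lat_det_le_of_le {L M : Submodule ℤ E} (hL : IsLat L) (h : M ≤ L)
    (hr : latRank M = latRank L) : latDet L ≤ latDet M := by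
  obtain ⟨r, b, hb⟩ := hL
  obtain ⟨k, c, hc⟩ := lat_of_le ⟨r, b, hb⟩ h
  have hk : k = r := by rw [← lat_rank_eq hc, hr, lat_rank_eq hb]
  subst hk
  rw [lat_det_eq hb, lat_det_eq hc]
  exact Real.sqrt_le_sqrt (lat_gramDet_le_of_mem hb (fun i => h (lat_basis_mem hc i)) hc.1)

/-! ### saturation -/

omit [FiniteDimensional ℝ E] in
theorem lat_le_sat {L M : Submodule ℤ E} (h : M ≤ L) : M ≤ latSat L M :=
  le_inf h (lat_le_rspan M)

omit [FiniteDimensional ℝ E] in
theorem lat_sat_le (L M : Submodule ℤ E) : latSat L M ≤ L := inf_le_left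

omit [FiniteDimensional ℝ E] in
theorem lat_rspan_sat {L M : Submodule ℤ E} (h : M ≤ L) : rspan (latSat L M) = rspan M := by
  apply le_antisymm
  · unfold rspan
    rw [span_le]
    intro x hx
    exact hx.2
  · exact lat_rspan_mono (lat_le_sat h)

omit [FiniteDimensional ℝ E] in
theorem lat_rank_sat {L M : Submodule ℤ E} (h : M ≤ L) : latRank (latSat L M) = latRank M := by
  unfold latRank
  rw [lat_rspan_sat h]

omit [FiniteDimensional ℝ E] in
theorem lat_sat_isPrim {L M : Submodule ℤ E} (h : M ≤ L) : IsPrim L (latSat L M) := by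
  refine ⟨lat_sat_le L M, ?_⟩
  unfold latSat
  rw [show rspan (L ⊓ (rspan M).restrictScalars ℤ) = rspan M from lat_rspan_sat h]

theorem lat_sat_isLat {L : Submodule ℤ E} (hL : IsLat L) (M : Submodule ℤ E) :
    IsLat (latSat L M) := lat_of_le hL (lat_sat_le L M)

theorem lat_det_sat_le {L M : Submodule ℤ E} (hL : IsLat L) (h : M ≤ L) :
    latDet (latSat L M) ≤ latDet M :=
  lat_det_le_of_le (lat_sat_isLat hL M) (lat_le_sat h) (lat_rank_sat h).symm

omit [FiniteDimensional ℝ E] in
theorem lat_isPrim_bot (L : Submodule ℤ E) : IsPrim L ⊥ := by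
  refine ⟨bot_le, ?_⟩
  unfold latSat rspan
  rw [eq_bot_iff]
  rintro x ⟨-, hx⟩
  simpa using hx

omit [FiniteDimensional ℝ E] in
theorem lat_isPrim_self (L : Submodule ℤ E) : IsPrim L L :=
  ⟨le_rfl, le_antisymm (lat_sat_le L L) (lat_le_sat le_rfl)⟩

omit [FiniteDimensional ℝ E] in
theorem lat_isPrim_mem {L K : Submodule ℤ E} (hK : IsPrim L K) {x : E} (hx : x ∈ L)
    (hx' : x ∈ rspan K) : x ∈ K := by
  rw [← hK.2]
  exact ⟨hx, hx'⟩

/-! ### tuple form of `DetLB` -/

theorem lat_detLB_iff_tuples {L : Submodule ℤ E} (hL : IsLat L) {T : ℝ} (hT : 0 ≤ T) :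
    DetLB T L ↔ ∀ (k : ℕ) (c : Fin k → E), (∀ i, c i ∈ L) → LinearIndependent ℝ c →
      T ^ (2 * k) ≤ gramDet c := by
  constructor
  · intro h k c hc hli
    have hb := lat_isLatBasis_span hli
    have hle : span ℤ (Set.range c) ≤ L := by
      rw [span_le]
      rintro _ ⟨i, rfl⟩
      exact hc i
    have := h _ hle
    rw [lat_rank_eq hb] at this
    rw [← lat_det_sq hb, mul_comm, pow_mul]
    exact pow_le_pow_left₀ (pow_nonneg hT k) this 2
  · intro h M hM
    obtain ⟨k, c, hc⟩ := lat_of_le hL hM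
    rw [lat_rank_eq hc, lat_det_eq hc]
    apply Real.le_sqrt_of_sq_le
    rw [← pow_mul, mul_comm]
    exact h k c (fun i => hM (lat_basis_mem hc i)) hc.1

omit [FiniteDimensional ℝ E] in
theorem lat_detLB_mono {L M : Submodule ℤ E} {T : ℝ} (h : DetLB T L) (hM : M ≤ L) : DetLB T M :=
  fun M' hM' => h M' (hM'.trans hM)

end General

end Claimed.Agent.R293
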