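/-
R293 / LatQuot.lean  (owner: helper74).  Quotients of Euclidean lattices by primitive sublattices
(paper A, Lemma 3.1, without duals): adapted bases, rank and determinant are additive /
multiplicative, lifts of sublattices of the quotient, iterated quotients.
-/
import Claimed.Agent.R293.LatBasic

set_option autoImplicit false

namespace Claimed.Agent.R293

open Submodule Module Matrix
open scoped RealInnerProductSpace

section General
variable {E : Type*} [NormedAddCommGroup E] [InnerProductSpace ℝ E]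

theorem lat_isTorsionFree_int : IsTorsionFree ℤ E := by
  apply Module.IsTorsionFree.of_smul_eq_zero
  intro r m h
  rw [← Int.cast_smul_eq_zsmul ℝ r m, smul_eq_zero] at h
  simpa using h

theorem lat_fg {L : Submodule ℤ E} (hL : IsLat L) : L.FG := by
  obtain ⟨r, b, -, hb⟩ := hL
  rw [← hb]
  exact Submodule.fg_span (Set.finite_range b)

theorem lat_linearIndependent_int {ι : Type*} {b : ι → E} (h : LinearIndependent ℝ b) :
    LinearIndependent ℤ b :=
  h.restrict_scalars' ℤ

theorem lat_finrank_int {r : ℕ} {b : Fin r → E} {L : Submodule ℤ E} (h : IsLatBasis b L) :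
    finrank ℤ L = r := by
  rw [← h.2, finrank_span_eq_card (lat_linearIndependent_int h.1), Fintype.card_fin]

omit [NormedAddCommGroup E] [InnerProductSpace ℝ E] in
theorem lat_range_append {k l : ℕ} (b : Fin k → E) (c : Fin l → E) :
    Set.range (Fin.append b c) = Set.range b ∪ Set.range c := by
  ext x
  constructor
  · rintro ⟨i, rfl⟩
    refine Fin.addCases (fun i => ?_) (fun j => ?_) i
    · rw [Fin.append_left]; exact Or.inl ⟨i, rfl⟩
    · rw [Fin.append_right]; exact Or.inr ⟨j, rfl⟩
  · rintro (⟨i, rfl⟩ | ⟨j, rfl⟩)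
    · exact ⟨Fin.castAdd l i, Fin.append_left _ _ _⟩
    · exact ⟨Fin.natAdd k j, Fin.append_right _ _ _⟩

variable [FiniteDimensional ℝ E]

theorem lat_mem_quot {L K : Submodule ℤ E} {y : E} :
    y ∈ latQuot L K ↔ ∃ x ∈ L, perpProj (rspan K) x = y := by
  unfold latQuot latProj
  rw [Submodule.mem_map]
  rfl

theorem lat_perpProj_mem_quot {L : Submodule ℤ E} (K : Submodule ℤ E) {x : E} (hx : x ∈ L) :
    perpProj (rspan K) x ∈ latQuot L K :=
  lat_mem_quot.2 ⟨x, hx, rfl⟩

/-- **Adapted bases**: a basis of a primitive sublattice extends to a basis of the lattice, and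
the projections of the new vectors form a basis of the quotient. -/
theorem lat_exists_adapted_basis {L K : Submodule ℤ E} (hL : IsLat L) (hK : IsPrim L K) :
    ∃ (k l : ℕ) (b : Fin k → E) (c : Fin l → E), IsLatBasis b K ∧
      IsLatBasis (Fin.append b c) L ∧ IsLatBasis (perpProj (rspan K) ∘ c) (latQuot L K) := by
  obtain ⟨k, b, hb⟩ := lat_of_le hL hK.1
  obtain ⟨r, b0, hb0⟩ := hL
  have hL : IsLat L := ⟨r, b0, hb0⟩
  set π : E →ₗ[ℤ] E := (perpProj (rspan K)).restrictScalars ℤ with hπ
  have hπa : ∀ x, π x = perpProj (rspan K) x := fun _ => rfl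
  set Q : Submodule ℤ E := latQuot L K with hQ
  have hQmap : Q = L.map π := rfl
  have hfg : Q.FG := by
    rw [hQmap]
    exact (lat_fg hL).map π
  have : Module.Finite ℤ Q := Module.Finite.iff_fg.2 hfg
  have : IsTorsionFree ℤ E := lat_isTorsionFree_int
  have : Module.Free ℤ Q := Module.free_of_finite_type_torsion_free'
  set l := finrank ℤ Q with hl
  let q : Basis (Fin l) ℤ Q := Module.finBasis ℤ Q
  have hlift : ∀ j, ∃ x ∈ L, π x = (q j : E) := fun j => by
    have h : (q j : E) ∈ L.map π := (q j).2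
    exact Submodule.mem_map.1 h
  choose c hcL hcq using hlift
  have hπc : π ∘ c = fun j => (q j : E) := funext hcq
  -- `ℤ`-independence of `π ∘ c`
  have hqind : LinearIndependent ℤ (π ∘ c) := by
    rw [hπc]
    exact q.linearIndependent.map' Q.subtype (Submodule.ker_subtype Q)
  have hcind : LinearIndependent ℤ c := LinearIndependent.of_comp π hqind
  have hspanq : span ℤ (Set.range (π ∘ c)) = Q := by
    rw [hπc]
    have h1 : (Set.range fun j => (q j : E)) = Q.subtype '' Set.range q := by
      rw [← Set.range_comp]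
      rfl
    rw [h1, ← Submodule.map_span, q.span_eq, Submodule.map_subtype_top]
  have hKker : ∀ x ∈ K, π x = 0 := fun x hx =>
    lat_perpProj_eq_zero (lat_le_rspan K hx)
  -- the appended family spans `L`
  have hspan : span ℤ (Set.range (Fin.append b c)) = L := by
    rw [lat_range_append, span_union, hb.2]
    apply le_antisymm
    · refine sup_le hK.1 ?_
      rw [span_le]
      rintro _ ⟨j, rfl⟩
      exact hcL j
    · intro x hx
      have hx1 : π x ∈ span ℤ (Set.range (π ∘ c)) := by
        rw [hspanq, hQmap]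
        exact Submodule.mem_map_of_mem hx
      rw [Set.range_comp, Submodule.span_image, Submodule.mem_map] at hx1
      obtain ⟨y, hy, hyx⟩ := hx1
      have hyL : y ∈ L := by
        refine (span_le.2 ?_ : span ℤ (Set.range c) ≤ L) hy
        rintro _ ⟨j, rfl⟩
        exact hcL j
      have hz : x - y ∈ K := by
        apply lat_isPrim_mem hK (L.sub_mem hx hyL)
        apply lat_perpProj_eq_zero_iff.1
        rw [← hπa, map_sub, hyx, sub_self]
      have : x = (x - y) + y := by abel
      rw [this]
      exact Submodule.add_mem_sup hz hy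
  -- `ℤ`-independence of the appended family
  have hdisj : Disjoint (span ℤ (Set.range b)) (span ℤ (Set.range c)) := by
    rw [Submodule.disjoint_def]
    intro x hxb hxc
    rw [hb.2] at hxb
    have h0 := hKker x hxb
    obtain ⟨a, rfl⟩ := (Submodule.mem_span_range_iff_exists_fun ℤ).1 hxc
    rw [map_sum] at h0
    simp only [map_smul] at h0
    have ha := (Fintype.linearIndependent_iff.1 hqind) a h0
    simp [ha]
  have hind : LinearIndependent ℤ (Fin.append b c) := by
    rw [← linearIndependent_equiv finSumFinEquiv, lat_append_comp_equiv]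
    exact (lat_linearIndependent_int hb.1).sum_type hcind hdisj
  have hcard : k + l = r := by
    have h1 := finrank_span_eq_card hind
    rw [hspan, lat_finrank_int hb0, Fintype.card_fin] at h1
    exact h1.symm
  have hindR : LinearIndependent ℝ (Fin.append b c) := by
    rw [linearIndependent_iff_card_eq_finrank_span, Fintype.card_fin, Set.finrank,
      ← Submodule.span_span_of_tower ℤ ℝ, hspan, hcard]
    exact (lat_rank_eq hb0).symm
  refine ⟨k, l, b, c, hb, ⟨hindR, hspan⟩, ?_, hspanq⟩
  have hpos := lat_gramDet_pos hindR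
  rw [lat_gramDet_append, ← lat_rspan_eq hb] at hpos
  apply lat_gramDet_ne_zero_iff.1
  intro h0
  rw [h0, mul_zero] at hpos
  exact lt_irrefl _ hpos

/-! ### rank and determinant of the quotient -/

theorem lat_quot_isLat {L K : Submodule ℤ E} (hL : IsLat L) (hK : IsPrim L K) :
    IsLat (latQuot L K) := by
  obtain ⟨k, l, b, c, -, -, hq⟩ := lat_exists_adapted_basis hL hK
  exact ⟨l, _, hq⟩

theorem lat_rank_quot {L K : Submodule ℤ E} (hL : IsLat L) (hK : IsPrim L K) :
    latRank L = latRank K + latRank (latQuot L K) := by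
  obtain ⟨k, l, b, c, hb, hbc, hq⟩ := lat_exists_adapted_basis hL hK
  rw [lat_rank_eq hb, lat_rank_eq hbc, lat_rank_eq hq]

theorem lat_det_quot {L K : Submodule ℤ E} (hL : IsLat L) (hK : IsPrim L K) :
    latDet L = latDet K * latDet (latQuot L K) := by
  obtain ⟨k, l, b, c, hb, hbc, hq⟩ := lat_exists_adapted_basis hL hK
  rw [lat_det_eq hb, lat_det_eq hbc, lat_det_eq hq, lat_gramDet_append, ← lat_rspan_eq hb,
    Real.sqrt_mul (lat_gramDet_nonneg b)]

theorem lat_quot_le_orth (L K : Submodule ℤ E) :
    latQuot L K ≤ ((rspan K)ᗮ).restrictScalars ℤ := by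
  intro y hy
  obtain ⟨x, -, rfl⟩ := lat_mem_quot.1 hy
  exact lat_perpProj_apply_mem _ _

theorem lat_rspan_quot_le_orth (L K : Submodule ℤ E) : rspan (latQuot L K) ≤ (rspan K)ᗮ := by
  unfold rspan
  rw [span_le]
  exact lat_quot_le_orth L K

theorem lat_quot_mono {L L' : Submodule ℤ E} (h : L ≤ L') (K : Submodule ℤ E) :
    latQuot L K ≤ latQuot L' K :=
  Submodule.map_mono h

omit [FiniteDimensional ℝ E] in
theorem lat_rspan_bot : rspan (⊥ : Submodule ℤ E) = ⊥ := by
  unfold rspan
  simp

theorem lat_perpProj_bot (x : E) : perpProj (⊥ : Submodule ℝ E) x = x :=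
  lat_perpProj_eq_self (by simp)

theorem lat_quot_bot (L : Submodule ℤ E) : latQuot L ⊥ = L := by
  ext y
  rw [lat_mem_quot, lat_rspan_bot]
  simp [lat_perpProj_bot]

theorem lat_quot_self (L : Submodule ℤ E) : latQuot L L = ⊥ := by
  rw [eq_bot_iff]
  intro y hy
  obtain ⟨x, hx, rfl⟩ := lat_mem_quot.1 hy
  rw [Submodule.mem_bot]
  exact lat_perpProj_eq_zero (lat_le_rspan L hx)

/-! ### lifts of sublattices of the quotient -/

theorem lat_mem_lift {L K M : Submodule ℤ E} {x : E} :
    x ∈ latLift L K M ↔ x ∈ L ∧ perpProj (rspan K) x ∈ M := Iff.rfl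

theorem lat_lift_le (L K M : Submodule ℤ E) : latLift L K M ≤ L := inf_le_left

theorem lat_lift_isLat {L : Submodule ℤ E} (hL : IsLat L) (K M : Submodule ℤ E) :
    IsLat (latLift L K M) := lat_of_le hL (lat_lift_le L K M)

theorem lat_le_lift {L K : Submodule ℤ E} (hK : K ≤ L) (M : Submodule ℤ E) :
    K ≤ latLift L K M := by
  intro x hx
  refine lat_mem_lift.2 ⟨hK hx, ?_⟩
  rw [lat_perpProj_eq_zero (lat_le_rspan K hx)]
  exact M.zero_mem

theorem lat_isPrim_lift {L K : Submodule ℤ E} (hK : IsPrim L K) (M : Submodule ℤ E) :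
    IsPrim (latLift L K M) K := by
  refine ⟨lat_le_lift hK.1 M, le_antisymm ?_ (lat_le_sat (lat_le_lift hK.1 M))⟩
  rintro x ⟨hx, hx'⟩
  exact lat_isPrim_mem hK (lat_lift_le L K M hx) hx'

theorem lat_quot_lift {L K M : Submodule ℤ E} (hM : M ≤ latQuot L K) :
    latQuot (latLift L K M) K = M := by
  ext y
  rw [lat_mem_quot]
  constructor
  · rintro ⟨x, hx, rfl⟩
    exact (lat_mem_lift.1 hx).2
  · intro hy
    obtain ⟨x, hx, rfl⟩ := lat_mem_quot.1 (hM hy)
    exact ⟨x, lat_mem_lift.2 ⟨hx, hy⟩, rfl⟩

theorem lat_rank_lift {L K M : Submodule ℤ E} (hL : IsLat L) (hK : IsPrim L K)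
    (hM : M ≤ latQuot L K) : latRank (latLift L K M) = latRank K + latRank M := by
  rw [lat_rank_quot (lat_lift_isLat hL K M) (lat_isPrim_lift hK M), lat_quot_lift hM]

theorem lat_det_lift {L K M : Submodule ℤ E} (hL : IsLat L) (hK : IsPrim L K)
    (hM : M ≤ latQuot L K) : latDet (latLift L K M) = latDet K * latDet M := by
  rw [lat_det_quot (lat_lift_isLat hL K M) (lat_isPrim_lift hK M), lat_quot_lift hM]

theorem lat_lift_bot {L K : Submodule ℤ E} (hK : IsPrim L K) : latLift L K ⊥ = K := by
  apply le_antisymm _ (lat_le_lift hK.1 ⊥)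
  intro x hx
  obtain ⟨hxL, hx0⟩ := lat_mem_lift.1 hx
  exact lat_isPrim_mem hK hxL (lat_perpProj_eq_zero_iff.1 ((Submodule.mem_bot ℤ).1 hx0))

theorem lat_lift_mono (L K : Submodule ℤ E) {M M' : Submodule ℤ E} (h : M ≤ M') :
    latLift L K M ≤ latLift L K M' :=
  inf_le_inf_left _ (Submodule.comap_mono h)

/-- the projection maps the real span of the lift into the real span of `M`. -/
theorem lat_perpProj_mem_rspan_of_lift {L K M : Submodule ℤ E} {x : E}
    (hx : x ∈ rspan (latLift L K M)) : perpProj (rspan K) x ∈ rspan M := by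
  have h : rspan (latLift L K M) ≤ (rspan M).comap (perpProj (rspan K)) := by
    unfold rspan
    rw [span_le]
    intro z hz
    exact subset_span (lat_mem_lift.1 hz).2
  exact h hx

theorem lat_lift_isPrim {L K M : Submodule ℤ E} (hM : IsPrim (latQuot L K) M) :
    IsPrim L (latLift L K M) := by
  refine ⟨lat_lift_le L K M, le_antisymm ?_ (lat_le_sat (lat_lift_le L K M))⟩
  rintro x ⟨hx, hx'⟩
  exact lat_mem_lift.2 ⟨hx, lat_isPrim_mem hM (lat_perpProj_mem_quot K hx)
    (lat_perpProj_mem_rspan_of_lift hx')⟩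

/-- characterisation of the projection. -/
theorem lat_perpProj_eq_of {F : Submodule ℝ E} {x y : E} (hy : y ∈ Fᗮ) (hxy : x - y ∈ F) :
    perpProj F x = y := by
  have : x = (x - y) + y := by abel
  rw [this, map_add, lat_perpProj_eq_zero hxy, lat_perpProj_eq_self hy, zero_add]

theorem lat_rspan_le_rspan_lift {L K M : Submodule ℤ E} (hK : K ≤ L) (hM : M ≤ latQuot L K) :
    rspan M ≤ rspan (latLift L K M) := by
  have hKG : rspan K ≤ rspan (latLift L K M) := lat_rspan_mono (lat_le_lift hK M)
  conv_lhs => unfold rspan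
  rw [span_le]
  intro y hy
  obtain ⟨x, hx, rfl⟩ := lat_mem_quot.1 (hM hy)
  have h1 : x ∈ rspan (latLift L K M) := lat_le_rspan _ (lat_mem_lift.2 ⟨hx, hy⟩)
  have h2 := hKG (lat_sub_perpProj_mem (rspan K) x)
  have : perpProj (rspan K) x = x - (x - perpProj (rspan K) x) := by abel
  rw [SetLike.mem_coe, this]
  exact Submodule.sub_mem _ h1 h2

/-- projecting off `K` and then off `M ⊆ L / K` is projecting off the lift of `M`. -/
theorem lat_perpProj_perpProj {L K M : Submodule ℤ E} (hK : K ≤ L) (hM : M ≤ latQuot L K)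
    (x : E) :
    perpProj (rspan M) (perpProj (rspan K) x) = perpProj (rspan (latLift L K M)) x := by
  symm
  have hKG : rspan K ≤ rspan (latLift L K M) := lat_rspan_mono (lat_le_lift hK M)
  have hMG := lat_rspan_le_rspan_lift hK hM
  have hMK : rspan M ≤ (rspan K)ᗮ := (lat_rspan_mono hM).trans (lat_rspan_quot_le_orth L K)
  set u := perpProj (rspan K) x with hu
  set y := perpProj (rspan M) u with hy
  have hyM : y ∈ (rspan M)ᗮ := lat_perpProj_apply_mem _ _
  have huy : u - y ∈ rspan M := lat_sub_perpProj_mem _ _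
  have hyK : y ∈ (rspan K)ᗮ := by
    have : y = u - (u - y) := by abel
    rw [this]
    exact Submodule.sub_mem _ (lat_perpProj_apply_mem _ _) (hMK huy)
  apply lat_perpProj_eq_of
  · rw [Submodule.mem_orthogonal]
    intro z hz
    have hz1 : perpProj (rspan K) z ∈ rspan M := lat_perpProj_mem_rspan_of_lift hz
    have hz2 : z - perpProj (rspan K) z ∈ rspan K := lat_sub_perpProj_mem _ _
    have : z = (z - perpProj (rspan K) z) + perpProj (rspan K) z := by abel
    rw [this, inner_add_left, (Submodule.mem_orthogonal _ _).1 hyK _ hz2,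
      (Submodule.mem_orthogonal _ _).1 hyM _ hz1, add_zero]
  · have : x - y = (x - u) + (u - y) := by abel
    rw [this]
    exact Submodule.add_mem _ (hKG (lat_sub_perpProj_mem _ _)) (hMG huy)

theorem lat_quot_quot {L K M : Submodule ℤ E} (hK : K ≤ L) (hM : M ≤ latQuot L K) :
    latQuot (latQuot L K) M = latQuot L (latLift L K M) := by
  ext y
  rw [lat_mem_quot, lat_mem_quot]
  constructor
  · rintro ⟨u, hu, rfl⟩
    obtain ⟨x, hx, rfl⟩ := lat_mem_quot.1 hu
    exact ⟨x, hx, (lat_perpProj_perpProj hK hM x).symm⟩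
  · rintro ⟨x, hx, rfl⟩
    exact ⟨_, lat_perpProj_mem_quot K hx, lat_perpProj_perpProj hK hM x⟩

end General

end Claimed.Agent.R293
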