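/-
R293 / LatMin.lean  (owner: helper74).  Determinant threshold sublattice (paper A, Lemma 3.6):
every lattice `L` has a primitive sublattice `L0` with `det L0 ≤ T ^ rank L0` such that all
sublattices `M` of `L / L0` satisfy `det M ≥ T ^ rank M`.  No minimiser is needed: greedy induction
on the rank.
-/
import Claimed.Agent.R293.LatQuot

set_option autoImplicit false

namespace Claimed.Agent.R293

open Submodule Module Matrix
open scoped RealInnerProductSpace

section General
variable {E : Type*} [NormedAddCommGroup E] [InnerProductSpace ℝ E] [FiniteDimensional ℝ E]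

theorem lat_eq_bot_of_rank_eq_zero {M : Submodule ℤ E} (h : latRank M = 0) : M = ⊥ := by
  unfold latRank at h
  rw [Submodule.finrank_eq_zero] at h
  rw [eq_bot_iff]
  intro x hx
  have := lat_le_rspan M hx
  rw [Submodule.restrictScalars_mem, h, Submodule.mem_bot] at this
  exact (Submodule.mem_bot ℤ).2 this

theorem lat_rank_pos_of_ne_bot {M : Submodule ℤ E} (h : M ≠ ⊥) : 0 < latRank M :=
  Nat.pos_of_ne_zero fun h0 => h (lat_eq_bot_of_rank_eq_zero h0)

/-- **Determinant threshold sublattice** (A, Lemma 3.6). -/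
theorem lat_exists_threshold {L : Submodule ℤ E} (hL : IsLat L) {T : ℝ} (hT : 0 < T) :
    ∃ L0 : Submodule ℤ E, IsPrim L L0 ∧ latDet L0 ≤ T ^ latRank L0 ∧
      DetLB T (latQuot L L0) := by
  induction hn : latRank L using Nat.strong_induction_on generalizing L with
  | _ n ih =>
    by_cases hD : DetLB T L
    · refine ⟨⊥, lat_isPrim_bot L, ?_, ?_⟩
      · rw [lat_det_bot, lat_rank_bot, pow_zero]
      · rwa [lat_quot_bot]
    · unfold DetLB at hD
      push Not at hD
      obtain ⟨M, hML, hMdet⟩ := hD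
      have hMne : M ≠ ⊥ := by
        rintro rfl
        rw [lat_det_bot, lat_rank_bot, pow_zero] at hMdet
        exact lt_irrefl _ hMdet
      set Mb := latSat L M with hMb
      have hMbP : IsPrim L Mb := lat_sat_isPrim hML
      have hMbr : latRank Mb = latRank M := lat_rank_sat hML
      have hMbd : latDet Mb ≤ T ^ latRank Mb := by
        rw [hMbr]
        exact (lat_det_sat_le hL hML).trans hMdet.le
      have hQ : IsLat (latQuot L Mb) := lat_quot_isLat hL hMbP
      have hrk := lat_rank_quot hL hMbP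
      have hpos := lat_rank_pos_of_ne_bot hMne
      obtain ⟨L0p, hP, hdet, hLB⟩ := ih (latRank (latQuot L Mb)) (by omega) hQ rfl
      refine ⟨latLift L Mb L0p, lat_lift_isPrim hP, ?_, ?_⟩
      · rw [lat_det_lift hL hMbP hP.1, lat_rank_lift hL hMbP hP.1, pow_add]
        exact mul_le_mul hMbd hdet (lat_det_nonneg _) (pow_nonneg hT.le _)
      · rwa [← lat_quot_quot hMbP.1 hP.1]

omit [FiniteDimensional ℝ E] in
/-- rank bound for the threshold sublattice. -/
theorem lat_rank_le_of_det_le {L0 : Submodule ℤ E} {T T0 Δ : ℝ} (hT : 0 < T) (hTT0 : T < T0)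
    (h1 : latDet L0 ≤ T ^ latRank L0) (h2 : Real.exp (-Δ) * T0 ^ latRank L0 ≤ latDet L0) :
    (latRank L0 : ℝ) ≤ Δ / Real.log (T0 / T) := by
  set r := latRank L0 with hr
  have hT0 : 0 < T0 := hT.trans hTT0
  have hlog : 0 < Real.log (T0 / T) := Real.log_pos ((one_lt_div hT).2 hTT0)
  rw [le_div_iff₀ hlog]
  have h3 : Real.exp (-Δ) * T0 ^ r ≤ T ^ r := h2.trans h1
  have h4 : (T0 / T) ^ r ≤ Real.exp Δ := by
    rw [div_pow, div_le_iff₀ (pow_pos hT r)]
    have h5 : Real.exp Δ * (Real.exp (-Δ) * T0 ^ r) ≤ Real.exp Δ * T ^ r :=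
      mul_le_mul_of_nonneg_left h3 (Real.exp_pos _).le
    rwa [← mul_assoc, ← Real.exp_add, add_neg_cancel, Real.exp_zero, one_mul] at h5
  have h6 := Real.log_le_log (pow_pos (div_pos hT0 hT) r) h4
  rwa [Real.log_pow, Real.log_exp] at h6

/-- threshold sublattice together with the rank bound (the form used in A 3.8 and A 4.1). -/
theorem lat_exists_threshold_rank {L : Submodule ℤ E} (hL : IsLat L) {T T0 Δ : ℝ} (hT : 0 < T)
    (hTT0 : T < T0)
    (hlow : ∀ M : Submodule ℤ E, M ≤ L → Real.exp (-Δ) * T0 ^ latRank M ≤ latDet M) :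
    ∃ L0 : Submodule ℤ E, IsPrim L L0 ∧ latDet L0 ≤ T ^ latRank L0 ∧
      DetLB T (latQuot L L0) ∧ (latRank L0 : ℝ) ≤ Δ / Real.log (T0 / T) := by
  obtain ⟨L0, hP, hdet, hLB⟩ := lat_exists_threshold hL hT
  exact ⟨L0, hP, hdet, hLB, lat_rank_le_of_det_le hT hTT0 hdet (hlow L0 hP.1)⟩

end General

end Claimed.Agent.R293
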