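/-
R293 / LatIface.lean  (owner: helper195, LAT sub-captain).
Extra definitions of the LAT package on top of `LatDefs.lean`, the Reverse Minkowski interface statement, and the INDEX of the
LAT leaf files.  No sorry in this file.

STYLE OF THE LAT PACKAGE: LAT is a library.  Its interface consists of THEOREMS in leaf files; a leaf file is landed first with
its proofs replaced by `sorry` and is filled by its owner.  Users import the leaf files they need.

INDEX (A = symmetric Bernoulli paper, B = biased paper)
  LatDefs.lean     definitions (helper79 -> helper195)
  LatGram.lean     Gram determinants of tuples: base change, positivity, block formula, Hadamard, contraction   (helper256)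
  LatBasic.lean    latDet/latRank from any basis, sublattices, discreteness, index formula, saturation,
                   extension of a basis of a primitive sublattice, tuple form of DetLB                           (helper256)
  LatQuot.lean     A 3.1 without duals: quotient, lift                                                            (helper256)
  LatMin.lean      A 3.6 = B 3.3 determinant minimiser                                                            (helper256)
  GPois*.lean      Gaussian Poisson summation, summability, shift and scale inequalities                          (helper62)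
  LatDual.lean     A 3.1, dual part
  LatInt.lean      integral lattices, Z^m, subgroups of Z^m, integer points of subspaces, B (4.8), (4.9)
  LatHeight.lean   A 3.2
  LatNormal.lean   A 3.3
  LatShort.lean    shortest vectors
  LatGauss.lean    A 3.5, B 3.4, Banaszczyk tail, Minkowski's first theorem and the fibre count of A 4.1 from Poisson summation
  LatRobust.lean   A 3.8 = B 5.5
-/
import Claimed.Agent.R293.LatDefs

set_option autoImplicit false

namespace Claimed.Agent.R293

open Submodule Module
open scoped RealInnerProductSpace

section General
variable {E : Type*} [NormedAddCommGroup E] [InnerProductSpace ℝ E]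

/-- the points of `L` lying in the real subspace `F`. -/
def latCut (L : Submodule ℤ E) (F : Submodule ℝ E) : Submodule ℤ E := L ⊓ F.restrictScalars ℤ

/-- `L` is an integral lattice: all inner products are integers. -/
def latIntegral (L : Submodule ℤ E) : Prop := ∀ x ∈ L, ∀ y ∈ L, ∃ n : ℤ, ⟪x, y⟫ = n

/-- Gaussian mass of the shifted lattice `L - v`. -/
noncomputable def latMassAt (s : ℝ) (L : Submodule ℤ E) (v : E) : ℝ :=
  ∑' x : L, Real.exp (-(Real.pi * ‖(x : E) - v‖ ^ 2 / s ^ 2))

/-- number of lattice points in the closed ball of radius `R` around `v`. -/
noncomputable def latCountAt (R : ℝ) (L : Submodule ℤ E) (v : E) : ℕ := Nat.card {x : L // ‖(x : E) - v‖ ≤ R}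

theorem latCut_def (L : Submodule ℤ E) (F : Submodule ℝ E) : latCut L F = L ⊓ F.restrictScalars ℤ := rfl

theorem mem_latCut {L : Submodule ℤ E} {F : Submodule ℝ E} {x : E} : x ∈ latCut L F ↔ x ∈ L ∧ x ∈ F := Iff.rfl

theorem latSat_eq_latCut (L M : Submodule ℤ E) : latSat L M = latCut L (rspan M) := rfl

theorem latCut_le (L : Submodule ℤ E) (F : Submodule ℝ E) : latCut L F ≤ L := inf_le_left

end General

theorem latOf_eq_latCut {m : ℕ} (W : Submodule ℝ (EucM m)) : latOf W = latCut (intLat m) W := inf_comm _ _

/-- **Reverse Minkowski** (A Theorem 3.4) with the function `τ` in place of `10 (log j + 2)`.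
The RM package proves `StRM τ` for some `τ` with `τ j ≤ C (log (j + 2)) ^ c`. -/
def StRM (τ : ℕ → ℝ) : Prop :=
  ∀ (E : Type) [NormedAddCommGroup E] [InnerProductSpace ℝ E] [FiniteDimensional ℝ E]
    (L : Submodule ℤ E) (T : ℝ), IsLat L → 0 < T → DetLB T L → gaussMass (T / τ (latRank L)) L ≤ 3 / 2

/-- the growth condition on `τ` that all users can afford. -/
def RMGrowth (τ : ℕ → ℝ) (C : ℝ) (c : ℕ) : Prop :=
  ∀ j : ℕ, 1 ≤ τ j ∧ τ j ≤ C * Real.log ((j : ℝ) + 2) ^ c

end Claimed.Agent.R293
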