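/-
R293 / LatDual.lean  (LAT leaf; statements by helper195, proofs by helper74).
Dual lattices: paper A, Lemma 3.1 (dual part).  Prefix `latDual_`.
-/
import Claimed.Agent.R293.LatIface
import Claimed.Agent.R293.LatQuot

set_option autoImplicit false

namespace Claimed.Agent.R293

open Submodule Module
open scoped RealInnerProductSpace

section NoFD
variable {E : Type*} [NormedAddCommGroup E] [InnerProductSpace ℝ E]

/-- the dual family `b' i = ∑ j, (G⁻¹) i j • b j`, `G` the Gram matrix of `b`. -/
noncomputable def latDualFam {r : ℕ} (b : Fin r → E) (i : Fin r) : E :=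
  ∑ j, (Matrix.gram ℝ b)⁻¹ i j • b j

theorem latDual_gram_isUnit_det {r : ℕ} {b : Fin r → E} (h : LinearIndependent ℝ b) :
    IsUnit (Matrix.gram ℝ b).det :=
  isUnit_iff_ne_zero.2 (lat_det_gram_pos h).ne'

/-- biorthogonality. -/
theorem latDual_fam_inner {r : ℕ} {b : Fin r → E} (h : LinearIndependent ℝ b) (i j : Fin r) :
    ⟪latDualFam b i, b j⟫ = if i = j then 1 else 0 := by
  unfold latDualFam
  rw [sum_inner]
  simp only [real_inner_smul_left]
  have h1 : ∑ k, (Matrix.gram ℝ b)⁻¹ i k * ⟪b k, b j⟫ =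
      ((Matrix.gram ℝ b)⁻¹ * Matrix.gram ℝ b) i j := by
    rw [Matrix.mul_apply]
    rfl
  rw [h1, Matrix.nonsing_inv_mul _ (latDual_gram_isUnit_det h), Matrix.one_apply]

theorem latDual_fam_gramDet {r : ℕ} {b : Fin r → E} (h : LinearIndependent ℝ b) :
    gramDet (latDualFam b) = (gramDet b)⁻¹ := by
  have h0 : gramDet b ≠ 0 := (lat_gramDet_pos h).ne'
  have : latDualFam b = fun i => ∑ j, (Matrix.gram ℝ b)⁻¹ i j • b j := rfl
  rw [this, lat_gramDet_combo, Matrix.det_nonsing_inv, Ring.inverse_eq_inv']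
  change (gramDet b)⁻¹ ^ 2 * gramDet b = (gramDet b)⁻¹
  field_simp

/-- the Gram matrix of the dual family is the inverse Gram matrix. -/
theorem latDual_fam_gram {r : ℕ} {b : Fin r → E} (h : LinearIndependent ℝ b) :
    Matrix.gram ℝ (latDualFam b) = (Matrix.gram ℝ b)⁻¹ := by
  ext i j
  rw [Matrix.gram_apply]
  conv_lhs => rw [show latDualFam b j = ∑ k, (Matrix.gram ℝ b)⁻¹ j k • b k from rfl]
  rw [inner_sum]
  simp only [real_inner_smul_right, latDual_fam_inner h]
  simp only [mul_ite, mul_one, mul_zero, Finset.sum_ite_eq, Finset.mem_univ, if_true]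
  have hs : Matrix.transpose (Matrix.gram ℝ b)⁻¹ = (Matrix.gram ℝ b)⁻¹ := by
    rw [Matrix.transpose_nonsing_inv]
    congr 1
    ext a c
    simp [Matrix.gram_apply, real_inner_comm]
  exact congrFun (congrFun hs i) j

theorem latDual_fam_linearIndependent {r : ℕ} {b : Fin r → E} (h : LinearIndependent ℝ b) :
    LinearIndependent ℝ (latDualFam b) := by
  apply lat_gramDet_ne_zero_iff.1
  rw [latDual_fam_gramDet h]
  exact inv_ne_zero (lat_gramDet_pos h).ne'

theorem latDual_fam_span {r : ℕ} {b : Fin r → E} (h : LinearIndependent ℝ b) :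
    span ℝ (Set.range (latDualFam b)) = span ℝ (Set.range b) := by
  have hle : span ℝ (Set.range (latDualFam b)) ≤ span ℝ (Set.range b) := by
    rw [span_le]
    rintro _ ⟨i, rfl⟩
    exact Submodule.sum_mem _ fun j _ => Submodule.smul_mem _ _ (subset_span (Set.mem_range_self j))
  have : FiniteDimensional ℝ (span ℝ (Set.range b)) :=
    FiniteDimensional.span_of_finite ℝ (Set.finite_range b)
  apply Submodule.eq_of_le_of_finrank_eq hle
  rw [finrank_span_eq_card h, finrank_span_eq_card (latDual_fam_linearIndependent h)]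

/-- a real combination of `b'` with integer inner products against the biorthogonal family `b`
is an integer combination. -/
theorem latDual_mem_span_int {r : ℕ} {b b' : Fin r → E}
    (hbi : ∀ i j, ⟪b' i, b j⟫ = if i = j then 1 else 0) {y : E}
    (hy : y ∈ span ℝ (Set.range b')) (hint : ∀ j, ∃ n : ℤ, ⟪y, b j⟫ = n) :
    y ∈ span ℤ (Set.range b') := by
  obtain ⟨t, rfl⟩ := (Submodule.mem_span_range_iff_exists_fun ℝ).1 hy
  have ht : ∀ j, ⟪∑ i, t i • b' i, b j⟫ = t j := by
    intro j
    rw [sum_inner]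
    simp [real_inner_smul_left, hbi]
  choose n hn using hint
  have : ∑ i, t i • b' i = ∑ i, n i • b' i := by
    refine Finset.sum_congr rfl fun i _ => ?_
    rw [← ht i, hn i, Int.cast_smul_eq_zsmul]
  rw [this]
  exact Submodule.sum_mem _ fun i _ => Submodule.smul_mem _ _ (subset_span (Set.mem_range_self i))

theorem latDual_fam_isLatBasis {r : ℕ} {b : Fin r → E} {L : Submodule ℤ E} (hb : IsLatBasis b L) :
    IsLatBasis (latDualFam b) (latDual L) := by
  refine ⟨latDual_fam_linearIndependent hb.1, le_antisymm ?_ ?_⟩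
  · rw [span_le]
    rintro _ ⟨i, rfl⟩
    refine ⟨?_, fun x hx => ?_⟩
    · rw [lat_rspan_eq hb, ← latDual_fam_span hb.1]
      exact subset_span (Set.mem_range_self i)
    · obtain ⟨a, rfl⟩ := lat_exists_coeff hb hx
      refine ⟨a i, ?_⟩
      rw [inner_sum]
      simp [real_inner_smul_right, latDual_fam_inner hb.1]
  · intro y hy
    apply latDual_mem_span_int (latDual_fam_inner hb.1)
    · rw [latDual_fam_span hb.1, ← lat_rspan_eq hb]
      exact hy.1
    · exact fun j => hy.2 _ (lat_basis_mem hb j)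

/-- Dual basis.  `b' i = ∑ j, (G⁻¹) i j • b j` with `G = Matrix.gram ℝ b` (invertible because `b` is independent);
Gram matrix of `b'` is `G⁻¹`.  `y ∈ latDual L` has the expansion `y = ∑ i, ⟪y, b i⟫ • b' i`. -/
theorem latDual_basis {r : ℕ} {b : Fin r → E} {L : Submodule ℤ E} (hb : IsLatBasis b L) :
    ∃ b' : Fin r → E, IsLatBasis b' (latDual L) ∧ (∀ i j, ⟪b' i, b j⟫ = if i = j then 1 else 0) ∧
      gramDet b' = (gramDet b)⁻¹ ∧ span ℝ (Set.range b') = span ℝ (Set.range b) :=
  ⟨latDualFam b, latDual_fam_isLatBasis hb, latDual_fam_inner hb.1, latDual_fam_gramDet hb.1,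
    latDual_fam_span hb.1⟩

theorem latDual_isLat {L : Submodule ℤ E} (hL : IsLat L) : IsLat (latDual L) := by
  obtain ⟨r, b, hb⟩ := hL
  exact ⟨r, _, latDual_fam_isLatBasis hb⟩

theorem latDual_rspan {L : Submodule ℤ E} (hL : IsLat L) : rspan (latDual L) = rspan L := by
  obtain ⟨r, b, hb⟩ := hL
  rw [lat_rspan_eq hb, lat_rspan_eq (latDual_fam_isLatBasis hb), latDual_fam_span hb.1]

theorem latDual_rank {L : Submodule ℤ E} (hL : IsLat L) : latRank (latDual L) = latRank L := by
  unfold latRank
  rw [latDual_rspan hL]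

/-- `det L* = 1 / det L`. -/
theorem latDual_det {L : Submodule ℤ E} (hL : IsLat L) : latDet (latDual L) = (latDet L)⁻¹ := by
  obtain ⟨r, b, hb⟩ := hL
  rw [lat_det_eq hb, lat_det_eq (latDual_fam_isLatBasis hb), latDual_fam_gramDet hb.1,
    Real.sqrt_inv]

/-- `L** = L`. -/
theorem latDual_dual {L : Submodule ℤ E} (hL : IsLat L) : latDual (latDual L) = L := by
  have hr := latDual_rspan hL
  obtain ⟨r, b, hb⟩ := hL
  have hb' := latDual_fam_isLatBasis hb
  apply le_antisymm
  · intro x hx
    rw [← hb.2]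
    apply latDual_mem_span_int (b := latDualFam b) (b' := b)
    · intro i j
      rw [real_inner_comm, latDual_fam_inner hb.1]
      simp [eq_comm]
    · rw [← lat_rspan_eq hb, ← hr]
      exact hx.1
    · exact fun j => hx.2 _ (lat_basis_mem hb' j)
  · intro x hx
    refine ⟨?_, fun y hy => ?_⟩
    · rw [hr]
      exact lat_le_rspan L hx
    · obtain ⟨n, hn⟩ := hy.2 x hx
      exact ⟨n, by rw [real_inner_comm, hn]⟩

theorem latDual_inner_int {L : Submodule ℤ E} {x y : E} (hy : y ∈ latDual L) (hx : x ∈ L) :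
    ∃ n : ℤ, ⟪y, x⟫ = n := hy.2 x hx

theorem latDual_mem_rspan {L : Submodule ℤ E} {y : E} (hy : y ∈ latDual L) : y ∈ rspan L := hy.1

/-- the normal lattice `L* ∩ F^⊥` of a primitive `K` is primitive in `L*`. -/
theorem latDual_cut_prim (L : Submodule ℤ E) (F : Submodule ℝ E) : IsPrim L (latCut L F) := by
  refine ⟨latCut_le L F, le_antisymm ?_ (lat_le_sat (latCut_le L F))⟩
  rintro x ⟨hx, hx'⟩
  refine ⟨hx, ?_⟩
  have h : rspan (latCut L F) ≤ F := by
    unfold rspan
    rw [span_le]
    exact fun z hz => hz.2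
  exact h hx'

/-- the dual is antitone on lattices with the same span. -/
theorem latDual_antitone {L M : Submodule ℤ E} (hM : M ≤ L) (hr : rspan M = rspan L) :
    latDual L ≤ latDual M := by
  intro y hy
  exact ⟨hr ▸ hy.1, fun x hx => hy.2 x (hM hx)⟩

end NoFD

variable {E : Type*} [NormedAddCommGroup E] [InnerProductSpace ℝ E] [FiniteDimensional ℝ E]

/-- real span of the quotient. -/
theorem latDual_rspan_quot {L K : Submodule ℤ E} (hK : K ≤ L) :
    rspan (latQuot L K) = rspan L ⊓ (rspan K)ᗮ := by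
  apply le_antisymm
  · refine le_inf ?_ (lat_rspan_quot_le_orth L K)
    conv_lhs => unfold rspan
    rw [span_le]
    intro y hy
    obtain ⟨x, hx, rfl⟩ := lat_mem_quot.1 hy
    have h1 : x ∈ rspan L := lat_le_rspan L hx
    have h2 : x - perpProj (rspan K) x ∈ rspan L :=
      lat_rspan_mono hK (lat_sub_perpProj_mem (rspan K) x)
    have : perpProj (rspan K) x = x - (x - perpProj (rspan K) x) := by abel
    rw [SetLike.mem_coe, this]
    exact Submodule.sub_mem _ h1 h2
  · rintro y ⟨hy1, hy2⟩
    have h : rspan L ≤ (rspan (latQuot L K)).comap (perpProj (rspan K)) := by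
      conv_lhs => unfold rspan
      rw [span_le]
      intro x hx
      exact lat_le_rspan _ (lat_perpProj_mem_quot K hx)
    have := h hy1
    rwa [Submodule.mem_comap, lat_perpProj_eq_self hy2] at this

theorem latDual_inner_perpProj {F : Submodule ℝ E} {y : E} (hy : y ∈ Fᗮ) (x : E) :
    ⟪y, perpProj F x⟫ = ⟪y, x⟫ := by
  have h1 : ⟪x - perpProj F x, y⟫ = 0 :=
    (Submodule.mem_orthogonal _ _).1 hy _ (lat_sub_perpProj_mem F x)
  rw [inner_sub_left, sub_eq_zero] at h1
  rw [real_inner_comm, ← h1, real_inner_comm]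

/-- `(L/K)* = L* ∩ F^⊥`, `F = span K`  (only `K ≤ L` is needed:  `rspan (latQuot L K) = rspan L ⊓ Fᗮ` and
`⟪y, π x⟫ = ⟪y, x⟫` for `y ⊥ F`). -/
theorem latDual_quot {L K : Submodule ℤ E} (hK : K ≤ L) :
    latDual (latQuot L K) = latCut (latDual L) (rspan K)ᗮ := by
  ext y
  constructor
  · rintro ⟨hy1, hy2⟩
    rw [latDual_rspan_quot hK] at hy1
    refine ⟨⟨hy1.1, fun x hx => ?_⟩, hy1.2⟩
    rw [← latDual_inner_perpProj hy1.2]
    exact hy2 _ (lat_perpProj_mem_quot K hx)
  · rintro ⟨⟨hy1, hy2⟩, hy3⟩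
    refine ⟨?_, fun u hu => ?_⟩
    · rw [latDual_rspan_quot hK]
      exact ⟨hy1, hy3⟩
    · obtain ⟨x, hx, rfl⟩ := lat_mem_quot.1 hu
      rw [latDual_inner_perpProj hy3]
      exact hy2 x hx

/-- `K* = π_F (L*)` for a primitive `K`.  (`latProj Fᗮ` is the orthogonal projection onto `Fᗮᗮ = F`.)
`⊆` of the paper: extend a basis of `K` to a basis of `L`, take the element of the dual basis expansion with the prescribed
integer values on `b_i (i ≤ k)` and `0` on the others. -/
theorem latDual_proj {L K : Submodule ℤ E} (hL : IsLat L) (hK : IsPrim L K) :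
    latProj (rspan K)ᗮ (latDual L) = latDual K := by
  have hFF : ((rspan K)ᗮ)ᗮ = rspan K := Submodule.orthogonal_orthogonal _
  have hin : ∀ (y : E) {x : E}, x ∈ rspan K → ⟪perpProj (rspan K)ᗮ y, x⟫ = ⟪y, x⟫ := by
    intro y x hx
    rw [real_inner_comm, latDual_inner_perpProj (by rwa [hFF]), real_inner_comm]
  apply le_antisymm
  · rintro _ ⟨y, hy, rfl⟩
    refine ⟨?_, fun x hx => ?_⟩
    · have := lat_perpProj_apply_mem (rspan K)ᗮ y
      rwa [hFF] at this
    · change ∃ n : ℤ, ⟪perpProj (rspan K)ᗮ y, x⟫ = n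
      rw [hin y (lat_le_rspan K hx)]
      exact hy.2 x (hK.1 hx)
  · intro y hy
    obtain ⟨k, l, b, c, hb, hbc, -⟩ := lat_exists_adapted_basis hL hK
    have hd := latDual_fam_isLatBasis hbc
    choose n hn using fun i => hy.2 _ (lat_basis_mem hb i)
    set z : E := ∑ i, n i • latDualFam (Fin.append b c) (Fin.castAdd l i) with hz
    have hzL : z ∈ latDual L :=
      Submodule.sum_mem _ fun i _ => Submodule.smul_mem _ _ (lat_basis_mem hd _)
    refine ⟨z, hzL, ?_⟩
    change perpProj (rspan K)ᗮ z = y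
    -- both sides lie in `rspan K` and have the same inner products with the `b j`
    have h1 : perpProj (rspan K)ᗮ z ∈ rspan K := by
      have := lat_perpProj_apply_mem (rspan K)ᗮ z
      rwa [hFF] at this
    have h2 : perpProj (rspan K)ᗮ z - y ∈ rspan K := Submodule.sub_mem _ h1 hy.1
    have h3 : ∀ j, ⟪perpProj (rspan K)ᗮ z - y, b j⟫ = 0 := by
      intro j
      rw [inner_sub_left, hin z (lat_le_rspan K (lat_basis_mem hb j)), hn j, hz, sum_inner]
      have : ∀ i, ⟪n i • latDualFam (Fin.append b c) (Fin.castAdd l i), b j⟫ =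
          if i = j then (n i : ℝ) else 0 := by
        intro i
        rw [← Int.cast_smul_eq_zsmul ℝ, real_inner_smul_left,
          ← Fin.append_left b c j, latDual_fam_inner hbc.1]
        by_cases hij : i = j
        · simp [hij]
        · have : Fin.castAdd l i ≠ Fin.castAdd l j := fun h => hij (Fin.castAdd_injective _ _ h)
          simp [hij, this]
      simp [this]
    have h4 : perpProj (rspan K)ᗮ z - y ∈ (rspan K)ᗮ := by
      rw [Submodule.mem_orthogonal]
      intro u hu
      rw [lat_rspan_eq hb] at hu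
      induction hu using Submodule.span_induction with
      | mem u hu =>
        obtain ⟨j, rfl⟩ := hu
        rw [real_inner_comm]
        exact h3 j
      | zero => simp
      | add u v _ _ hu hv => rw [inner_add_left, hu, hv, add_zero]
      | smul t u _ hu => rw [real_inner_smul_left, hu, mul_zero]
    have h5 : perpProj (rspan K)ᗮ z - y = 0 := by
      have := (Submodule.mem_orthogonal _ _).1 h4 _ h2
      exact inner_self_eq_zero.1 this
    exact sub_eq_zero.1 h5

/-- rank of the normal lattice. -/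
theorem latDual_cut_rank {L K : Submodule ℤ E} (hL : IsLat L) (hK : IsPrim L K) :
    latRank (latCut (latDual L) (rspan K)ᗮ) + latRank K = latRank L := by
  rw [← latDual_quot hK.1, latDual_rank (lat_quot_isLat hL hK), lat_rank_quot hL hK, add_comm]

/-- real span of the normal lattice. -/
theorem latDual_cut_rspan {L K : Submodule ℤ E} (hL : IsLat L) (hK : IsPrim L K) :
    rspan (latCut (latDual L) (rspan K)ᗮ) = rspan L ⊓ (rspan K)ᗮ := by
  rw [← latDual_quot hK.1, latDual_rspan (lat_quot_isLat hL hK), latDual_rspan_quot hK.1]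

/-- determinant of the normal lattice: `det (L* ∩ F^⊥) = det K / det L`. -/
theorem latDual_cut_det {L K : Submodule ℤ E} (hL : IsLat L) (hK : IsPrim L K) :
    latDet (latCut (latDual L) (rspan K)ᗮ) = latDet K / latDet L := by
  have hK0 : latDet K ≠ 0 := (lat_det_pos (lat_of_le hL hK.1)).ne'
  have hQ0 : latDet (latQuot L K) ≠ 0 := (lat_det_pos (lat_quot_isLat hL hK)).ne'
  rw [← latDual_quot hK.1, latDual_det (lat_quot_isLat hL hK), lat_det_quot hL hK]
  field_simp

/-- **Rationality from duality**: for `M ≤ L*` the subspace `span L ∩ (span M)^⊥` is spanned by points of `L`.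
Proof: `N = latSat (latDual L) M` is primitive in `L*`; by `latDual_quot` and `latDual_dual`,
`latDual (latQuot (latDual L) N) = latCut L (rspan M)ᗮ`; its rank is `rank L - rank M = dim (span L ∩ (span M)^⊥)`. -/
theorem latDual_perp_rspan {L M : Submodule ℤ E} (hL : IsLat L) (hM : M ≤ latDual L) :
    rspan (latCut L (rspan M)ᗮ) = rspan L ⊓ (rspan M)ᗮ := by
  have h := latDual_cut_rspan (latDual_isLat hL) (lat_sat_isPrim hM)
  rwa [latDual_dual hL, lat_rspan_sat hM, latDual_rspan hL] at h

/-- determinant companion of `latDual_perp_rspan`: `det (L ∩ (span M)^⊥) = det (sat M) * det L`. -/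
theorem latDual_perp_det {L M : Submodule ℤ E} (hL : IsLat L) (hM : M ≤ latDual L) :
    latDet (latCut L (rspan M)ᗮ) = latDet (latSat (latDual L) M) * latDet L := by
  have h := latDual_cut_det (latDual_isLat hL) (lat_sat_isPrim hM)
  rwa [latDual_dual hL, lat_rspan_sat hM, latDual_det hL, div_inv_eq_mul] at h

end Claimed.Agent.R293
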