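/-
R293 / LatIndex.lean  (owner: helper195).   The index formula `det M = [L : M] det L` for sublattices of full rank.
Prefix `latIdx_`.
-/
import Claimed.Agent.R293.LatQuot
import Claimed.Agent.R293.LatIface

set_option autoImplicit false

namespace Claimed.Agent.R293

open Submodule Module Matrix
open scoped RealInnerProductSpace

variable {E : Type*} [NormedAddCommGroup E] [InnerProductSpace ℝ E]

/-- the `ℤ`-basis of `L` given by a lattice basis. -/
noncomputable def latZBasis {r : ℕ} {b : Fin r → E} {L : Submodule ℤ E} (h : IsLatBasis b L) :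
    Basis (Fin r) ℤ L :=
  (Basis.span (lat_linearIndependent_int h.1)).map (LinearEquiv.ofEq _ _ h.2)

theorem latZBasis_apply {r : ℕ} {b : Fin r → E} {L : Submodule ℤ E} (h : IsLatBasis b L) (i : Fin r) :
    ((latZBasis h i : L) : E) = b i := by
  simp [latZBasis, Basis.span_apply]

theorem latIdx_expand {r : ℕ} {b : Fin r → E} {L : Submodule ℤ E} (h : IsLatBasis b L) (x : L) :
    (x : E) = ∑ j, (((latZBasis h).repr x j : ℤ) : ℝ) • b j := by
  have := (latZBasis h).sum_repr x
  have h2 := congrArg (Subtype.val) this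
  conv_lhs => rw [← h2]
  rw [Submodule.coe_sum]
  refine Finset.sum_congr rfl fun j _ => ?_
  rw [Submodule.coe_smul, latZBasis_apply, Int.cast_smul_eq_zsmul]

set_option backward.isDefEq.respectTransparency false in
/-- index formula in terms of bases. -/
theorem latIdx_of_bases {r : ℕ} {b c : Fin r → E} {L M : Submodule ℤ E} (hb : IsLatBasis b L)
    (hc : IsLatBasis c M) (hM : M ≤ L) :
    M.toAddSubgroup.relIndex L.toAddSubgroup ≠ 0 ∧
      gramDet c = ((M.toAddSubgroup.relIndex L.toAddSubgroup : ℕ) : ℝ) ^ 2 * gramDet b := by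
  classical
  have key := AddSubgroup.relIndex_eq_natAbs_det M.toAddSubgroup L.toAddSubgroup hM
    (latZBasis hc) (latZBasis hb)
  set v : Fin r → L := fun i => ⟨latZBasis hc i, hM (SetLike.coe_mem _)⟩ with hv
  set d : ℤ := (latZBasis hb).det v with hd
  have hkey : M.toAddSubgroup.relIndex L.toAddSubgroup = d.natAbs := key
  set U : Matrix (Fin r) (Fin r) ℤ := fun i j => (latZBasis hb).repr (v i) j with hU
  have hUd : U.det = d := by
    rw [hd, Basis.det_apply, ← Matrix.det_transpose]
    congr 1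
  have hcU : c = fun i => ∑ j, (U.map (Int.cast : ℤ → ℝ)) i j • b j := by
    funext i
    have := latIdx_expand hb (v i)
    have h1 : ((v i : L) : E) = c i := latZBasis_apply hc i
    rw [h1] at this
    simpa [hU] using this
  have hg : gramDet c = (d : ℝ) ^ 2 * gramDet b := by
    rw [hcU, lat_gramDet_combo, ← hUd]
    congr 2
    exact (Int.cast_det (R := ℝ) U).symm
  have hpos := lat_gramDet_pos hc.1
  have hd0 : d ≠ 0 := by
    intro h0
    rw [hg, h0] at hpos
    simp at hpos
  refine ⟨by rw [hkey]; exact Int.natAbs_ne_zero.2 hd0, ?_⟩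
  rw [hg, hkey, Nat.cast_natAbs, Int.cast_abs, sq_abs]

variable [FiniteDimensional ℝ E]

/-- **Index formula**: `det M = [L : M] det L` for `M ≤ L` of the same rank. -/
theorem latIdx_det {L M : Submodule ℤ E} (hL : IsLat L) (hM : M ≤ L) (hr : latRank M = latRank L) :
    latDet M = (M.toAddSubgroup.relIndex L.toAddSubgroup : ℝ) * latDet L := by
  obtain ⟨r, b, hb⟩ := hL
  obtain ⟨r', c, hc⟩ := lat_of_le ⟨r, b, hb⟩ hM
  have : r' = r := by rw [← lat_rank_eq hc, ← lat_rank_eq hb, hr]
  subst this
  obtain ⟨-, h2⟩ := latIdx_of_bases hb hc hM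
  rw [lat_det_eq hc, lat_det_eq hb, h2, Real.sqrt_mul (sq_nonneg _), Real.sqrt_sq (Nat.cast_nonneg _)]

theorem latIdx_ne_zero {L M : Submodule ℤ E} (hL : IsLat L) (hM : M ≤ L) (hr : latRank M = latRank L) :
    M.toAddSubgroup.relIndex L.toAddSubgroup ≠ 0 := by
  obtain ⟨r, b, hb⟩ := hL
  obtain ⟨r', c, hc⟩ := lat_of_le ⟨r, b, hb⟩ hM
  have : r' = r := by rw [← lat_rank_eq hc, ← lat_rank_eq hb, hr]
  subst this
  exact (latIdx_of_bases hb hc hM).1

/-- a sublattice of finite index has full rank. -/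
theorem latIdx_rspan_eq {L M : Submodule ℤ E} (hM : M ≤ L)
    (hi : M.toAddSubgroup.relIndex L.toAddSubgroup ≠ 0) : rspan M = rspan L := by
  apply le_antisymm (lat_rspan_mono hM)
  unfold rspan
  rw [Submodule.span_le]
  intro x hx
  set n := M.toAddSubgroup.relIndex L.toAddSubgroup with hn
  have hmem : n • x ∈ M := by
    have := AddSubgroup.nsmul_index_mem (M.toAddSubgroup.addSubgroupOf L.toAddSubgroup) (⟨x, hx⟩ : L.toAddSubgroup)
    rw [AddSubgroup.mem_addSubgroupOf] at this
    exact this
  have h1 : (n : ℝ) • x ∈ span ℝ (M : Set E) := by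
    rw [Nat.cast_smul_eq_nsmul]
    exact Submodule.subset_span hmem
  have hn0 : (n : ℝ) ≠ 0 := by exact_mod_cast hi
  have := (span ℝ (M : Set E)).smul_mem (n : ℝ)⁻¹ h1
  rwa [smul_smul, inv_mul_cancel₀ hn0, one_smul] at this

theorem latIdx_rank_eq {L M : Submodule ℤ E} (hM : M ≤ L)
    (hi : M.toAddSubgroup.relIndex L.toAddSubgroup ≠ 0) : latRank M = latRank L := by
  unfold latRank
  rw [latIdx_rspan_eq hM hi]

end Claimed.Agent.R293
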