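/-
R293 / LatInt.lean  (owner: helper195).   Integral lattices, `ℤ^m`, subgroups of `ℤ^m`, integer points of
subspaces, projections of `ℤ^m` (paper B, eqs (4.8), (4.9)).   Prefix `latInt_`.
No sorry in this file; `latInt_proj_dual` and `latInt_proj_perp` use `latDual_quot` / `latDual_proj` of LatDual.lean.
-/
import Claimed.Agent.R293.LatIndex
import Claimed.Agent.R293.LatDual

set_option autoImplicit false

namespace Claimed.Agent.R293

open Submodule Module
open scoped RealInnerProductSpace

section General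
variable {E : Type*} [NormedAddCommGroup E] [InnerProductSpace ℝ E]

theorem latInt_integral_mono {L M : Submodule ℤ E} (hI : latIntegral L) (hM : M ≤ L) : latIntegral M :=
  fun x hx y hy => hI x (hM hx) y (hM hy)

/-- The Gram matrix of a basis of an integral lattice is an integer matrix with positive determinant. -/
theorem latInt_det_sq {L : Submodule ℤ E} (hL : IsLat L) (hI : latIntegral L) :
    ∃ n : ℕ, 0 < n ∧ latDet L ^ 2 = n := by
  obtain ⟨r, b, hb⟩ := hL
  choose Z hZ using fun i j => hI (b i) (lat_basis_mem hb i) (b j) (lat_basis_mem hb j)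
  have hG : Matrix.gram ℝ b = (Matrix.of Z).map (Int.cast : ℤ → ℝ) := by
    ext i j
    simp [Matrix.gram_apply, hZ]
  have hdet : gramDet b = (((Matrix.of Z).det : ℤ) : ℝ) := by
    unfold gramDet
    rw [hG]
    exact (Int.cast_det (R := ℝ) (Matrix.of Z)).symm
  have hpos := lat_gramDet_pos hb.1
  rw [hdet] at hpos
  have hpos' : 0 < (Matrix.of Z).det := by exact_mod_cast hpos
  refine ⟨(Matrix.of Z).det.toNat, by omega, ?_⟩
  rw [lat_det_sq hb, hdet]
  have : (((Matrix.of Z).det.toNat : ℤ)) = (Matrix.of Z).det := Int.toNat_of_nonneg hpos'.le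
  exact_mod_cast this.symm

theorem latInt_one_le_det {L : Submodule ℤ E} (hL : IsLat L) (hI : latIntegral L) : 1 ≤ latDet L := by
  obtain ⟨n, hn, h⟩ := latInt_det_sq hL hI
  have h1 : (1 : ℝ) ≤ n := by exact_mod_cast hn
  have h0 := lat_det_nonneg L
  nlinarith

/-- an integral lattice is contained in its dual. -/
theorem latInt_le_dual {L : Submodule ℤ E} (hI : latIntegral L) : L ≤ latDual L :=
  fun x hx => ⟨Submodule.subset_span hx, fun y hy => hI x hx y hy⟩

variable [FiniteDimensional ℝ E]

/-- **B (4.9), general form**: every sublattice of the quotient of an integral lattice by a primitive `K` has determinant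
`≥ 1 / det K`  (lift it: `det (lift) = det K * det M ≥ 1`). -/
theorem latInt_quot_sub_det {L K M : Submodule ℤ E} (hL : IsLat L) (hI : latIntegral L) (hK : IsPrim L K)
    (hM : M ≤ latQuot L K) : (latDet K)⁻¹ ≤ latDet M := by
  have h1 := latInt_one_le_det (lat_lift_isLat hL K M) (latInt_integral_mono hI (lat_lift_le L K M))
  rw [lat_det_lift hL hK hM] at h1
  have hKpos := lat_det_pos (lat_of_le hL hK.1)
  rw [inv_le_iff_one_le_mul₀ hKpos]
  linarith [mul_comm (latDet K) (latDet M)]

end General

section Zm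
variable {m : ℕ}

theorem latInt_single_mem (i : Fin m) : EuclideanSpace.single i (1 : ℝ) ∈ intLat m := by
  intro j
  by_cases h : j = i
  · exact ⟨1, by simp [h]⟩
  · exact ⟨0, by simp [h]⟩

theorem latInt_basis (m : ℕ) : IsLatBasis (fun i : Fin m => EuclideanSpace.single i (1 : ℝ)) (intLat m) := by
  constructor
  · have := (EuclideanSpace.basisFun (Fin m) ℝ).toBasis.linearIndependent
    have h2 : (fun i : Fin m => EuclideanSpace.single i (1 : ℝ)) = ⇑(EuclideanSpace.basisFun (Fin m) ℝ).toBasis := by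
      funext i
      simp
    rw [h2]
    exact this
  · apply le_antisymm
    · rw [Submodule.span_le]
      rintro _ ⟨i, rfl⟩
      exact latInt_single_mem i
    · intro x hx
      choose n hn using hx
      have : x = ∑ i, n i • EuclideanSpace.single i (1 : ℝ) := by
        ext j
        simp [hn, Finset.sum_apply, Pi.single_apply]
      rw [this]
      exact Submodule.sum_mem _ fun i _ => Submodule.smul_mem _ _ (Submodule.subset_span ⟨i, rfl⟩)

theorem latInt_isLat (m : ℕ) : IsLat (intLat m) := ⟨m, _, latInt_basis m⟩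

theorem latInt_integral (m : ℕ) : latIntegral (intLat m) := by
  intro x hx y hy
  choose a ha using hx
  choose b hb using hy
  refine ⟨∑ i, a i * b i, ?_⟩
  rw [PiLp.inner_apply]
  push_cast
  refine Finset.sum_congr rfl fun i _ => ?_
  simp [ha, hb, mul_comm]

theorem latInt_det (m : ℕ) : latDet (intLat m) = 1 := by
  rw [lat_det_eq (latInt_basis m)]
  have : Matrix.gram ℝ (fun i : Fin m => EuclideanSpace.single i (1 : ℝ)) = 1 := by
    ext i j
    simp [Matrix.gram_apply, Matrix.one_apply, EuclideanSpace.inner_single_left]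
  unfold gramDet
  rw [this]
  simp

theorem latInt_rank (m : ℕ) : latRank (intLat m) = m := lat_rank_eq (latInt_basis m)

theorem latInt_rspan (m : ℕ) : rspan (intLat m) = ⊤ := by
  apply Submodule.eq_top_of_finrank_eq
  have := latInt_rank m
  unfold latRank at this
  rw [this]
  simp

theorem latInt_dual (m : ℕ) : latDual (intLat m) = intLat m := by
  apply le_antisymm
  · intro y hy i
    obtain ⟨n, hn⟩ := hy.2 _ (latInt_single_mem i)
    refine ⟨n, ?_⟩
    rw [← hn, EuclideanSpace.inner_single_right]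
    simp
  · exact latInt_le_dual (latInt_integral m)

theorem latInt_vecR_mem (x : Fin m → ℤ) : vecR x ∈ intLat m := fun i => ⟨x i, rfl⟩

theorem latInt_mem_iff {x : EucM m} : x ∈ intLat m ↔ ∃ y : Fin m → ℤ, x = vecR y := by
  constructor
  · intro hx
    choose n hn using hx
    exact ⟨n, by ext i; exact hn i⟩
  · rintro ⟨y, rfl⟩
    exact latInt_vecR_mem y

theorem latInt_vecR_injective : Function.Injective (vecR : (Fin m → ℤ) → EucM m) := by
  intro x y h
  funext i
  have := congrArg (fun v : EucM m => v i) h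
  simpa [vecR] using this

/-! #### sublattices of `ℤ^m` -/

theorem latInt_sub_isLat {M : Submodule ℤ (EucM m)} (hM : M ≤ intLat m) : IsLat M :=
  lat_of_le (latInt_isLat m) hM

theorem latInt_sub_det_sq {M : Submodule ℤ (EucM m)} (hM : M ≤ intLat m) :
    ∃ n : ℕ, 0 < n ∧ latDet M ^ 2 = n :=
  latInt_det_sq (latInt_sub_isLat hM) (latInt_integral_mono (latInt_integral m) hM)

theorem latInt_sub_one_le_det {M : Submodule ℤ (EucM m)} (hM : M ≤ intLat m) : 1 ≤ latDet M :=
  latInt_one_le_det (latInt_sub_isLat hM) (latInt_integral_mono (latInt_integral m) hM)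

/-! #### subgroups of `ℤ^m` -/

theorem latInt_ofSubgroup_le (K : AddSubgroup (Fin m → ℤ)) : latOfSubgroup K ≤ intLat m := by
  rintro x ⟨y, -, hy⟩ i
  exact ⟨y i, hy i⟩

theorem latInt_vecR_mem_ofSubgroup {K : AddSubgroup (Fin m → ℤ)} {x : Fin m → ℤ} :
    vecR x ∈ latOfSubgroup K ↔ x ∈ K := by
  constructor
  · rintro ⟨y, hy, hxy⟩
    have : x = y := by
      funext i
      have := hxy i
      simpa [vecR] using this
    rwa [this]
  · intro hx
    exact ⟨x, hx, fun i => rfl⟩

theorem latInt_ofSubgroup_mono {K K' : AddSubgroup (Fin m → ℤ)} (h : K ≤ K') :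
    latOfSubgroup K ≤ latOfSubgroup K' := by
  rintro x ⟨y, hy, hxy⟩
  exact ⟨y, h hy, hxy⟩

theorem latInt_ofSubgroup_top : latOfSubgroup (⊤ : AddSubgroup (Fin m → ℤ)) = intLat m := by
  apply le_antisymm (latInt_ofSubgroup_le _)
  intro x hx
  obtain ⟨y, rfl⟩ := latInt_mem_iff.1 hx
  exact latInt_vecR_mem_ofSubgroup.2 (AddSubgroup.mem_top y)

/-- `vecR` as an additive homomorphism. -/
noncomputable def vecRHom (m : ℕ) : (Fin m → ℤ) →+ EucM m where
  toFun := vecR
  map_zero' := by ext i; simp [vecR]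
  map_add' x y := by ext i; simp [vecR]

theorem latInt_map_vecRHom (K : AddSubgroup (Fin m → ℤ)) :
    K.map (vecRHom m) = (latOfSubgroup K).toAddSubgroup := by
  ext x
  constructor
  · rintro ⟨y, hy, rfl⟩
    exact latInt_vecR_mem_ofSubgroup.2 hy
  · rintro ⟨y, hy, hxy⟩
    exact ⟨y, hy, by ext i; exact (hxy i).symm⟩

theorem latInt_relIndex (K : AddSubgroup (Fin m → ℤ)) :
    (latOfSubgroup K).toAddSubgroup.relIndex (intLat m).toAddSubgroup = K.index := by
  rw [← latInt_ofSubgroup_top, ← latInt_map_vecRHom, ← latInt_map_vecRHom,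
    AddSubgroup.relIndex_map_map_of_injective _ _ latInt_vecR_injective, AddSubgroup.relIndex_top_right]

/-- a subgroup of finite index is a full-rank lattice of determinant equal to the index. -/
theorem latInt_ofSubgroup_rank {K : AddSubgroup (Fin m → ℤ)} (hK : K.index ≠ 0) :
    latRank (latOfSubgroup K) = m := by
  rw [latIdx_rank_eq (latInt_ofSubgroup_le K) (by rwa [latInt_relIndex]), latInt_rank]

theorem latInt_ofSubgroup_det {K : AddSubgroup (Fin m → ℤ)} (hK : K.index ≠ 0) :
    latDet (latOfSubgroup K) = K.index := by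
  rw [latIdx_det (latInt_isLat m) (latInt_ofSubgroup_le K)
    (by rw [latInt_ofSubgroup_rank hK, latInt_rank]), latInt_relIndex, latInt_det, mul_one]

/-! #### integer points of subspaces -/

theorem latInt_latOf_le (W : Submodule ℝ (EucM m)) : latOf W ≤ intLat m := inf_le_right

theorem latInt_latOf_isLat (W : Submodule ℝ (EucM m)) : IsLat (latOf W) := latInt_sub_isLat (latInt_latOf_le W)

theorem latInt_mem_latOf {W : Submodule ℝ (EucM m)} {x : EucM m} : x ∈ latOf W ↔ x ∈ W ∧ x ∈ intLat m := Iff.rfl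

theorem latInt_rspan_latOf_le (W : Submodule ℝ (EucM m)) : rspan (latOf W) ≤ W := by
  unfold rspan
  rw [Submodule.span_le]
  intro x hx
  exact hx.1

theorem latInt_latOf_prim (W : Submodule ℝ (EucM m)) : IsPrim (intLat m) (latOf W) := by
  refine ⟨latInt_latOf_le W, le_antisymm ?_ (lat_le_sat (latInt_latOf_le W))⟩
  intro x hx
  exact ⟨latInt_rspan_latOf_le W hx.2, hx.1⟩

theorem latInt_latOf_mono {U W : Submodule ℝ (EucM m)} (h : U ≤ W) : latOf U ≤ latOf W :=
  fun _ hx => ⟨h hx.1, hx.2⟩

/-- for `U ≤ W` the lattice `Λ_U` is primitive in `Λ_W`. -/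
theorem latInt_latOf_prim_of_le {U W : Submodule ℝ (EucM m)} (h : U ≤ W) : IsPrim (latOf W) (latOf U) := by
  refine ⟨latInt_latOf_mono h, le_antisymm ?_ (lat_le_sat (latInt_latOf_mono h))⟩
  intro x hx
  exact ⟨latInt_rspan_latOf_le U hx.2, hx.1.2⟩

theorem latInt_latOf_inf (U W : Submodule ℝ (EucM m)) : latOf (U ⊓ W) = latOf U ⊓ latOf W := by
  ext x
  constructor
  · rintro ⟨⟨h1, h2⟩, h3⟩
    exact ⟨⟨h1, h3⟩, ⟨h2, h3⟩⟩
  · rintro ⟨⟨h1, h3⟩, ⟨h2, -⟩⟩
    exact ⟨⟨h1, h2⟩, h3⟩

theorem latInt_latOf_rspan {M : Submodule ℤ (EucM m)} (_hM : M ≤ intLat m) :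
    latOf (rspan M) = latSat (intLat m) M := inf_comm _ _

/-- the span of integer vectors is rational. -/
theorem latInt_isRat_rspan {M : Submodule ℤ (EucM m)} (hM : M ≤ intLat m) : IsRat (rspan M) := by
  unfold IsRat
  rw [latInt_latOf_rspan hM, lat_rspan_sat hM]

/-- `H(span M) ≤ det M` (saturation decreases the determinant). -/
theorem latInt_height_le {M : Submodule ℤ (EucM m)} (hM : M ≤ intLat m) : height (rspan M) ≤ latDet M := by
  unfold height
  rw [latInt_latOf_rspan hM]
  exact lat_det_sat_le (latInt_isLat m) hM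

theorem latInt_rank_latOf {W : Submodule ℝ (EucM m)} (hW : IsRat W) : latRank (latOf W) = finrank ℝ W := by
  unfold latRank
  rw [hW]

/-! #### projections of `ℤ^m`:  `Π = π_{W^⊥} ℤ^m`, paper B (4.8), (4.9) -/

theorem latInt_proj_eq_quot {W : Submodule ℝ (EucM m)} (hW : IsRat W) :
    latProj W (intLat m) = latQuot (intLat m) (latOf W) := by
  unfold latQuot
  rw [hW]

theorem latInt_proj_isLat {W : Submodule ℝ (EucM m)} (hW : IsRat W) : IsLat (latProj W (intLat m)) := by
  rw [latInt_proj_eq_quot hW]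
  exact lat_quot_isLat (latInt_isLat m) (latInt_latOf_prim W)

theorem latInt_proj_rank {W : Submodule ℝ (EucM m)} (hW : IsRat W) :
    latRank (latProj W (intLat m)) + finrank ℝ W = m := by
  rw [latInt_proj_eq_quot hW]
  have := lat_rank_quot (latInt_isLat m) (latInt_latOf_prim W)
  rw [latInt_rank, latInt_rank_latOf hW] at this
  omega

theorem latInt_proj_rspan {W : Submodule ℝ (EucM m)} (hW : IsRat W) : rspan (latProj W (intLat m)) = Wᗮ := by
  have hle : rspan (latProj W (intLat m)) ≤ Wᗮ := by
    rw [latInt_proj_eq_quot hW]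
    have := lat_rspan_quot_le_orth (intLat m) (latOf W)
    rwa [hW] at this
  apply Submodule.eq_of_le_of_finrank_eq hle
  have h1 := latInt_proj_rank hW
  have h2 := Submodule.finrank_add_finrank_orthogonal W
  have h3 : finrank ℝ (EucM m) = m := by simp
  unfold latRank at h1
  omega

/-- **B (4.8)**: `det Π = 1 / H(W)`. -/
theorem latInt_proj_det {W : Submodule ℝ (EucM m)} (hW : IsRat W) :
    latDet (latProj W (intLat m)) = (height W)⁻¹ := by
  rw [latInt_proj_eq_quot hW]
  have := lat_det_quot (latInt_isLat m) (latInt_latOf_prim W)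
  rw [latInt_det] at this
  unfold height
  exact eq_inv_of_mul_eq_one_right this.symm

/-- **B (4.9)** (case `j = 0`; for `ℤ^j ⊕ Π` use `latInt_quot_sub_det`). -/
theorem latInt_proj_sub_det {W : Submodule ℝ (EucM m)} (hW : IsRat W) {M : Submodule ℤ (EucM m)}
    (hM : M ≤ latProj W (intLat m)) : (height W)⁻¹ ≤ latDet M := by
  rw [latInt_proj_eq_quot hW] at hM
  exact latInt_quot_sub_det (latInt_isLat m) (latInt_integral m) (latInt_latOf_prim W) hM

/-- the dual of `Π = π_{W^⊥} ℤ^m` is `ℤ^m ∩ W^⊥`. -/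
theorem latInt_proj_dual {W : Submodule ℝ (EucM m)} (hW : IsRat W) :
    latDual (latProj W (intLat m)) = latOf Wᗮ := by
  rw [latInt_proj_eq_quot hW, latDual_quot (latInt_latOf_le W), latInt_dual, hW, latOf_eq_latCut]

/-- `π_W ℤ^m = (Λ_W)^*`. -/
theorem latInt_proj_perp {W : Submodule ℝ (EucM m)} (hW : IsRat W) :
    latProj Wᗮ (intLat m) = latDual (latOf W) := by
  have := latDual_proj (latInt_isLat m) (latInt_latOf_prim W)
  rwa [latInt_dual, hW] at this

end Zm
end Claimed.Agent.R293
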