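/-
R293 / LatNormal.lean  (LAT leaf; statements by helper195, proofs by helper74).
Normal lattices and height: paper A, Lemma 3.3.   Prefix `latNor_`.
`Λ = latDual (latOf U)`,  `N_U(V) = latCut Λ Vᗮ`.   Everything follows from LatDual.lean (`latDual_quot`, `latDual_proj`,
`latDual_cut_*`, `latDual_perp_*`) applied to `L = latOf U`, `K = latOf V`, and from LatInt.lean.
-/
import Claimed.Agent.R293.LatIface
import Claimed.Agent.R293.LatDual
import Claimed.Agent.R293.LatInt

set_option autoImplicit false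
set_option linter.unusedVariables false

namespace Claimed.Agent.R293

open Submodule Module
open scoped RealInnerProductSpace

section General
variable {E : Type*} [NormedAddCommGroup E] [InnerProductSpace ℝ E] [FiniteDimensional ℝ E]

/-- relative double orthogonal complement. -/
theorem latNor_inf_orth_orth {U F : Submodule ℝ E} (h : F ≤ U) : U ⊓ (U ⊓ Fᗮ)ᗮ = F := by
  apply le_antisymm
  · rintro x ⟨hxU, hx⟩
    set w := perpProj F x with hw
    have hwF : w ∈ Fᗮ := lat_perpProj_apply_mem F x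
    have hxw : x - w ∈ F := lat_sub_perpProj_mem F x
    have hwU : w ∈ U := by
      have : w = x - (x - w) := by abel
      rw [this]
      exact U.sub_mem hxU (h hxw)
    have h1 : ⟪w, x⟫ = 0 := (Submodule.mem_orthogonal _ _).1 hx w ⟨hwU, hwF⟩
    have h2 : ⟪x - w, w⟫ = 0 := (Submodule.mem_orthogonal _ _).1 hwF _ hxw
    have h3 : ⟪w, w⟫ = 0 := by
      rw [inner_sub_left, real_inner_comm, h1] at h2
      linarith
    have h4 : w = 0 := inner_self_eq_zero.1 h3
    rwa [h4, sub_zero] at hxw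
  · intro x hx
    refine ⟨h hx, ?_⟩
    rw [SetLike.mem_coe, Submodule.mem_orthogonal]
    rintro u ⟨-, hu⟩
    rw [real_inner_comm]
    exact (Submodule.mem_orthogonal _ _).1 hu x hx

theorem latNor_finrank_inf_orth {U F : Submodule ℝ E} (h : F ≤ U) :
    finrank ℝ (U ⊓ Fᗮ : Submodule ℝ E) + finrank ℝ F = finrank ℝ U := by
  rw [inf_comm, add_comm]
  exact Submodule.finrank_add_inf_finrank_orthogonal h

end General

variable {m : ℕ}

/-- the normal lattice `N_U(V) = Λ_U^* ∩ V^⊥`. -/
noncomputable def latNormal (U V : Submodule ℝ (EucM m)) : Submodule ℤ (EucM m) := latCut (latDual (latOf U)) Vᗮ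

theorem latNor_dual_isLat (U : Submodule ℝ (EucM m)) : IsLat (latDual (latOf U)) :=
  latDual_isLat (latInt_latOf_isLat U)

theorem latNor_isLat (U V : Submodule ℝ (EucM m)) : IsLat (latNormal U V) :=
  lat_of_le (latNor_dual_isLat U) (latCut_le _ _)

theorem latNor_prim (U V : Submodule ℝ (EucM m)) : IsPrim (latDual (latOf U)) (latNormal U V) :=
  latDual_cut_prim _ _

theorem latNor_rank {U V : Submodule ℝ (EucM m)} (hU : IsRat U) (hV : IsRat V) (hVU : V ≤ U) :
    latRank (latNormal U V) + finrank ℝ V = finrank ℝ U := by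
  have h := latDual_cut_rank (latInt_latOf_isLat U) (latInt_latOf_prim_of_le hVU)
  rwa [latInt_rank_latOf hU, latInt_rank_latOf hV, show rspan (latOf V) = V from hV] at h

theorem latNor_rspan {U V : Submodule ℝ (EucM m)} (hU : IsRat U) (hV : IsRat V) (hVU : V ≤ U) :
    rspan (latNormal U V) = U ⊓ Vᗮ := by
  have h := latDual_cut_rspan (latInt_latOf_isLat U) (latInt_latOf_prim_of_le hVU)
  rwa [show rspan (latOf V) = V from hV, show rspan (latOf U) = U from hU] at h

/-- `π_V (Λ_U^*) = Λ_V^*`. -/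
theorem latNor_proj {U V : Submodule ℝ (EucM m)} (hU : IsRat U) (hV : IsRat V) (hVU : V ≤ U) :
    latProj Vᗮ (latDual (latOf U)) = latDual (latOf V) := by
  have h := latDual_proj (latInt_latOf_isLat U) (latInt_latOf_prim_of_le hVU)
  rwa [show rspan (latOf V) = V from hV] at h

/-- `det N_U(V) = H(V) / H(U)`. -/
theorem latNor_det {U V : Submodule ℝ (EucM m)} (hU : IsRat U) (hV : IsRat V) (hVU : V ≤ U) :
    latDet (latNormal U V) = height V / height U := by
  have h := latDual_cut_det (latInt_latOf_isLat U) (latInt_latOf_prim_of_le hVU)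
  rwa [show rspan (latOf V) = V from hV] at h

/-- `V` is recovered from its normal lattice. -/
theorem latNor_recover {U V : Submodule ℝ (EucM m)} (hU : IsRat U) (hV : IsRat V) (hVU : V ≤ U) :
    U ⊓ (rspan (latNormal U V))ᗮ = V := by
  rw [latNor_rspan hU hV hVU, latNor_inf_orth_orth hVU]

theorem latNor_rspan_le {U : Submodule ℝ (EucM m)} (hU : IsRat U) {M : Submodule ℤ (EucM m)}
    (hM : M ≤ latDual (latOf U)) : rspan M ≤ U := by
  have h := lat_rspan_mono hM
  rwa [latDual_rspan (latInt_latOf_isLat U), show rspan (latOf U) = U from hU] at h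

theorem latNor_latOf_inf (U F : Submodule ℝ (EucM m)) : latOf (U ⊓ F) = latCut (latOf U) F := by
  ext x
  constructor
  · rintro ⟨⟨h1, h2⟩, h3⟩
    exact ⟨⟨h1, h3⟩, h2⟩
  · rintro ⟨⟨h1, h3⟩, h2⟩
    exact ⟨⟨h1, h2⟩, h3⟩

/-- `V_M = U ∩ (span M)^⊥` is rational. -/
theorem latNor_isRat {U : Submodule ℝ (EucM m)} (hU : IsRat U) {M : Submodule ℤ (EucM m)}
    (hM : M ≤ latDual (latOf U)) : IsRat (U ⊓ (rspan M)ᗮ) := by
  unfold IsRat
  rw [latNor_latOf_inf, latDual_perp_rspan (latInt_latOf_isLat U) hM,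
    show rspan (latOf U) = U from hU]

theorem latNor_finrank {U : Submodule ℝ (EucM m)} (hU : IsRat U) {M : Submodule ℤ (EucM m)}
    (hM : M ≤ latDual (latOf U)) : finrank ℝ (U ⊓ (rspan M)ᗮ : Submodule ℝ (EucM m)) + latRank M = finrank ℝ U :=
  latNor_finrank_inf_orth (latNor_rspan_le hU hM)

/-- the saturation of `M` in `Λ_U^*` is the normal lattice of `V_M`. -/
theorem latNor_sat {U : Submodule ℝ (EucM m)} (hU : IsRat U) {M : Submodule ℤ (EucM m)}
    (hM : M ≤ latDual (latOf U)) : latSat (latDual (latOf U)) M = latNormal U (U ⊓ (rspan M)ᗮ) := by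
  have hF := latNor_inf_orth_orth (latNor_rspan_le hU hM)
  ext y
  constructor
  · rintro ⟨hy, hy'⟩
    refine ⟨hy, ?_⟩
    have : y ∈ U ⊓ (U ⊓ (rspan M)ᗮ)ᗮ := by rw [hF]; exact hy'
    exact this.2
  · rintro ⟨hy, hy'⟩
    refine ⟨hy, ?_⟩
    have hyU : y ∈ U := by
      have := hy.1
      rwa [show rspan (latOf U) = U from hU] at this
    have : y ∈ U ⊓ (U ⊓ (rspan M)ᗮ)ᗮ := ⟨hyU, hy'⟩
    rw [hF] at this
    exact this

theorem latNor_height_pos (U : Submodule ℝ (EucM m)) : 0 < height U :=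
  lat_det_pos (latInt_latOf_isLat U)

/-- `H(V_M) = det (sat M) · H(U)`. -/
theorem latNor_height_eq {U : Submodule ℝ (EucM m)} {M : Submodule ℤ (EucM m)}
    (hM : M ≤ latDual (latOf U)) :
    height (U ⊓ (rspan M)ᗮ) = latDet (latSat (latDual (latOf U)) M) * height U := by
  unfold height
  rw [latNor_latOf_inf, latDual_perp_det (latInt_latOf_isLat U) hM]

/-- `det M ≥ H(V_M) / H(U)`. -/
theorem latNor_det_ge {U : Submodule ℝ (EucM m)} (hU : IsRat U) {M : Submodule ℤ (EucM m)}
    (hM : M ≤ latDual (latOf U)) : height (U ⊓ (rspan M)ᗮ) / height U ≤ latDet M := by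
  rw [latNor_height_eq hM, mul_div_assoc, div_self (latNor_height_pos U).ne', mul_one]
  exact lat_det_sat_le (latNor_dual_isLat U) hM

/-- for a primitive `M` equality holds. -/
theorem latNor_det_prim {U : Submodule ℝ (EucM m)} (hU : IsRat U) {M : Submodule ℤ (EucM m)}
    (hM : IsPrim (latDual (latOf U)) M) : latDet M = height (U ⊓ (rspan M)ᗮ) / height U := by
  rw [latNor_height_eq hM.1, mul_div_assoc, div_self (latNor_height_pos U).ne', mul_one, hM.2]

/-- `det M ≥ 1 / H(U)`. -/
theorem latNor_det_ge' {U : Submodule ℝ (EucM m)} (hU : IsRat U) {M : Submodule ℤ (EucM m)}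
    (hM : M ≤ latDual (latOf U)) : (height U)⁻¹ ≤ latDet M := by
  refine le_trans ?_ (latNor_det_ge hU hM)
  rw [inv_eq_one_div]
  exact div_le_div_of_nonneg_right (latInt_sub_one_le_det (latInt_latOf_le _))
    (latNor_height_pos U).le

end Claimed.Agent.R293
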