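/-
R293 / CovCount.lean  (package COV, owner helper112).  CONSOLIDATED FILE: the counting part of the low-height cover
(unions, products, averaging over balls, hyperplane injection, threshold subspace, image and fibre counts, step count, instance of the axioms).
Authors: helper245, helper54, helper74, helper112.
-/
import Claimed.Agent.R293.CovIface
import Claimed.Agent.R293.CovCard
import Claimed.Agent.R293.LatBasic
import Claimed.Agent.R293.LatMin
import Claimed.Agent.R293.LatNormal

set_option autoImplicit false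

namespace Claimed.Agent.R293

/-! ## Part CovUnion -/

/-
R293 / CovUnion.lean  (owner: helper245), package COV-UNION, prefix `covu`.
Counting the endpoints of all admissible chains.
-/

section CovUnion

/-- encoding of a list of step types as a function on `Fin N`. -/
def covuEnc (N : ℕ) (ts : List (ℕ × Bool)) : Fin N → Option (Fin (N + 1) × Bool) :=
  fun i => (ts[i.val]?).map (fun t => (Fin.ofNat (N + 1) t.1, t.2))

theorem covuEnc_injOn (N : ℕ) :
    Set.InjOn (covuEnc N) {ts | ts.length ≤ N ∧ ∀ t ∈ ts, t.1 ≤ N} := by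
  intro ts hts ts' hts' h
  apply List.ext_getElem?
  intro i
  by_cases hi : i < N
  · have h1 := congrFun h ⟨i, hi⟩
    simp only [covuEnc] at h1
    rcases h2 : ts[i]? with _ | t <;> rcases h3 : ts'[i]? with _ | t'
    · rfl
    · rw [h2, h3] at h1; simp at h1
    · rw [h2, h3] at h1; simp at h1
    · rw [h2, h3] at h1
      simp only [Option.map_some, Option.some.injEq, Prod.mk.injEq] at h1
      have ht : t.1 ≤ N := hts.2 t (List.mem_of_getElem? h2)
      have ht' : t'.1 ≤ N := hts'.2 t' (List.mem_of_getElem? h3)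
      have h4 := congrArg Fin.val h1.1
      simp only [Fin.val_ofNat] at h4
      rw [Nat.mod_eq_of_lt (by omega), Nat.mod_eq_of_lt (by omega)] at h4
      congr 1
      exact Prod.ext h4 h1.2
  · rw [List.getElem?_eq_none (by have := hts.1; omega),
      List.getElem?_eq_none (by have := hts'.1; omega)]

/-- number of admissible lists of types. -/
theorem covu_lists (N : ℕ) (a S : ℝ) :
    cardLE {ts | covAdm N a S ts} ((2 * (N : ℝ) + 3) ^ N) := by
  have h1 : cardLE (Set.univ : Set (Fin N → Option (Fin (N + 1) × Bool)))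
      ((2 * (N : ℝ) + 3) ^ N) := by
    have := cardLE_of_finset (Finset.univ : Finset (Fin N → Option (Fin (N + 1) × Bool)))
    rw [Finset.coe_univ, Finset.card_univ, Fintype.card_fun, Fintype.card_option,
      Fintype.card_prod, Fintype.card_fin, Fintype.card_fin, Fintype.card_bool] at this
    refine cardLE_mono this le_rfl (le_of_eq ?_)
    push_cast
    ring
  refine cardLE_of_injOn (covuEnc N) ((covuEnc_injOn N).mono ?_) (Set.mapsTo_univ _ _) h1
  intro ts hts
  exact ⟨hts.1, hts.2.1⟩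

/-- **COV-UNION**, with the (necessary) hypothesis `0 ≤ Bmax`. -/
theorem covu_union (X : Type) (step : ℕ × Bool → X → X → Prop) (x0 : X) (B : ℕ × Bool → ℝ) (N : ℕ)
    (a S Bmax : ℝ) (hBmax : 0 ≤ Bmax)
    (hstep : ∀ t x, cardLE {y | step t x y} (B t)) (hB : ∀ t, 0 ≤ B t)
    (hprod : ∀ ts, covAdm N a S ts → (ts.map B).prod ≤ Bmax) :
    cardLE {y | ∃ ts, covAdm N a S ts ∧ y ∈ covReach step x0 ts}
      ((2 * (N : ℝ) + 3) ^ N * Bmax) :=
  cardLE_biUnion (covu_lists N a S) hBmax (fun ts => covReach step x0 ts)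
    (fun ts hts => cardLE_mono (covReach_cardLE step x0 B hB hstep ts) le_rfl (hprod ts hts))

end CovUnion

/-! ## Part CovProd -/

/-
R293 / CovProd.lean  (helper245).  Leaf COV-PROD: the product of the step bounds along an admissible list.
-/

section CovProd

theorem covp_img_one_le (N : ℕ) (a : ℝ) {τ : ℝ} (hτ : 0 ≤ τ) (e : Bool) : 1 ≤ covImg N a τ e := by
  unfold covImg
  split_ifs
  · have h0 : 0 ≤ (N : ℝ) ^ (3 * a) := Real.rpow_nonneg (Nat.cast_nonneg N) _
    have h1 : (1 : ℝ) ≤ 1 + 2 * τ * (N : ℝ) ^ (3 * a) := by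
      have : 0 ≤ 2 * τ * (N : ℝ) ^ (3 * a) := by positivity
      linarith
    have h2 : (1 : ℝ) ≤ (1 + 2 * τ * (N : ℝ) ^ (3 * a)) ^ N := one_le_pow₀ h1
    have h3 : (1 : ℝ) ≤ Real.exp (Real.pi * N) := by
      apply Real.one_le_exp
      have := Real.pi_pos
      positivity
    have h4 : (1 : ℝ) ≤ (3 / 2) * Real.exp (Real.pi * N) := by nlinarith
    nlinarith
  · have h3 : (1 : ℝ) ≤ Real.exp (Real.pi * (N : ℝ) ^ (1 - 2 * a) * τ ^ 2) := by
      apply Real.one_le_exp
      have := Real.pi_pos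
      have h0 : 0 ≤ (N : ℝ) ^ (1 - 2 * a) := Real.rpow_nonneg (Nat.cast_nonneg N) _
      positivity
    nlinarith

theorem covp_Bmax_nonneg (N : ℕ) (a : ℝ) {τ : ℝ} (hτ : 0 ≤ τ) (S : ℝ) : 0 ≤ covBmax N a τ S := by
  unfold covBmax
  have h0 : 0 ≤ covImg N a τ false := le_trans zero_le_one (covp_img_one_le N a hτ false)
  have h1 : 0 ≤ covImg N a τ true := le_trans zero_le_one (covp_img_one_le N a hτ true)
  exact mul_nonneg (mul_nonneg (pow_nonneg h0 _) (Real.rpow_nonneg h1 _))
    (Real.rpow_nonneg (Nat.cast_nonneg N) _)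

theorem covp_prod_eq (N : ℕ) (a τ : ℝ) (hN : 1 ≤ N) (ts : List (ℕ × Bool)) :
    (ts.map (covB N a τ)).prod =
      covImg N a τ false ^ (ts.filter (fun t => !t.2)).length *
        covImg N a τ true ^ (ts.filter (fun t => t.2)).length *
        (N : ℝ) ^ (6 / a * (ts.map (fun t => (t.1 : ℝ))).sum) := by
  have hN0 : (0 : ℝ) < N := by exact_mod_cast hN
  induction ts with
  | nil => simp
  | cons t ts ih =>
    obtain ⟨c, e⟩ := t
    rw [List.map_cons, List.prod_cons, ih, List.map_cons, List.sum_cons, mul_add,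
      Real.rpow_add hN0]
    have hc : (N : ℝ) ^ (6 * (c : ℝ) / a) = (N : ℝ) ^ (6 / a * (c : ℝ)) := by
      congr 1
      ring
    cases e with
    | false =>
      simp only [covB, List.filter_cons, Bool.not_false, if_true, List.length_cons, pow_succ,
        Bool.false_eq_true, if_false, hc]
      ring
    | true =>
      simp only [covB, List.filter_cons, Bool.not_true, if_true, List.length_cons, pow_succ,
        Bool.false_eq_true, if_false, hc]
      ring

theorem cov_prod : StCovProd := by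
  intro N a τ S ts hN ha hτ hadm
  obtain ⟨hlen, -, hexp, hsum⟩ := hadm
  have hτ0 : 0 ≤ τ := by linarith
  have hN1 : (1 : ℝ) ≤ N := by exact_mod_cast hN
  have h0 := covp_img_one_le N a hτ0 false
  have h1 := covp_img_one_le N a hτ0 true
  rw [covp_prod_eq N a τ hN ts]
  unfold covBmax
  have e0 : covImg N a τ false ^ (ts.filter (fun t => !t.2)).length ≤ covImg N a τ false ^ N :=
    pow_le_pow_right₀ h0 ((List.length_filter_le _ _).trans hlen)
  have e1 : covImg N a τ true ^ (ts.filter (fun t => t.2)).length ≤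
      covImg N a τ true ^ (25 * a * S) := by
    rw [← Real.rpow_natCast]
    exact Real.rpow_le_rpow_of_exponent_le h1 hexp
  have e2 : (N : ℝ) ^ (6 / a * (ts.map (fun t => (t.1 : ℝ))).sum) ≤
      (N : ℝ) ^ (6 / a * (S ^ 2 + N)) := by
    apply Real.rpow_le_rpow_of_exponent_le hN1
    exact mul_le_mul_of_nonneg_left hsum (by positivity)
  have p0 : 0 ≤ covImg N a τ false := by linarith
  have p1 : 0 ≤ covImg N a τ true := by linarith
  exact mul_le_mul (mul_le_mul e0 e1 (pow_nonneg p1 _) (pow_nonneg p0 _)) e2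
    (Real.rpow_nonneg (Nat.cast_nonneg N) _)
    (mul_nonneg (pow_nonneg p0 _) (Real.rpow_nonneg p1 _))

end CovProd

/-! ## Part CovAvg -/

/-
R293 / CovAvg.lean  (owner: helper245), package COV-AVG, prefix `cova`.
Averaging over balls: a set meeting every ball of radius `r` in at most `B` points meets the ball of
radius `R` in at most `(1 + R/r)^m B` points.
-/

section CovAvg

open MeasureTheory Metric Module

theorem cova_nonneg {α : Type*} {s : Set α} {B : ℝ} (h : cardLE s B) : 0 ≤ B := by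
  have := h ∅ (by simp)
  simpa using this

/-- pointwise bound for the number of balls covering a point. -/
theorem cova_pointwise {m : ℕ} (X : Set (EucM m)) (r R B : ℝ)
    (hB : ∀ z, cardLE (X ∩ closedBall z r) B) (S : Finset (EucM m))
    (hS : (S : Set (EucM m)) ⊆ X ∩ closedBall 0 R) (z : EucM m) :
    ∑ x ∈ S, (closedBall x r).indicator (fun _ => (1 : ENNReal)) z
      ≤ (closedBall (0 : EucM m) (R + r)).indicator (fun _ => ENNReal.ofReal B) z := by
  classical
  by_cases hz : z ∈ closedBall (0 : EucM m) (R + r)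
  · rw [Set.indicator_of_mem hz]
    have h1 : ∑ x ∈ S, (closedBall x r).indicator (fun _ => (1 : ENNReal)) z
        = ((S.filter (fun x => z ∈ closedBall x r)).card : ENNReal) := by
      rw [Finset.card_filter]
      push_cast
      refine Finset.sum_congr rfl fun x _ => ?_
      by_cases hx : z ∈ closedBall x r
      · rw [Set.indicator_of_mem hx, if_pos hx]
      · rw [Set.indicator_of_notMem hx, if_neg hx]
    rw [h1]
    have h2 := hB z (S.filter (fun x => z ∈ closedBall x r)) (by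
      intro x hx
      rw [Finset.coe_filter] at hx
      refine ⟨(hS hx.1).1, ?_⟩
      have := hx.2
      rw [mem_closedBall] at this ⊢
      rwa [dist_comm])
    rw [← ENNReal.ofReal_natCast]
    exact ENNReal.ofReal_le_ofReal h2
  · rw [Set.indicator_of_notMem hz]
    refine le_of_eq (Finset.sum_eq_zero fun x hx => ?_)
    apply Set.indicator_of_notMem
    intro hzx
    apply hz
    have hx0 := (hS hx).2
    rw [mem_closedBall] at hzx hx0 ⊢
    calc dist z 0 ≤ dist z x + dist x 0 := dist_triangle _ _ _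
      _ ≤ r + R := add_le_add hzx hx0
      _ = R + r := add_comm _ _

theorem cov_avg : StCovAvg := by
  intro m X r R B hr hR hB S hS
  have hB0 : 0 ≤ B := cova_nonneg (hB 0)
  set v : ENNReal := volume (closedBall (0 : EucM m) r) with hv
  have hv0 : v ≠ 0 := (measure_closedBall_pos volume (0 : EucM m) hr).ne'
  have hvt : v ≠ ⊤ := measure_closedBall_lt_top.ne
  have hρ : 0 ≤ (R + r) / r := by positivity
  have h1 : ∑ x ∈ S, volume (closedBall x r) = (S.card : ENNReal) * v := by
    rw [Finset.sum_congr rfl (fun x _ => Measure.addHaar_closedBall_center volume x r),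
      Finset.sum_const, nsmul_eq_mul]
  have h2 : ∑ x ∈ S, volume (closedBall x r)
      = ∫⁻ z, ∑ x ∈ S, (closedBall x r).indicator (fun _ => (1 : ENNReal)) z := by
    rw [lintegral_finsetSum _ (fun x _ => measurable_const.indicator measurableSet_closedBall)]
    refine Finset.sum_congr rfl fun x _ => ?_
    rw [lintegral_indicator measurableSet_closedBall, lintegral_const, one_mul,
      Measure.restrict_apply MeasurableSet.univ, Set.univ_inter]
  have h3 : ∫⁻ z, ∑ x ∈ S, (closedBall x r).indicator (fun _ => (1 : ENNReal)) z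
      ≤ ∫⁻ z, (closedBall (0 : EucM m) (R + r)).indicator (fun _ => ENNReal.ofReal B) z :=
    lintegral_mono (cova_pointwise X r R B hB S hS)
  have h4 : ∫⁻ z, (closedBall (0 : EucM m) (R + r)).indicator (fun _ => ENNReal.ofReal B) z
      = ENNReal.ofReal B * volume (closedBall (0 : EucM m) (R + r)) := by
    rw [lintegral_indicator measurableSet_closedBall, lintegral_const,
      Measure.restrict_apply MeasurableSet.univ, Set.univ_inter]
  have h5 : volume (closedBall (0 : EucM m) (R + r)) = ENNReal.ofReal (((R + r) / r) ^ m) * v := by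
    have := Measure.addHaar_closedBall_mul (volume : Measure (EucM m)) 0 hρ hr.le
    rw [div_mul_cancel₀ _ hr.ne', finrank_euclideanSpace_fin] at this
    exact this
  have h6 : (S.card : ENNReal) * v ≤ ENNReal.ofReal (((R + r) / r) ^ m * B) * v := by
    rw [← h1, h2]
    refine h3.trans (le_of_eq ?_)
    rw [h4, h5, ENNReal.ofReal_mul (by positivity), ← mul_assoc, mul_comm (ENNReal.ofReal B)]
  have h7 : (S.card : ENNReal) ≤ ENNReal.ofReal (((R + r) / r) ^ m * B) :=
    (ENNReal.mul_le_mul_iff_left hv0 hvt).mp h6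
  rw [← ENNReal.ofReal_natCast, ENNReal.ofReal_le_ofReal_iff (by positivity)] at h7
  have h8 : (R + r) / r = 1 + R / r := by field_simp; ring
  rwa [h8] at h7

end CovAvg

/-! ## Part CovHypInj -/

/-
R293 / CovHypInj.lean  (owner: helper74).  Leaf HYPINJ of the package COV: rational hyperplanes `V'` of `V` inject
into `(V ∩ ℤ^m)^*`, with `‖w‖ = H(V') / H(V)`.
-/

section CovHypInj

open Submodule Module
open scoped RealInnerProductSpace

theorem covh_height_pos (hHt : StLatHeight) {m : ℕ} {U : Submodule ℝ (EucM m)} (hU : IsRat U) :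
    0 < height U := by
  obtain ⟨k, hk, hk2⟩ := (hHt m).2.2.1 U hU
  have h0 : 0 ≤ height U := lat_det_nonneg _
  rcases h0.lt_or_eq with h | h
  · exact h
  · exfalso
    rw [← h] at hk2
    have h1 : (k : ℝ) = 0 := by rw [← hk2]; norm_num
    have h2 : k = 0 := by exact_mod_cast h1
    omega

theorem covh_witness (hNor : StLatNormal) (hHt : StLatHeight) {N m : ℕ} {V V' : Submodule ℝ (EucM m)}
    {y : ℝ} (hN : 2 ≤ N) (hH : covHyp IsRat V V') (hy : covHt N V' - covHt N V ≤ y) :
    ∃ w : EucM m, w ∈ latDual (latOf V) ∧ ‖w‖ ≤ (N : ℝ) ^ y ∧ V' = V ⊓ (span ℝ {w})ᗮ := by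
  obtain ⟨hV, hV', hle, hfr⟩ := hH
  obtain ⟨hLat, hrk, hdet⟩ := hNor m V V' hV hV' hle
  have hr1 : latRank (normLat V V') = 1 := by omega
  obtain ⟨r, b, hb⟩ := hLat
  have hr : r = 1 := (lat_rank_eq hb).symm.trans hr1
  subst hr
  set w := b 0 with hw
  have hwmem : w ∈ normLat V V' := lat_basis_mem hb 0
  have hw0 : w ≠ 0 := hb.1.ne_zero 0
  have hwpos : 0 < ‖w‖ := norm_pos_iff.2 hw0
  have hnorm : latDet (normLat V V') = ‖w‖ := by
    rw [lat_det_eq hb, lat_gramDet_one, Real.sqrt_sq (norm_nonneg _)]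
  have hVpos := covh_height_pos hHt hV
  have hV'pos := covh_height_pos hHt hV'
  have hN1 : (1 : ℝ) < N := by exact_mod_cast (by omega : 1 < N)
  refine ⟨w, hwmem.1, ?_, ?_⟩
  · rw [← Real.logb_le_iff_le_rpow hN1 hwpos]
    have h1 : ‖w‖ = height V' / height V := by
      rw [← hdet, hnorm, mul_div_assoc, div_self hVpos.ne', mul_one]
    rw [h1, Real.logb_div hV'pos.ne' hVpos.ne']
    exact hy
  · have hwV : w ∈ V := by
      have := hwmem.1.1
      rwa [show rspan (latOf V) = V from hV] at this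
    have hsp : span ℝ {w} ≤ V := by
      rw [span_le]
      intro x hx
      rw [Set.mem_singleton_iff] at hx
      rw [hx]
      exact hwV
    have hdim := Submodule.finrank_add_inf_finrank_orthogonal hsp
    rw [finrank_span_singleton hw0, inf_comm] at hdim
    apply Submodule.eq_of_le_of_finrank_eq
    · intro x hx
      refine ⟨hle hx, ?_⟩
      rw [SetLike.mem_coe, Submodule.mem_orthogonal_singleton_iff_inner_right, real_inner_comm]
      exact (Submodule.mem_orthogonal _ _).1 hwmem.2 x hx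
    · omega

/-- **Leaf HYPINJ.** -/
theorem cov_hypInj (hNor : StLatNormal) (hHt : StLatHeight) : StCovHypInj := by
  intro N m V y B hN _ hB
  have key : ∀ V' : Submodule ℝ (EucM m), covHyp IsRat V V' ∧ covHt N V' - covHt N V ≤ y →
      ∃ w : EucM m, w ∈ latDual (latOf V) ∧ ‖w‖ ≤ (N : ℝ) ^ y ∧ V' = V ⊓ (span ℝ {w})ᗮ :=
    fun V' h => covh_witness hNor hHt hN h.1 h.2
  choose! f hf using key
  refine cardLE_of_injOn f ?_ ?_ hB
  · intro V1 h1 V2 h2 h12
    rw [(hf V1 h1).2.2, (hf V2 h2).2.2, h12]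
  · intro V1 h1
    exact ⟨(hf V1 h1).1, (hf V1 h1).2.1⟩

end CovHypInj

/-! ## Part CovMinSub -/

/-
R293 / CovMinSub.lean  (owner: helper74).  Leaf MINSUB of the package COV (A 3.6 for `(V ∩ ℤ^m)^*`, in terms of
subspaces).  No minimiser: `lat_exists_threshold` (LatMin.lean) for `Λ = (V ∩ ℤ^m)^*`, `T = N^{-2a}`, gives a primitive
`L0 ≤ Λ`; `V0 = V ∩ L0^⊥`; by duality `Λ / L0 = (V0 ∩ ℤ^m)^*`.
-/

section CovMinSub

open Submodule Module
open scoped RealInnerProductSpace

/-- the quotient of `(V ∩ ℤ^m)^*` by a primitive `L0` is the dual of the integer points of `V ∩ L0^⊥`. -/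
theorem covm_quot_eq {m : ℕ} (V : Submodule ℝ (EucM m)) {L0 : Submodule ℤ (EucM m)}
    (hP : IsPrim (latDual (latOf V)) L0) :
    latQuot (latDual (latOf V)) L0 = latDual (latOf (V ⊓ (rspan L0)ᗮ)) := by
  have h1 : latDual (latQuot (latDual (latOf V)) L0) = latOf (V ⊓ (rspan L0)ᗮ) := by
    rw [latDual_quot hP.1, latDual_dual (latInt_latOf_isLat V), latNor_latOf_inf]
  rw [← h1, latDual_dual (lat_quot_isLat (latNor_dual_isLat V) hP)]

/-- **Leaf MINSUB.** -/
theorem cov_minSub : StCovMinSub := by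
  intro N m a c V hN ha hV hSB
  have hN1 : (1 : ℝ) < N := by exact_mod_cast (by omega : 1 < N)
  have hN0 : (0 : ℝ) < N := by linarith
  have hT : 0 < (N : ℝ) ^ (-(2 * a)) := Real.rpow_pos_of_pos hN0 _
  obtain ⟨L0, hP, hdet, hLB⟩ := lat_exists_threshold (latNor_dual_isLat V) hT
  have hV0 : IsRat (V ⊓ (rspan L0)ᗮ) := latNor_isRat hV hP.1
  refine ⟨V ⊓ (rspan L0)ᗮ, hV0, inf_le_left, ?_, ?_⟩
  · rw [← covm_quot_eq V hP]
    exact hLB
  · have hfr := latNor_finrank hV hP.1
    have hd := latNor_det_prim hV hP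
    have hsb := hSB _ hV0 inf_le_left
    have hfr' : (finrank ℝ V : ℝ) - (finrank ℝ (V ⊓ (rspan L0)ᗮ : Submodule ℝ (EucM m)) : ℝ) =
        (latRank L0 : ℝ) := by
      rw [← hfr]
      push_cast
      ring
    have hpos : 0 < latDet L0 := lat_det_pos (lat_of_le (latNor_dual_isLat V) hP.1)
    have h1 := Real.logb_le_logb_of_le hN1 hpos hdet
    rw [hd, Real.logb_div (latNor_height_pos _).ne' (latNor_height_pos _).ne', Real.logb_pow,
      Real.logb_rpow hN0 hN1.ne'] at h1
    rw [hfr'] at hsb ⊢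
    unfold covHt at hsb
    nlinarith

end CovMinSub

/-! ## Part CovImg -/

/-
R293 / CovImg.lean  (owner: helper54).  Leaf COV-IMG:
`cov_img : StRMBall τ → CovTauOK τ → StCovAvg → StCovImg τ`   (paper A (4.7) and the display after it).  No sorry.
-/

section CovImg

open Submodule Module

theorem covi_rank_le {m : ℕ} (L : Submodule ℤ (EucM m)) : latRank L ≤ m := by
  unfold latRank
  have := Submodule.finrank_le (rspan L)
  simpa using this

/-- **Leaf COV-IMG.** -/
theorem cov_img {τ : ℕ → ℝ} (hRM : StRMBall τ) (hτ : CovTauOK τ) (hAvg : StCovAvg) : StCovImg τ := by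
  intro N m a e L hmN hN1 ha hL hDet
  have hN0 : (0 : ℝ) < N := by exact_mod_cast (by omega : 0 < N)
  have hN1' : (1 : ℝ) ≤ N := by exact_mod_cast hN1
  set T := (N : ℝ) ^ (-(2 * a)) with hT
  have hT0 : 0 < T := Real.rpow_pos_of_pos hN0 _
  have hrk : latRank L ≤ N := (covi_rank_le L).trans hmN
  have hτ1 : 1 ≤ τ (latRank L) := hτ.2.1 _
  have hτN1 : 1 ≤ τ N := hτ.2.1 _
  have hτle : τ (latRank L) ≤ τ N := hτ.1 hrk
  have hτsq : τ (latRank L) ^ 2 ≤ τ N ^ 2 := pow_le_pow_left₀ (by linarith) hτle 2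
  cases e with
  | false =>
    have h := hRM m L T ((N : ℝ) ^ covThr a false) hL hT0 hDet (Real.rpow_nonneg hN0.le _)
    refine cardLE_mono h le_rfl ?_
    unfold covImg
    simp only [Bool.false_eq_true, if_false]
    have e1 : ((N : ℝ) ^ covThr a false) ^ 2 / T ^ 2 = (N : ℝ) ^ (1 - 2 * a) := by
      rw [hT, ← Real.rpow_natCast, ← Real.rpow_natCast, ← Real.rpow_mul hN0.le,
        ← Real.rpow_mul hN0.le, ← Real.rpow_sub hN0]
      congr 1
      unfold covThr
      simp only [Bool.false_eq_true, if_false]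
      push_cast
      ring
    have e2 : Real.pi * ((N : ℝ) ^ covThr a false) ^ 2 * τ (latRank L) ^ 2 / T ^ 2
        = Real.pi * (N : ℝ) ^ (1 - 2 * a) * τ (latRank L) ^ 2 := by
      rw [← e1]; ring
    rw [e2]
    have hpos : 0 ≤ Real.pi * (N : ℝ) ^ (1 - 2 * a) :=
      mul_nonneg Real.pi_pos.le (Real.rpow_nonneg hN0.le _)
    gcongr
  | true =>
    set r := Real.sqrt N * T / (2 * τ N) with hr
    have hsq0 : 0 < Real.sqrt N := Real.sqrt_pos.mpr hN0
    have hr0 : 0 < r := by positivity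
    set R := (N : ℝ) ^ covThr a true with hR
    have hR0 : 0 ≤ R := Real.rpow_nonneg hN0.le _
    set B := (3 / 2) * Real.exp (Real.pi * N) with hB
    have hB0 : 0 ≤ B := by positivity
    -- small balls
    have hball0 : cardLE {x | x ∈ L ∧ ‖x‖ ≤ 2 * r} B := by
      have h := hRM m L T (2 * r) hL hT0 hDet (by positivity)
      refine cardLE_mono h le_rfl ?_
      rw [hB]
      have e1 : Real.pi * (2 * r) ^ 2 * τ (latRank L) ^ 2 / T ^ 2
          = Real.pi * N * (τ (latRank L) ^ 2 / τ N ^ 2) := by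
        rw [hr]
        have hs : Real.sqrt N ^ 2 = N := Real.sq_sqrt hN0.le
        have : (2 * (Real.sqrt N * T / (2 * τ N))) ^ 2 = N * T ^ 2 / τ N ^ 2 := by
          have e0 : (2 * (Real.sqrt N * T / (2 * τ N))) ^ 2
              = Real.sqrt N ^ 2 * T ^ 2 / τ N ^ 2 := by field_simp
          rw [e0, hs]
        rw [this]; field_simp
      rw [e1]
      have h1 : τ (latRank L) ^ 2 / τ N ^ 2 ≤ 1 := by
        rw [div_le_one (by positivity)]; exact hτsq
      have hpos : 0 ≤ Real.pi * N := by positivity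
      have : Real.pi * N * (τ (latRank L) ^ 2 / τ N ^ 2) ≤ Real.pi * N := by nlinarith
      gcongr
    have hball : ∀ z, cardLE ((L : Set (EucM m)) ∩ Metric.closedBall z r) B := by
      intro z
      by_cases hne : ∃ x0, x0 ∈ (L : Set (EucM m)) ∩ Metric.closedBall z r
      · obtain ⟨x0, hx0L, hx0⟩ := hne
        refine cardLE_of_injOn (fun x => x - x0) ?_ ?_ hball0
        · intro x _ x' _ hxx
          exact sub_left_injective hxx
        · rintro x ⟨hxL, hx⟩
          refine ⟨L.sub_mem hxL hx0L, ?_⟩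
          rw [mem_closedBall_iff_norm] at hx hx0
          calc ‖x - x0‖ = ‖(x - z) - (x0 - z)‖ := by congr 1; abel
            _ ≤ ‖x - z‖ + ‖x0 - z‖ := norm_sub_le _ _
            _ ≤ 2 * r := by linarith
      · refine cardLE_mono (cardLE_empty hB0) ?_ le_rfl
        intro x hx
        exact absurd ⟨x, hx⟩ hne
    have h := hAvg m (L : Set (EucM m)) r R B hr0 hR0 hball
    refine cardLE_mono h ?_ ?_
    · rintro x ⟨hxL, hx⟩
      exact ⟨hxL, mem_closedBall_zero_iff.mpr hx⟩
    · unfold covImg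
      simp only [if_true]
      have e1 : R / r = 2 * τ N * (N : ℝ) ^ (3 * a) := by
        rw [hR, hr, hT, Real.sqrt_eq_rpow]
        have e2 : (N : ℝ) ^ covThr a true
            = (N : ℝ) ^ (3 * a) * ((N : ℝ) ^ (1 / 2 : ℝ) * (N : ℝ) ^ (-(2 * a))) := by
          rw [← Real.rpow_add hN0, ← Real.rpow_add hN0]
          congr 1
          unfold covThr
          simp only [if_true]
          ring
        rw [e2]
        have p1 : 0 < (N : ℝ) ^ (1 / 2 : ℝ) := Real.rpow_pos_of_pos hN0 _
        have p2 : 0 < (N : ℝ) ^ (-(2 * a)) := Real.rpow_pos_of_pos hN0 _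
        field_simp
      rw [e1, hB]
      have hbase : 1 ≤ 1 + 2 * τ N * (N : ℝ) ^ (3 * a) := by
        have : 0 ≤ (N : ℝ) ^ (3 * a) := Real.rpow_nonneg hN0.le _
        have : 0 ≤ 2 * τ N * (N : ℝ) ^ (3 * a) := by positivity
        linarith
      have hpow : (1 + 2 * τ N * (N : ℝ) ^ (3 * a)) ^ m ≤ (1 + 2 * τ N * (N : ℝ) ^ (3 * a)) ^ N :=
        pow_le_pow_right₀ hbase hmN
      have hE : 0 ≤ (3 / 2 : ℝ) * Real.exp (Real.pi * N) := by positivity
      nlinarith

end CovImg

/-! ## Part CovInst -/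

/-
R293 / CovInst.lean  (owner: helper112).  Leaf COV-INST: the concrete height `covHt N = log_N height` on rational
subspaces of `ℝ^m` satisfies the axioms `CovAx` (`StCovAxInst`).
-/

section CovInst

open Submodule Module

section
variable {m : ℕ}

theorem covx_height_nonneg (U : Submodule ℝ (EucM m)) : 0 ≤ height U := lat_det_nonneg _

theorem covx_one_le_height (hHt : StLatHeight) {U : Submodule ℝ (EucM m)} (hU : IsRat U) :
    1 ≤ height U := by
  obtain ⟨k, hk, hk2⟩ := (hHt m).2.2.1 U hU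
  have h1 : (1 : ℝ) ≤ height U ^ 2 := by
    rw [hk2]
    exact_mod_cast hk
  nlinarith [covx_height_nonneg U]

theorem covx_height_pos (hHt : StLatHeight) {U : Submodule ℝ (EucM m)} (hU : IsRat U) :
    0 < height U := lt_of_lt_of_le one_pos (covx_one_le_height hHt hU)

/-- heights attain their minimum on nonempty families of rational spaces. -/
theorem covx_exists_min (hHt : StLatHeight) (S : Set (Submodule ℝ (EucM m))) (hS : S.Nonempty)
    (hR : ∀ U ∈ S, IsRat U) : ∃ U ∈ S, ∀ W ∈ S, height U ≤ height W := by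
  classical
  let P : ℕ → Prop := fun k => ∃ U ∈ S, height U ^ 2 = k
  have hP : ∃ k, P k := by
    obtain ⟨U, hU⟩ := hS
    obtain ⟨k, _, hk2⟩ := (hHt m).2.2.1 U (hR U hU)
    exact ⟨k, U, hU, hk2⟩
  obtain ⟨U, hU, hUk⟩ := Nat.find_spec hP
  refine ⟨U, hU, fun W hW => ?_⟩
  obtain ⟨k, _, hk2⟩ := (hHt m).2.2.1 W (hR W hW)
  have hle : Nat.find hP ≤ k := Nat.find_min' hP ⟨W, hW, hk2⟩
  have h2 : height U ^ 2 ≤ height W ^ 2 := by
    rw [hUk, hk2]
    exact_mod_cast hle
  exact (pow_le_pow_iff_left₀ (covx_height_nonneg U) (covx_height_nonneg W) two_ne_zero).1 h2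

theorem covx_span_covE : span ℝ (Set.range (covE (m := m))) = ⊤ := by
  have h := (EuclideanSpace.basisFun (Fin m) ℝ).toBasis.span_eq
  have e : (⇑(EuclideanSpace.basisFun (Fin m) ℝ).toBasis : Fin m → EucM m) = covE := by
    funext i
    simp [covE]
  rw [e] at h
  exact h

/-- the lattice generated by one nonzero vector. -/
theorem covx_singleton_basis {x : EucM m} (hx : x ≠ 0) :
    IsLatBasis (fun _ : Fin 1 => x) (span ℤ {x}) := by
  refine ⟨?_, ?_⟩
  · rw [linearIndependent_unique_iff]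
    exact hx
  · rw [Set.range_const]

theorem covx_singleton_rank {x : EucM m} (hx : x ≠ 0) : latRank (span ℤ {x}) = 1 :=
  lat_rank_eq (covx_singleton_basis hx)

theorem covx_singleton_det {x : EucM m} (hx : x ≠ 0) : latDet (span ℤ {x}) = ‖x‖ := by
  rw [lat_det_eq (covx_singleton_basis hx), lat_gramDet_one, Real.sqrt_sq (norm_nonneg _)]

end

/-- **Leaf COV-INST.** -/
theorem cov_axInst (hRat : StLatRat) (hHt : StLatHeight) (hNor : StLatNormal)
    (hSub : StLatNormalSub) (hMink : StLatMink) : StCovAxInst := by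
  intro N m hN
  have hb : (1 : ℝ) < N := by exact_mod_cast (by omega : 1 < N)
  have hpos : ∀ {U : Submodule ℝ (EucM m)}, IsRat U → 0 < height U := fun hU => covx_height_pos hHt hU
  have hmono : ∀ {U W : Submodule ℝ (EucM m)}, IsRat U → height U ≤ height W →
      covHt N U ≤ covHt N W := fun hU h => Real.logb_le_logb_of_le hb (hpos hU) h
  refine
    { top := (hRat m).1
      sup := fun U W hU hW => ((hRat m).2.2 U W hU hW).1
      inf := fun U W hU hW => ((hRat m).2.2 U W hU hW).2
      nonneg := fun U hU => Real.logb_nonneg hb (covx_one_le_height hHt hU)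
      h_top := by
        unfold covHt
        rw [(hHt m).1, Real.logb_one]
      submod := ?_
      wf := ?_
      span_e := covx_span_covE
      line := (hRat m).2.1
      adj := ?_
      mink := ?_ }
  · intro U W hU hW
    obtain ⟨hs, hi⟩ := (hRat m).2.2 U W hU hW
    unfold covHt
    rw [← Real.logb_mul (hpos hs).ne' (hpos hi).ne', ← Real.logb_mul (hpos hU).ne' (hpos hW).ne']
    exact Real.logb_le_logb_of_le hb (mul_pos (hpos hs) (hpos hi)) ((hHt m).2.2.2 U W hU hW)
  · intro S hS hR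
    obtain ⟨U, hU, hmin⟩ := covx_exists_min hHt S hS hR
    exact ⟨U, hU, fun W hW => hmono (hR U hU) (hmin W hW)⟩
  · intro i U hU
    have hl := (hRat m).2.1 i
    obtain ⟨hs, hi⟩ := (hRat m).2.2 U _ hU hl
    apply hmono hs
    have h1 := (hHt m).2.2.2 U _ hU hl
    rw [(hHt m).2.1 i, mul_one] at h1
    have h2 := covx_one_le_height hHt hi
    nlinarith [hpos hs]
  · intro U U' hU hU' hle u hu hfin
    obtain ⟨hL, hrank, hdet⟩ := hNor m U U' hU hU' hle
    have hrk : latRank (normLat U U') = u := by omega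
    obtain ⟨x, hxL, hx0, hxn⟩ := hMink m (normLat U U') hL (by omega)
    rw [hrk] at hxn
    have hxD : x ∈ latDual (latOf U) := hxL.1
    have hxP : x ∈ U'ᗮ := hxL.2
    have hM : span ℤ {x} ≤ latDual (latOf U) := by
      rw [span_le]
      intro y hy
      rw [Set.mem_singleton_iff.1 hy]
      exact hxD
    obtain ⟨_, hRat'', hfin'', hht''⟩ := hSub m U (span ℤ {x}) hU hM
    rw [covx_singleton_rank hx0] at hfin''
    rw [covx_singleton_det hx0] at hht''
    refine ⟨U ⊓ (rspan (span ℤ {x}))ᗮ, ⟨hU, hRat'', inf_le_left, hfin''.symm⟩, ?_, ?_⟩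
    · refine le_inf hle ?_
      have h1 : rspan (span ℤ {x}) ≤ U'ᗮ := by
        unfold rspan
        rw [span_le]
        intro y hy
        have : span ℤ {x} ≤ (U'ᗮ).restrictScalars ℤ := by
          rw [span_le]
          intro z hz
          rw [Set.mem_singleton_iff.1 hz]
          exact hxP
        exact this hy
      exact (Submodule.le_orthogonal_orthogonal U').trans (Submodule.orthogonal_le h1)
    · have hxpos : 0 < ‖x‖ := norm_pos_iff.2 hx0
      have hupos : (0 : ℝ) < u := by exact_mod_cast (by omega : 0 < u)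
      have hdpos : 0 < latDet (normLat U U') := lat_det_pos hL
      -- step 1
      have s1 : covHt N (U ⊓ (rspan (span ℤ {x}))ᗮ) - covHt N U ≤ Real.logb N ‖x‖ := by
        unfold covHt
        have := Real.logb_le_logb_of_le hb (hpos hRat'') hht''
        rw [Real.logb_mul hxpos.ne' (hpos hU).ne'] at this
        linarith
      -- step 2
      have s2 : (u : ℝ) * Real.logb N ‖x‖ ≤
          (u : ℝ) * covLam N u + (covHt N U' - covHt N U) := by
        have h1 := Real.logb_le_logb_of_le hb (pow_pos hxpos u) hxn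
        have hsq : 0 < Real.sqrt u := Real.sqrt_pos.2 hupos
        rw [Real.logb_pow, Real.logb_mul (pow_pos hsq u).ne' hdpos.ne', Real.logb_pow] at h1
        have h2 : Real.logb N (Real.sqrt u) = covLam N u := by
          unfold covLam Real.logb
          rw [Real.log_sqrt hupos.le]
          ring
        have h3 : Real.logb N (latDet (normLat U U')) = covHt N U' - covHt N U := by
          unfold covHt
          rw [← hdet, Real.logb_mul hdpos.ne' (hpos hU).ne']
          ring
        rw [h2, h3] at h1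
        exact h1
      have s3 : Real.logb N ‖x‖ ≤ (covHt N U' - covHt N U) / u + covLam N u := by
        rw [div_add' _ _ _ hupos.ne', le_div_iff₀ hupos]
        linarith
      exact s1.trans s3

end CovInst

/-! ## Part CovFibre -/

/-
R293 / CovFibre.lean  (owner: helper112).  Leaf COV-FIBRE: the fibre count A (4.9) (`StCovFibre`).
-/

section CovFibre

open Submodule Module

/-- **Leaf COV-FIBRE.** -/
theorem cov_fibre (hEnum : StLatEnum) (hSub : StLatNormalSub) (hNor : StLatNormal)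
    (hHt : StLatHeight) : StCovFibre := by
  intro N m a c ρ V V0 hN ha hρ hV hV0 hle hSB
  have hb : (1 : ℝ) < N := by exact_mod_cast (by omega : 1 < N)
  have hb0 : (0 : ℝ) < N := by linarith
  set X : Set (EucM m) := {x | x ∈ normLat V V0 ∧ ‖x‖ ≤ ρ} with hX
  set F : Submodule ℝ (EucM m) := span ℝ X with hF
  set LF : Submodule ℤ (EucM m) := latDual (latOf V) ⊓ F.restrictScalars ℤ with hLF
  have hLFle : LF ≤ latDual (latOf V) := inf_le_left
  obtain ⟨hLat, hRat'', hfin'', hht''⟩ := hSub m V LF hV hLFle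
  obtain ⟨_, hrankN, _⟩ := hNor m V V0 hV hV0 hle
  have hXLF : X ⊆ {x | x ∈ LF ∧ ‖x‖ ≤ ρ} := by
    intro x hx
    exact ⟨⟨hx.1.1, subset_span hx⟩, hx.2⟩
  have hspan : rspan LF = F := by
    apply le_antisymm
    · unfold rspan
      rw [span_le]
      intro x hx
      exact hx.2
    · rw [hF]
      unfold rspan
      apply span_mono
      intro x hx
      exact (hXLF hx).1
  have hFle : F ≤ rspan (normLat V V0) := by
    rw [hF]
    unfold rspan
    apply span_mono
    intro x hx
    exact hx.1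
  have hj : latRank LF ≤ latRank (normLat V V0) := by
    unfold latRank
    rw [hspan]
    exact Submodule.finrank_mono hFle
  refine ⟨latRank LF, by omega, ?_⟩
  have hgen : rspan LF ≤ span ℝ {x | x ∈ LF ∧ ‖x‖ ≤ ρ} := by
    rw [hspan, hF]
    exact span_mono hXLF
  have hcount := hEnum m LF ρ hLat hρ hgen 0 ρ hρ
  have hdpos : 0 < latDet LF := lat_det_pos hLat
  have hHV : 0 < height V := covx_height_pos hHt hV
  have hHV'' : 0 < height (V ⊓ (rspan LF)ᗮ) := covx_height_pos hHt hRat''
  set ex : ℝ := a * (latRank LF : ℝ) + 2 * c with hex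
  have hNe : 0 < (N : ℝ) ^ ex := Real.rpow_pos_of_pos hb0 _
  -- `H(V) ≤ H(V'') N^ex`
  have h1 : height V ≤ height (V ⊓ (rspan LF)ᗮ) * (N : ℝ) ^ ex := by
    have hsb := hSB (V ⊓ (rspan LF)ᗮ) hRat'' inf_le_left
    have e : (finrank ℝ V : ℝ) - (finrank ℝ (V ⊓ (rspan LF)ᗮ : Submodule ℝ (EucM m)) : ℝ)
        = (latRank LF : ℝ) := by
      have : ((finrank ℝ (V ⊓ (rspan LF)ᗮ : Submodule ℝ (EucM m)) : ℝ)) + (latRank LF : ℝ)
          = (finrank ℝ V : ℝ) := by exact_mod_cast hfin''
      linarith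
    rw [e] at hsb
    unfold covHt at hsb
    have h2 : Real.logb N (height V) ≤ Real.logb N (height (V ⊓ (rspan LF)ᗮ) * (N : ℝ) ^ ex) := by
      rw [Real.logb_mul hHV''.ne' hNe.ne', Real.logb_rpow hb0 hb.ne']
      linarith
    exact (Real.logb_le_logb hb hHV (mul_pos hHV'' hNe)).1 h2
  have h3 : 1 ≤ latDet LF * (N : ℝ) ^ ex := by
    have h4 : height V * 1 ≤ height V * (latDet LF * (N : ℝ) ^ ex) := by
      calc height V * 1 = height V := mul_one _
        _ ≤ height (V ⊓ (rspan LF)ᗮ) * (N : ℝ) ^ ex := h1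
        _ ≤ (latDet LF * height V) * (N : ℝ) ^ ex := mul_le_mul_of_nonneg_right hht'' hNe.le
        _ = height V * (latDet LF * (N : ℝ) ^ ex) := by ring
    exact le_of_mul_le_mul_left h4 hHV
  apply cardLE_mono hcount
  · intro x hx
    have := hXLF hx
    exact ⟨this.1, by simpa using this.2⟩
  · have e3 : 2 * ρ + ρ = 3 * ρ := by ring
    rw [e3, div_le_iff₀ hdpos]
    have hp : 0 ≤ (3 * ρ) ^ latRank LF := pow_nonneg (by linarith) _
    calc (3 * ρ) ^ latRank LF = (3 * ρ) ^ latRank LF * 1 := (mul_one _).symm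
      _ ≤ (3 * ρ) ^ latRank LF * (latDet LF * (N : ℝ) ^ ex) := mul_le_mul_of_nonneg_left h3 hp
      _ = (3 * ρ) ^ latRank LF * (N : ℝ) ^ ex * latDet LF := by ring

end CovFibre

/-! ## Part CovStep -/

/-
R293 / CovStep.lean  (owner: helper54).  Leaf COV-STEP:
`cov_step : CovTauOK τ → StCovHypInj → StCovMinSub → StCovImg τ → StCovFibre → StLatNormalSub → StCovStepCount τ`.
Hyperplanes of `V` inject into `(V ∩ ℤ^m)^*`; project to `V0` (images counted by `StCovImg`), fibres are
translates of short vectors of the normal lattice of `V0` in `V` (`StCovFibre`).  No sorry.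
-/

section CovStep

open Submodule Module
open scoped RealInnerProductSpace

theorem covs_img_nonneg (N : ℕ) (a : ℝ) {τ : ℝ} (hτ : 0 ≤ τ) (e : Bool) : 0 ≤ covImg N a τ e := by
  unfold covImg
  split_ifs
  · have h1 : 0 ≤ 1 + 2 * τ * (N : ℝ) ^ (3 * a) := by
      have : 0 ≤ (N : ℝ) ^ (3 * a) := Real.rpow_nonneg (Nat.cast_nonneg N) _
      positivity
    positivity
  · positivity

theorem covs_thr_le {a : ℝ} (ha : 0 < a) (e : Bool) : covThr a e ≤ 1 / 2 + a := by
  unfold covThr
  split_ifs <;> linarith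

/-- numerics of the fibre bound. -/
theorem covs_numerics {N : ℕ} (hN : 6 ≤ N) {a c y : ℝ} (ha : 0 < a) (ha40 : a ≤ 1 / 40) (hc : 0 ≤ c)
    (hy : y ≤ 1 / 2 + a) {j : ℕ} (hj : a * j ≤ 2 * c) :
    (3 * (2 * (N : ℝ) ^ y)) ^ j * (N : ℝ) ^ (a * j + 2 * c) ≤ (N : ℝ) ^ (6 * c / a) := by
  have hN6 : (6 : ℝ) ≤ N := by exact_mod_cast hN
  have hN1 : (1 : ℝ) ≤ N := by linarith
  have hN0 : (0 : ℝ) < N := by linarith
  have h1 : 3 * (2 * (N : ℝ) ^ y) ≤ (N : ℝ) ^ (3 / 2 + a) := by
    have e1 : (N : ℝ) ^ (3 / 2 + a) = N * (N : ℝ) ^ (1 / 2 + a) := by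
      rw [show (3 / 2 + a : ℝ) = 1 + (1 / 2 + a) by ring, Real.rpow_add hN0, Real.rpow_one]
    have e2 : (N : ℝ) ^ y ≤ (N : ℝ) ^ (1 / 2 + a) := Real.rpow_le_rpow_of_exponent_le hN1 hy
    have e3 : 0 < (N : ℝ) ^ (1 / 2 + a) := Real.rpow_pos_of_pos hN0 _
    rw [e1]
    nlinarith
  have h0 : 0 ≤ 3 * (2 * (N : ℝ) ^ y) := by
    have : 0 ≤ (N : ℝ) ^ y := Real.rpow_nonneg hN0.le _
    positivity
  have h2 : (3 * (2 * (N : ℝ) ^ y)) ^ j ≤ (N : ℝ) ^ ((3 / 2 + a) * j) := by
    rw [Real.rpow_mul hN0.le, Real.rpow_natCast]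
    exact pow_le_pow_left₀ h0 h1 j
  have h3 : 0 ≤ (N : ℝ) ^ (a * j + 2 * c) := Real.rpow_nonneg hN0.le _
  calc (3 * (2 * (N : ℝ) ^ y)) ^ j * (N : ℝ) ^ (a * j + 2 * c)
      ≤ (N : ℝ) ^ ((3 / 2 + a) * j) * (N : ℝ) ^ (a * j + 2 * c) :=
        mul_le_mul_of_nonneg_right h2 h3
    _ = (N : ℝ) ^ ((3 / 2 + a) * j + (a * j + 2 * c)) := (Real.rpow_add hN0 _ _).symm
    _ ≤ (N : ℝ) ^ (6 * c / a) := by
        apply Real.rpow_le_rpow_of_exponent_le hN1
        rw [le_div_iff₀ ha]
        have hj0 : (0 : ℝ) ≤ j := Nat.cast_nonneg j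
        nlinarith [mul_nonneg ha.le hj0, mul_nonneg ha.le hc]

section Proj
variable {m : ℕ}

theorem covs_mem_latOf {V : Submodule ℝ (EucM m)} {x : EucM m} :
    x ∈ latOf V ↔ x ∈ V ∧ x ∈ intLat m := Iff.rfl

/-- the projection to `V0` maps `(V ∩ ℤ^m)^*` to `(V0 ∩ ℤ^m)^*`. -/
theorem covs_proj_mem {V V0 : Submodule ℝ (EucM m)} (hV0 : IsRat V0) (hle : V0 ≤ V) {w : EucM m}
    (hw : w ∈ latDual (latOf V)) : V0.starProjection w ∈ latDual (latOf V0) := by
  refine ⟨?_, fun x hx => ?_⟩
  · have : rspan (latOf V0) = V0 := hV0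
    rw [this]
    exact Submodule.starProjection_apply_mem V0 w
  · have hxV0 : x ∈ V0 := (covs_mem_latOf.mp hx).1
    have hxV : x ∈ latOf V := covs_mem_latOf.mpr ⟨hle hxV0, (covs_mem_latOf.mp hx).2⟩
    obtain ⟨n, hn⟩ := hw.2 x hxV
    refine ⟨n, ?_⟩
    rw [Submodule.inner_starProjection_left_eq_right, Submodule.starProjection_eq_self_iff.mpr hxV0, hn]

/-- two points of a fibre differ by an element of the normal lattice. -/
theorem covs_sub_mem {V V0 : Submodule ℝ (EucM m)} {w w0 : EucM m}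
    (hw : w ∈ latDual (latOf V)) (hw0 : w0 ∈ latDual (latOf V))
    (heq : V0.starProjection w = V0.starProjection w0) : w - w0 ∈ normLat V V0 := by
  refine ⟨(latDual (latOf V)).sub_mem hw hw0, ?_⟩
  show w - w0 ∈ V0ᗮ
  rw [← Submodule.starProjection_apply_eq_zero_iff, map_sub, heq, sub_self]

end Proj

/-- **Leaf COV-STEP.** -/
theorem cov_step {τ : ℕ → ℝ} (hτ : CovTauOK τ) (h1 : StCovHypInj) (h2 : StCovMinSub)
    (h3 : StCovImg τ) (h4 : StCovFibre) (h5 : StLatNormalSub) : StCovStepCount τ := by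
  intro N m a t V hmN hN6 ha ha40
  have hτN : (0 : ℝ) ≤ τ N := by linarith [hτ.2.1 N]
  have hN2 : 2 ≤ N := by omega
  have hN0 : (0 : ℝ) < N := by exact_mod_cast (by omega : 0 < N)
  have hB0 : 0 ≤ covB N a (τ N) t :=
    mul_nonneg (covs_img_nonneg N a hτN _) (Real.rpow_nonneg hN0.le _)
  by_cases hne : ∃ V', covStep IsRat (covHt N) a t V V'
  swap
  · refine cardLE_mono (cardLE_empty hB0) ?_ le_rfl
    intro V' hV'
    exact absurd ⟨V', hV'⟩ hne
  obtain ⟨V1, ⟨hVR, _, _, _⟩, hSB, _⟩ := hne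
  set y := covThr a t.2 with hy
  set Rr := (N : ℝ) ^ y with hRr
  have hRr0 : 0 ≤ Rr := Real.rpow_nonneg hN0.le _
  have hcount : cardLE {w | w ∈ latDual (latOf V) ∧ ‖w‖ ≤ (N : ℝ) ^ y} (covB N a (τ N) t) := by
    obtain ⟨V0, hV0R, hV0V, hDet, hdim⟩ := h2 N m a t.1 V hN2 ha hVR hSB
    obtain ⟨j, hj, hfib⟩ := h4 N m a t.1 (2 * Rr) V V0 hN2 ha (by positivity) hVR hV0R hV0V hSB
    have hLat : IsLat (latDual (latOf V0)) := (h5 m V0 _ hV0R le_rfl).1
    have himg := h3 N m a t.2 (latDual (latOf V0)) hmN (by omega) ha hLat hDet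
    have hB2 : 0 ≤ (3 * (2 * Rr)) ^ j * (N : ℝ) ^ (a * j + 2 * (t.1 : ℝ)) :=
      mul_nonneg (by positivity) (Real.rpow_nonneg hN0.le _)
    have hprod : cardLE {w | w ∈ latDual (latOf V) ∧ ‖w‖ ≤ (N : ℝ) ^ y}
        (covImg N a (τ N) t.2 * ((3 * (2 * Rr)) ^ j * (N : ℝ) ^ (a * j + 2 * (t.1 : ℝ)))) := by
      refine cardLE_fibres (fun w => V0.starProjection w) ?_ hB2 ?_
      · refine cardLE_mono himg ?_ le_rfl
        rintro _ ⟨w, ⟨hw, hwn⟩, rfl⟩
        exact ⟨covs_proj_mem hV0R hV0V hw, (Submodule.norm_starProjection_apply_le V0 w).trans hwn⟩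
      · intro b
        by_cases hb : ∃ w0, (w0 ∈ latDual (latOf V) ∧ ‖w0‖ ≤ (N : ℝ) ^ y) ∧ V0.starProjection w0 = b
        · obtain ⟨w0, ⟨hw0, hw0n⟩, hw0b⟩ := hb
          refine cardLE_of_injOn (fun w => w - w0) ?_ ?_ hfib
          · intro w _ w' _ hww
            exact sub_left_injective hww
          · rintro w ⟨⟨hw, hwn⟩, hwb⟩
            refine ⟨covs_sub_mem hw hw0 (hwb.trans hw0b.symm), ?_⟩
            calc ‖w - w0‖ ≤ ‖w‖ + ‖w0‖ := norm_sub_le _ _
              _ ≤ 2 * Rr := by linarith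
        · refine cardLE_mono (cardLE_empty hB2) ?_ le_rfl
          rintro w ⟨hw, hwb⟩
          exact absurd ⟨w, hw, hwb⟩ hb
    refine cardLE_mono hprod le_rfl ?_
    unfold covB
    refine mul_le_mul_of_nonneg_left ?_ (covs_img_nonneg N a hτN _)
    have hj' : a * (j : ℝ) ≤ 2 * (t.1 : ℝ) := by
      have : (j : ℝ) + finrank ℝ V0 ≤ finrank ℝ V := by exact_mod_cast hj
      have h' : a * (j : ℝ) ≤ a * ((finrank ℝ V : ℝ) - finrank ℝ V0) :=
        mul_le_mul_of_nonneg_left (by linarith) ha.le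
      linarith
    exact covs_numerics hN6 ha ha40 (Nat.cast_nonneg _) (covs_thr_le ha t.2) hj'
  refine cardLE_mono (h1 N m V y _ hN2 hVR hcount) ?_ le_rfl
  rintro V' ⟨hh, _, hle⟩
  exact ⟨hh, hle⟩

end CovStep

end Claimed.Agent.R293
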