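/-
R293 / LatEnum.lean  (owner: helper16).  Leaf LAT-ENUM: the elementary enumeration bound.
If `L` is spanned over `ℝ` by its vectors of norm `≤ ρ`, every ball of radius `r` contains at most
`(2r+ρ)^{rank L} / det L` points of `L`.
Induction on the rank: `K = L ∩ span(w₁..w_j)` is primitive of corank one, `L/K = ℤ g`,
`‖g‖ = det L / det K ≤ ρ`; at most `2r/‖g‖ + 1` images, the fibres are translates of balls of `K`.
-/
import Claimed.Agent.R293.CovIface
import Claimed.Agent.R293.CovCard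
import Claimed.Agent.R293.LatQuot

set_option autoImplicit false

namespace Claimed.Agent.R293

open Submodule Module
open scoped RealInnerProductSpace

section General
variable {E : Type*} [NormedAddCommGroup E] [InnerProductSpace ℝ E]

/-- integers in a real interval of half length `a`. -/
theorem lat_enum_int_interval (t a : ℝ) (ha : 0 ≤ a) :
    cardLE {k : ℤ | |(k : ℝ) - t| ≤ a} (2 * a + 1) := by
  intro S hS
  have hsub : S ⊆ Finset.Icc ⌈t - a⌉ ⌊t + a⌋ := by
    intro k hk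
    have h0 : |(k : ℝ) - t| ≤ a := hS hk
    have h := abs_le.1 h0
    rw [Finset.mem_Icc]
    exact ⟨Int.ceil_le.2 (by linarith [h.1]), Int.le_floor.2 (by linarith [h.2])⟩
  have h1 : (S.card : ℝ) ≤ ((Finset.Icc ⌈t - a⌉ ⌊t + a⌋).card : ℝ) := by
    exact_mod_cast Finset.card_le_card hsub
  refine h1.trans ?_
  rw [Int.card_Icc]
  have h2 : ((⌊t + a⌋ + 1 - ⌈t - a⌉ : ℤ) : ℝ) ≤ 2 * a + 1 := by
    push_cast
    linarith [Int.floor_le (t + a), Int.le_ceil (t - a)]
  rcases le_total 0 (⌊t + a⌋ + 1 - ⌈t - a⌉) with h | h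
  · have : (((⌊t + a⌋ + 1 - ⌈t - a⌉).toNat : ℤ) : ℝ) = ((⌊t + a⌋ + 1 - ⌈t - a⌉ : ℤ) : ℝ) := by
      rw [Int.toNat_of_nonneg h]
    calc (((⌊t + a⌋ + 1 - ⌈t - a⌉).toNat : ℕ) : ℝ)
        = (((⌊t + a⌋ + 1 - ⌈t - a⌉).toNat : ℤ) : ℝ) := by push_cast; rfl
      _ ≤ 2 * a + 1 := by rw [this]; exact h2
  · rw [Int.toNat_of_nonpos h]
    simp only [Nat.cast_zero]
    positivity

/-- points of `ℤ g` in a ball. -/
theorem lat_enum_line {g : E} (hg : g ≠ 0) (y0 : E) {r : ℝ} (hr : 0 ≤ r) :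
    cardLE {y : E | (∃ k : ℤ, y = (k : ℝ) • g) ∧ ‖y - y0‖ ≤ r} (2 * r / ‖g‖ + 1) := by
  have hgn : 0 < ‖g‖ := norm_pos_iff.2 hg
  set t : ℝ := ⟪y0, g⟫ / ‖g‖ ^ 2 with ht
  have key : ∀ k : ℤ, ‖(k : ℝ) • g - y0‖ ≤ r → |(k : ℝ) - t| ≤ r / ‖g‖ := by
    intro k hk
    have h1 : |⟪(k : ℝ) • g - y0, g⟫| ≤ r * ‖g‖ :=
      (abs_real_inner_le_norm _ _).trans (mul_le_mul_of_nonneg_right hk hgn.le)
    have h2 : ⟪(k : ℝ) • g - y0, g⟫ = ((k : ℝ) - t) * ‖g‖ ^ 2 := by
      rw [inner_sub_left, real_inner_smul_left, real_inner_self_eq_norm_sq, ht]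
      field_simp
    rw [h2, abs_mul, abs_of_pos (by positivity : (0 : ℝ) < ‖g‖ ^ 2)] at h1
    rw [le_div_iff₀ hgn]
    have h3 : |(k : ℝ) - t| * ‖g‖ * ‖g‖ ≤ r * ‖g‖ := by nlinarith [h1]
    exact le_of_mul_le_mul_right h3 hgn
  have hcount := lat_enum_int_interval t (r / ‖g‖) (by positivity)
  have e : 2 * r / ‖g‖ + 1 = 2 * (r / ‖g‖) + 1 := by ring
  rw [e]
  classical
  choose! κ hκ using fun (y : E) (hy : ∃ k : ℤ, y = (k : ℝ) • g) => hy
  refine cardLE_of_injOn κ ?_ ?_ hcount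
  · intro y hy y' hy' h
    rw [hκ y hy.1, hκ y' hy'.1, h]
  · intro y hy
    have := hκ y hy.1
    refine key (κ y) ?_
    rw [← this]
    exact hy.2

/-- a rank one lattice is `ℤ g` with `‖g‖ = det`. -/
theorem lat_enum_rank_one {Q : Submodule ℤ E} (hQ : IsLat Q) (h1 : latRank Q = 1) :
    ∃ g : E, g ≠ 0 ∧ latDet Q = ‖g‖ ∧ ∀ y ∈ Q, ∃ k : ℤ, y = (k : ℝ) • g := by
  obtain ⟨r, b, hb⟩ := hQ
  have hr : r = 1 := (lat_rank_eq hb).symm.trans h1
  subst hr
  refine ⟨b 0, hb.1.ne_zero 0, ?_, fun y hy => ?_⟩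
  · rw [lat_det_eq hb, lat_gramDet_one, Real.sqrt_sq (norm_nonneg _)]
  · obtain ⟨a, ha⟩ := lat_exists_coeff hb hy
    exact ⟨a 0, by rw [ha]; simp⟩

variable [FiniteDimensional ℝ E]

/-- an independent family of `finrank (span S)` vectors inside `S`. -/
theorem lat_enum_exists_family (S : Set E) {n : ℕ} (hn : finrank ℝ (span ℝ S) = n) :
    ∃ w : Fin n → E, LinearIndependent ℝ w ∧ ∀ i, w i ∈ S := by
  classical
  obtain ⟨b, hbS, hspan, hli⟩ := exists_linearIndependent ℝ S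
  have hfin : b.Finite := hli.setFinite
  have : Fintype b := hfin.fintype
  have hcard : Fintype.card b = n := by
    have h := finrank_span_eq_card hli
    rw [Subtype.range_coe, hspan, hn] at h
    exact h.symm
  let e : Fin n ≃ b := (Fintype.equivFinOfCardEq hcard).symm
  exact ⟨fun i => (e i : E), hli.comp e e.injective, fun i => hbS (e i).2⟩

/-- **Enumeration bound**, induction on the rank. -/
theorem lat_enum_aux (ρ : ℝ) (hρ : 0 ≤ ρ) : ∀ (j : ℕ) (L : Submodule ℤ E), IsLat L → latRank L = j →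
    rspan L ≤ span ℝ {x | x ∈ L ∧ ‖x‖ ≤ ρ} → ∀ (z : E) (r : ℝ), 0 ≤ r →
      cardLE {x | x ∈ L ∧ ‖x - z‖ ≤ r} ((2 * r + ρ) ^ j / latDet L) := by
  intro j
  induction j with
  | zero =>
    intro L hL hj _ z r _
    have hbot : L = ⊥ := by
      have h0 : rspan L = ⊥ := by
        unfold latRank at hj
        exact Submodule.finrank_eq_zero.1 hj
      rw [eq_bot_iff]
      intro x hx
      have : x ∈ rspan L := lat_le_rspan L hx
      rw [h0] at this
      simpa using this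
    subst hbot
    rw [lat_det_bot, pow_zero, div_one]
    refine cardLE_subsingleton ?_
    rintro x ⟨hx, -⟩ y ⟨hy, -⟩
    rw [(Submodule.mem_bot ℤ).1 hx, (Submodule.mem_bot ℤ).1 hy]
  | succ j ih =>
    intro L hL hj hspan z r hr
    -- short independent vectors
    set S : Set E := {x | x ∈ L ∧ ‖x‖ ≤ ρ} with hS
    have hSspan : span ℝ S = rspan L :=
      le_antisymm (span_mono fun x hx => hx.1) hspan
    obtain ⟨w, hw, hwS⟩ := lat_enum_exists_family S (n := j + 1) (by rw [hSspan]; exact hj)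
    have hsn : LinearIndependent ℝ (Fin.init w) ∧ w (Fin.last j) ∉ span ℝ (Set.range (Fin.init w)) := by
      rw [← linearIndependent_finSnoc, Fin.snoc_init_self]
      exact hw
    set w' : Fin j → E := Fin.init w with hw'
    set M : Submodule ℤ E := span ℤ (Set.range w') with hM
    have hMb : IsLatBasis w' M := lat_isLatBasis_span hsn.1
    have hML : M ≤ L := by
      rw [hM, span_le]
      rintro _ ⟨i, rfl⟩
      exact (hwS _).1
    set K : Submodule ℤ E := latSat L M with hK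
    have hKp : IsPrim L K := lat_sat_isPrim hML
    have hKl : IsLat K := lat_sat_isLat hL M
    have hKr : latRank K = j := (lat_rank_sat hML).trans (lat_rank_eq hMb)
    have hKs : rspan K = span ℝ (Set.range w') := (lat_rspan_sat hML).trans (lat_rspan_eq hMb)
    have hKspan : rspan K ≤ span ℝ {x | x ∈ K ∧ ‖x‖ ≤ ρ} := by
      rw [hKs]
      refine span_mono ?_
      rintro _ ⟨i, rfl⟩
      exact ⟨lat_le_sat hML (lat_basis_mem hMb i), (hwS _).2⟩
    -- the quotient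
    set Q : Submodule ℤ E := latQuot L K with hQ
    have hQl : IsLat Q := lat_quot_isLat hL hKp
    have hQr : latRank Q = 1 := by
      have := lat_rank_quot hL hKp
      rw [hj, hKr] at this
      exact (Nat.add_left_cancel this).symm
    obtain ⟨g, hg0, hgd, hgQ⟩ := lat_enum_rank_one hQl hQr
    have hgn : 0 < ‖g‖ := norm_pos_iff.2 hg0
    have hdet : latDet L = latDet K * ‖g‖ := by rw [lat_det_quot hL hKp, hgd]
    have hKd : 0 < latDet K := lat_det_pos hKl
    set π : E →ₗ[ℝ] E := perpProj (rspan K) with hπ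
    have hgρ : ‖g‖ ≤ ρ := by
      have h1 : π (w (Fin.last j)) ∈ Q := lat_perpProj_mem_quot K (hwS _).1
      have h2 : π (w (Fin.last j)) ≠ 0 := by
        intro h
        rw [hπ, lat_perpProj_eq_zero_iff, hKs] at h
        exact hsn.2 h
      obtain ⟨k, hk⟩ := hgQ _ h1
      have hk0 : k ≠ 0 := by
        rintro rfl
        apply h2
        rw [hk]
        simp
      have hk1 : (1 : ℝ) ≤ |(k : ℝ)| := by
        have : (1 : ℤ) ≤ |k| := Int.one_le_abs hk0
        exact_mod_cast this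
      calc ‖g‖ ≤ |(k : ℝ)| * ‖g‖ := le_mul_of_one_le_left hgn.le hk1
        _ = ‖π (w (Fin.last j))‖ := by rw [hk, norm_smul, Real.norm_eq_abs]
        _ ≤ ‖w (Fin.last j)‖ := lat_norm_perpProj_le _ _
        _ ≤ ρ := (hwS _).2
    -- count
    have hB2 : 0 ≤ (2 * r + ρ) ^ j / latDet K := by positivity
    have himg : cardLE (π '' {x | x ∈ L ∧ ‖x - z‖ ≤ r}) (2 * r / ‖g‖ + 1) := by
      refine cardLE_mono (lat_enum_line hg0 (π z) hr) ?_ le_rfl
      rintro _ ⟨x, ⟨hxL, hxz⟩, rfl⟩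
      refine ⟨hgQ _ (lat_perpProj_mem_quot K hxL), ?_⟩
      rw [← map_sub]
      exact (lat_norm_perpProj_le _ _).trans hxz
    have hfib : ∀ y, cardLE {x | x ∈ {x | x ∈ L ∧ ‖x - z‖ ≤ r} ∧ π x = y}
        ((2 * r + ρ) ^ j / latDet K) := by
      intro y
      by_cases hne : ∃ x0, x0 ∈ {x | x ∈ L ∧ ‖x - z‖ ≤ r} ∧ π x0 = y
      · obtain ⟨x0, ⟨hx0L, -⟩, hx0y⟩ := hne
        refine cardLE_of_injOn (fun x => x - x0) (fun a _ b _ h => sub_left_injective h) ?_
          (ih K hKl hKr hKspan (z - x0) r hr)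
        rintro x ⟨⟨hxL, hxz⟩, hxy⟩
        refine ⟨?_, ?_⟩
        · have h0 : π (x - x0) = 0 := by rw [map_sub, hxy, hx0y, sub_self]
          rw [hπ, lat_perpProj_eq_zero_iff] at h0
          exact lat_isPrim_mem hKp (L.sub_mem hxL hx0L) h0
        · simpa using hxz
      · refine cardLE_mono (cardLE_empty hB2) ?_ le_rfl
        intro x hx
        exact (hne ⟨x, hx⟩).elim
    refine cardLE_mono (cardLE_fibres π himg hB2 hfib) le_rfl ?_
    rw [hdet, pow_succ]
    have h1 : 2 * r / ‖g‖ + 1 ≤ (2 * r + ρ) / ‖g‖ := by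
      rw [add_div, add_le_add_iff_left, le_div_iff₀ hgn, one_mul]
      exact hgρ
    calc (2 * r / ‖g‖ + 1) * ((2 * r + ρ) ^ j / latDet K)
        ≤ (2 * r + ρ) / ‖g‖ * ((2 * r + ρ) ^ j / latDet K) := mul_le_mul_of_nonneg_right h1 hB2
      _ = (2 * r + ρ) ^ j * (2 * r + ρ) / (latDet K * ‖g‖) := by
          field_simp

end General

/-- **Leaf LAT-ENUM.** -/
theorem lat_enum : StLatEnum := fun _ L ρ hL hρ hspan z r hr =>
  lat_enum_aux ρ hρ (latRank L) L hL rfl hspan z r hr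

end Claimed.Agent.R293
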