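/-
R293 / GPoisAlg.lean (owner: helper62).  Package GPOIS: n-dimensional Gaussian Poisson summation.
Sorry-free.  Prefix gp.
-/
import Mathlib

set_option autoImplicit false

namespace Claimed.Agent.R293

open Matrix

/-- real quadratic form of a matrix. -/
def gpQ {ι : Type*} [Fintype ι] (G : Matrix ι ι ℝ) (x : ι → ℝ) : ℝ := x ⬝ᵥ (G *ᵥ x)

section Bord
variable {α : Type*}

/-- the bordered symmetric matrix `[[a, vᵀ], [v, H]]`. -/
def gpBord (a : ℝ) (v : α → ℝ) (H : Matrix α α ℝ) : Matrix (Unit ⊕ α) (Unit ⊕ α) ℝ :=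
  Matrix.fromBlocks (Matrix.of fun _ _ => a) (Matrix.of fun _ j => v j)
    (Matrix.of fun i _ => v i) H

/-- the Schur complement `H - v vᵀ / a`. -/
noncomputable def gpSchur (a : ℝ) (v : α → ℝ) (H : Matrix α α ℝ) : Matrix α α ℝ :=
  Matrix.of fun i j => H i j - v i * v j / a

variable [Fintype α]

lemma gpBord_mulVec (a : ℝ) (v : α → ℝ) (H : Matrix α α ℝ) (x : ℝ) (y : α → ℝ) :
    gpBord a v H *ᵥ Sum.elim (fun _ => x) y =
      Sum.elim (fun _ => a * x + v ⬝ᵥ y) (x • v + H *ᵥ y) := by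
  unfold gpBord
  rw [Matrix.fromBlocks_mulVec]
  ext i
  rcases i with i | i
  · simp [Matrix.mulVec, dotProduct]
  · simp [Matrix.mulVec, dotProduct, mul_comm]

lemma gpSchur_mulVec (a : ℝ) (v : α → ℝ) (H : Matrix α α ℝ) (y : α → ℝ) :
    gpSchur a v H *ᵥ y = H *ᵥ y - ((v ⬝ᵥ y) / a) • v := by
  ext i
  simp only [gpSchur, Matrix.mulVec, dotProduct, Matrix.of_apply, Pi.sub_apply, Pi.smul_apply,
    smul_eq_mul, sub_mul, Finset.sum_sub_distrib, Finset.sum_div, Finset.sum_mul]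
  congr 1
  refine Finset.sum_congr rfl fun j _ => ?_
  ring

lemma gpQ_schur (a : ℝ) (v : α → ℝ) (H : Matrix α α ℝ) (y : α → ℝ) :
    gpQ (gpSchur a v H) y = gpQ H y - (v ⬝ᵥ y) ^ 2 / a := by
  unfold gpQ
  rw [gpSchur_mulVec, dotProduct_sub, dotProduct_smul, dotProduct_comm y v, smul_eq_mul]
  ring

lemma gpQ_bord' (a : ℝ) (v : α → ℝ) (H : Matrix α α ℝ) (x : ℝ) (y : α → ℝ) :
    gpQ (gpBord a v H) (Sum.elim (fun _ => x) y) = a * x ^ 2 + 2 * x * (v ⬝ᵥ y) + gpQ H y := by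
  unfold gpQ
  rw [gpBord_mulVec, sumElim_dotProduct_sumElim, dotProduct_add, dotProduct_smul,
    dotProduct_comm y v]
  simp [dotProduct]
  ring

lemma gpQ_bord {a : ℝ} (ha : a ≠ 0) (v : α → ℝ) (H : Matrix α α ℝ) (x : ℝ) (y : α → ℝ) :
    gpQ (gpBord a v H) (Sum.elim (fun _ => x) y) =
      a * (x + (v ⬝ᵥ y) / a) ^ 2 + gpQ (gpSchur a v H) y := by
  rw [gpQ_bord', gpQ_schur]
  field_simp
  ring

omit [Fintype α] in
lemma gp_exists_bord {G : Matrix (Unit ⊕ α) (Unit ⊕ α) ℝ} (hG : G.IsSymm) :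
    G = gpBord (G (Sum.inl ()) (Sum.inl ())) (fun j => G (Sum.inl ()) (Sum.inr j)) G.toBlocks₂₂ := by
  ext i j
  rcases i with i | i <;> rcases j with j | j
  · rfl
  · rfl
  · simp only [gpBord, Matrix.fromBlocks_apply₂₁, Matrix.of_apply]
    exact hG.apply _ _
  · rfl


lemma gpQ_pos {ι : Type*} [Fintype ι] {G : Matrix ι ι ℝ} (hG : G.PosDef) {x : ι → ℝ}
    (hx : x ≠ 0) : 0 < gpQ G x := by
  have := hG.dotProduct_mulVec_pos hx
  simpa [gpQ] using this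

lemma gp_posDef_of_gpQ {ι : Type*} [Fintype ι] {G : Matrix ι ι ℝ} (hs : G.IsSymm)
    (h : ∀ x : ι → ℝ, x ≠ 0 → 0 < gpQ G x) : G.PosDef := by
  refine Matrix.PosDef.of_dotProduct_mulVec_pos ?_ fun x hx => ?_
  · rw [Matrix.IsHermitian, Matrix.conjTranspose_eq_transpose_of_trivial]
    exact hs
  · simpa [gpQ] using h x hx

lemma gp_isSymm_of_posDef {ι : Type*} {G : Matrix ι ι ℝ} (hG : G.PosDef) : G.IsSymm := by
  have := hG.isHermitian
  rwa [Matrix.IsHermitian, Matrix.conjTranspose_eq_transpose_of_trivial] at this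

omit [Fintype α] in
lemma gpBord_a_pos {a : ℝ} {v : α → ℝ} {H : Matrix α α ℝ} (h : (gpBord a v H).PosDef) :
    0 < a := by
  have := h.diag_pos (i := Sum.inl ())
  simpa [gpBord] using this

lemma gpSchur_posDef {a : ℝ} {v : α → ℝ} {H : Matrix α α ℝ} (h : (gpBord a v H).PosDef) :
    (gpSchur a v H).PosDef := by
  have ha := gpBord_a_pos h
  have hs := gp_isSymm_of_posDef h
  refine gp_posDef_of_gpQ ?_ fun y hy => ?_
  · ext i j
    have := hs.apply (Sum.inr i) (Sum.inr j)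
    simp only [gpBord, Matrix.fromBlocks_apply₂₂] at this
    simp only [gpSchur, Matrix.transpose_apply, Matrix.of_apply, this]
    ring
  · have h1 := gpQ_bord ha.ne' v H (-(v ⬝ᵥ y) / a) y
    have h2 : (Sum.elim (fun _ => -(v ⬝ᵥ y) / a) y : Unit ⊕ α → ℝ) ≠ 0 := by
      intro h0
      apply hy
      ext i
      simpa using congrFun h0 (Sum.inr i)
    have h3 := gpQ_pos h h2
    rw [h1] at h3
    have h4 : -(v ⬝ᵥ y) / a + (v ⬝ᵥ y) / a = 0 := by ring
    rw [h4] at h3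
    simpa using h3

variable [DecidableEq α]

lemma det_gpBord {a : ℝ} (ha : a ≠ 0) (v : α → ℝ) (H : Matrix α α ℝ) :
    (gpBord a v H).det = a * (gpSchur a v H).det := by
  unfold gpBord
  let _ : Invertible (Matrix.of fun (_ _ : Unit) => a) :=
    ⟨Matrix.of fun _ _ => a⁻¹, by ext i j; simp [Matrix.mul_apply, ha],
      by ext i j; simp [Matrix.mul_apply, ha]⟩
  rw [Matrix.det_fromBlocks₁₁]
  congr 1
  · simp
  · congr 1
    ext i j
    simp [gpSchur, Matrix.mul_apply]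
    ring

lemma gpQ_inv_eq {ι : Type*} [Fintype ι] [DecidableEq ι] {G : Matrix ι ι ℝ} (hG : G.PosDef)
    {x κ : ι → ℝ} (h : G *ᵥ x = κ) : gpQ G⁻¹ κ = κ ⬝ᵥ x := by
  unfold gpQ
  rw [← h, Matrix.mulVec_mulVec, Matrix.nonsing_inv_mul _ ((Matrix.isUnit_iff_isUnit_det _).mp hG.isUnit),
    Matrix.one_mulVec]

lemma gpQ_inv_bord {a : ℝ} {v : α → ℝ} {H : Matrix α α ℝ} (h : (gpBord a v H).PosDef)
    (κ₀ : ℝ) (κ : α → ℝ) :
    gpQ (gpBord a v H)⁻¹ (Sum.elim (fun _ => κ₀) κ) =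
      κ₀ ^ 2 / a + gpQ (gpSchur a v H)⁻¹ (κ - (κ₀ / a) • v) := by
  have ha := gpBord_a_pos h
  have hS := gpSchur_posDef h
  set η : α → ℝ := (gpSchur a v H)⁻¹ *ᵥ (κ - (κ₀ / a) • v) with hη
  have hSη : gpSchur a v H *ᵥ η = κ - (κ₀ / a) • v := by
    rw [hη, Matrix.mulVec_mulVec,
      Matrix.mul_nonsing_inv _ ((Matrix.isUnit_iff_isUnit_det _).mp hS.isUnit), Matrix.one_mulVec]
  have h1 : gpBord a v H *ᵥ Sum.elim (fun _ => (κ₀ - v ⬝ᵥ η) / a) η = Sum.elim (fun _ => κ₀) κ := by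
    rw [gpBord_mulVec]
    rw [gpSchur_mulVec] at hSη
    have hH : H *ᵥ η = κ - (κ₀ / a) • v + ((v ⬝ᵥ η) / a) • v := by rw [← hSη]; abel
    rw [hH]
    ext i
    rcases i with i | i
    · simp only [Sum.elim_inl]
      field_simp
      ring
    · simp only [Sum.elim_inr, Pi.add_apply, Pi.sub_apply, Pi.smul_apply, smul_eq_mul]
      ring
  rw [gpQ_inv_eq h h1, gpQ_inv_eq hS hSη, sumElim_dotProduct_sumElim, sub_dotProduct,
    smul_dotProduct]
  simp [dotProduct]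
  field_simp
  ring

end Bord

end Claimed.Agent.R293
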