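/-
R293 / GPoisOne.lean (owner: helper62).  Package GPOIS: n-dimensional Gaussian Poisson summation.
Sorry-free.  Prefix gp.
-/
import Mathlib

set_option autoImplicit false

namespace Claimed.Agent.R293

open Real Complex
open scoped Real

/-- the phase `e(t) = exp(2π i t)`. -/
noncomputable def gpE (t : ℝ) : ℂ := cexp (2 * π * t * I)

lemma gpE_add (s t : ℝ) : gpE (s + t) = gpE s * gpE t := by
  unfold gpE
  rw [← Complex.exp_add]
  congr 1
  push_cast
  ring

lemma gpE_zero : gpE 0 = 1 := by simp [gpE]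

lemma norm_gpE (t : ℝ) : ‖gpE t‖ = 1 := by
  unfold gpE
  have : (2 * π * t * I : ℂ) = ((2 * π * t : ℝ) : ℂ) * I := by push_cast; ring
  rw [this, Complex.norm_exp_ofReal_mul_I]

lemma gpE_neg (t : ℝ) : gpE (-t) = (gpE t)⁻¹ := by
  unfold gpE
  rw [← Complex.exp_neg]
  congr 1
  push_cast
  ring

lemma gpE_re (t : ℝ) : (gpE t).re = Real.cos (2 * π * t) := by
  unfold gpE
  have : (2 * π * t * I : ℂ) = ((2 * π * t : ℝ) : ℂ) * I := by push_cast; ring
  rw [this, Complex.exp_ofReal_mul_I_re]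

lemma gpE_int (n : ℤ) : gpE n = 1 := by
  unfold gpE
  have : (2 * π * ((n : ℝ) : ℂ) * I : ℂ) = n * (2 * π * I) := by push_cast; ring
  rw [this, Complex.exp_int_mul_two_pi_mul_I]

/-- one-dimensional summability of shifted Gaussians over `ℤ`. -/
lemma gp1_summable {a : ℝ} (ha : 0 < a) (c : ℝ) :
    Summable fun n : ℤ => Real.exp (-π * a * ((n : ℝ) + c) ^ 2) := by
  have h := (summable_jacobiTheta₂_term_iff (I * (a * c)) (I * a)).mpr (by simpa using ha)
  have h2 := h.norm.mul_left (Real.exp (-π * a * c ^ 2))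
  refine h2.congr fun n => ?_
  rw [norm_jacobiTheta₂_term, ← Real.exp_add]
  congr 1
  simp
  ring


/-- one-dimensional Poisson summation for a Gaussian with a real shift `c` and a real
modulation `θ`. -/
lemma gp1_poisson {a : ℝ} (ha : 0 < a) (c θ : ℝ) :
    ∑' n : ℤ, ((Real.exp (-π * a * ((n : ℝ) + c) ^ 2) : ℝ) : ℂ) * gpE (θ * n) =
      ((1 / Real.sqrt a : ℝ) : ℂ) *
        ∑' k : ℤ, ((Real.exp (-π * ((k : ℝ) - θ) ^ 2 / a) : ℝ) : ℂ) * gpE (((k : ℝ) - θ) * c) := by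
  have ha' : (a : ℂ) ≠ 0 := by exact_mod_cast ha.ne'
  have key := Complex.tsum_exp_neg_quadratic (a := (a : ℂ)) (by simpa using ha)
    (-(a : ℂ) * c + I * θ)
  have hsq : (a : ℂ) ^ (1 / 2 : ℂ) = ((Real.sqrt a : ℝ) : ℂ) := by
    rw [Real.sqrt_eq_rpow, Complex.ofReal_cpow ha.le]
    norm_num
  have hL : ∀ n : ℤ, cexp (-π * a * n ^ 2 + 2 * π * (-(a : ℂ) * c + I * θ) * n) =
      cexp (π * a * c ^ 2) *
        (((Real.exp (-π * a * ((n : ℝ) + c) ^ 2) : ℝ) : ℂ) * gpE (θ * n)) := by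
    intro n
    unfold gpE
    rw [Complex.ofReal_exp, ← Complex.exp_add, ← Complex.exp_add]
    congr 1
    push_cast
    ring
  have hR : ∀ n : ℤ, cexp (-π / a * (n + I * (-(a : ℂ) * c + I * θ)) ^ 2) =
      cexp (π * a * c ^ 2) *
        (((Real.exp (-π * ((n : ℝ) - θ) ^ 2 / a) : ℝ) : ℂ) * gpE (((n : ℝ) - θ) * c)) := by
    intro n
    unfold gpE
    rw [Complex.ofReal_exp, ← Complex.exp_add, ← Complex.exp_add]
    congr 1
    push_cast
    field_simp
    ring_nf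
    simp only [I_sq, I_pow_four, I_pow_three]
    ring
  simp_rw [hL, hR, tsum_mul_left, hsq] at key
  have hne : cexp (π * a * c ^ 2) ≠ 0 := Complex.exp_ne_zero _
  have key2 := mul_left_cancel₀ hne (key.trans (by ring :
    _ = cexp (π * a * c ^ 2) * (1 / ((Real.sqrt a : ℝ) : ℂ) *
      ∑' n : ℤ, ((Real.exp (-π * ((n : ℝ) - θ) ^ 2 / a) : ℝ) : ℂ) * gpE (((n : ℝ) - θ) * c))))
  rw [key2]
  push_cast
  ring


lemma gp1_summable' {a : ℝ} (ha : 0 < a) (θ : ℝ) :
    Summable fun k : ℤ => Real.exp (-π * ((k : ℝ) - θ) ^ 2 / a) := by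
  refine (gp1_summable (inv_pos.mpr ha) (-θ)).congr fun k => ?_
  congr 1
  field_simp
  ring

/-- the one-dimensional shift inequality (uniform bound of shifted Gaussian sums). -/
lemma gp1_bound {a : ℝ} (ha : 0 < a) (c : ℝ) :
    ∑' n : ℤ, Real.exp (-π * a * ((n : ℝ) + c) ^ 2) ≤
      1 / Real.sqrt a * ∑' k : ℤ, Real.exp (-π * ((k : ℝ) - 0) ^ 2 / a) := by
  have h := gp1_poisson ha c 0
  simp only [zero_mul, gpE_zero, mul_one] at h
  rw [← Complex.ofReal_tsum] at h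
  have h1 : ∑' n : ℤ, Real.exp (-π * a * ((n : ℝ) + c) ^ 2) =
      ‖((∑' n : ℤ, Real.exp (-π * a * ((n : ℝ) + c) ^ 2) : ℝ) : ℂ)‖ := by
    rw [Complex.norm_real, Real.norm_of_nonneg (tsum_nonneg fun n => (Real.exp_pos _).le)]
  rw [h1, h, norm_mul, Complex.norm_real, Real.norm_of_nonneg (by positivity)]
  refine mul_le_mul_of_nonneg_left ?_ (by positivity)
  have hs := gp1_summable' ha 0
  have hn : ∀ k : ℤ, ‖((Real.exp (-π * ((k : ℝ) - 0) ^ 2 / a) : ℝ) : ℂ) * gpE (((k : ℝ) - 0) * c)‖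
      = Real.exp (-π * ((k : ℝ) - 0) ^ 2 / a) := by
    intro k
    rw [norm_mul, norm_gpE, mul_one, Complex.norm_real, Real.norm_of_nonneg (Real.exp_pos _).le]
  refine (norm_tsum_le_tsum_norm ?_).trans (le_of_eq (tsum_congr hn))
  exact hs.congr fun k => (hn k).symm

end Claimed.Agent.R293
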