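/-
R293 / GPoisSum.lean (owner: helper62).  Package GPOIS: n-dimensional Gaussian Poisson summation.
Sorry-free.  Prefix gp.
-/
import Claimed.Agent.R293.GPoisOne
import Claimed.Agent.R293.GPoisAlg

set_option autoImplicit false

namespace Claimed.Agent.R293

open Matrix
open scoped Real

/-- the Gaussian weight `exp(-π xᵀ G x)`. -/
noncomputable def gpW {ι : Type*} [Fintype ι] (G : Matrix ι ι ℝ) (x : ι → ℝ) : ℝ :=
  Real.exp (-π * gpQ G x)

lemma gpW_pos {ι : Type*} [Fintype ι] (G : Matrix ι ι ℝ) (x : ι → ℝ) : 0 < gpW G x :=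
  Real.exp_pos _

/-- integer vector plus real shift. -/
def gpSh {ι : Type*} (z : ι → ℤ) (w : ι → ℝ) : ι → ℝ := fun i => (z i : ℝ) + w i

/-- summability of all shifted Gaussian sums over `ℤ^ι`. -/
def GPSum (ι : Type*) [Fintype ι] : Prop :=
  ∀ G : Matrix ι ι ℝ, G.PosDef → ∀ w : ι → ℝ, Summable fun z : ι → ℤ => gpW G (gpSh z w)

/-- splitting off the first coordinate. -/
def gpSplit (α : Type*) : (α → ℤ) × ℤ ≃ (Unit ⊕ α → ℤ) where
  toFun p := Sum.elim (fun _ => p.2) p.1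
  invFun z := (fun i => z (Sum.inr i), z (Sum.inl ()))
  left_inv p := rfl
  right_inv z := by
    ext i
    rcases i with i | i <;> rfl

lemma gpSh_split {α : Type*} (y : α → ℤ) (x : ℤ) (w : Unit ⊕ α → ℝ) :
    gpSh (gpSplit α (y, x)) w =
      Sum.elim (fun _ => (x : ℝ) + w (Sum.inl ())) (gpSh y (fun i => w (Sum.inr i))) := by
  ext i
  rcases i with i | i <;> rfl

lemma gpW_bord {α : Type*} [Fintype α] {a : ℝ} (ha : a ≠ 0) (v : α → ℝ) (H : Matrix α α ℝ)
    (x : ℝ) (y : α → ℝ) :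
    gpW (gpBord a v H) (Sum.elim (fun _ => x) y) =
      Real.exp (-π * a * (x + (v ⬝ᵥ y) / a) ^ 2) * gpW (gpSchur a v H) y := by
  unfold gpW
  rw [gpQ_bord ha, ← Real.exp_add]
  congr 1
  ring

lemma gpQ_submatrix {α β : Type*} [Fintype α] [Fintype β] (e : α ≃ β) (G : Matrix β β ℝ)
    (x : β → ℝ) : gpQ (G.submatrix e e) (x ∘ e) = gpQ G x := by
  unfold gpQ
  rw [Matrix.submatrix_mulVec_equiv, comp_equiv_dotProduct_comp_equiv]
  congr 2
  ext i
  simp

lemma GPSum.of_equiv {α β : Type*} [Fintype α] [Fintype β] (e : α ≃ β) (h : GPSum α) :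
    GPSum β := by
  intro G hG w
  have h1 := h (G.submatrix e e) (hG.submatrix e.injective) (w ∘ e)
  rw [← (Equiv.arrowCongr e (Equiv.refl ℤ)).summable_iff]
  refine h1.congr fun z => ?_
  simp only [Function.comp_apply, gpW]
  rw [← gpQ_submatrix e G]
  congr 3
  ext i
  simp [gpSh]

lemma GPSum.of_isEmpty {α : Type*} [Fintype α] [IsEmpty α] : GPSum α := by
  intro G _ w
  exact (hasSum_fintype _).summable

lemma GPSum.step {α : Type*} [Fintype α] (h : GPSum α) : GPSum (Unit ⊕ α) := by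
  intro G hG w
  obtain ⟨a, v, H, rfl⟩ : ∃ a v H, G = gpBord a v H :=
    ⟨_, _, _, gp_exists_bord (gp_isSymm_of_posDef hG)⟩
  have ha := gpBord_a_pos hG
  have hS := gpSchur_posDef hG
  rw [← (gpSplit α).summable_iff]
  set w' : α → ℝ := fun i => w (Sum.inr i) with hw'
  have key : Summable fun p : (α → ℤ) × ℤ =>
      Real.exp (-π * a * ((p.2 : ℝ) + (w (Sum.inl ()) + (v ⬝ᵥ gpSh p.1 w') / a)) ^ 2) *
          gpW (gpSchur a v H) (gpSh p.1 w') := by
    rw [summable_prod_of_nonneg (fun p => mul_nonneg (Real.exp_pos _).le (gpW_pos _ _).le)]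
    dsimp only
    refine ⟨fun y => (gp1_summable ha (w (Sum.inl ()) + (v ⬝ᵥ gpSh y w') / a)).mul_right _, ?_⟩
    refine Summable.of_nonneg_of_le
      (fun y => tsum_nonneg fun _ => mul_nonneg (Real.exp_pos _).le (gpW_pos _ _).le)
      (fun y => ?_) ((h _ hS w').mul_left (1 / Real.sqrt a * ∑' k : ℤ, Real.exp (-π * ((k : ℝ) - 0) ^ 2 / a)))
    rw [tsum_mul_right]
    exact mul_le_mul_of_nonneg_right (gp1_bound ha _) (gpW_pos _ _).le
  refine key.congr ?_
  rintro ⟨y, x⟩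
  simp only [Function.comp_apply]
  rw [gpSh_split, gpW_bord ha.ne', add_assoc]

lemma GPSum.fin (n : ℕ) : GPSum (Fin n) := by
  induction n with
  | zero => exact GPSum.of_isEmpty
  | succ n ih =>
    refine GPSum.of_equiv ?_ ih.step
    exact ((Equiv.sumComm _ _).trans
      (Equiv.sumCongr (Equiv.refl _) (Equiv.ofUnique Unit (Fin 1)))).trans finSumFinEquiv

theorem gp_summable {ι : Type*} [Fintype ι] {G : Matrix ι ι ℝ} (hG : G.PosDef) (w : ι → ℝ) :
    Summable fun z : ι → ℤ => gpW G (gpSh z w) :=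
  GPSum.of_equiv (Fintype.equivFin ι).symm (GPSum.fin _) G hG w

end Claimed.Agent.R293
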