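/-
R293 / GPoisMain.lean (owner: helper62).  Package GPOIS: n-dimensional Gaussian Poisson summation.
Sorry-free.  Prefix gp.
-/
import Claimed.Agent.R293.GPoisSum

set_option autoImplicit false

namespace Claimed.Agent.R293

open Matrix
open scoped Real

/-- integer vector as a real vector. -/
def gpZ {ι : Type*} (z : ι → ℤ) : ι → ℝ := fun i => (z i : ℝ)

/-- term of the primal side: `exp(-π (z+w)ᵀ G (z+w)) e(θ·z)`. -/
noncomputable def gpL {ι : Type*} [Fintype ι] (G : Matrix ι ι ℝ) (w θ : ι → ℝ) (z : ι → ℤ) : ℂ :=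
  ((gpW G (gpSh z w) : ℝ) : ℂ) * gpE (θ ⬝ᵥ gpZ z)

/-- term of the dual side: `exp(-π (k-θ)ᵀ M (k-θ)) e((k-θ)·w)`. -/
noncomputable def gpR {ι : Type*} [Fintype ι] (M : Matrix ι ι ℝ) (w θ : ι → ℝ) (k : ι → ℤ) : ℂ :=
  ((gpW M (gpSh k (-θ)) : ℝ) : ℂ) * gpE (gpSh k (-θ) ⬝ᵥ w)

lemma norm_gpL {ι : Type*} [Fintype ι] (G : Matrix ι ι ℝ) (w θ : ι → ℝ) (z : ι → ℤ) :
    ‖gpL G w θ z‖ = gpW G (gpSh z w) := by
  rw [gpL, norm_mul, norm_gpE, mul_one, Complex.norm_real, Real.norm_of_nonneg (gpW_pos _ _).le]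

lemma norm_gpR {ι : Type*} [Fintype ι] (M : Matrix ι ι ℝ) (w θ : ι → ℝ) (k : ι → ℤ) :
    ‖gpR M w θ k‖ = gpW M (gpSh k (-θ)) := by
  rw [gpR, norm_mul, norm_gpE, mul_one, Complex.norm_real, Real.norm_of_nonneg (gpW_pos _ _).le]

lemma summable_gpL {ι : Type*} [Fintype ι] {G : Matrix ι ι ℝ} (hG : G.PosDef) (w θ : ι → ℝ) :
    Summable (gpL G w θ) :=
  Summable.of_norm ((gp_summable hG w).congr fun z => (norm_gpL G w θ z).symm)

lemma summable_gpR {ι : Type*} [Fintype ι] {M : Matrix ι ι ℝ} (hM : M.PosDef) (w θ : ι → ℝ) :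
    Summable (gpR M w θ) :=
  Summable.of_norm ((gp_summable hM (-θ)).congr fun z => (norm_gpR M w θ z).symm)

/-- the Gaussian Poisson summation formula for the index type `ι`. -/
def GPStmt (ι : Type*) [Fintype ι] [DecidableEq ι] : Prop :=
  ∀ G : Matrix ι ι ℝ, G.PosDef → ∀ w θ : ι → ℝ,
    ∑' z, gpL G w θ z = ((1 / Real.sqrt G.det : ℝ) : ℂ) * ∑' k, gpR G⁻¹ w θ k

@[simp] lemma gpSplit_apply_inl {α : Type*} (p : (α → ℤ) × ℤ) (u : Unit) :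
    gpSplit α p (Sum.inl u) = p.2 := rfl

@[simp] lemma gpSplit_apply_inr {α : Type*} (p : (α → ℤ) × ℤ) (i : α) :
    gpSplit α p (Sum.inr i) = p.1 i := rfl

section Step
variable {α : Type*} [Fintype α]

/-- the mixed term. -/
noncomputable def gpT (a : ℝ) (v : α → ℝ) (H : Matrix α α ℝ) (w θ : Unit ⊕ α → ℝ)
    (y : α → ℤ) (k₀ : ℤ) : ℂ :=
  (((gpW (gpSchur a v H) (gpSh y (fun i => w (Sum.inr i))) : ℝ) : ℂ) *
      gpE ((fun i => θ (Sum.inr i)) ⬝ᵥ gpZ y)) *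
    (((Real.exp (-π * ((k₀ : ℝ) - θ (Sum.inl ())) ^ 2 / a) : ℝ) : ℂ) *
      gpE (((k₀ : ℝ) - θ (Sum.inl ())) *
        (w (Sum.inl ()) + (v ⬝ᵥ gpSh y (fun i => w (Sum.inr i))) / a)))

lemma gpL_split {a : ℝ} (ha : a ≠ 0) (v : α → ℝ) (H : Matrix α α ℝ) (w θ : Unit ⊕ α → ℝ)
    (y : α → ℤ) (x : ℤ) :
    gpL (gpBord a v H) w θ (gpSplit α (y, x)) =
      (((gpW (gpSchur a v H) (gpSh y (fun i => w (Sum.inr i))) : ℝ) : ℂ) *
          gpE ((fun i => θ (Sum.inr i)) ⬝ᵥ gpZ y)) *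
        (((Real.exp (-π * a * ((x : ℝ) +
            (w (Sum.inl ()) + (v ⬝ᵥ gpSh y (fun i => w (Sum.inr i))) / a)) ^ 2) : ℝ) : ℂ) *
          gpE (θ (Sum.inl ()) * x)) := by
  unfold gpL
  rw [gpSh_split, gpW_bord ha, add_assoc]
  have h1 : θ ⬝ᵥ gpZ (gpSplit α (y, x)) =
      θ (Sum.inl ()) * x + (fun i => θ (Sum.inr i)) ⬝ᵥ gpZ y := by
    simp [dotProduct, gpZ]
  rw [h1, gpE_add]
  push_cast
  ring

lemma gpT_sum_inner {a : ℝ} (ha : 0 < a) (v : α → ℝ) (H : Matrix α α ℝ) (w θ : Unit ⊕ α → ℝ)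
    (y : α → ℤ) :
    ∑' x : ℤ, gpL (gpBord a v H) w θ (gpSplit α (y, x)) =
      ((1 / Real.sqrt a : ℝ) : ℂ) * ∑' k₀ : ℤ, gpT a v H w θ y k₀ := by
  simp_rw [gpL_split ha.ne', tsum_mul_left, gp1_poisson ha]
  unfold gpT
  rw [tsum_mul_left]
  ring

lemma summable_gpT {a : ℝ} {v : α → ℝ} {H : Matrix α α ℝ} (h : (gpBord a v H).PosDef)
    (w θ : Unit ⊕ α → ℝ) : Summable (Function.uncurry (gpT a v H w θ)) := by
  have ha := gpBord_a_pos h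
  have hS := gpSchur_posDef h
  have h1 := (gp_summable hS (fun i => w (Sum.inr i))).mul_of_nonneg
    (gp1_summable' ha (θ (Sum.inl ()))) (fun _ => (gpW_pos _ _).le) (fun _ => (Real.exp_pos _).le)
  refine Summable.of_norm (h1.congr ?_)
  rintro ⟨y, k₀⟩
  simp only [Function.uncurry, gpT, norm_mul, norm_gpE, mul_one, Complex.norm_real]
  rw [Real.norm_of_nonneg (gpW_pos _ _).le, Real.norm_of_nonneg (Real.exp_pos _).le]

lemma gpT_eq_gpL {a : ℝ} (ha : a ≠ 0) (v : α → ℝ) (H : Matrix α α ℝ) (w θ : Unit ⊕ α → ℝ)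
    (y : α → ℤ) (k₀ : ℤ) :
    gpT a v H w θ y k₀ =
      (((Real.exp (-π * ((k₀ : ℝ) - θ (Sum.inl ())) ^ 2 / a) : ℝ) : ℂ) *
        gpE (((k₀ : ℝ) - θ (Sum.inl ())) *
          (w (Sum.inl ()) + (v ⬝ᵥ (fun i => w (Sum.inr i))) / a))) *
      gpL (gpSchur a v H) (fun i => w (Sum.inr i))
        ((fun i => θ (Sum.inr i)) + (((k₀ : ℝ) - θ (Sum.inl ())) / a) • v) y := by
  unfold gpT gpL
  have h1 : gpSh y (fun i => w (Sum.inr i)) = gpZ y + fun i => w (Sum.inr i) := rfl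
  have h2 : v ⬝ᵥ gpSh y (fun i => w (Sum.inr i)) =
      v ⬝ᵥ gpZ y + v ⬝ᵥ (fun i => w (Sum.inr i)) := by rw [h1, dotProduct_add]
  have h3 : gpE ((fun i => θ (Sum.inr i)) ⬝ᵥ gpZ y) *
      gpE (((k₀ : ℝ) - θ (Sum.inl ())) *
        (w (Sum.inl ()) + (v ⬝ᵥ gpSh y (fun i => w (Sum.inr i))) / a)) =
      gpE (((k₀ : ℝ) - θ (Sum.inl ())) *
          (w (Sum.inl ()) + (v ⬝ᵥ (fun i => w (Sum.inr i))) / a)) *
      gpE (((fun i => θ (Sum.inr i)) + (((k₀ : ℝ) - θ (Sum.inl ())) / a) • v) ⬝ᵥ gpZ y) := by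
    rw [← gpE_add, ← gpE_add, h2, add_dotProduct, smul_dotProduct, smul_eq_mul]
    congr 1
    field_simp
    ring
  linear_combination
    (((gpW (gpSchur a v H) (gpSh y (fun i => w (Sum.inr i))) : ℝ) : ℂ) *
      ((Real.exp (-π * ((k₀ : ℝ) - θ (Sum.inl ())) ^ 2 / a) : ℝ) : ℂ)) * h3

variable [DecidableEq α]

lemma gpR_split {a : ℝ} {v : α → ℝ} {H : Matrix α α ℝ} (h : (gpBord a v H).PosDef)
    (w θ : Unit ⊕ α → ℝ) (k : α → ℤ) (k₀ : ℤ) :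
    (((Real.exp (-π * ((k₀ : ℝ) - θ (Sum.inl ())) ^ 2 / a) : ℝ) : ℂ) *
        gpE (((k₀ : ℝ) - θ (Sum.inl ())) *
          (w (Sum.inl ()) + (v ⬝ᵥ (fun i => w (Sum.inr i))) / a))) *
      gpR (gpSchur a v H)⁻¹ (fun i => w (Sum.inr i))
        ((fun i => θ (Sum.inr i)) + (((k₀ : ℝ) - θ (Sum.inl ())) / a) • v) k =
    gpR (gpBord a v H)⁻¹ w θ (gpSplit α (k, k₀)) := by
  have ha := gpBord_a_pos h
  unfold gpR
  rw [gpSh_split]
  have e1 : gpSh k (-((fun i => θ (Sum.inr i)) + (((k₀ : ℝ) - θ (Sum.inl ())) / a) • v)) =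
      gpSh k (fun i => (-θ) (Sum.inr i)) - (((k₀ : ℝ) + (-θ) (Sum.inl ())) / a) • v := by
    ext i
    simp [gpSh]
    ring
  rw [e1]
  unfold gpW
  rw [gpQ_inv_bord h]
  have e2 : (Sum.elim (fun _ => (k₀ : ℝ) + (-θ) (Sum.inl ())) (gpSh k (fun i => (-θ) (Sum.inr i)))
      : Unit ⊕ α → ℝ) ⬝ᵥ w =
      ((k₀ : ℝ) + (-θ) (Sum.inl ())) * w (Sum.inl ()) +
        gpSh k (fun i => (-θ) (Sum.inr i)) ⬝ᵥ (fun i => w (Sum.inr i)) := by
    simp [dotProduct]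
  rw [e2, sub_dotProduct, smul_dotProduct, smul_eq_mul]
  set Qs := gpQ (gpSchur a v H)⁻¹
    (gpSh k (fun i => (-θ) (Sum.inr i)) - (((k₀ : ℝ) + (-θ) (Sum.inl ())) / a) • v)
  set d1 := gpSh k (fun i => (-θ) (Sum.inr i)) ⬝ᵥ (fun i => w (Sum.inr i))
  set d2 := v ⬝ᵥ (fun i => w (Sum.inr i))
  have e3 : Real.exp (-π * (((k₀ : ℝ) + (-θ) (Sum.inl ())) ^ 2 / a + Qs)) =
      Real.exp (-π * ((k₀ : ℝ) - θ (Sum.inl ())) ^ 2 / a) * Real.exp (-π * Qs) := by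
    rw [← Real.exp_add]
    congr 1
    simp only [Pi.neg_apply]
    ring
  have e4 : gpE (((k₀ : ℝ) + (-θ) (Sum.inl ())) * w (Sum.inl ()) + d1) =
      gpE (((k₀ : ℝ) - θ (Sum.inl ())) * (w (Sum.inl ()) + d2 / a)) *
        gpE (d1 - ((k₀ : ℝ) + (-θ) (Sum.inl ())) / a * d2) := by
    rw [← gpE_add]
    congr 1
    simp only [Pi.neg_apply]
    field_simp
    ring
  rw [e3, e4]
  push_cast
  ring


lemma GPStmt.step (hα : GPStmt α) : GPStmt (Unit ⊕ α) := by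
  intro G hG w θ
  obtain ⟨a, v, H, rfl⟩ : ∃ a v H, G = gpBord a v H :=
    ⟨_, _, _, gp_exists_bord (gp_isSymm_of_posDef hG)⟩
  have ha := gpBord_a_pos hG
  have hS := gpSchur_posDef hG
  have hdS : 0 < (gpSchur a v H).det := hS.det_pos
  -- primal side
  have hL : Summable (fun p : (α → ℤ) × ℤ => gpL (gpBord a v H) w θ (gpSplit α p)) :=
    (gpSplit α).summable_iff.mpr (summable_gpL hG w θ)
  have hR : Summable (fun p : (α → ℤ) × ℤ => gpR (gpBord a v H)⁻¹ w θ (gpSplit α p)) :=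
    (gpSplit α).summable_iff.mpr (summable_gpR hG.inv w θ)
  rw [← (gpSplit α).tsum_eq (gpL (gpBord a v H) w θ), hL.tsum_prod,
    ← (gpSplit α).tsum_eq (gpR (gpBord a v H)⁻¹ w θ), hR.tsum_prod]
  simp_rw [gpT_sum_inner ha]
  rw [tsum_mul_left, ← (summable_gpT hG w θ).tsum_comm]
  simp_rw [gpT_eq_gpL ha.ne', tsum_mul_left, hα _ hS]
  have h5 : ∀ k₀ : ℤ,
      (((Real.exp (-π * ((k₀ : ℝ) - θ (Sum.inl ())) ^ 2 / a) : ℝ) : ℂ) *
        gpE (((k₀ : ℝ) - θ (Sum.inl ())) *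
          (w (Sum.inl ()) + (v ⬝ᵥ (fun i => w (Sum.inr i))) / a))) *
      (((1 / Real.sqrt (gpSchur a v H).det : ℝ) : ℂ) *
        ∑' k, gpR (gpSchur a v H)⁻¹ (fun i => w (Sum.inr i))
          ((fun i => θ (Sum.inr i)) + (((k₀ : ℝ) - θ (Sum.inl ())) / a) • v) k) =
      ((1 / Real.sqrt (gpSchur a v H).det : ℝ) : ℂ) *
        ∑' k, gpR (gpBord a v H)⁻¹ w θ (gpSplit α (k, k₀)) := by
    intro k₀
    simp_rw [← gpR_split hG, tsum_mul_left]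
    ring
  simp_rw [h5, tsum_mul_left]
  have hR' : Summable (Function.uncurry fun (k : α → ℤ) (k₀ : ℤ) =>
      gpR (gpBord a v H)⁻¹ w θ (gpSplit α (k, k₀))) := hR
  rw [hR'.tsum_comm, det_gpBord ha.ne', Real.sqrt_mul ha.le, ← mul_assoc]
  congr 1
  push_cast
  field_simp

end Step


section Transport
variable {α β : Type*} [Fintype α] [Fintype β]

lemma gpW_submatrix (e : α ≃ β) (G : Matrix β β ℝ) (x : β → ℝ) :
    gpW (G.submatrix e e) (x ∘ e) = gpW G x := by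
  unfold gpW
  rw [gpQ_submatrix]

lemma gpL_submatrix (e : α ≃ β) (G : Matrix β β ℝ) (w θ : β → ℝ) (z : α → ℤ) :
    gpL G w θ (Equiv.arrowCongr e (Equiv.refl ℤ) z) =
      gpL (G.submatrix e e) (w ∘ e) (θ ∘ e) z := by
  unfold gpL
  rw [← gpW_submatrix e G, ← comp_equiv_dotProduct_comp_equiv _ _ e]
  congr 3
  · ext i
    simp [gpSh]
  · ext i
    simp [gpZ]

lemma gpR_submatrix (e : α ≃ β) (G : Matrix β β ℝ) (w θ : β → ℝ) (z : α → ℤ) :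
    gpR G w θ (Equiv.arrowCongr e (Equiv.refl ℤ) z) =
      gpR (G.submatrix e e) (w ∘ e) (θ ∘ e) z := by
  unfold gpR
  rw [← gpW_submatrix e G, ← comp_equiv_dotProduct_comp_equiv _ _ e]
  congr 3
  · ext i
    simp [gpSh]
  · ext i
    simp [gpSh]

variable [DecidableEq α] [DecidableEq β]

lemma GPStmt.of_equiv (e : α ≃ β) (h : GPStmt α) : GPStmt β := by
  intro G hG w θ
  have h1 := h (G.submatrix e e) (hG.submatrix e.injective) (w ∘ e) (θ ∘ e)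
  rw [← (Equiv.arrowCongr e (Equiv.refl ℤ)).tsum_eq (gpL G w θ),
    ← (Equiv.arrowCongr e (Equiv.refl ℤ)).tsum_eq (gpR G⁻¹ w θ)]
  simp_rw [gpL_submatrix, gpR_submatrix]
  rw [h1, Matrix.det_submatrix_equiv_self, Matrix.inv_submatrix_equiv]

lemma GPStmt.of_isEmpty [IsEmpty α] : GPStmt α := by
  intro G _ w θ
  rw [tsum_fintype, tsum_fintype]
  simp [gpL, gpR, gpW, gpQ, gpE_zero, Matrix.det_isEmpty]

end Transport

lemma GPStmt.fin (n : ℕ) : GPStmt (Fin n) := by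
  induction n with
  | zero => exact GPStmt.of_isEmpty
  | succ n ih =>
    refine GPStmt.of_equiv ?_ ih.step
    exact ((Equiv.sumComm _ _).trans
      (Equiv.sumCongr (Equiv.refl _) (Equiv.ofUnique Unit (Fin 1)))).trans finSumFinEquiv

/-- **Gaussian Poisson summation, matrix form.**  For a positive definite real matrix `G`, a real
shift `w` and a real modulation `θ`:
`∑_{z ∈ ℤ^ι} exp(-π (z+w)ᵀ G (z+w)) e(θ·z)
   = det(G)^{-1/2} ∑_{k ∈ ℤ^ι} exp(-π (k-θ)ᵀ G⁻¹ (k-θ)) e((k-θ)·w)`. -/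
theorem gp_poisson_matrix {ι : Type*} [Fintype ι] [DecidableEq ι] {G : Matrix ι ι ℝ}
    (hG : G.PosDef) (w θ : ι → ℝ) :
    ∑' z, gpL G w θ z = ((1 / Real.sqrt G.det : ℝ) : ℂ) * ∑' k, gpR G⁻¹ w θ k :=
  GPStmt.of_equiv (Fintype.equivFin ι).symm (GPStmt.fin _) G hG w θ

end Claimed.Agent.R293
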