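/-
R293 / GPoisReal.lean (owner: helper62).  Package GPOIS: real form with scale of the Gaussian Poisson summation.
Sorry-free.  Prefix gp.
-/
import Claimed.Agent.R293.GPoisMain

set_option autoImplicit false

namespace Claimed.Agent.R293

open Matrix
open scoped Real

section
variable {ι : Type*} [Fintype ι]

lemma gpQ_smul (c : ℝ) (G : Matrix ι ι ℝ) (x : ι → ℝ) : gpQ (c • G) x = c * gpQ G x := by
  unfold gpQ
  rw [Matrix.smul_mulVec, dotProduct_smul, smul_eq_mul]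

omit [Fintype ι] in
lemma gpSh_zero (z : ι → ℤ) : gpSh z (-0) = gpZ z := by
  ext i
  simp [gpSh, gpZ]

lemma gpQ_nonneg {G : Matrix ι ι ℝ} (hG : G.PosDef) (x : ι → ℝ) : 0 ≤ gpQ G x := by
  have := hG.posSemidef.dotProduct_mulVec_nonneg x
  simpa [gpQ] using this

variable [DecidableEq ι]

lemma gp_inv_smul {G : Matrix ι ι ℝ} (hG : G.PosDef) {c : ℝ} (hc : c ≠ 0) :
    (c • G)⁻¹ = c⁻¹ • G⁻¹ := by
  apply Matrix.inv_eq_right_inv
  rw [Matrix.smul_mul, Matrix.mul_smul, smul_smul, mul_inv_cancel₀ hc, one_smul,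
    Matrix.mul_nonsing_inv _ ((Matrix.isUnit_iff_isUnit_det _).mp hG.isUnit)]

omit [DecidableEq ι] in
/-- summability with a scale. -/
lemma gp_summable_scale {G : Matrix ι ι ℝ} (hG : G.PosDef) {c : ℝ} (hc : 0 < c) (w : ι → ℝ) :
    Summable fun z : ι → ℤ => Real.exp (-π * (c * gpQ G (gpSh z w))) := by
  refine (gp_summable (hG.smul hc) w).congr fun z => ?_
  rw [gpW, gpQ_smul]

/-- **Gaussian Poisson summation, real matrix form with a scale `c > 0` and a shift `w`.** -/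
theorem gp_poisson_real {G : Matrix ι ι ℝ} (hG : G.PosDef) {c : ℝ} (hc : 0 < c) (w : ι → ℝ) :
    ∑' z : ι → ℤ, Real.exp (-π * (c * gpQ G (gpSh z w))) =
      1 / (Real.sqrt c ^ Fintype.card ι * Real.sqrt G.det) *
        ∑' k : ι → ℤ, Real.exp (-π * (gpQ G⁻¹ (gpZ k) / c)) * Real.cos (2 * π * (gpZ k ⬝ᵥ w)) := by
  have hcG : (c • G).PosDef := hG.smul hc
  have key := gp_poisson_matrix hcG w 0
  have hL : ∀ z : ι → ℤ, gpL (c • G) w 0 z =
      ((Real.exp (-π * (c * gpQ G (gpSh z w))) : ℝ) : ℂ) := by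
    intro z
    rw [gpL, zero_dotProduct, gpE_zero, mul_one, gpW, gpQ_smul]
  have hRre : ∀ k : ι → ℤ, (gpR (c • G)⁻¹ w 0 k).re =
      Real.exp (-π * (gpQ G⁻¹ (gpZ k) / c)) * Real.cos (2 * π * (gpZ k ⬝ᵥ w)) := by
    intro k
    rw [gpR, Complex.re_ofReal_mul, gpE_re, gpSh_zero, gpW, gp_inv_smul hG hc.ne', gpQ_smul]
    congr 3
    field_simp
  have key2 := congrArg Complex.re key
  rw [tsum_congr hL, ← Complex.ofReal_tsum, Complex.ofReal_re, Complex.re_ofReal_mul,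
    Complex.re_tsum (summable_gpR hcG.inv w 0), tsum_congr hRre] at key2
  have hsq : Real.sqrt (c ^ Fintype.card ι) = Real.sqrt c ^ Fintype.card ι := by
    rw [← Real.sqrt_sq (pow_nonneg (Real.sqrt_nonneg c) (Fintype.card ι)), ← pow_mul, mul_comm,
      pow_mul, Real.sq_sqrt hc.le]
  rw [key2, Matrix.det_smul, Real.sqrt_mul (pow_nonneg hc.le _), hsq]

end

end Claimed.Agent.R293
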