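/-
R293 / GPoisLat.lean (owner: helper62).  Package GPOIS: lattice bases, coordinates, dual basis
(the dual family is a lattice basis of latDual L, with Gram matrix the inverse Gram matrix).
Sorry-free.  Prefix gp.
-/
import Claimed.Agent.R293.GPoisReal
import Claimed.Agent.R293.LatDefs

set_option autoImplicit false

namespace Claimed.Agent.R293

open Matrix Submodule Module
open scoped Real RealInnerProductSpace

section Basis
variable {E : Type*} [NormedAddCommGroup E] [InnerProductSpace ℝ E] {r : ℕ}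

/-- real linear combination of a family. -/
noncomputable def gpVec (b : Fin r → E) (x : Fin r → ℝ) : E := ∑ i, x i • b i

lemma gp_inner_vec (b : Fin r → E) (x y : Fin r → ℝ) :
    ⟪gpVec b x, gpVec b y⟫ = x ⬝ᵥ (Matrix.gram ℝ b *ᵥ y) := by
  simpa [gpVec] using (Matrix.star_dotProduct_gram_mulVec (𝕜 := ℝ) b x y).symm

lemma gp_norm_sq_vec (b : Fin r → E) (x : Fin r → ℝ) :
    ‖gpVec b x‖ ^ 2 = gpQ (Matrix.gram ℝ b) x := by
  rw [← real_inner_self_eq_norm_sq, gp_inner_vec, gpQ]

lemma gpVec_add (b : Fin r → E) (x y : Fin r → ℝ) : gpVec b (x + y) = gpVec b x + gpVec b y := by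
  simp [gpVec, add_smul, Finset.sum_add_distrib]

lemma gpVec_neg (b : Fin r → E) (x : Fin r → ℝ) : gpVec b (-x) = -gpVec b x := by
  simp [gpVec]

lemma gpVec_mem_span (b : Fin r → E) (x : Fin r → ℝ) : gpVec b x ∈ span ℝ (Set.range b) :=
  Submodule.sum_mem _ fun i _ => Submodule.smul_mem _ _ (Submodule.subset_span ⟨i, rfl⟩)

lemma gp_exists_vec (b : Fin r → E) {t : E} (ht : t ∈ span ℝ (Set.range b)) :
    ∃ w : Fin r → ℝ, t = gpVec b w := by
  obtain ⟨w, hw⟩ := (Submodule.mem_span_range_iff_exists_fun ℝ).mp ht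
  exact ⟨w, hw.symm⟩

/-- the dual family `b*_i = ∑_j (G⁻¹)_{ij} b_j`. -/
noncomputable def gpDualB (b : Fin r → E) : Fin r → E :=
  fun i => gpVec b ((Matrix.gram ℝ b)⁻¹ i)

lemma gp_inner_vec_right (b : Fin r → E) (x : Fin r → ℝ) (j : Fin r) :
    ⟪gpVec b x, b j⟫ = x ⬝ᵥ (fun l => Matrix.gram ℝ b l j) := by
  simp [gpVec, sum_inner, inner_smul_left, dotProduct, Matrix.gram_apply]

lemma gp_inner_dualB (b : Fin r → E) (hb : LinearIndependent ℝ b) (i j : Fin r) :
    ⟪gpDualB b i, b j⟫ = if i = j then 1 else 0 := by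
  have hG := Matrix.posDef_gram_of_linearIndependent hb
  have h1 : (Matrix.gram ℝ b)⁻¹ * Matrix.gram ℝ b = 1 :=
    Matrix.nonsing_inv_mul _ ((Matrix.isUnit_iff_isUnit_det _).mp hG.isUnit)
  rw [gpDualB, gp_inner_vec_right]
  have := congrFun (congrFun h1 i) j
  rw [Matrix.mul_apply, Matrix.one_apply] at this
  exact this

lemma gp_inner_vec_dualB (b : Fin r → E) (hb : LinearIndependent ℝ b) (k w : Fin r → ℝ) :
    ⟪gpVec (gpDualB b) k, gpVec b w⟫ = k ⬝ᵥ w := by
  simp only [gpVec, sum_inner, inner_sum, inner_smul_left, inner_smul_right]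
  simp only [gp_inner_dualB b hb, dotProduct]
  simp [mul_comm]

lemma gp_gram_dualB (b : Fin r → E) (hb : LinearIndependent ℝ b) :
    Matrix.gram ℝ (gpDualB b) = (Matrix.gram ℝ b)⁻¹ := by
  ext i j
  rw [Matrix.gram_apply]
  conv_lhs => rw [gpDualB]
  rw [real_inner_comm]
  simp only [gpVec, inner_sum, inner_smul_right, gp_inner_dualB b hb]
  simp


lemma gpVec_gpZ (b : Fin r → E) (z : Fin r → ℤ) : gpVec b (gpZ z) = ∑ i, z i • b i := by
  simp [gpVec, gpZ, Int.cast_smul_eq_zsmul]

lemma gpVec_injective {b : Fin r → E} (hb : LinearIndependent ℝ b) :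
    Function.Injective (gpVec b) := by
  intro x y hxy
  have h0 : ∑ i, (x i - y i) • b i = 0 := by
    simp only [sub_smul, Finset.sum_sub_distrib]
    exact sub_eq_zero.mpr hxy
  have := Fintype.linearIndependent_iff.mp hb (fun i => x i - y i) h0
  ext i
  exact sub_eq_zero.mp (this i)

lemma gp_rspan_eq {b : Fin r → E} {L : Submodule ℤ E} (h : IsLatBasis b L) :
    rspan L = span ℝ (Set.range b) := by
  rw [rspan, ← h.2, Submodule.span_span_of_tower]

lemma gp_latRank_eq {b : Fin r → E} {L : Submodule ℤ E} (h : IsLatBasis b L) :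
    latRank L = r := by
  rw [latRank, gp_rspan_eq h, finrank_span_eq_card h.1, Fintype.card_fin]

lemma gpVec_gpZ_mem {b : Fin r → E} {L : Submodule ℤ E} (h : IsLatBasis b L) (z : Fin r → ℤ) :
    gpVec b (gpZ z) ∈ L := by
  rw [gpVec_gpZ, ← h.2]
  exact Submodule.sum_mem _ fun i _ => Submodule.smul_mem _ _ (Submodule.subset_span ⟨i, rfl⟩)

/-- coordinates: the bijection `ℤ^r ≃ L` given by a lattice basis. -/
noncomputable def gpEquiv {b : Fin r → E} {L : Submodule ℤ E} (h : IsLatBasis b L) :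
    (Fin r → ℤ) ≃ L :=
  Equiv.ofBijective (fun z => ⟨gpVec b (gpZ z), gpVec_gpZ_mem h z⟩) (by
    constructor
    · intro z z' hzz
      have h1 : gpVec b (gpZ z) = gpVec b (gpZ z') := congrArg Subtype.val hzz
      have h2 := gpVec_injective h.1 h1
      ext i
      exact Int.cast_injective (congrFun h2 i)
    · rintro ⟨x, hx⟩
      rw [← h.2] at hx
      obtain ⟨z, hz⟩ := (Submodule.mem_span_range_iff_exists_fun ℤ).mp hx
      exact ⟨z, Subtype.ext (by simpa [gpVec_gpZ] using hz)⟩)

@[simp] lemma gpEquiv_coe {b : Fin r → E} {L : Submodule ℤ E} (h : IsLatBasis b L)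
    (z : Fin r → ℤ) : ((gpEquiv h z : L) : E) = gpVec b (gpZ z) := rfl

lemma gp_linearIndependent_dualB {b : Fin r → E} (hb : LinearIndependent ℝ b) :
    LinearIndependent ℝ (gpDualB b) := by
  apply Matrix.linearIndependent_of_posDef_gram
  rw [gp_gram_dualB b hb]
  exact (Matrix.posDef_gram_of_linearIndependent hb).inv

/-- the dual family is a lattice basis of the dual lattice. -/
theorem gp_isLatBasis_dual {b : Fin r → E} {L : Submodule ℤ E} (h : IsLatBasis b L) :
    IsLatBasis (gpDualB b) (latDual L) := by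
  refine ⟨gp_linearIndependent_dualB h.1, le_antisymm ?_ ?_⟩
  · rw [Submodule.span_le]
    rintro _ ⟨i, rfl⟩
    refine ⟨?_, fun x hx => ?_⟩
    · rw [gp_rspan_eq h]
      exact gpVec_mem_span _ _
    · obtain ⟨z, rfl⟩ : ∃ z, gpVec b (gpZ z) = x :=
        ⟨(gpEquiv h).symm ⟨x, hx⟩, by rw [← gpEquiv_coe h]; simp⟩
      refine ⟨z i, ?_⟩
      simp only [gpVec, inner_sum, inner_smul_right, gp_inner_dualB b h.1]
      simp [gpZ]
  · rintro y ⟨hy, hy'⟩
    choose n hn using fun i => hy' (b i) (by rw [← h.2]; exact Submodule.subset_span ⟨i, rfl⟩)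
    have hyn : y = gpVec (gpDualB b) (gpZ n) := by
      rw [gp_rspan_eq h] at hy
      have hd : y - gpVec (gpDualB b) (gpZ n) ∈ span ℝ (Set.range b) := by
        refine Submodule.sub_mem _ hy (Submodule.sum_mem _ fun i _ => Submodule.smul_mem _ _ ?_)
        exact gpVec_mem_span _ _
      obtain ⟨u, hu⟩ := gp_exists_vec b hd
      have horth : ∀ j, ⟪y - gpVec (gpDualB b) (gpZ n), b j⟫ = 0 := by
        intro j
        rw [inner_sub_left, hn j]
        simp only [gpVec, sum_inner, inner_smul_left, gp_inner_dualB b h.1]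
        simp [gpZ]
      have h0 : ⟪y - gpVec (gpDualB b) (gpZ n), y - gpVec (gpDualB b) (gpZ n)⟫ = 0 := by
        conv_lhs => rhs; rw [hu]
        simp only [gpVec, inner_sum, inner_smul_right]
        simp only [← gpVec.eq_1, horth]
        simp
      exact sub_eq_zero.mp (inner_self_eq_zero.mp h0)
    rw [hyn, gpVec_gpZ]
    exact Submodule.sum_mem _ fun i _ => Submodule.smul_mem _ _ (Submodule.subset_span ⟨i, rfl⟩)

theorem gp_isLat_dual {L : Submodule ℤ E} (h : IsLat L) : IsLat (latDual L) := by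
  obtain ⟨r, b, hb⟩ := h
  exact ⟨r, _, gp_isLatBasis_dual hb⟩

lemma gp_exists_basis {L : Submodule ℤ E} (h : IsLat L) :
    ∃ (r : ℕ) (b : Fin r → E), IsLatBasis b L ∧ latDet L = Real.sqrt (gramDet b) := by
  refine ⟨h.choose, h.choose_spec.choose, h.choose_spec.choose_spec, ?_⟩
  rw [latDet, dif_pos h]

end Basis

end Claimed.Agent.R293
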