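/-
R293 / GPoisMass.lean (owner: helper62).  Package GPOIS: Gaussian Poisson summation for lattices in the
LatDefs language and its corollaries: summability (gp_summable_lat), functional equation
(gp_gaussMass_dual), shift inequality (gp_shift_le), scale inequality (gp_scale_le).
Sorry-free.  Prefix gp.
-/
import Claimed.Agent.R293.GPoisLat

set_option autoImplicit false

namespace Claimed.Agent.R293

open Matrix Submodule Module
open scoped Real RealInnerProductSpace

section
variable {E : Type*} [NormedAddCommGroup E] [InnerProductSpace ℝ E] {r : ℕ}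

lemma gp_term_eq (b : Fin r → E) (s : ℝ) (z : Fin r → ℤ) (w : Fin r → ℝ) :
    Real.exp (-(π * ‖gpVec b (gpZ z) - gpVec b w‖ ^ 2 / s ^ 2)) =
      Real.exp (-π * ((s ^ 2)⁻¹ * gpQ (Matrix.gram ℝ b) (gpSh z (-w)))) := by
  have h1 : gpVec b (gpZ z) - gpVec b w = gpVec b (gpSh z (-w)) := by
    rw [sub_eq_add_neg, ← gpVec_neg, ← gpVec_add]
    rfl
  rw [h1, gp_norm_sq_vec]
  congr 1
  ring

/-- summability of a shifted Gaussian over a lattice, shift in the span. -/
lemma gp_summable_basis {b : Fin r → E} {L : Submodule ℤ E} (h : IsLatBasis b L) {s : ℝ}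
    (hs : 0 < s) {t : E} (ht : t ∈ rspan L) :
    Summable fun x : L => Real.exp (-(π * ‖(x : E) - t‖ ^ 2 / s ^ 2)) := by
  rw [gp_rspan_eq h] at ht
  obtain ⟨w, rfl⟩ := gp_exists_vec b ht
  rw [← (gpEquiv h).summable_iff]
  refine (gp_summable_scale (Matrix.posDef_gram_of_linearIndependent h.1)
    (inv_pos.mpr (pow_pos hs 2)) (-w)).congr fun z => ?_
  simp only [Function.comp_apply, gpEquiv_coe]
  rw [gp_term_eq]

/-- **Gaussian Poisson summation for a lattice with a basis.** -/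
theorem gp_poisson_basis {b : Fin r → E} {L : Submodule ℤ E} (h : IsLatBasis b L) {s : ℝ}
    (hs : 0 < s) {t : E} (ht : t ∈ rspan L) :
    ∑' x : L, Real.exp (-(π * ‖(x : E) - t‖ ^ 2 / s ^ 2)) =
      s ^ r / Real.sqrt (gramDet b) *
        ∑' y : latDual L, Real.exp (-(π * ‖(y : E)‖ ^ 2 / (1 / s) ^ 2)) *
          Real.cos (2 * π * ⟪(y : E), t⟫) := by
  rw [gp_rspan_eq h] at ht
  obtain ⟨w, rfl⟩ := gp_exists_vec b ht
  have hG := Matrix.posDef_gram_of_linearIndependent h.1
  rw [← (gpEquiv h).tsum_eq, ← (gpEquiv (gp_isLatBasis_dual h)).tsum_eq]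
  simp only [gpEquiv_coe]
  simp_rw [gp_term_eq, gp_norm_sq_vec, gp_gram_dualB b h.1, gp_inner_vec_dualB b h.1]
  rw [gp_poisson_real hG (inv_pos.mpr (pow_pos hs 2)) (-w)]
  congr 1
  · rw [Real.sqrt_inv, Real.sqrt_sq hs.le, Fintype.card_fin, gramDet, inv_pow]
    field_simp
  · refine tsum_congr fun k => ?_
    congr 1
    · congr 1
      field_simp
    · rw [dotProduct_neg, mul_neg, Real.cos_neg]


/-- Pythagoras with respect to the span of a lattice. -/
lemma gp_exists_proj {L : Submodule ℤ E} (h : IsLat L) (v : E) :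
    ∃ t ∈ rspan L, ∀ x ∈ rspan L, ‖x - v‖ ^ 2 = ‖x - t‖ ^ 2 + ‖t - v‖ ^ 2 := by
  obtain ⟨r, b, hb⟩ := h
  have : FiniteDimensional ℝ (rspan L) := by
    rw [gp_rspan_eq hb]
    exact FiniteDimensional.span_of_finite ℝ (Set.finite_range b)
  refine ⟨(rspan L).starProjection v, Submodule.starProjection_apply_mem _ _, fun x hx => ?_⟩
  have h1 : ⟪x - (rspan L).starProjection v, (rspan L).starProjection v - v⟫ = 0 := by
    have h2 : v - (rspan L).starProjection v ∈ (rspan L)ᗮ :=
      Submodule.sub_starProjection_mem_orthogonal v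
    have h3 : x - (rspan L).starProjection v ∈ rspan L :=
      Submodule.sub_mem _ hx (Submodule.starProjection_apply_mem _ _)
    have h4 := Submodule.inner_right_of_mem_orthogonal h3 h2
    rw [← neg_sub v, inner_neg_right, h4, neg_zero]
  have h5 := norm_add_sq_eq_norm_sq_add_norm_sq_real h1
  rw [sub_add_sub_cancel] at h5
  nlinarith [h5]

lemma gp_mem_rspan {L : Submodule ℤ E} (x : L) : (x : E) ∈ rspan L :=
  Submodule.subset_span x.2

/-- (E1) summability of a shifted Gaussian over a lattice, arbitrary shift. -/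
theorem gp_summable_lat {L : Submodule ℤ E} (h : IsLat L) {s : ℝ} (hs : 0 < s) (v : E) :
    Summable fun x : L => Real.exp (-(π * ‖(x : E) - v‖ ^ 2 / s ^ 2)) := by
  obtain ⟨t, ht, hpy⟩ := gp_exists_proj h v
  obtain ⟨r, b, hb⟩ := h
  refine Summable.of_nonneg_of_le (fun _ => (Real.exp_pos _).le) (fun x => ?_)
    (gp_summable_basis hb hs ht)
  apply Real.exp_le_exp.mpr
  rw [hpy x (gp_mem_rspan x)]
  have : 0 ≤ π * ‖t - v‖ ^ 2 / s ^ 2 := by positivity
  have h2 : π * (‖(x : E) - t‖ ^ 2 + ‖t - v‖ ^ 2) / s ^ 2 =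
      π * ‖(x : E) - t‖ ^ 2 / s ^ 2 + π * ‖t - v‖ ^ 2 / s ^ 2 := by ring
  rw [h2]
  linarith

lemma gp_summable_gaussMass {L : Submodule ℤ E} (h : IsLat L) {s : ℝ} (hs : 0 < s) :
    Summable fun x : L => Real.exp (-(π * ‖(x : E)‖ ^ 2 / s ^ 2)) := by
  simpa using gp_summable_lat h hs 0

lemma gp_latDet_pos {L : Submodule ℤ E} (h : IsLat L) : 0 < latDet L := by
  obtain ⟨r, b, hb, hd⟩ := gp_exists_basis h
  rw [hd]
  exact Real.sqrt_pos.mpr (Matrix.posDef_gram_of_linearIndependent hb.1).det_pos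

lemma gp_gaussMass_pos {L : Submodule ℤ E} (h : IsLat L) {s : ℝ} (hs : 0 < s) :
    0 < gaussMass s L :=
  (gp_summable_gaussMass h hs).tsum_pos (fun _ => (Real.exp_pos _).le) 0 (Real.exp_pos _)

/-- **Gaussian Poisson summation for lattices** (`LatDefs` form, shift `t` in the span). -/
theorem gp_poisson_lat {L : Submodule ℤ E} (h : IsLat L) {s : ℝ} (hs : 0 < s) {t : E}
    (ht : t ∈ rspan L) :
    ∑' x : L, Real.exp (-(π * ‖(x : E) - t‖ ^ 2 / s ^ 2)) =
      s ^ latRank L / latDet L *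
        ∑' y : latDual L, Real.exp (-(π * ‖(y : E)‖ ^ 2 / (1 / s) ^ 2)) *
          Real.cos (2 * π * ⟪(y : E), t⟫) := by
  obtain ⟨r, b, hb, hd⟩ := gp_exists_basis h
  rw [hd, gp_latRank_eq hb]
  exact gp_poisson_basis hb hs ht

/-- (E2) the functional equation of the Gaussian mass. -/
theorem gp_gaussMass_dual {L : Submodule ℤ E} (h : IsLat L) {s : ℝ} (hs : 0 < s) :
    gaussMass s L = s ^ latRank L / latDet L * gaussMass (1 / s) (latDual L) := by
  have := gp_poisson_lat h hs (t := 0) (Submodule.zero_mem _)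
  simpa [gaussMass] using this

lemma gp_summable_dual_cos {L : Submodule ℤ E} (h : IsLat L) {s : ℝ} (hs : 0 < s) (t : E) :
    Summable fun y : latDual L => Real.exp (-(π * ‖(y : E)‖ ^ 2 / s ^ 2)) *
      Real.cos (2 * π * ⟪(y : E), t⟫) := by
  refine Summable.of_norm_bounded (gp_summable_gaussMass (gp_isLat_dual h) hs) fun y => ?_
  rw [norm_mul, Real.norm_of_nonneg (Real.exp_pos _).le]
  exact mul_le_of_le_one_right (Real.exp_pos _).le (Real.abs_cos_le_one _)

/-- (E3) the shift inequality, arbitrary shift `v : E`. -/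
theorem gp_shift_le {L : Submodule ℤ E} (h : IsLat L) {s : ℝ} (hs : 0 < s) (v : E) :
    ∑' x : L, Real.exp (-(π * ‖(x : E) - v‖ ^ 2 / s ^ 2)) ≤ gaussMass s L := by
  obtain ⟨t, ht, hpy⟩ := gp_exists_proj h v
  have hs' : 0 < 1 / s := by positivity
  have h1 : ∑' x : L, Real.exp (-(π * ‖(x : E) - v‖ ^ 2 / s ^ 2)) ≤
      ∑' x : L, Real.exp (-(π * ‖(x : E) - t‖ ^ 2 / s ^ 2)) := by
    refine (gp_summable_lat h hs v).tsum_le_tsum (fun x => ?_) (gp_summable_lat h hs t)
    apply Real.exp_le_exp.mpr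
    rw [hpy x (gp_mem_rspan x)]
    have : 0 ≤ π * ‖t - v‖ ^ 2 / s ^ 2 := by positivity
    have h2 : π * (‖(x : E) - t‖ ^ 2 + ‖t - v‖ ^ 2) / s ^ 2 =
        π * ‖(x : E) - t‖ ^ 2 / s ^ 2 + π * ‖t - v‖ ^ 2 / s ^ 2 := by ring
    rw [h2]
    linarith
  refine h1.trans ?_
  rw [gp_poisson_lat h hs ht, gp_gaussMass_dual h hs]
  refine mul_le_mul_of_nonneg_left ?_ (div_nonneg (pow_nonneg hs.le _) (gp_latDet_pos h).le)
  refine (gp_summable_dual_cos h hs' t).tsum_le_tsum (fun y => ?_)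
    (gp_summable_gaussMass (gp_isLat_dual h) hs')
  exact mul_le_of_le_one_right (Real.exp_pos _).le (Real.cos_le_one _)

/-- monotonicity of the Gaussian mass in the scale. -/
lemma gp_gaussMass_mono {L : Submodule ℤ E} (h : IsLat L) {s s' : ℝ} (hs : 0 < s)
    (hss : s ≤ s') : gaussMass s L ≤ gaussMass s' L := by
  refine (gp_summable_gaussMass h hs).tsum_le_tsum (fun x => ?_)
    (gp_summable_gaussMass h (hs.trans_le hss))
  apply Real.exp_le_exp.mpr
  rw [neg_le_neg_iff]
  gcongr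

/-- (E4) the scale inequality. -/
theorem gp_scale_le {L : Submodule ℤ E} (h : IsLat L) {s s' : ℝ} (hs : 0 < s) (hss : s ≤ s') :
    gaussMass s' L ≤ (s' / s) ^ latRank L * gaussMass s L := by
  have hs' : 0 < s' := hs.trans_le hss
  rw [gp_gaussMass_dual h hs', gp_gaussMass_dual h hs]
  have hd := gp_latDet_pos h
  have hm : gaussMass (1 / s') (latDual L) ≤ gaussMass (1 / s) (latDual L) :=
    gp_gaussMass_mono (gp_isLat_dual h) (by positivity) (one_div_le_one_div_of_le hs hss)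
  have e : (s' / s) ^ latRank L * (s ^ latRank L / latDet L * gaussMass (1 / s) (latDual L)) =
      s' ^ latRank L / latDet L * gaussMass (1 / s) (latDual L) := by
    rw [div_pow]
    field_simp
  rw [e]
  exact mul_le_mul_of_nonneg_left hm (by positivity)

end

end Claimed.Agent.R293
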