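/-
R293 / LatGauss.lean  (LAT leaf; statements by helper195, proofs by helper62).   Gaussian point counts: paper A, Lemma 3.5;
paper B, Lemma 3.4; and three consequences of Gaussian Poisson summation that replace all volume arguments of A Theorem 4.1:
Banaszczyk's tail bound, Minkowski's first theorem, the fibre count.    Prefix `latGs_`.   Sorry-free.

INPUTS (helper62, GPois*.lean), for a lattice `L`, `0 < s`:
  (P1) `Summable (fun x : L => exp (-(π ‖x - v‖² / s²)))` for every `v : E`;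
  (P2) `gaussMass s L = s ^ latRank L / latDet L * gaussMass (1 / s) (latDual L)`;
  (P3) `latMassAt s L v ≤ gaussMass s L` for every `v : E`;
  (P4) `s ≤ s' → gaussMass s' L ≤ (s' / s) ^ latRank L * gaussMass s L`.
-/
import Claimed.Agent.R293.LatIface
import Claimed.Agent.R293.GPoisMass

set_option autoImplicit false

namespace Claimed.Agent.R293

open Submodule Module
open scoped RealInnerProductSpace

section Core
variable {E : Type*} [NormedAddCommGroup E] [InnerProductSpace ℝ E]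

/-- robust form of the Gaussian point count: every finite set of lattice points in a ball. -/
theorem latGs_finset_le_massAt {L : Submodule ℤ E} (hL : IsLat L) {s R : ℝ} (hs : 0 < s) (v : E)
    (S : Finset L) (hS : ∀ x ∈ S, ‖(x : E) - v‖ ≤ R) :
    (S.card : ℝ) ≤ Real.exp (Real.pi * R ^ 2 / s ^ 2) * latMassAt s L v := by
  have h1 : ∑ x ∈ S, Real.exp (-(Real.pi * ‖(x : E) - v‖ ^ 2 / s ^ 2)) ≤ latMassAt s L v :=
    (gp_summable_lat hL hs v).sum_le_tsum S (fun _ _ => (Real.exp_pos _).le)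
  have h2 : (S.card : ℝ) * Real.exp (-(Real.pi * R ^ 2 / s ^ 2)) ≤
      ∑ x ∈ S, Real.exp (-(Real.pi * ‖(x : E) - v‖ ^ 2 / s ^ 2)) := by
    rw [← nsmul_eq_mul]
    refine Finset.card_nsmul_le_sum S _ _ fun x hx => ?_
    apply Real.exp_le_exp.mpr
    rw [neg_le_neg_iff]
    have := hS x hx
    gcongr
  have h3 := h2.trans h1
  rw [Real.exp_neg] at h3
  have hpos := Real.exp_pos (Real.pi * R ^ 2 / s ^ 2)
  rw [← div_eq_mul_inv, div_le_iff₀ hpos] at h3
  linarith

theorem latGs_finset_le_mass {L : Submodule ℤ E} (hL : IsLat L) {s R : ℝ} (hs : 0 < s) (v : E)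
    (S : Finset L) (hS : ∀ x ∈ S, ‖(x : E) - v‖ ≤ R) :
    (S.card : ℝ) ≤ Real.exp (Real.pi * R ^ 2 / s ^ 2) * gaussMass s L :=
  (latGs_finset_le_massAt hL hs v S hS).trans
    (mul_le_mul_of_nonneg_left (gp_shift_le hL hs v) (Real.exp_pos _).le)

/-- a `Nat.card` bound from a bound for all finite subsets. -/
lemma latGs_natCard_le {α : Type*} (P : α → Prop) {B : ℝ} (hB : 0 ≤ B)
    (h : ∀ S : Finset α, (∀ x ∈ S, P x) → (S.card : ℝ) ≤ B) : (Nat.card {x : α // P x} : ℝ) ≤ B := by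
  rcases finite_or_infinite {x : α // P x} with hf | hi
  · have := Fintype.ofFinite {x : α // P x}
    rw [Nat.card_eq_fintype_card]
    have := h ((Finset.univ : Finset {x : α // P x}).map (Function.Embedding.subtype _)) (by
      intro x hx
      obtain ⟨y, _, rfl⟩ := Finset.mem_map.mp hx
      exact y.2)
    simpa using this
  · rw [Nat.card_eq_zero_of_infinite]
    simpa using hB

end Core

section General
variable {E : Type*} [NormedAddCommGroup E] [InnerProductSpace ℝ E]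

theorem latGs_one_le_mass {L : Submodule ℤ E} (hL : IsLat L) {s : ℝ} (hs : 0 < s) : 1 ≤ gaussMass s L := by
  have := (gp_summable_gaussMass hL hs).le_tsum 0 (fun _ _ => (Real.exp_pos _).le)
  simpa [gaussMass] using this

theorem latGs_mass_mono {L : Submodule ℤ E} (hL : IsLat L) {s s' : ℝ} (hs : 0 < s) (hss : s ≤ s') :
    gaussMass s L ≤ gaussMass s' L :=
  gp_gaussMass_mono hL hs hss

/-- the same around an arbitrary centre (uses (P3)). -/
theorem latGs_countAt_le_mass {L : Submodule ℤ E} (hL : IsLat L) {s R : ℝ} (hs : 0 < s) (hR : 0 ≤ R) (v : E) :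
    (latCountAt R L v : ℝ) ≤ Real.exp (Real.pi * R ^ 2 / s ^ 2) * gaussMass s L := by
  have _ := hR
  exact latGs_natCard_le (fun x : L => ‖(x : E) - v‖ ≤ R)
    (mul_nonneg (Real.exp_pos _).le (gp_gaussMass_pos hL hs).le)
    (fun S hS => latGs_finset_le_mass hL hs v S hS)

/-- **A Lemma 3.5, first bound.** -/
theorem latGs_count_le_mass {L : Submodule ℤ E} (hL : IsLat L) {s R : ℝ} (hs : 0 < s) (hR : 0 ≤ R) :
    (ballCount R L : ℝ) ≤ Real.exp (Real.pi * R ^ 2 / s ^ 2) * gaussMass s L := by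
  have := latGs_countAt_le_mass hL hs hR 0
  simpa [latCountAt, ballCount] using this

/-- **Banaszczyk tail bound** (crude form).  For `‖x‖ ≥ r`: `exp(-π‖x‖²/s²) ≤ exp(-π r²/(2 s²)) exp(-π‖x‖²/(√2 s)²)`, then (P4) with
`s' = √2 s`. -/
theorem latGs_tail {L : Submodule ℤ E} (hL : IsLat L) {s r : ℝ} (hs : 0 < s) (hr : 0 ≤ r) :
    ∑' x : L, (if r ≤ ‖(x : E)‖ then Real.exp (-(Real.pi * ‖(x : E)‖ ^ 2 / s ^ 2)) else 0)
      ≤ Real.sqrt 2 ^ latRank L * Real.exp (-(Real.pi * r ^ 2 / (2 * s ^ 2))) * gaussMass s L := by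
  have hs2 : (0 : ℝ) < Real.sqrt 2 * s := by positivity
  have hsq : (Real.sqrt 2 * s) ^ 2 = 2 * s ^ 2 := by
    rw [mul_pow, Real.sq_sqrt (by norm_num)]
  have hle : ∀ x : L, (if r ≤ ‖(x : E)‖ then Real.exp (-(Real.pi * ‖(x : E)‖ ^ 2 / s ^ 2)) else 0) ≤
      Real.exp (-(Real.pi * r ^ 2 / (2 * s ^ 2))) *
        Real.exp (-(Real.pi * ‖(x : E)‖ ^ 2 / (Real.sqrt 2 * s) ^ 2)) := by
    intro x
    split_ifs with hx
    · rw [← Real.exp_add, hsq]
      apply Real.exp_le_exp.mpr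
      have h1 : r ^ 2 ≤ ‖(x : E)‖ ^ 2 := by gcongr
      have h2 : Real.pi * r ^ 2 / (2 * s ^ 2) ≤ Real.pi * ‖(x : E)‖ ^ 2 / (2 * s ^ 2) := by gcongr
      have h3 : Real.pi * ‖(x : E)‖ ^ 2 / s ^ 2 =
          Real.pi * ‖(x : E)‖ ^ 2 / (2 * s ^ 2) + Real.pi * ‖(x : E)‖ ^ 2 / (2 * s ^ 2) := by
        field_simp
        ring
      rw [h3]
      linarith
    · positivity
  have hsum := (gp_summable_gaussMass hL hs2).mul_left (Real.exp (-(Real.pi * r ^ 2 / (2 * s ^ 2))))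
  have h1 := Summable.tsum_le_tsum hle
    (Summable.of_nonneg_of_le (fun y => by split_ifs <;> positivity) hle hsum) hsum
  refine h1.trans ?_
  rw [tsum_mul_left]
  have h4 : gaussMass (Real.sqrt 2 * s) L ≤ Real.sqrt 2 ^ latRank L * gaussMass s L := by
    have := gp_scale_le hL hs (s' := Real.sqrt 2 * s)
      (le_mul_of_one_le_left hs.le (Real.one_le_sqrt.mpr (by norm_num)))
    rwa [mul_div_assoc, div_self hs.ne', mul_one] at this
  calc Real.exp (-(Real.pi * r ^ 2 / (2 * s ^ 2))) * gaussMass (Real.sqrt 2 * s) L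
      ≤ Real.exp (-(Real.pi * r ^ 2 / (2 * s ^ 2))) * (Real.sqrt 2 ^ latRank L * gaussMass s L) :=
        mul_le_mul_of_nonneg_left h4 (Real.exp_pos _).le
    _ = _ := by ring

/-- numerics: `√2^u exp(-π x / 2) ≤ 1/4` for `x ≥ u + 2`. -/
lemma latGs_num (u : ℕ) {x : ℝ} (hx : (u : ℝ) + 2 ≤ x) :
    Real.sqrt 2 ^ u * Real.exp (-(Real.pi * x / 2)) ≤ 1 / 4 := by
  have h2 : Real.sqrt 2 ≤ Real.exp 1 := by
    have h3 : Real.sqrt 2 ≤ 2 := by
      rw [Real.sqrt_le_left (by norm_num)]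
      norm_num
    have h4 : (2 : ℝ) ≤ Real.exp 1 := by
      have := Real.add_one_le_exp (1 : ℝ)
      linarith
    linarith
  have h5 : Real.sqrt 2 ^ u ≤ Real.exp u := by
    calc Real.sqrt 2 ^ u ≤ Real.exp 1 ^ u := by gcongr
      _ = Real.exp u := by rw [← Real.exp_nat_mul, mul_one]
  have h6 : Real.exp (-(Real.pi * x / 2)) ≤ Real.exp (-(u : ℝ) - 2) := by
    apply Real.exp_le_exp.mpr
    have hu : (0 : ℝ) ≤ u := Nat.cast_nonneg u
    nlinarith [Real.pi_gt_three]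
  have h7 : Real.exp (-2 : ℝ) ≤ 1 / 4 := by
    have h8 : (2 : ℝ) ≤ Real.exp 1 := by
      have := Real.add_one_le_exp (1 : ℝ)
      linarith
    have h9 : Real.exp (2 : ℝ) = Real.exp 1 * Real.exp 1 := by rw [← Real.exp_add]; norm_num
    rw [Real.exp_neg, h9, one_div]
    apply inv_anti₀ (by norm_num)
    nlinarith
  calc Real.sqrt 2 ^ u * Real.exp (-(Real.pi * x / 2))
      ≤ Real.exp u * Real.exp (-(u : ℝ) - 2) := by gcongr
    _ = Real.exp (-2) := by rw [← Real.exp_add]; congr 1; ring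
    _ ≤ 1 / 4 := h7

/-- sharper form of `latGs_mass_le_two`. -/
theorem latGs_mass_le_four_thirds {L : Submodule ℤ E} (hL : IsLat L) {s r : ℝ} (hs : 0 < s)
    (hmin : ∀ x ∈ L, x ≠ 0 → r ≤ ‖x‖) (hsr : s ^ 2 * ((latRank L : ℝ) + 2) ≤ r ^ 2) (hr : 0 ≤ r) :
    gaussMass s L ≤ 4 / 3 := by
  classical
  have hr0 : 0 < r := by
    rcases hr.eq_or_lt with h0 | h0
    · exfalso
      rw [← h0] at hsr
      have : 0 < s ^ 2 * ((latRank L : ℝ) + 2) := by positivity
      norm_num at hsr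
      linarith
    · exact h0
  have hsplit : ∀ x : L, Real.exp (-(Real.pi * ‖(x : E)‖ ^ 2 / s ^ 2)) =
      (if x = 0 then 1 else 0) +
        (if r ≤ ‖(x : E)‖ then Real.exp (-(Real.pi * ‖(x : E)‖ ^ 2 / s ^ 2)) else 0) := by
    intro x
    by_cases hx : x = 0
    · subst hx
      simp [not_le.mpr hr0]
    · have hx' : (x : E) ≠ 0 := fun h => hx (Subtype.ext h)
      simp [hx, hmin x x.2 hx']
  have hsum2 : Summable fun x : L =>
      (if r ≤ ‖(x : E)‖ then Real.exp (-(Real.pi * ‖(x : E)‖ ^ 2 / s ^ 2)) else 0) :=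
    Summable.of_nonneg_of_le (fun y => by split_ifs <;> positivity)
      (fun y => by split_ifs <;> first | exact le_rfl | positivity) (gp_summable_gaussMass hL hs)
  have hsum1 : Summable fun x : L => (if x = 0 then (1 : ℝ) else 0) :=
    (hasSum_ite_eq (0 : L) (1 : ℝ)).summable
  have hM : gaussMass s L = 1 + ∑' x : L,
      (if r ≤ ‖(x : E)‖ then Real.exp (-(Real.pi * ‖(x : E)‖ ^ 2 / s ^ 2)) else 0) := by
    rw [gaussMass, tsum_congr hsplit, hsum1.tsum_add hsum2, tsum_ite_eq]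
  have ht := latGs_tail hL hs hr
  have hnum : Real.sqrt 2 ^ latRank L * Real.exp (-(Real.pi * r ^ 2 / (2 * s ^ 2))) ≤ 1 / 4 := by
    have h1 : (latRank L : ℝ) + 2 ≤ r ^ 2 / s ^ 2 := by
      rw [le_div_iff₀ (pow_pos hs 2)]
      linarith
    have h2 := latGs_num (latRank L) h1
    have h3 : Real.pi * (r ^ 2 / s ^ 2) / 2 = Real.pi * r ^ 2 / (2 * s ^ 2) := by
      field_simp
    rwa [h3] at h2
  have hMpos := gp_gaussMass_pos hL hs
  have : gaussMass s L ≤ 1 + 1 / 4 * gaussMass s L := by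
    calc gaussMass s L = 1 + _ := hM
      _ ≤ 1 + Real.sqrt 2 ^ latRank L * Real.exp (-(Real.pi * r ^ 2 / (2 * s ^ 2))) * gaussMass s L := by
        linarith
      _ ≤ 1 + 1 / 4 * gaussMass s L := by
        have := mul_le_mul_of_nonneg_right hnum hMpos.le
        linarith
  linarith

/-- a lattice without nonzero vectors shorter than `r` has Gaussian mass `≤ 2` at every scale `s ≤ r / √(rank + 2)`. -/
theorem latGs_mass_le_two {L : Submodule ℤ E} (hL : IsLat L) {s r : ℝ} (hs : 0 < s)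
    (hmin : ∀ x ∈ L, x ≠ 0 → r ≤ ‖x‖) (hsr : s ^ 2 * ((latRank L : ℝ) + 2) ≤ r ^ 2) (hr : 0 ≤ r) :
    gaussMass s L ≤ 2 :=
  (latGs_mass_le_four_thirds hL hs hmin hsr hr).trans (by norm_num)


lemma latGs_rank_dual {L : Submodule ℤ E} (hL : IsLat L) : latRank (latDual L) = latRank L := by
  obtain ⟨r, b, hb⟩ := hL
  rw [gp_latRank_eq hb, gp_latRank_eq (gp_isLatBasis_dual hb)]

/-- **Minkowski's first theorem** in the form `λ₁(L)^{2u} ≤ 4 (u+2)^u (det L)²`, `u = rank L ≥ 1`.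
Proof: `r = λ₁`, `s = r / √(u+2)`: `s^u / det L ≤ ρ_s(L) ≤ 2` by (P2), `latGs_one_le_mass` for the dual, `latGs_mass_le_two`. -/
theorem latGs_minkowski {L : Submodule ℤ E} (hL : IsLat L) (hu : 1 ≤ latRank L) :
    ∃ x ∈ L, x ≠ 0 ∧ ‖x‖ ^ (2 * latRank L) ≤ 4 * ((latRank L : ℝ) + 2) ^ latRank L * latDet L ^ 2 := by
  by_contra hcon
  push Not at hcon
  set u := latRank L with hu_def
  have hD := gp_latDet_pos hL
  set C : ℝ := 4 * ((u : ℝ) + 2) ^ u * latDet L ^ 2 with hC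
  have hCpos : 0 < C := by positivity
  have h2u : 2 * u ≠ 0 := by omega
  set r : ℝ := C ^ (((2 * u : ℕ) : ℝ)⁻¹) with hr
  have hrpos : 0 < r := Real.rpow_pos_of_pos hCpos _
  have hrpow : r ^ (2 * u) = C := Real.rpow_inv_natCast_pow hCpos.le h2u
  have hmin : ∀ x ∈ L, x ≠ 0 → r ≤ ‖x‖ := by
    intro x hx hx0
    have := hcon x hx hx0
    rw [← hrpow] at this
    exact (lt_of_pow_lt_pow_left₀ _ (norm_nonneg _) this).le
  set s : ℝ := r / Real.sqrt ((u : ℝ) + 2) with hs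
  have hu2 : (0 : ℝ) < (u : ℝ) + 2 := by positivity
  have hspos : 0 < s := by positivity
  have hs2 : s ^ 2 * ((u : ℝ) + 2) = r ^ 2 := by
    rw [hs, div_pow, Real.sq_sqrt hu2.le]
    field_simp
  have hM := latGs_mass_le_four_thirds hL hspos hmin hs2.le hrpos.le
  have hdual := latGs_one_le_mass (gp_isLat_dual hL) (s := 1 / s) (by positivity)
  rw [gp_gaussMass_dual hL hspos] at hM
  have h1 : s ^ u / latDet L ≤ 4 / 3 := by
    calc s ^ u / latDet L = s ^ u / latDet L * 1 := by ring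
      _ ≤ s ^ u / latDet L * gaussMass (1 / s) (latDual L) :=
        mul_le_mul_of_nonneg_left hdual (by positivity)
      _ ≤ 4 / 3 := hM
  rw [div_le_iff₀ hD] at h1
  have h2 : (s ^ u) ^ 2 ≤ (4 / 3 * latDet L) ^ 2 := by gcongr
  have h3 : C = (s ^ u) ^ 2 * ((u : ℝ) + 2) ^ u := by
    rw [← hrpow, pow_mul, ← hs2, mul_pow, ← pow_mul, ← pow_mul, mul_comm u 2]
  have h4 : (s ^ u) ^ 2 * ((u : ℝ) + 2) ^ u ≤ (4 / 3 * latDet L) ^ 2 * ((u : ℝ) + 2) ^ u := by
    gcongr
  have h5 : (4 / 3 * latDet L) ^ 2 * ((u : ℝ) + 2) ^ u < C := by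
    rw [hC]
    have : 0 < ((u : ℝ) + 2) ^ u * latDet L ^ 2 := by positivity
    nlinarith
  linarith

/-- if `L` contains `rank L` independent vectors of norm `≤ ρ₀` then every nonzero vector of `L*` has norm `≥ 1/ρ₀`. -/
theorem latGs_dual_min {L : Submodule ℤ E} (hL : IsLat L) (d : Fin (latRank L) → E) (hd : ∀ i, d i ∈ L)
    (hli : LinearIndependent ℝ d) {ρ₀ : ℝ} (hρ₀ : 0 < ρ₀) (hρ : ∀ i, ‖d i‖ ≤ ρ₀) :
    ∀ y ∈ latDual L, y ≠ 0 → 1 / ρ₀ ≤ ‖y‖ := by
  rintro y ⟨hy, hy'⟩ hy0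
  have hfd : FiniteDimensional ℝ (rspan L) := by
    obtain ⟨r, b, hb⟩ := hL
    rw [gp_rspan_eq hb]
    exact FiniteDimensional.span_of_finite ℝ (Set.finite_range b)
  have hspan : span ℝ (Set.range d) = rspan L := by
    apply Submodule.eq_of_le_of_finrank_eq
    · rw [Submodule.span_le]
      rintro _ ⟨i, rfl⟩
      exact Submodule.subset_span (hd i)
    · rw [finrank_span_eq_card hli, Fintype.card_fin, latRank]
  have hex : ∃ i, ⟪y, d i⟫ ≠ 0 := by
    by_contra hall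
    push Not at hall
    apply hy0
    have : y ∈ (span ℝ (Set.range d))ᗮ := by
      rw [Submodule.mem_orthogonal']
      intro z hz
      induction hz using Submodule.span_induction with
      | mem z hz => obtain ⟨i, rfl⟩ := hz; exact hall i
      | zero => simp
      | add a b _ _ ha hb => rw [inner_add_right, ha, hb, add_zero]
      | smul c a _ ha => rw [inner_smul_right, ha, mul_zero]
    rw [hspan] at this
    exact inner_self_eq_zero.mp (Submodule.inner_right_of_mem_orthogonal hy this)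
  obtain ⟨i, hi⟩ := hex
  obtain ⟨n, hn⟩ := hy' (d i) (hd i)
  have hn0 : n ≠ 0 := by
    rintro rfl
    apply hi
    simpa using hn
  have h1 : (1 : ℝ) ≤ |⟪y, d i⟫| := by
    rw [hn, ← Int.cast_abs]
    exact_mod_cast Int.one_le_abs hn0
  have h2 := abs_real_inner_le_norm y (d i)
  have h3 : ‖y‖ * ‖d i‖ ≤ ‖y‖ * ρ₀ := mul_le_mul_of_nonneg_left (hρ i) (norm_nonneg _)
  rw [div_le_iff₀ hρ₀]
  linarith

/-- mass bound at a large scale. -/
theorem latGs_mass_large {L : Submodule ℤ E} (hL : IsLat L) (d : Fin (latRank L) → E) (hd : ∀ i, d i ∈ L)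
    (hli : LinearIndependent ℝ d) {ρ₀ s : ℝ} (hρ₀ : 0 < ρ₀) (hρ : ∀ i, ‖d i‖ ≤ ρ₀) (hs : 0 < s)
    (hsρ : ρ₀ ^ 2 * ((latRank L : ℝ) + 2) ≤ s ^ 2) :
    gaussMass s L ≤ 2 * s ^ latRank L / latDet L := by
  have hD := gp_latDet_pos hL
  have h1 : gaussMass (1 / s) (latDual L) ≤ 2 := by
    refine latGs_mass_le_two (gp_isLat_dual hL) (r := 1 / ρ₀) (by positivity)
      (latGs_dual_min hL d hd hli hρ₀ hρ) ?_ (by positivity)
    rw [latGs_rank_dual hL, div_pow, div_pow, one_pow, div_mul_eq_mul_div, one_mul,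
      div_le_div_iff₀ (by positivity) (by positivity)]
    linarith
  rw [gp_gaussMass_dual hL hs]
  calc s ^ latRank L / latDet L * gaussMass (1 / s) (latDual L)
      ≤ s ^ latRank L / latDet L * 2 := mul_le_mul_of_nonneg_left h1 (by positivity)
    _ = _ := by ring

/-- **Fibre count** (replaces the packing argument in the proof of A Theorem 4.1). -/
theorem latGs_fibre {L : Submodule ℤ E} (hL : IsLat L) (d : Fin (latRank L) → E) (hd : ∀ i, d i ∈ L)
    (hli : LinearIndependent ℝ d) {ρ₀ s R : ℝ} (hρ₀ : 0 < ρ₀) (hρ : ∀ i, ‖d i‖ ≤ ρ₀) (hs : 0 < s)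
    (hsρ : ρ₀ ^ 2 * ((latRank L : ℝ) + 2) ≤ s ^ 2) (hR : 0 ≤ R) (v : E) :
    (latCountAt R L v : ℝ) ≤ 2 * Real.exp (Real.pi * R ^ 2 / s ^ 2) * s ^ latRank L / latDet L := by
  calc (latCountAt R L v : ℝ) ≤ Real.exp (Real.pi * R ^ 2 / s ^ 2) * gaussMass s L :=
        latGs_countAt_le_mass hL hs hR v
    _ ≤ Real.exp (Real.pi * R ^ 2 / s ^ 2) * (2 * s ^ latRank L / latDet L) :=
        mul_le_mul_of_nonneg_left (latGs_mass_large hL d hd hli hρ₀ hρ hs hsρ) (Real.exp_pos _).le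
    _ = _ := by ring

end General

section RM
variable {E : Type} [NormedAddCommGroup E] [InnerProductSpace ℝ E] [FiniteDimensional ℝ E]

/-- robust (finite subsets) form of `latGs_count_RM`. -/
theorem latGs_finset_RM {τ : ℕ → ℝ} (hRM : StRM τ) {L : Submodule ℤ E} (hL : IsLat L) {T R : ℝ} (hT : 0 < T)
    (hD : DetLB T L) (hτ : 0 < τ (latRank L)) (S : Finset L) (hS : ∀ x ∈ S, ‖(x : E)‖ ≤ R) :
    (S.card : ℝ) ≤ 3 / 2 * Real.exp (Real.pi * R ^ 2 * τ (latRank L) ^ 2 / T ^ 2) := by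
  have hs : 0 < T / τ (latRank L) := by positivity
  have h1 := latGs_finset_le_mass hL hs 0 S (by simpa using hS)
  have h2 := hRM E L T hL hT hD
  have h3 : Real.pi * R ^ 2 / (T / τ (latRank L)) ^ 2 = Real.pi * R ^ 2 * τ (latRank L) ^ 2 / T ^ 2 := by
    field_simp
  rw [h3] at h1
  calc (S.card : ℝ) ≤ _ := h1
    _ ≤ Real.exp (Real.pi * R ^ 2 * τ (latRank L) ^ 2 / T ^ 2) * (3 / 2) :=
        mul_le_mul_of_nonneg_left h2 (Real.exp_pos _).le
    _ = _ := by ring

/-- **B Lemma 3.4 (projected point count)** = A Lemma 3.5 at the scale of Reverse Minkowski. -/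
theorem latGs_count_RM {τ : ℕ → ℝ} (hRM : StRM τ) {L : Submodule ℤ E} (hL : IsLat L) {T R : ℝ} (hT : 0 < T)
    (hD : DetLB T L) (hτ : 0 < τ (latRank L)) (hR : 0 ≤ R) :
    (ballCount R L : ℝ) ≤ 3 / 2 * Real.exp (Real.pi * R ^ 2 * τ (latRank L) ^ 2 / T ^ 2) := by
  have _ := hR
  exact latGs_natCard_le (fun x : L => ‖(x : E)‖ ≤ R) (by positivity)
    (fun S hS => latGs_finset_RM hRM hL hT hD hτ S hS)

/-- **A Lemma 3.5, last bound**: every scale `u ≥ s₀ = T / τ`. -/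
theorem latGs_count_RM_scale {τ : ℕ → ℝ} (hRM : StRM τ) {L : Submodule ℤ E} (hL : IsLat L) {T R u : ℝ} (hT : 0 < T)
    (hD : DetLB T L) (hτ : 0 < τ (latRank L)) (hR : 0 ≤ R) (hu : T / τ (latRank L) ≤ u) :
    (ballCount R L : ℝ) ≤
      3 / 2 * (u * τ (latRank L) / T) ^ latRank L * Real.exp (Real.pi * R ^ 2 / u ^ 2) := by
  have hs : 0 < T / τ (latRank L) := by positivity
  have hu0 : 0 < u := hs.trans_le hu
  have h1 := latGs_count_le_mass hL hu0 hR
  have h2 := gp_scale_le hL hs hu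
  have h3 := hRM E L T hL hT hD
  have h4 : u / (T / τ (latRank L)) = u * τ (latRank L) / T := by field_simp
  rw [h4] at h2
  calc (ballCount R L : ℝ) ≤ _ := h1
    _ ≤ Real.exp (Real.pi * R ^ 2 / u ^ 2) * ((u * τ (latRank L) / T) ^ latRank L * (3 / 2)) := by
        refine mul_le_mul_of_nonneg_left (h2.trans ?_) (Real.exp_pos _).le
        exact mul_le_mul_of_nonneg_left h3 (by positivity)
    _ = _ := by ring

end RM

end Claimed.Agent.R293
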