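/-
R293 / LatGaussCov.lean (owner: helper62).  Bridges from LatGauss.lean to the `cardLE` interface of COV (CovIface.lean):
`lat_rmBall : (∀ j, 0 < τ j) → StRM τ → StRMBall τ`, and `cardLE` forms of the Gaussian counts.   Sorry-free.
(The positivity of `τ` cannot be dropped: for `τ j = 0` the statement `StRM τ` is void, `gaussMass 0 L` being a junk value.)
-/
import Claimed.Agent.R293.LatGauss
import Claimed.Agent.R293.CovIface

set_option autoImplicit false

namespace Claimed.Agent.R293

open Submodule Module

section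
variable {E : Type*} [NormedAddCommGroup E] [InnerProductSpace ℝ E]

omit [InnerProductSpace ℝ E] in
/-- transfer of a bound for finite subsets of `L` (as a type) to finite subsets of `E` contained in `L`. -/
lemma latGs_cardLE_of_finset {L : Submodule ℤ E} (P : E → Prop) {B : ℝ}
    (h : ∀ S : Finset L, (∀ x ∈ S, P (x : E)) → (S.card : ℝ) ≤ B) :
    cardLE {x : E | x ∈ L ∧ P x} B := by
  classical
  intro S hS
  have h1 := h (S.subtype (· ∈ L)) (by
    intro x hx
    exact (hS (Finset.mem_subtype.mp hx)).2)
  rw [Finset.card_subtype, Finset.filter_true_of_mem (fun x hx => (hS hx).1)] at h1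
  exact h1

/-- `cardLE` form of the Gaussian count around an arbitrary centre. -/
theorem latGs_cardLE_mass {L : Submodule ℤ E} (hL : IsLat L) {s : ℝ} (hs : 0 < s) (R : ℝ) (v : E) :
    cardLE {x : E | x ∈ L ∧ ‖x - v‖ ≤ R} (Real.exp (Real.pi * R ^ 2 / s ^ 2) * gaussMass s L) :=
  latGs_cardLE_of_finset (fun x => ‖x - v‖ ≤ R) (fun S hS => latGs_finset_le_mass hL hs v S hS)

end

/-- **Reverse Minkowski, ball count form**, from the Gaussian mass form. -/
theorem lat_rmBall {τ : ℕ → ℝ} (hτ : ∀ j, 0 < τ j) (hRM : StRM τ) : StRMBall τ := by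
  intro m L T R hL hT hD _
  exact latGs_cardLE_of_finset (fun x => ‖x‖ ≤ R)
    (fun S hS => latGs_finset_RM hRM hL hT hD (hτ _) S hS)

end Claimed.Agent.R293
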