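/-
R293 / LatHeight.lean  (LAT leaf #857+#858; statements by helper195, proofs by helper148 = owner).
Rational subspaces and heights: paper A, Lemma 3.2 and the remark after it.   Prefix `latHt_`.
No wedge products and no rational linear algebra: rationality of `U ∩ V` comes from `latHt_rspan_cut` (the projection of a
sublattice off the span of another sublattice is again a lattice), rationality of `W^⊥` from `latDual_perp_rspan` (LatDual.lean);
finiteness of the set of subspaces of bounded height is NOT needed (only `latHt_exists_min`, by Dickson's lemma).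
This file has no sorry of its own; it imports LatInt.lean and LatDual.lean.
-/
import Claimed.Agent.R293.LatIface
import Claimed.Agent.R293.LatBasic
import Claimed.Agent.R293.LatQuot
import Claimed.Agent.R293.LatDual
import Claimed.Agent.R293.LatInt

set_option autoImplicit false

namespace Claimed.Agent.R293

open Submodule Module
open scoped RealInnerProductSpace

section General
variable {E : Type*} [NormedAddCommGroup E] [InnerProductSpace ℝ E] [FiniteDimensional ℝ E]

/-- the cut of `A` by a real subspace is primitive in `A`. -/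
theorem latHt_cut_isPrim (A : Submodule ℤ E) (F : Submodule ℝ E) : IsPrim A (latCut A F) := by
  refine ⟨latCut_le A F, le_antisymm ?_ (lat_le_sat (latCut_le A F))⟩
  intro x hx
  refine ⟨hx.1, ?_⟩
  have h1 : rspan (latCut A F) ≤ F := by
    apply span_le.mpr
    intro y hy
    exact hy.2
  exact h1 hx.2

theorem latHt_rspan_cut_le (A : Submodule ℤ E) (F : Submodule ℝ E) : rspan (latCut A F) ≤ rspan A ⊓ F := by
  apply span_le.mpr
  intro y hy
  exact ⟨subset_span hy.1, hy.2⟩

/-- structure of a sublattice `A` of `L` relative to the span `F` of another sublattice `B`: there are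
`a j ∈ A` whose projections off `F` are independent such that `A ⊆ (A ∩ F) + ∑ ℤ a j`. -/
theorem latHt_split {L A B : Submodule ℤ E} (hL : IsLat L) (hA : A ≤ L) (hB : B ≤ L) :
    ∃ (s : ℕ) (a : Fin s → E), (∀ j, a j ∈ A) ∧ LinearIndependent ℝ (perpProj (rspan B) ∘ a) ∧
      ∀ x ∈ A, ∃ n : Fin s → ℤ, x - ∑ j, (n j : ℝ) • a j ∈ latCut A (rspan B) := by
  have hprim : IsPrim L (latSat L B) := lat_sat_isPrim hB
  have hsp : rspan (latSat L B) = rspan B := lat_rspan_sat hB
  have hQ : IsLat (latQuot L (latSat L B)) := lat_quot_isLat hL hprim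
  have hP : IsLat (latQuot A (latSat L B)) := lat_of_le hQ (lat_quot_mono hA _)
  obtain ⟨s, c, hc⟩ := hP
  have hmem : ∀ j, ∃ x ∈ A, perpProj (rspan B) x = c j := by
    intro j
    have := lat_basis_mem hc j
    rw [lat_mem_quot, hsp] at this
    exact this
  choose a ha hac using hmem
  have hcomp : perpProj (rspan B) ∘ a = c := funext hac
  refine ⟨s, a, ha, by rw [hcomp]; exact hc.1, ?_⟩
  intro x hx
  have hx' : perpProj (rspan B) x ∈ latQuot A (latSat L B) := by
    rw [← hsp]; exact lat_perpProj_mem_quot _ hx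
  obtain ⟨n, hn⟩ := lat_exists_coeff hc hx'
  refine ⟨n, A.sub_mem hx (lat_combo_mem ha n), ?_⟩
  change x - ∑ j, (n j : ℝ) • a j ∈ rspan B
  rw [← lat_perpProj_eq_zero_iff, map_sub, map_sum, hn]
  simp [← hac]

/-- in a lattice, the intersection of the spans of two sublattices is spanned by lattice points. -/
theorem latHt_rspan_cut {L A B : Submodule ℤ E} (hL : IsLat L) (hA : A ≤ L) (hB : B ≤ L) :
    rspan (latCut A (rspan B)) = rspan A ⊓ rspan B := by
  apply le_antisymm (latHt_rspan_cut_le A _)
  obtain ⟨s, a, ha, hli, hsplit⟩ := latHt_split hL hA hB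
  have hAle : rspan A ≤ rspan (latCut A (rspan B)) ⊔ span ℝ (Set.range a) := by
    apply span_le.mpr
    intro x hx
    obtain ⟨n, hn⟩ := hsplit x hx
    have h1 : x = (x - ∑ j, (n j : ℝ) • a j) + ∑ j, (n j : ℝ) • a j := by abel
    rw [h1]
    apply Submodule.add_mem
    · exact mem_sup_left (subset_span hn)
    · apply mem_sup_right
      exact Submodule.sum_mem _ fun j _ => Submodule.smul_mem _ _ (subset_span ⟨j, rfl⟩)
  rintro v ⟨hvA, hvB⟩
  obtain ⟨k, hk, w, hw, rfl⟩ := mem_sup.mp (hAle hvA)
  obtain ⟨t, rfl⟩ := (mem_span_range_iff_exists_fun ℝ).mp hw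
  have hkB : k ∈ rspan B := (latHt_rspan_cut_le A _ hk).2
  have hwB : ∑ j, t j • a j ∈ rspan B := by
    have := (rspan B).sub_mem hvB hkB
    simpa using this
  have h0 : ∑ j, t j • (perpProj (rspan B) ∘ a) j = 0 := by
    have := lat_perpProj_eq_zero hwB
    simpa [map_sum] using this
  have ht := Fintype.linearIndependent_iff.mp hli t h0
  simpa [ht] using hk

/-- **Submodularity of the determinant, projection form.** -/
theorem latHt_submod_cut {L A B : Submodule ℤ E} (hL : IsLat L) (hA : A ≤ L) (hB : B ≤ L) :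
    latDet (A ⊔ B) * latDet (latCut A (rspan B)) ≤ latDet A * latDet B := by
  have hSL : A ⊔ B ≤ L := sup_le hA hB
  have hSlat : IsLat (A ⊔ B) := lat_of_le hL hSL
  have hAlat : IsLat A := lat_of_le hL hA
  have hBS : B ≤ A ⊔ B := le_sup_right
  have hprimB : IsPrim (A ⊔ B) (latSat (A ⊔ B) B) := lat_sat_isPrim hBS
  have hsp : rspan (latSat (A ⊔ B) B) = rspan B := lat_rspan_sat hBS
  have h1 := lat_det_quot hSlat hprimB
  have h2 : latDet (latSat (A ⊔ B) B) ≤ latDet B := lat_det_sat_le hSlat hBS
  have hKprim : IsPrim A (latCut A (rspan B)) := latHt_cut_isPrim A _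
  obtain ⟨k, l, b, c, hb, hbc, hc⟩ := lat_exists_adapted_basis hAlat hKprim
  have h3 := lat_det_quot hAlat hKprim
  have hcA : ∀ j, c j ∈ A := by
    intro j
    have := lat_basis_mem hbc (Fin.natAdd k j)
    simpa using this
  have hbF : ∀ i, b i ∈ rspan B := fun i => (lat_basis_mem hb i).2
  have hbasis : IsLatBasis (perpProj (rspan B) ∘ c) (latQuot (A ⊔ B) (latSat (A ⊔ B) B)) := by
    constructor
    · rw [Fintype.linearIndependent_iff]
      intro t ht
      have hw : ∑ j, t j • c j ∈ rspan B := by
        rw [← lat_perpProj_eq_zero_iff, map_sum]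
        simpa using ht
      have hwA : ∑ j, t j • c j ∈ rspan A :=
        Submodule.sum_mem _ fun j _ => Submodule.smul_mem _ _ (subset_span (hcA j))
      have hwK : ∑ j, t j • c j ∈ rspan (latCut A (rspan B)) := by
        rw [latHt_rspan_cut hL hA hB]
        exact ⟨hwA, hw⟩
      rw [lat_rspan_eq hb] at hwK
      obtain ⟨u, hu⟩ := (mem_span_range_iff_exists_fun ℝ).mp hwK
      have h0 : ∑ i, (Fin.append u (-t)) i • (Fin.append b c) i = 0 := by
        rw [Fin.sum_univ_add]
        simp [hu]
      have := Fintype.linearIndependent_iff.mp hbc.1 _ h0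
      intro j
      have hj := this (Fin.natAdd k j)
      simpa using hj
    · apply le_antisymm
      · apply span_le.mpr
        rintro _ ⟨j, rfl⟩
        have := lat_perpProj_mem_quot (latSat (A ⊔ B) B) (le_sup_left (b := B) (hcA j))
        rw [hsp] at this
        exact this
      · intro y hy
        rw [lat_mem_quot, hsp] at hy
        obtain ⟨x, hx, rfl⟩ := hy
        obtain ⟨a, ha, b', hb', rfl⟩ := mem_sup.mp hx
        obtain ⟨n, hn⟩ := lat_exists_coeff hbc ha
        have hb0 : perpProj (rspan B) b' = 0 := lat_perpProj_eq_zero (subset_span hb')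
        have hbi : ∀ i, perpProj (rspan B) (b i) = 0 := fun i => lat_perpProj_eq_zero (hbF i)
        have : perpProj (rspan B) (a + b')
            = ∑ j, ((n (Fin.natAdd k j) : ℤ) : ℝ) • (perpProj (rspan B) ∘ c) j := by
          rw [map_add, hb0, add_zero, hn, map_sum, Fin.sum_univ_add]
          simp [hbi]
        rw [this]
        exact lat_combo_mem (fun j => subset_span (Set.mem_range_self j)) _
  have hcomp : perpProj (rspan B) ∘ c
      = perpProj (rspan B) ∘ (perpProj (rspan (latCut A (rspan B))) ∘ c) := by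
    funext j
    simp only [Function.comp_apply]
    have hmem : c j - perpProj (rspan (latCut A (rspan B))) (c j) ∈ rspan B :=
      (latHt_rspan_cut_le A _ (lat_sub_perpProj_mem _ (c j))).2
    have := lat_perpProj_eq_zero hmem
    rw [map_sub, sub_eq_zero] at this
    exact this
  have h4 : latDet (latQuot (A ⊔ B) (latSat (A ⊔ B) B)) ≤ latDet (latQuot A (latCut A (rspan B))) := by
    rw [lat_det_eq hbasis, lat_det_eq hc, hcomp]
    exact Real.sqrt_le_sqrt (lat_gramDet_perpProj_le _ _)
  calc latDet (A ⊔ B) * latDet (latCut A (rspan B))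
      = latDet (latSat (A ⊔ B) B) * latDet (latQuot (A ⊔ B) (latSat (A ⊔ B) B))
          * latDet (latCut A (rspan B)) := by rw [← h1]
    _ ≤ latDet B * latDet (latQuot A (latCut A (rspan B))) * latDet (latCut A (rspan B)) := by
        apply mul_le_mul_of_nonneg_right _ (lat_det_nonneg _)
        exact mul_le_mul h2 h4 (lat_det_nonneg _) (lat_det_nonneg _)
    _ = latDet A * latDet B := by rw [h3]; ring

end General

section Zm
variable {m : ℕ}

theorem latHt_one_le (W : Submodule ℝ (EucM m)) : 1 ≤ height W :=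
  latInt_sub_one_le_det (latInt_latOf_le W)

theorem latHt_pos (W : Submodule ℝ (EucM m)) : 0 < height W := lt_of_lt_of_le one_pos (latHt_one_le W)

/-- `H(W)^2` is a positive integer. -/
theorem latHt_sq_nat (W : Submodule ℝ (EucM m)) : ∃ n : ℕ, 0 < n ∧ height W ^ 2 = n :=
  latInt_sub_det_sq (latInt_latOf_le W)

theorem latHt_latOf_bot : latOf (⊥ : Submodule ℝ (EucM m)) = ⊥ := by
  apply le_antisymm _ bot_le
  intro x hx
  have : x ∈ (⊥ : Submodule ℝ (EucM m)) := hx.1
  simpa using this

theorem latHt_latOf_top : latOf (⊤ : Submodule ℝ (EucM m)) = intLat m := by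
  apply le_antisymm (latInt_latOf_le _)
  intro x hx
  exact ⟨trivial, hx⟩

theorem latHt_isRat_bot : IsRat (⊥ : Submodule ℝ (EucM m)) := by
  unfold IsRat
  rw [latHt_latOf_bot, lat_rspan_bot]

theorem latHt_isRat_top : IsRat (⊤ : Submodule ℝ (EucM m)) := by
  unfold IsRat
  rw [latHt_latOf_top, latInt_rspan]

theorem latHt_bot : height (⊥ : Submodule ℝ (EucM m)) = 1 := by
  unfold height
  rw [latHt_latOf_bot, lat_det_bot]

theorem latHt_top : height (⊤ : Submodule ℝ (EucM m)) = 1 := by
  unfold height
  rw [latHt_latOf_top, latInt_det]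

theorem latHt_rspan_sup (A B : Submodule ℤ (EucM m)) : rspan (A ⊔ B) = rspan A ⊔ rspan B := by
  apply le_antisymm
  · apply span_le.mpr
    intro x hx
    obtain ⟨a, ha, b, hb, rfl⟩ := mem_sup.mp hx
    exact Submodule.add_mem _ (mem_sup_left (subset_span ha)) (mem_sup_right (subset_span hb))
  · exact sup_le (lat_rspan_mono le_sup_left) (lat_rspan_mono le_sup_right)

theorem latHt_isRat_sup {U V : Submodule ℝ (EucM m)} (hU : IsRat U) (hV : IsRat V) : IsRat (U ⊔ V) := by
  apply le_antisymm (latInt_rspan_latOf_le _)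
  apply sup_le
  · calc U = rspan (latOf U) := hU.symm
      _ ≤ rspan (latOf (U ⊔ V)) := lat_rspan_mono (latInt_latOf_mono le_sup_left)
  · calc V = rspan (latOf V) := hV.symm
      _ ≤ rspan (latOf (U ⊔ V)) := lat_rspan_mono (latInt_latOf_mono le_sup_right)

theorem latHt_cut_latOf (U V : Submodule ℝ (EucM m)) : latCut (latOf U) V = latOf (U ⊓ V) := by
  ext x
  constructor
  · rintro ⟨⟨h1, h2⟩, h3⟩
    exact ⟨⟨h1, h3⟩, h2⟩
  · rintro ⟨⟨h1, h3⟩, h2⟩
    exact ⟨⟨h1, h2⟩, h3⟩

/-- `W^⊥` is rational  (`latDual_perp_rspan` with `L = ℤ^m = L*`, `M = Λ_W`). -/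
theorem latHt_isRat_perp {W : Submodule ℝ (EucM m)} (hW : IsRat W) : IsRat Wᗮ := by
  have hM : latOf W ≤ latDual (intLat m) := by
    rw [latInt_dual]
    exact latInt_latOf_le W
  have := latDual_perp_rspan (latInt_isLat m) hM
  rw [hW, latInt_rspan, top_inf_eq, ← latOf_eq_latCut] at this
  exact this

/-- `U ∩ V` is rational. -/
theorem latHt_isRat_inf {U V : Submodule ℝ (EucM m)} (hU : IsRat U) (hV : IsRat V) : IsRat (U ⊓ V) := by
  have := latHt_rspan_cut (latInt_isLat m) (latInt_latOf_le U) (latInt_latOf_le V)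
  rw [hU, hV, latHt_cut_latOf] at this
  exact this

/-- **A Lemma 3.2 (height submodularity).** -/
theorem latHt_submod {U V : Submodule ℝ (EucM m)} (hU : IsRat U) (hV : IsRat V) :
    height (U ⊔ V) * height (U ⊓ V) ≤ height U * height V := by
  have h := latHt_submod_cut (latInt_isLat m) (latInt_latOf_le U) (latInt_latOf_le V)
  rw [hV, latHt_cut_latOf] at h
  have hle : latOf U ⊔ latOf V ≤ latOf (U ⊔ V) :=
    sup_le (latInt_latOf_mono le_sup_left) (latInt_latOf_mono le_sup_right)
  have hr : latRank (latOf U ⊔ latOf V) = latRank (latOf (U ⊔ V)) := by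
    unfold latRank
    rw [latHt_rspan_sup, hU, hV, latHt_isRat_sup hU hV]
  have h1 : latDet (latOf (U ⊔ V)) ≤ latDet (latOf U ⊔ latOf V) :=
    lat_det_le_of_le (latInt_latOf_isLat _) hle hr
  unfold height
  exact le_trans (mul_le_mul_of_nonneg_right h1 (lat_det_nonneg _)) h

theorem latHt_single_basis (i : Fin m) :
    IsLatBasis (fun _ : Fin 1 => (EuclideanSpace.single i (1 : ℝ) : EucM m))
      (latOf (span ℝ {EuclideanSpace.single i (1 : ℝ)})) := by
  constructor
  · apply LinearIndependent.of_subsingleton 0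
    intro h
    have := congrArg (fun v : EucM m => v i) h
    simp at this
  · apply le_antisymm
    · apply span_le.mpr
      rintro _ ⟨_, rfl⟩
      exact ⟨subset_span rfl, latInt_single_mem i⟩
    · rintro x ⟨hx1, hx2⟩
      obtain ⟨t, rfl⟩ := mem_span_singleton.mp hx1
      obtain ⟨n, hn⟩ := hx2 i
      have ht : t = n := by simpa using hn
      rw [ht, Int.cast_smul_eq_zsmul]
      exact Submodule.smul_mem _ _ (subset_span ⟨0, rfl⟩)

theorem latHt_isRat_single (i : Fin m) : IsRat (span ℝ {EuclideanSpace.single i (1 : ℝ)} : Submodule ℝ (EucM m)) := by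
  unfold IsRat
  rw [lat_rspan_eq (latHt_single_basis i)]
  congr 1
  ext x
  simp

theorem latHt_single (i : Fin m) : height (span ℝ {EuclideanSpace.single i (1 : ℝ)} : Submodule ℝ (EucM m)) = 1 := by
  unfold height
  rw [lat_det_eq (latHt_single_basis i), lat_gramDet_one]
  simp

/-- `H(U + ℝ e_i) ≤ H(U)`. -/
theorem latHt_sup_single {U : Submodule ℝ (EucM m)} (hU : IsRat U) (i : Fin m) :
    height (U ⊔ span ℝ {EuclideanSpace.single i (1 : ℝ)}) ≤ height U := by
  have h := latHt_submod hU (latHt_isRat_single i)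
  rw [latHt_single, mul_one] at h
  have h1 := latHt_one_le (U ⊓ span ℝ {EuclideanSpace.single i (1 : ℝ)})
  have h2 := latHt_pos (U ⊔ span ℝ {EuclideanSpace.single i (1 : ℝ)})
  nlinarith

/-- **Existence of minimisers** of `log H(W) + a g(W)` (`g` with values in `ℕ`, `a ≥ 0`) over any nonempty family of subspaces:
the objective is `(1/2) log n + a k` with `n ≥ 1`, `k ≥ 0` integers (Dickson's lemma).
Replaces the finiteness statement of A Lemma 3.2. -/
theorem latHt_exists_min (P : Submodule ℝ (EucM m) → Prop) (hP : ∃ W, P W) (g : Submodule ℝ (EucM m) → ℕ)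
    (a : ℝ) (ha : 0 ≤ a) :
    ∃ W, P W ∧ ∀ W', P W' → Real.log (height W) + a * g W ≤ Real.log (height W') + a * g W' := by
  classical
  choose nn hn0 hnn using (latHt_sq_nat (m := m))
  have hmono : ∀ W W' : Submodule ℝ (EucM m), nn W ≤ nn W' → g W ≤ g W' →
      Real.log (height W) + a * g W ≤ Real.log (height W') + a * g W' := by
    intro W W' h1 h2
    have hh : height W ≤ height W' := by
      have : height W ^ 2 ≤ height W' ^ 2 := by
        rw [hnn, hnn]
        exact_mod_cast h1
      exact (pow_le_pow_iff_left₀ (latHt_pos W).le (latHt_pos W').le two_ne_zero).mp this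
    have h4 := Real.log_le_log (latHt_pos W) hh
    have h3 : (g W : ℝ) ≤ g W' := by exact_mod_cast h2
    have h5 := mul_le_mul_of_nonneg_left h3 ha
    linarith
  have wf : WellFounded (fun W W' : Submodule ℝ (EucM m) =>
      Real.log (height W) + a * g W < Real.log (height W') + a * g W') := by
    rw [wellFounded_iff_isEmpty_descending_chain]
    refine ⟨fun ⟨f, hf⟩ => ?_⟩
    have hanti : StrictAnti (fun t => Real.log (height (f t)) + a * g (f t)) :=
      strictAnti_nat_of_succ_lt hf
    obtain ⟨i, j, hij, hle⟩ := wellQuasiOrdered_le (fun t => (nn (f t), g (f t)))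
    have h1 := hmono _ _ hle.1 hle.2
    have h2 := hanti hij
    exact absurd h1 (not_le.mpr h2)
  obtain ⟨W, hW, hmin⟩ := wf.has_min {W | P W} hP
  exact ⟨W, hW, fun W' hW' => not_lt.mp (hmin W' hW')⟩

end Zm

end Claimed.Agent.R293
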