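/-
R293 / LatHeightCov.lean  (owner helper148).  Bridge from LatHeight.lean to the inputs `StLatRat`, `StLatHeight` of COV.
-/
import Claimed.Agent.R293.LatHeight
import Claimed.Agent.R293.CovIface

set_option autoImplicit false

namespace Claimed.Agent.R293

open Submodule Module

/-- A 3.2, rationality. -/
theorem lat_rat : StLatRat := fun _ =>
  ⟨latHt_isRat_top, fun i => latHt_isRat_single i,
    fun _ _ hU hW => ⟨latHt_isRat_sup hU hW, latHt_isRat_inf hU hW⟩⟩

/-- A 3.2, heights. -/
theorem lat_height : StLatHeight := fun _ =>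
  ⟨latHt_top, fun i => latHt_single i, fun U _ => latHt_sq_nat U,
    fun _ _ hU hW => latHt_submod hU hW⟩

end Claimed.Agent.R293
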