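/-
R293 / LatMink.lean  (owner: helper16).  Leaf LAT-MINK: Minkowski's first theorem for the lattices of
`LatDefs.lean` (arbitrary rank, cube version, constant `1`):
  `∃ x ∈ L, x ≠ 0 ∧ ‖x‖ ^ u ≤ (√u) ^ u * det L`,  `u = rank L ≥ 1`.
Proof: orthonormal coordinates on the real span turn a basis `b` into a square matrix `M` with
`M Mᵀ = Gram b`; Mathlib's Minkowski theorem for `span ℤ (rows of M)` and the cube of half side
`(det L)^(1/u)`.
-/
import Claimed.Agent.R293.CovIface
import Claimed.Agent.R293.LatBasic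

set_option autoImplicit false

namespace Claimed.Agent.R293

open Submodule Module Matrix MeasureTheory
open scoped RealInnerProductSpace

section General
variable {E : Type*} [NormedAddCommGroup E] [InnerProductSpace ℝ E]

/-- **Orthonormal coordinates of an independent family**: a square matrix `M` (rows = coordinates of
the `b i`) with `det M ^ 2 = gramDet b` that computes the norm of every real combination. -/
theorem lat_mink_coords {r : ℕ} {b : Fin r → E} (hb : LinearIndependent ℝ b) :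
    ∃ M : Matrix (Fin r) (Fin r) ℝ, M.det ^ 2 = gramDet b ∧
      ∀ c : Fin r → ℝ, ‖∑ i, c i • b i‖ ^ 2 = ∑ k, (∑ i, c i * M i k) ^ 2 := by
  classical
  set F : Submodule ℝ E := span ℝ (Set.range b) with hF
  have hfr : finrank ℝ F = r := by rw [hF, finrank_span_eq_card hb, Fintype.card_fin]
  have : FiniteDimensional ℝ F := FiniteDimensional.span_of_finite ℝ (Set.finite_range b)
  let o : OrthonormalBasis (Fin r) ℝ F := (stdOrthonormalBasis ℝ F).reindex (finCongr hfr)
  let bF : Fin r → F := fun i => ⟨b i, subset_span (Set.mem_range_self i)⟩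
  let M : Matrix (Fin r) (Fin r) ℝ := Matrix.of fun i k => (o.repr (bF i)) k
  have hinner : ∀ x y : F, ⟪x, y⟫ = ∑ k, (o.repr x) k * (o.repr y) k := by
    intro x y
    rw [← o.repr.inner_map_map x y, PiLp.inner_apply]
    refine Finset.sum_congr rfl fun k _ => ?_
    simp [mul_comm]
  refine ⟨M, ?_, fun c => ?_⟩
  · have hg : Matrix.gram ℝ b = M * Mᵀ := by
      ext i j
      rw [Matrix.gram_apply, Matrix.mul_apply]
      have : ⟪b i, b j⟫ = ⟪bF i, bF j⟫ := rfl
      rw [this, hinner]
      rfl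
    unfold gramDet
    rw [hg, Matrix.det_mul, Matrix.det_transpose, sq]
  · have hx : (∑ i, c i • b i) = ((∑ i, c i • bF i : F) : E) := by
      simp [bF]
    have hn : ‖∑ i, c i • b i‖ ^ 2 = ⟪(∑ i, c i • bF i : F), (∑ i, c i • bF i : F)⟫ := by
      rw [hx, real_inner_self_eq_norm_sq]
      rfl
    rw [hn, hinner]
    refine Finset.sum_congr rfl fun k _ => ?_
    have : (o.repr (∑ i, c i • bF i)) k = ∑ i, c i * M i k := by
      simp [M, map_sum]
    rw [this, sq]

/-- Minkowski's theorem for the integer span of the rows of an invertible square matrix and a cube. -/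
theorem lat_mink_cube {r : ℕ} (hr : 1 ≤ r) (M : Matrix (Fin r) (Fin r) ℝ) (hM : M.det ≠ 0)
    {t : ℝ} (ht : 0 ≤ t) (hvol : |M.det| ≤ t ^ r) :
    ∃ c : Fin r → ℤ, c ≠ 0 ∧ ∀ k, |∑ i, (c i : ℝ) * M i k| ≤ t := by
  classical
  have : Nonempty (Fin r) := ⟨⟨0, hr⟩⟩
  have hli : LinearIndependent ℝ fun i => M i := Matrix.linearIndependent_rows_of_det_ne_zero hM
  let B : Basis (Fin r) ℝ (Fin r → ℝ) :=
    basisOfLinearIndependentOfCardEqFinrank hli (by simp)
  have hB : ⇑B = fun i => M i := coe_basisOfLinearIndependentOfCardEqFinrank hli _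
  let L : AddSubgroup (Fin r → ℝ) := (span ℤ (Set.range B)).toAddSubgroup
  have : Countable L := by
    change Countable (span ℤ (Set.range B))
    infer_instance
  have : DiscreteTopology L := by
    change DiscreteTopology (span ℤ (Set.range B))
    infer_instance
  have hfund : IsAddFundamentalDomain L (ZSpan.fundamentalDomain B) volume :=
    ZSpan.isAddFundamentalDomain B volume
  have hmeas : volume (ZSpan.fundamentalDomain B) * 2 ^ finrank ℝ (Fin r → ℝ)
      ≤ volume (Metric.closedBall (0 : Fin r → ℝ) t) := by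
    rw [ZSpan.volume_fundamentalDomain, Real.volume_pi_closedBall _ ht, Module.finrank_fin_fun,
      Fintype.card_fin]
    have e : (Matrix.of ⇑B) = M := by rw [hB]; rfl
    rw [e, show (2 : ENNReal) ^ r = ENNReal.ofReal (2 ^ r) by
      rw [ENNReal.ofReal_pow (by norm_num)]; simp, ← ENNReal.ofReal_mul (abs_nonneg _)]
    refine ENNReal.ofReal_le_ofReal ?_
    rw [mul_pow, mul_comm]
    exact mul_le_mul_of_nonneg_left hvol (by positivity)
  obtain ⟨x, hx0, hxs⟩ := exists_ne_zero_mem_lattice_of_measure_mul_two_pow_le_measure hfund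
    (fun y hy => by simpa using hy) (convex_closedBall _ _) (isCompact_closedBall _ _) hmeas
  have hxL : (x : Fin r → ℝ) ∈ span ℤ (Set.range B) := x.2
  obtain ⟨c, hc⟩ := (Submodule.mem_span_range_iff_exists_fun ℤ).1 hxL
  have hck : ∀ k, (x : Fin r → ℝ) k = ∑ i, (c i : ℝ) * M i k := by
    intro k
    rw [← hc, hB]
    simp
  refine ⟨c, ?_, fun k => ?_⟩
  · rintro rfl
    apply hx0
    ext k
    rw [hck k]
    simp
  · rw [← hck k]
    have h1 : ‖(x : Fin r → ℝ)‖ ≤ t := by simpa using hxs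
    exact (pi_norm_le_iff_of_nonneg ht).1 h1 k

/-- **Minkowski's first theorem**, any real inner product space. -/
theorem lat_mink_gen {L : Submodule ℤ E} (hL : IsLat L) (hu : 1 ≤ latRank L) :
    ∃ x ∈ L, x ≠ 0 ∧ ‖x‖ ^ latRank L ≤ Real.sqrt (latRank L) ^ latRank L * latDet L := by
  obtain ⟨r, b, hb⟩ := hL
  have hrk : latRank L = r := lat_rank_eq hb
  rw [hrk] at hu ⊢
  have hr0 : r ≠ 0 := by omega
  obtain ⟨M, hMdet, hMn⟩ := lat_mink_coords hb.1
  have hD : 0 < latDet L := lat_det_pos ⟨r, b, hb⟩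
  have habs : |M.det| = latDet L := by
    rw [lat_det_eq hb, ← hMdet, Real.sqrt_sq_eq_abs]
  have hM0 : M.det ≠ 0 := by
    intro h
    rw [h, abs_zero] at habs
    exact hD.ne habs
  set t : ℝ := latDet L ^ ((r : ℝ)⁻¹) with ht
  have ht0 : 0 ≤ t := Real.rpow_nonneg hD.le _
  have htr : t ^ r = latDet L := Real.rpow_inv_natCast_pow hD.le hr0
  obtain ⟨c, hc0, hck⟩ := lat_mink_cube hu M hM0 ht0 (by rw [habs, htr])
  refine ⟨∑ i, (c i : ℝ) • b i, lat_combo_mem (lat_basis_mem hb) c, ?_, ?_⟩
  · intro h0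
    apply hc0
    have := (Fintype.linearIndependent_iff.1 hb.1) (fun i => (c i : ℝ)) h0
    funext i
    exact_mod_cast this i
  · have hsq : ‖∑ i, (c i : ℝ) • b i‖ ^ 2 ≤ (Real.sqrt r * t) ^ 2 := by
      rw [hMn, mul_pow, Real.sq_sqrt (Nat.cast_nonneg r)]
      calc ∑ k, (∑ i, (c i : ℝ) * M i k) ^ 2 ≤ ∑ _k : Fin r, t ^ 2 :=
            Finset.sum_le_sum fun k _ => sq_le_sq' (by linarith [abs_le.1 (hck k)])
              (abs_le.1 (hck k)).2
        _ = r * t ^ 2 := by simp
    have hle : ‖∑ i, (c i : ℝ) • b i‖ ≤ Real.sqrt r * t :=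
      (abs_le_of_sq_le_sq' hsq (by positivity)).2
    calc ‖∑ i, (c i : ℝ) • b i‖ ^ r ≤ (Real.sqrt r * t) ^ r :=
          pow_le_pow_left₀ (norm_nonneg _) hle r
      _ = Real.sqrt r ^ r * latDet L := by rw [mul_pow, htr]

end General

/-- **Leaf LAT-MINK.** -/
theorem lat_mink : StLatMink := fun _ _ hL hu => lat_mink_gen hL hu

end Claimed.Agent.R293
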