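/-
R293 / LatNormalCov.lean  (owner: helper74).  The LAT inputs `StLatNormal`, `StLatNormalSub` of the package COV
(`CovIface.lean`) as corollaries of `LatNormal.lean`.
-/
import Claimed.Agent.R293.LatNormal
import Claimed.Agent.R293.CovIface

set_option autoImplicit false

namespace Claimed.Agent.R293

open Submodule Module

theorem lat_normLat_eq {m : ℕ} (V V' : Submodule ℝ (EucM m)) : normLat V V' = latNormal V V' := rfl

/-- A 3.3, first part. -/
theorem lat_normal : StLatNormal := by
  intro m V V' hV hV' hle
  rw [lat_normLat_eq]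
  refine ⟨latNor_isLat V V', latNor_rank hV hV' hle, ?_⟩
  rw [latNor_det hV hV' hle, div_mul_cancel₀ _ (latNor_height_pos V).ne']

/-- A 3.3, second part. -/
theorem lat_normalSub : StLatNormalSub := by
  intro m V M hV hM
  refine ⟨lat_of_le (latNor_dual_isLat V) hM, latNor_isRat hV hM, latNor_finrank hV hM, ?_⟩
  have h := latNor_det_ge hV hM
  rwa [div_le_iff₀ (latNor_height_pos V)] at h

end Claimed.Agent.R293
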