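/-
R293 / CovFinal.lean  (package COV, owner helper112).  CONSOLIDATED FILE: glue and final assembly of the low-height cover.
-/
import Claimed.Agent.R293.CovIface
import Claimed.Agent.R293.CovCard
import Claimed.Agent.R293.CovAbs
import Claimed.Agent.R293.CovCount
import Claimed.Agent.R293.CovAsymp
import Claimed.Agent.R293.LatHeightCov
import Claimed.Agent.R293.LatNormalCov
import Claimed.Agent.R293.LatGaussCov
import Claimed.Agent.R293.LatMink
import Claimed.Agent.R293.LatEnum

set_option autoImplicit false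

namespace Claimed.Agent.R293

/-! ## Part CovMain -/

/-
R293 / CovMain.lean  (owner: helper112).  Glue: the low-height cover `StCover` from the leaves of CovIface.lean.
-/

section CovMain

open Submodule Module Filter

theorem covImg_pos (N : ℕ) (a : ℝ) {τ : ℝ} (hτ : 0 ≤ τ) (e : Bool) : 0 < covImg N a τ e := by
  unfold covImg
  split_ifs
  · have h1 : 0 < 1 + 2 * τ * (N : ℝ) ^ (3 * a) := by
      have : 0 ≤ (N : ℝ) ^ (3 * a) := Real.rpow_nonneg (Nat.cast_nonneg N) _
      positivity
    positivity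
  · positivity

theorem covB_nonneg (N : ℕ) (a : ℝ) {τ : ℝ} (hτ : 0 ≤ τ) (t : ℕ × Bool) : 0 ≤ covB N a τ t := by
  unfold covB
  exact mul_nonneg (covImg_pos N a hτ _).le (Real.rpow_nonneg (Nat.cast_nonneg N) _)

theorem covBmax_nonneg (N : ℕ) (a : ℝ) {τ : ℝ} (hτ : 0 ≤ τ) (S : ℝ) : 0 ≤ covBmax N a τ S := by
  unfold covBmax
  exact mul_nonneg (mul_nonneg (pow_nonneg (covImg_pos N a hτ _).le _)
    (Real.rpow_nonneg (covImg_pos N a hτ _).le _)) (Real.rpow_nonneg (Nat.cast_nonneg N) _)

/-- **A Theorem 4.1** from the leaves. -/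
theorem cov_main {τ : ℕ → ℝ} (hτ : CovTauOK τ) (hAbs : StCovAbs) (hAx : StCovAxInst)
    (hUnion : StCovUnion) (hProd : StCovProd) (hStep : StCovStepCount τ) (hAsymp : StCovAsymp)
    (hHt : StLatHeight) : StCover := by
  intro D A hD hA
  have hB0 : D + A + 2 < D + A + 3 := by linarith
  filter_upwards [hAsymp τ hτ D A (D + A + 3) hD hA hB0, eventually_ge_atTop 6] with N hN hN6 m hm
  obtain ⟨ha0, ha1, ha2, hΔ, hcount⟩ := hN
  set a := covA (D + A + 3) N with ha
  set S := covS D (D + A + 3) N with hS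
  have hτN : (1 : ℝ) ≤ τ N := hτ.2.1 N
  have hcard : cardLE {U | ∃ ts, covAdm N a S ts ∧
      U ∈ covReach (covStep (IsRat (m := m)) (covHt N) a) ⊤ ts}
      ((2 * (N : ℝ) + 3) ^ N * covBmax N a (τ N) S) :=
    hUnion _ _ ⊤ (covB N a (τ N)) N a S _ (covBmax_nonneg N a (by linarith) S)
      (fun t V => hStep N m a t V hm hN6 ha0 ha1)
      (fun t => covB_nonneg N a (by linarith) t)
      (fun ts hts => hProd N a (τ N) S ts (by omega) ha0 hτN hts)
  refine ⟨(cardLE_finite hcard).toFinset, (cardLE_toFinset hcard).trans hcount, ?_⟩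
  intro F hF hHF
  have hNr : (6 : ℝ) ≤ N := by exact_mod_cast hN6
  have hlogN : 0 < Real.log N := Real.log_pos (by linarith)
  have hFpos : 0 < height F := by
    obtain ⟨k, hk, hk2⟩ := (hHt m).2.2.1 F hF
    have h0 : 0 ≤ height F := by
      unfold height latDet
      split_ifs
      · exact Real.sqrt_nonneg _
      · exact le_rfl
    rcases h0.lt_or_eq with h | h
    · exact h
    · exfalso
      rw [← h] at hk2
      have : (k : ℝ) = 0 := by rw [← hk2]; norm_num
      have : k = 0 := by exact_mod_cast this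
      omega
  have h1 : covHt N F ≤ covH0 D N := by
    unfold covHt covH0 Real.logb
    apply div_le_div_of_nonneg_right _ hlogN.le
    calc Real.log (height F) ≤ Real.log (Real.exp (N * ell N ^ D)) :=
          Real.log_le_log hFpos hHF
      _ = N * ell N ^ D := Real.log_exp _
  have h2 : 4 * covHt N F / a ≤ S := by
    rw [hS]
    unfold covS
    apply div_le_div_of_nonneg_right _ ha0.le
    linarith
  obtain ⟨ts, hts, U, hU, hd⟩ :=
    hAbs N m IsRat (covHt N) hm (hAx N m (by omega)) a ha0 ha1 ha2 F hF S h2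
  refine ⟨U, ?_, ?_⟩
  · rw [Set.Finite.mem_toFinset]
    exact ⟨ts, hts, hU⟩
  · rw [covd_rkDist, covd_comm]
    calc covD U F = a * covD U F / a := by field_simp
      _ ≤ covH0 D N / a := div_le_div_of_nonneg_right (hd.trans h1) ha0.le
      _ ≤ N * ell N ^ (-A) := hΔ

end CovMain

/-! ## Part CovFinal -/

/-
R293 / CovFinal.lean  (owner: helper112).  FINAL ASSEMBLY of the package COV:
`cov_cover : StRM τ → RMGrowth τ C c → StCover`   (paper A, Theorem 4.1 = paper B, Theorem 3.2).
The only remaining input is Reverse Minkowski.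
-/

section CovFinal

open Submodule Module Filter

theorem cov_union : StCovUnion :=
  fun X step x0 B N a S Bmax hBmax hstep hB hprod =>
    covu_union X step x0 B N a S Bmax hBmax hstep hB hprod

/-- the cover theorem from the ball count form of Reverse Minkowski. -/
theorem cov_cover_of_ball {τ : ℕ → ℝ} (hτ : CovTauOK τ) (hRM : StRMBall τ) : StCover :=
  cov_main hτ (cov_abs cov_chain (cov_block cov_exp))
    (cov_axInst lat_rat lat_height lat_normal lat_normalSub lat_mink) cov_union cov_prod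
    (cov_step hτ (cov_hypInj lat_normal lat_height) cov_minSub (cov_img hRM hτ cov_avg)
      (cov_fibre lat_enum lat_normalSub lat_normal lat_height) lat_normalSub)
    cov_asymp lat_height

/-- enlarging the loss. -/
theorem cov_rmBall_mono {τ τ' : ℕ → ℝ} (h0 : ∀ j, 0 ≤ τ j) (hle : ∀ j, τ j ≤ τ' j)
    (hRM : StRMBall τ) : StRMBall τ' := by
  intro m L T R hL hT hD hR
  apply cardLE_mono (hRM m L T R hL hT hD hR) le_rfl
  have h1 : τ (latRank L) ^ 2 ≤ τ' (latRank L) ^ 2 := pow_le_pow_left₀ (h0 _) (hle _) 2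
  have h2 : 0 ≤ Real.pi * R ^ 2 := by positivity
  gcongr

/-- **A Theorem 4.1 = B Theorem 3.2 (low-height cover)** from Reverse Minkowski with polylogarithmic loss. -/
theorem cov_cover {τ : ℕ → ℝ} {C : ℝ} {c : ℕ} (hRM : StRM τ) (hG : RMGrowth τ C c) : StCover := by
  have hpos : ∀ j, 0 < τ j := fun j => lt_of_lt_of_le one_pos (hG j).1
  set τ' : ℕ → ℝ := fun j => C * Real.log ((j : ℝ) + 2) ^ c with hτ'
  have hlog : ∀ j : ℕ, 0 ≤ Real.log ((j : ℝ) + 2) := fun j =>
    Real.log_nonneg (by have : (0 : ℝ) ≤ j := Nat.cast_nonneg j; linarith)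
  have hC : 0 ≤ C := by
    by_contra hneg
    have h1 := (hG 0).1.trans (hG 0).2
    have h2 : C * Real.log (((0 : ℕ) : ℝ) + 2) ^ c ≤ 0 :=
      mul_nonpos_of_nonpos_of_nonneg (not_le.1 hneg).le (pow_nonneg (hlog 0) c)
    linarith
  have hOK : CovTauOK τ' := by
    refine ⟨?_, fun j => (hG j).1.trans (hG j).2, C, c, fun j => le_rfl⟩
    intro i j hij
    have hij' : (i : ℝ) ≤ j := by exact_mod_cast hij
    have hi0 : (0 : ℝ) ≤ i := Nat.cast_nonneg i
    apply mul_le_mul_of_nonneg_left _ hC
    apply pow_le_pow_left₀ (hlog i)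
    exact Real.log_le_log (by linarith) (by linarith)
  exact cov_cover_of_ball hOK
    (cov_rmBall_mono (fun j => (hpos j).le) (fun j => (hG j).2) (lat_rmBall hpos hRM))

end CovFinal

end Claimed.Agent.R293
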