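/-
R293 / CovUncond.lean  (owner: helper112).  The low-height cover theorem (paper A, Theorem 4.1 = paper B, Theorem 3.2),
UNCONDITIONALLY: COV (CovFinal.lean) + Reverse Minkowski (RM/GramFinal.lean).
-/
import Claimed.Agent.R293.CovFinal
import Claimed.Agent.R293.RM.GramFinal

set_option autoImplicit false

namespace Claimed.Agent.R293

/-- **A Theorem 4.1 = B Theorem 3.2 (low-height cover)**, no hypotheses. -/
theorem cov_cover_final : StCover := cov_cover_of_ball rmTau_ok rm_ball_final

end Claimed.Agent.R293
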