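/-
R293 / CrkLinAlg.lean  (owner: helper136).  Linear algebra for B eq. (3.1):
* a symmetric matrix of rank `r` over a field has an invertible principal `r × r` submatrix;
* a matrix of rank `#I` with invertible principal block `X[I,I]` is determined by its entries
  that have a row or column index in `I`.
No sorry.
-/
import Mathlib

set_option autoImplicit false

namespace Claimed.Agent.R293

open Matrix Module

variable {ι F : Type*} [Fintype ι] [DecidableEq ι] [Field F]

/-- the principal submatrix on the index set `I`. -/
def crkBlock (X : Matrix ι ι F) (I : Finset ι) : Matrix I I F :=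
  X.submatrix (fun a : I => (a : ι)) (fun a : I => (a : ι))

omit [Fintype ι] [DecidableEq ι] in
/-- membership in the span of the rows indexed by `I`, with explicit coefficients. -/
theorem crk_mem_span_rows_iff (X : Matrix ι ι F) (I : Finset ι) (w : ι → F) :
    w ∈ Submodule.span F (Set.range fun a : I => X (a : ι)) ↔
      ∃ d : I → F, ∑ a : I, d a • X (a : ι) = w :=
  Submodule.mem_span_range_iff_exists_fun F

omit [Fintype ι] in
/-- if the principal block is invertible, the rows indexed by `I` are linearly independent. -/
theorem crk_linearIndependent_rows (X : Matrix ι ι F) (I : Finset ι)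
    (hdet : (crkBlock X I).det ≠ 0) : LinearIndependent F (fun a : I => X (a : ι)) := by
  rw [Fintype.linearIndependent_iff]
  intro c hc
  by_contra hne
  have hc0 : c ≠ 0 := fun h => hne (by simp [h])
  apply hdet
  rw [← Matrix.exists_vecMul_eq_zero_iff]
  refine ⟨c, hc0, ?_⟩
  funext b
  have := congrFun hc (b : ι)
  simpa [Matrix.vecMul, dotProduct, crkBlock, Finset.sum_apply] using this

/-- **Schur determination.**  If `rank X = #I` and `X[I,I]` is invertible, then
`X = X[·,I] X[I,I]⁻¹ X[I,·]`. -/
theorem crk_eq_mul_inv_mul (X : Matrix ι ι F) (I : Finset ι) (hrank : X.rank = I.card)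
    (hdet : (crkBlock X I).det ≠ 0) :
    X = X.submatrix id (fun a : I => (a : ι)) * (crkBlock X I)⁻¹ *
      X.submatrix (fun a : I => (a : ι)) id := by
  have hli := crk_linearIndependent_rows X I hdet
  -- the rows in `I` span the row space
  have hle : Submodule.span F (Set.range fun a : I => X (a : ι)) ≤
      Submodule.span F (Set.range X.row) := by
    refine Submodule.span_mono ?_
    rintro _ ⟨a, rfl⟩
    exact ⟨a, rfl⟩
  have hfin : finrank F (Submodule.span F (Set.range fun a : I => X (a : ι))) =
      finrank F (Submodule.span F (Set.range X.row)) := by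
    rw [finrank_span_eq_card hli, ← Matrix.rank_eq_finrank_span_row, hrank, Fintype.card_coe]
  have heq := Submodule.eq_of_le_of_finrank_eq hle hfin
  have hunit : IsUnit (crkBlock X I).det := isUnit_iff_ne_zero.2 hdet
  ext j l
  have hj : X j ∈ Submodule.span F (Set.range fun a : I => X (a : ι)) := by
    rw [heq]; exact Submodule.subset_span ⟨j, rfl⟩
  obtain ⟨d, hd⟩ := (crk_mem_span_rows_iff X I (X j)).1 hj
  -- `d` is determined by the block
  have hd1 : d ᵥ* crkBlock X I = fun b : I => X j b := by
    funext b
    have := congrFun hd (b : ι)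
    simpa [Matrix.vecMul, dotProduct, crkBlock, Finset.sum_apply] using this
  have hd2 : d = (fun b : I => X j b) ᵥ* (crkBlock X I)⁻¹ := by
    rw [← hd1, Matrix.vecMul_vecMul, Matrix.mul_nonsing_inv _ hunit, Matrix.vecMul_one]
  have hl := congrFun hd l
  rw [← hl, Matrix.mul_apply]
  simp only [Finset.sum_apply, Pi.smul_apply, smul_eq_mul, Matrix.submatrix_apply, id]
  refine Finset.sum_congr rfl fun a _ => ?_
  rw [hd2]
  simp [Matrix.vecMul, dotProduct, Matrix.mul_apply]

/-- two matrices of rank `#I` that agree on all entries with a row or column index in `I`, one of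
them with invertible principal block on `I`, are equal. -/
theorem crk_eq_of_agree (X Y : Matrix ι ι F) (I : Finset ι) (hX : X.rank = I.card)
    (hY : Y.rank = I.card) (hdet : (crkBlock X I).det ≠ 0)
    (h : ∀ i j, (i ∈ I ∨ j ∈ I) → X i j = Y i j) : X = Y := by
  have hb : crkBlock X I = crkBlock Y I := by
    ext a b; exact h _ _ (Or.inl a.2)
  have h1 : X.submatrix id (fun a : I => (a : ι)) = Y.submatrix id (fun a : I => (a : ι)) := by
    ext i a; exact h _ _ (Or.inr a.2)
  have h2 : X.submatrix (fun a : I => (a : ι)) id = Y.submatrix (fun a : I => (a : ι)) id := by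
    ext a j; exact h _ _ (Or.inl a.2)
  rw [crk_eq_mul_inv_mul X I hX hdet, crk_eq_mul_inv_mul Y I hY (hb ▸ hdet), hb, h1, h2]

/-- **A symmetric matrix of rank `r` has an invertible principal `r × r` submatrix** (any field). -/
theorem crk_exists_principal (X : Matrix ι ι F) (hX : X.IsSymm) :
    ∃ I : Finset ι, I.card = X.rank ∧ (crkBlock X I).det ≠ 0 := by
  classical
  obtain ⟨s, hs, hmax⟩ := exists_maximal_linearIndepOn F (fun i => X i)
  let I : Finset ι := s.toFinset
  have hmem : ∀ i, i ∈ I ↔ i ∈ s := fun i => Set.mem_toFinset
  -- the rows in `I` are independent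
  have hli : LinearIndependent F (fun a : I => X (a : ι)) := by
    have h0 : LinearIndependent F (fun a : s => X (a : ι)) := hs
    exact h0.comp (fun a : I => (⟨a, (hmem _).1 a.2⟩ : s))
      (fun a b hab => Subtype.ext (congrArg (fun t : s => (t : ι)) hab))
  -- every row is in their span
  have hspan : ∀ j, X j ∈ Submodule.span F (Set.range fun a : I => X (a : ι)) := by
    intro j
    have himg : (fun i => X i) '' s = Set.range fun a : I => X (a : ι) := by
      ext w
      constructor
      · rintro ⟨i, hi, rfl⟩
        exact ⟨⟨i, (hmem i).2 hi⟩, rfl⟩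
      · rintro ⟨a, rfl⟩
        exact ⟨a, (hmem _).1 a.2, rfl⟩
    by_cases hj : j ∈ s
    · exact Submodule.subset_span ⟨⟨j, (hmem j).2 hj⟩, rfl⟩
    · obtain ⟨a, ha, hmem'⟩ := hmax j hj
      rw [himg] at hmem'
      have := Submodule.smul_mem _ a⁻¹ hmem'
      rwa [smul_smul, inv_mul_cancel₀ ha, one_smul] at this
  refine ⟨I, ?_, ?_⟩
  · have heq : Submodule.span F (Set.range fun a : I => X (a : ι)) =
        Submodule.span F (Set.range X.row) := by
      apply le_antisymm
      · refine Submodule.span_mono ?_
        rintro _ ⟨a, rfl⟩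
        exact ⟨a, rfl⟩
      · refine Submodule.span_le.2 ?_
        rintro _ ⟨j, rfl⟩
        exact hspan j
    rw [Matrix.rank_eq_finrank_span_row, ← heq, finrank_span_eq_card hli, Fintype.card_coe]
  · intro hdet
    obtain ⟨c, hc0, hc⟩ := Matrix.exists_vecMul_eq_zero_iff.2 hdet
    -- `w = ∑ c a • X a` vanishes on `I`
    have hwI : ∀ b : I, ∑ a : I, c a * X a b = 0 := by
      intro b
      have := congrFun hc b
      simpa [Matrix.vecMul, dotProduct, crkBlock] using this
    have hw : ∑ a : I, c a • X (a : ι) = 0 := by
      funext l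
      obtain ⟨d, hd⟩ := (crk_mem_span_rows_iff X I (X l)).1 (hspan l)
      have hXl : ∀ a : I, X a l = ∑ k : I, d k * X k a := by
        intro a
        have h1 : X (a : ι) l = X l a := hX.apply l a
        have h2 := congrFun hd (a : ι)
        rw [h1, ← h2]
        simp [Finset.sum_apply]
      simp only [Finset.sum_apply, Pi.smul_apply, smul_eq_mul, Pi.zero_apply]
      calc ∑ a : I, c a * X a l = ∑ a : I, c a * ∑ k : I, d k * X k a := by
            refine Finset.sum_congr rfl fun a _ => by rw [hXl a]
        _ = ∑ k : I, d k * ∑ a : I, c a * X a k := by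
            simp only [Finset.mul_sum]
            rw [Finset.sum_comm]
            refine Finset.sum_congr rfl fun k _ => Finset.sum_congr rfl fun a _ => ?_
            rw [hX.apply k a]; ring
        _ = 0 := Finset.sum_eq_zero fun k _ => by rw [hwI k, mul_zero]
    exact hc0 (funext fun a => (Fintype.linearIndependent_iff.1 hli c hw a))

end Claimed.Agent.R293
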