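/-
R293 / ProbBasic.lean  (owner: helper271).  PROB package, part 1: basic API for `bern`, `prb`, `exq`
of `Model.lean` (finite product Bernoulli laws).  Prefix `pb`.
-/
import Claimed.Agent.R293.Model

set_option autoImplicit false

namespace Claimed.Agent.R293

open Finset

section Basic

variable {κ : Type*} [Fintype κ] [DecidableEq κ] {π : κ → ℝ}

/-! ### Weights -/

omit [DecidableEq κ] in
theorem pb_bern_nonneg (hπ : IsProbArray π) (s : κ → Bool) : 0 ≤ bern π s := by
  refine Finset.prod_nonneg fun k _ => ?_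
  split_ifs
  · exact (hπ k).1
  · linarith [(hπ k).2]

/-- product formula: the sum over all bit patterns of a product of one-bit functions. -/
theorem pb_sum_prod (g : κ → Bool → ℝ) :
    ∑ s : κ → Bool, ∏ k, g k (s k) = ∏ k, (g k true + g k false) := by
  rw [← Fintype.prod_sum]
  refine Finset.prod_congr rfl fun k _ => ?_
  simp

theorem pb_sum_bern (π : κ → ℝ) : ∑ s : κ → Bool, bern π s = 1 := by
  have h := pb_sum_prod (fun (k : κ) (b : Bool) => if b then π k else 1 - π k)
  simp only [if_true, Bool.false_eq_true, if_false, add_sub_cancel, Finset.prod_const_one] at h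
  exact h

theorem pb_bern_le_one (hπ : IsProbArray π) (s : κ → Bool) : bern π s ≤ 1 := by
  rw [← pb_sum_bern π]
  exact Finset.single_le_sum (f := bern π) (fun t _ => pb_bern_nonneg hπ t) (Finset.mem_univ s)

omit [DecidableEq κ] in
/-- max-atom bound: if every one-bit atom is `≤ b`, every pattern has weight `≤ b ^ #κ`. -/
theorem pb_bern_le_pow (hπ : IsProbArray π) {b : ℝ} (hb : ∀ k, π k ≤ b ∧ 1 - π k ≤ b)
    (s : κ → Bool) : bern π s ≤ b ^ Fintype.card κ := by
  have : bern π s ≤ ∏ _k : κ, b := by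
    refine Finset.prod_le_prod (fun k _ => ?_) fun k _ => ?_
    · split_ifs
      · exact (hπ k).1
      · linarith [(hπ k).2]
    · split_ifs
      · exact (hb k).1
      · exact (hb k).2
  simpa using this

/-! ### Expectations -/

theorem pb_exq_const (π : κ → ℝ) (c : ℝ) : exq π (fun _ => c) = c := by
  simp [exq, ← Finset.sum_mul, pb_sum_bern]

theorem pb_exq_add (π : κ → ℝ) (f g : (κ → Bool) → ℝ) :
    exq π (fun s => f s + g s) = exq π f + exq π g := by
  simp [exq, mul_add, Finset.sum_add_distrib]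

theorem pb_exq_sub (π : κ → ℝ) (f g : (κ → Bool) → ℝ) :
    exq π (fun s => f s - g s) = exq π f - exq π g := by
  simp [exq, mul_sub, Finset.sum_sub_distrib]

theorem pb_exq_const_mul (π : κ → ℝ) (c : ℝ) (f : (κ → Bool) → ℝ) :
    exq π (fun s => c * f s) = c * exq π f := by
  simp only [exq, Finset.mul_sum]
  exact Finset.sum_congr rfl fun s _ => by ring

theorem pb_exq_mul_const (π : κ → ℝ) (c : ℝ) (f : (κ → Bool) → ℝ) :
    exq π (fun s => f s * c) = exq π f * c := by
  simp only [exq, Finset.sum_mul]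
  exact Finset.sum_congr rfl fun s _ => by ring

theorem pb_exq_sum {ι : Type*} (π : κ → ℝ) (t : Finset ι) (f : ι → (κ → Bool) → ℝ) :
    exq π (fun s => ∑ i ∈ t, f i s) = ∑ i ∈ t, exq π (f i) := by
  simp only [exq, Finset.mul_sum]
  exact Finset.sum_comm

theorem pb_exq_mono (hπ : IsProbArray π) {f g : (κ → Bool) → ℝ} (h : ∀ s, f s ≤ g s) :
    exq π f ≤ exq π g :=
  Finset.sum_le_sum fun s _ => mul_le_mul_of_nonneg_left (h s) (pb_bern_nonneg hπ s)

theorem pb_exq_nonneg (hπ : IsProbArray π) {f : (κ → Bool) → ℝ} (h : ∀ s, 0 ≤ f s) :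
    0 ≤ exq π f :=
  Finset.sum_nonneg fun s _ => mul_nonneg (pb_bern_nonneg hπ s) (h s)

theorem pb_exq_le_of_le (hπ : IsProbArray π) {f : (κ → Bool) → ℝ} {c : ℝ} (h : ∀ s, f s ≤ c) :
    exq π f ≤ c := by
  rw [← pb_exq_const π c]
  exact pb_exq_mono hπ h

theorem pb_le_exq_of_le (hπ : IsProbArray π) {f : (κ → Bool) → ℝ} {c : ℝ} (h : ∀ s, c ≤ f s) :
    c ≤ exq π f := by
  rw [← pb_exq_const π c]
  exact pb_exq_mono hπ h

theorem pb_exq_congr (π : κ → ℝ) {f g : (κ → Bool) → ℝ} (h : ∀ s, f s = g s) :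
    exq π f = exq π g := by
  rw [funext h]

/-- product formula for expectations of products of functions of single bits. -/
theorem pb_exq_prod (π : κ → ℝ) (g : κ → Bool → ℝ) :
    exq π (fun s => ∏ k, g k (s k)) = ∏ k, (π k * g k true + (1 - π k) * g k false) := by
  have h := pb_sum_prod (fun (k : κ) (b : Bool) => (if b then π k else 1 - π k) * g k b)
  simp only [if_true, Bool.false_eq_true, if_false] at h
  rw [← h]
  refine Finset.sum_congr rfl fun s _ => ?_
  rw [bern, ← Finset.prod_mul_distrib]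

/-! ### Probabilities -/

theorem pb_prb_eq_exq (π : κ → ℝ) (E : Set (κ → Bool)) :
    prb π E = exq π (E.indicator fun _ => 1) := by
  refine Finset.sum_congr rfl fun s _ => ?_
  by_cases hs : s ∈ E <;> simp [hs]

open Classical in
theorem pb_prb_eq_sum_filter (π : κ → ℝ) (E : Set (κ → Bool)) :
    prb π E = ∑ s ∈ Finset.univ.filter (· ∈ E), bern π s := by
  rw [prb, Finset.sum_filter]
  refine Finset.sum_congr rfl fun s _ => ?_
  by_cases hs : s ∈ E <;> simp [hs]

@[simp] theorem pb_prb_univ (π : κ → ℝ) : prb π Set.univ = 1 := by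
  simp [prb, pb_sum_bern]

@[simp] theorem pb_prb_empty (π : κ → ℝ) : prb π ∅ = 0 := by
  simp [prb]

theorem pb_prb_nonneg (hπ : IsProbArray π) (E : Set (κ → Bool)) : 0 ≤ prb π E :=
  Finset.sum_nonneg fun s _ => Set.indicator_nonneg (fun t _ => pb_bern_nonneg hπ t) s

theorem pb_prb_mono (hπ : IsProbArray π) {E F : Set (κ → Bool)} (h : E ⊆ F) :
    prb π E ≤ prb π F :=
  Finset.sum_le_sum fun s _ => Set.indicator_le_indicator_of_subset h (pb_bern_nonneg hπ) s

theorem pb_prb_le_one (hπ : IsProbArray π) (E : Set (κ → Bool)) : prb π E ≤ 1 := by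
  rw [← pb_prb_univ π]
  exact pb_prb_mono hπ (Set.subset_univ E)

theorem pb_prb_add_compl (π : κ → ℝ) (E : Set (κ → Bool)) : prb π E + prb π Eᶜ = 1 := by
  rw [← pb_sum_bern π, prb, prb, ← Finset.sum_add_distrib]
  refine Finset.sum_congr rfl fun s _ => ?_
  by_cases hs : s ∈ E <;> simp [hs]

theorem pb_prb_compl (π : κ → ℝ) (E : Set (κ → Bool)) : prb π Eᶜ = 1 - prb π E := by
  linarith [pb_prb_add_compl π E]

theorem pb_prb_union_add_inter (π : κ → ℝ) (E F : Set (κ → Bool)) :
    prb π (E ∪ F) + prb π (E ∩ F) = prb π E + prb π F := by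
  simp only [prb, ← Finset.sum_add_distrib]
  refine Finset.sum_congr rfl fun s _ => ?_
  by_cases hs : s ∈ E <;> by_cases ht : s ∈ F <;> simp [hs, ht]

theorem pb_prb_union_le (hπ : IsProbArray π) (E F : Set (κ → Bool)) :
    prb π (E ∪ F) ≤ prb π E + prb π F := by
  linarith [pb_prb_union_add_inter π E F, pb_prb_nonneg hπ (E ∩ F)]

theorem pb_prb_union_of_disjoint (π : κ → ℝ) {E F : Set (κ → Bool)} (h : Disjoint E F) :
    prb π (E ∪ F) = prb π E + prb π F := by
  have := pb_prb_union_add_inter π E F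
  rw [Set.disjoint_iff_inter_eq_empty.1 h, pb_prb_empty, add_zero] at this
  exact this

theorem pb_prb_inter_add_diff (π : κ → ℝ) (E F : Set (κ → Bool)) :
    prb π (E ∩ F) + prb π (E \ F) = prb π E := by
  rw [← pb_prb_union_of_disjoint π (Set.disjoint_sdiff_right.mono_left Set.inter_subset_right),
    Set.inter_union_sdiff]

/-- splitting an event along an auxiliary event. -/
theorem pb_prb_le_inter_add_compl (hπ : IsProbArray π) (E F : Set (κ → Bool)) :
    prb π E ≤ prb π (E ∩ F) + prb π Fᶜ := by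
  rw [← pb_prb_inter_add_diff π E F]
  have : prb π (E \ F) ≤ prb π Fᶜ := pb_prb_mono hπ fun s hs => hs.2
  linarith

/-- finite union bound. -/
theorem pb_prb_biUnion_le {ι : Type*} (hπ : IsProbArray π) (t : Finset ι)
    (E : ι → Set (κ → Bool)) : prb π (⋃ i ∈ t, E i) ≤ ∑ i ∈ t, prb π (E i) := by
  classical
  induction t using Finset.induction_on with
  | empty => simp
  | insert a t ha ih =>
    rw [Finset.sum_insert ha, Finset.set_biUnion_insert]
    exact (pb_prb_union_le hπ _ _).trans (by linarith)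

theorem pb_prb_iUnion_le {ι : Type*} [Fintype ι] (hπ : IsProbArray π)
    (E : ι → Set (κ → Bool)) : prb π (⋃ i, E i) ≤ ∑ i, prb π (E i) := by
  have := pb_prb_biUnion_le hπ Finset.univ E
  simpa using this

/-- union bound with a uniform bound on each event. -/
theorem pb_prb_biUnion_le_card_mul {ι : Type*} (hπ : IsProbArray π) (t : Finset ι)
    (E : ι → Set (κ → Bool)) {c : ℝ} (h : ∀ i ∈ t, prb π (E i) ≤ c) :
    prb π (⋃ i ∈ t, E i) ≤ t.card * c := by
  refine (pb_prb_biUnion_le hπ t E).trans ?_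
  have := Finset.sum_le_card_nsmul t (fun i => prb π (E i)) c h
  simpa using this

/-- Markov's inequality. -/
theorem pb_markov (hπ : IsProbArray π) {f : (κ → Bool) → ℝ} (hf : ∀ s, 0 ≤ f s) {a : ℝ}
    (ha : 0 < a) : prb π {s | a ≤ f s} ≤ exq π f / a := by
  rw [le_div_iff₀ ha, pb_prb_eq_exq, ← pb_exq_mul_const]
  refine pb_exq_mono hπ fun s => ?_
  by_cases hs : a ≤ f s
  · simp [Set.indicator, hs]
  · simpa [Set.indicator, hs] using hf s

/-- counting bound: an event with at most `M` patterns, each of weight `≤ c`. -/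
theorem pb_prb_le_card_mul (π : κ → ℝ) (E : Set (κ → Bool)) {c : ℝ}
    (h : ∀ s ∈ E, bern π s ≤ c) : prb π E ≤ Nat.card E * c := by
  classical
  rw [pb_prb_eq_sum_filter]
  have h1 := Finset.sum_le_card_nsmul (Finset.univ.filter (· ∈ E)) (bern π) c
    (fun s hs => h s (by simpa using hs))
  have h2 : Nat.card E = (Finset.univ.filter (· ∈ E)).card := by
    rw [Nat.card_eq_fintype_card, Fintype.card_subtype]
  rw [h2]
  simpa using h1

theorem pb_prb_singleton (π : κ → ℝ) (s : κ → Bool) : prb π {s} = bern π s := by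
  classical
  rw [prb, Finset.sum_eq_single s]
  · simp
  · intro t _ ht
    simp [ht]
  · simp

/-- expectation restricted to an event is at most `sup × probability`. -/
theorem pb_exq_indicator_le (hπ : IsProbArray π) (E : Set (κ → Bool)) {f : (κ → Bool) → ℝ} {c : ℝ}
    (h : ∀ s ∈ E, f s ≤ c) : exq π (E.indicator f) ≤ c * prb π E := by
  rw [pb_prb_eq_exq, ← pb_exq_const_mul]
  refine pb_exq_mono hπ fun s => ?_
  by_cases hs : s ∈ E
  · simpa [hs] using h s hs
  · simp [hs]

end Basic

end Claimed.Agent.R293
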