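/-
R293 / ProbMix.lean  (owner: helper271).  PROB package, part 2: conditioning without subtypes
(`pbMix`), tower property, conditional bounds, independence, product bounds.  Prefix `pb`.
-/
import Claimed.Agent.R293.ProbBasic

set_option autoImplicit false

namespace Claimed.Agent.R293

open Finset

section Mix

variable {κ : Type*}

open Classical in
/-- `pbMix A x s`: the bit pattern equal to `x` on `A` and to `s` off `A`
(`A` = the entries being revealed/resampled now, `s` = everything else). -/
noncomputable def pbMix (A : Set κ) (x s : κ → Bool) : κ → Bool :=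
  fun k => if k ∈ A then x k else s k

theorem pbMix_of_mem {A : Set κ} {k : κ} (hk : k ∈ A) (x s : κ → Bool) : pbMix A x s k = x k := by
  simp [pbMix, hk]

theorem pbMix_of_notMem {A : Set κ} {k : κ} (hk : k ∉ A) (x s : κ → Bool) :
    pbMix A x s k = s k := by
  simp [pbMix, hk]

@[simp] theorem pbMix_self (A : Set κ) (x : κ → Bool) : pbMix A x x = x := by
  funext k; simp [pbMix]

@[simp] theorem pbMix_empty (x s : κ → Bool) : pbMix ∅ x s = s := by
  funext k; simp [pbMix]

@[simp] theorem pbMix_univ (x s : κ → Bool) : pbMix Set.univ x s = x := by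
  funext k; simp [pbMix]

theorem pbMix_compl (A : Set κ) (x s : κ → Bool) : pbMix Aᶜ x s = pbMix A s x := by
  funext k
  by_cases hk : k ∈ A <;> simp [pbMix, hk]

@[simp] theorem pbMix_mix_left (A : Set κ) (x y s : κ → Bool) :
    pbMix A (pbMix A x y) s = pbMix A x s := by
  funext k
  by_cases hk : k ∈ A <;> simp [pbMix, hk]

@[simp] theorem pbMix_mix_right (A : Set κ) (x y s : κ → Bool) :
    pbMix A x (pbMix A y s) = pbMix A x s := by
  funext k
  by_cases hk : k ∈ A <;> simp [pbMix, hk]

/-- `f` does not depend on the coordinates in `A`. -/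
def pbFree {β : Sort*} (A : Set κ) (f : (κ → Bool) → β) : Prop := ∀ x s, f (pbMix A x s) = f s

/-- the event `E` does not depend on the coordinates in `A`. -/
def pbFreeSet (A : Set κ) (E : Set (κ → Bool)) : Prop := ∀ x s, pbMix A x s ∈ E ↔ s ∈ E

/-- criterion: `f` is free of `A` if it takes equal values on patterns that agree off `A`. -/
theorem pbFree_of_agree {β : Sort*} {A : Set κ} {f : (κ → Bool) → β}
    (h : ∀ s t : κ → Bool, (∀ k, k ∉ A → s k = t k) → f s = f t) : pbFree A f :=
  fun x s => h _ _ fun _ hk => pbMix_of_notMem hk x s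

theorem pbFree.agree {β : Sort*} {A : Set κ} {f : (κ → Bool) → β} (h : pbFree A f)
    {s t : κ → Bool} (hst : ∀ k, k ∉ A → s k = t k) : f s = f t := by
  have : pbMix A s t = s := by
    funext k
    by_cases hk : k ∈ A
    · exact pbMix_of_mem hk s t
    · rw [pbMix_of_notMem hk, hst k hk]
  rw [← this, h s t]

theorem pbFreeSet_of_agree {A : Set κ} {E : Set (κ → Bool)}
    (h : ∀ s t : κ → Bool, (∀ k, k ∉ A → s k = t k) → (s ∈ E ↔ t ∈ E)) : pbFreeSet A E :=
  fun x s => h _ _ fun _ hk => pbMix_of_notMem hk x s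

theorem pbFreeSet.agree {A : Set κ} {E : Set (κ → Bool)} (h : pbFreeSet A E)
    {s t : κ → Bool} (hst : ∀ k, k ∉ A → s k = t k) : s ∈ E ↔ t ∈ E := by
  have : pbMix A s t = s := by
    funext k
    by_cases hk : k ∈ A
    · exact pbMix_of_mem hk s t
    · rw [pbMix_of_notMem hk, hst k hk]
  rw [← this, h s t]

theorem pbFreeSet.mono {A B : Set κ} {E : Set (κ → Bool)} (h : pbFreeSet B E) (hAB : A ⊆ B) :
    pbFreeSet A E :=
  pbFreeSet_of_agree fun _ _ hst => h.agree fun k hk => hst k fun hA => hk (hAB hA)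

theorem pbFreeSet.inter {A : Set κ} {E F : Set (κ → Bool)} (hE : pbFreeSet A E)
    (hF : pbFreeSet A F) : pbFreeSet A (E ∩ F) :=
  fun x s => and_congr (hE x s) (hF x s)

theorem pbFreeSet.union {A : Set κ} {E F : Set (κ → Bool)} (hE : pbFreeSet A E)
    (hF : pbFreeSet A F) : pbFreeSet A (E ∪ F) :=
  fun x s => or_congr (hE x s) (hF x s)

theorem pbFreeSet.compl {A : Set κ} {E : Set (κ → Bool)} (hE : pbFreeSet A E) :
    pbFreeSet A Eᶜ :=
  fun x s => not_congr (hE x s)

theorem pbFreeSet_univ (A : Set κ) : pbFreeSet A (Set.univ : Set (κ → Bool)) :=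
  fun _ _ => Iff.rfl

theorem pbFreeSet.biInter {ι : Type*} {A : Set κ} {t : Finset ι} {E : ι → Set (κ → Bool)}
    (h : ∀ i ∈ t, pbFreeSet A (E i)) : pbFreeSet A (⋂ i ∈ t, E i) := by
  intro x s
  simp only [Set.mem_iInter]
  exact forall₂_congr fun i hi => h i hi x s

theorem pbFreeSet.indicator {A : Set κ} {E : Set (κ → Bool)} (hE : pbFreeSet A E) {f : (κ → Bool) → ℝ}
    (hf : pbFree A f) : pbFree A (E.indicator f) := by
  intro x s
  by_cases hs : s ∈ E
  · rw [Set.indicator_of_mem hs, Set.indicator_of_mem ((hE x s).2 hs), hf x s]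
  · rw [Set.indicator_of_notMem hs, Set.indicator_of_notMem fun h => hs ((hE x s).1 h)]

theorem pbFree.setOf {A : Set κ} {P : (κ → Bool) → Prop} (h : pbFree A P) :
    pbFreeSet A {s | P s} :=
  fun x s => by simp only [Set.mem_ofPred_eq, h x s]

variable [Fintype κ]

/-- swapping the `A`-parts of two independent copies preserves the product weight. -/
theorem pb_bern_mix_mul (π : κ → ℝ) (A : Set κ) (x s : κ → Bool) :
    bern π (pbMix A x s) * bern π (pbMix A s x) = bern π x * bern π s := by
  simp only [bern, ← Finset.prod_mul_distrib]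
  refine Finset.prod_congr rfl fun k _ => ?_
  by_cases hk : k ∈ A
  · rw [pbMix_of_mem hk, pbMix_of_mem hk]
  · rw [pbMix_of_notMem hk, pbMix_of_notMem hk, mul_comm]

/-- the involution `(x, s) ↦ (mix A x s, mix A s x)` on pairs of patterns. -/
noncomputable def pbSwap (A : Set κ) : Equiv.Perm ((κ → Bool) × (κ → Bool)) :=
  Function.Involutive.toPerm (fun q => (pbMix A q.1 q.2, pbMix A q.2 q.1)) (by
    rintro ⟨x, s⟩
    refine Prod.ext ?_ ?_ <;> funext k <;> by_cases hk : k ∈ A <;> simp [pbMix, hk])

variable [DecidableEq κ]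

/-- **Tower property**: resampling the coordinates in `A`. -/
theorem pb_tower (π : κ → ℝ) (A : Set κ) (f : (κ → Bool) → ℝ) :
    exq π f = exq π (fun s => exq π (fun x => f (pbMix A x s))) := by
  have h1 : exq π (fun s => exq π (fun x => f (pbMix A x s))) =
      ∑ q : (κ → Bool) × (κ → Bool), bern π q.1 * bern π q.2 * f (pbMix A q.1 q.2) := by
    rw [Fintype.sum_prod_type_right]
    simp only [exq, Finset.mul_sum]
    refine Finset.sum_congr rfl fun s _ => ?_
    exact Finset.sum_congr rfl fun x _ => by ring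
  have h2 : ∑ q : (κ → Bool) × (κ → Bool), bern π q.1 * bern π q.2 * f (pbMix A q.1 q.2) =
      ∑ q : (κ → Bool) × (κ → Bool), bern π q.1 * bern π q.2 * f q.1 := by
    rw [← Equiv.sum_comp (pbSwap A) fun q : (κ → Bool) × (κ → Bool) =>
      bern π q.1 * bern π q.2 * f q.1]
    refine Finset.sum_congr rfl fun q _ => ?_
    change _ = bern π (pbMix A q.1 q.2) * bern π (pbMix A q.2 q.1) * f (pbMix A q.1 q.2)
    rw [pb_bern_mix_mul]
  rw [h1, h2, Fintype.sum_prod_type]
  refine Finset.sum_congr rfl fun x _ => ?_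
  have : ∑ s : κ → Bool, bern π x * bern π s * f x = bern π x * f x * ∑ s, bern π s := by
    rw [Finset.mul_sum]
    exact Finset.sum_congr rfl fun s _ => by ring
  rw [this, pb_sum_bern, mul_one]

/-- tower property for probabilities. -/
theorem pb_prb_tower (π : κ → ℝ) (A : Set κ) (E : Set (κ → Bool)) :
    prb π E = exq π (fun s => prb π {x | pbMix A x s ∈ E}) := by
  rw [pb_prb_eq_exq, pb_tower π A]
  refine pb_exq_congr π fun s => ?_
  rw [pb_prb_eq_exq]
  rfl

/-- taking out what is known: a factor that does not depend on `A`. -/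
theorem pb_tower_mul (π : κ → ℝ) (A : Set κ) {g : (κ → Bool) → ℝ} (hg : pbFree A g)
    (f : (κ → Bool) → ℝ) :
    exq π (fun s => g s * f s) = exq π (fun s => g s * exq π (fun x => f (pbMix A x s))) := by
  rw [pb_tower π A]
  refine pb_exq_congr π fun s => ?_
  rw [← pb_exq_const_mul]
  exact pb_exq_congr π fun x => by rw [hg x s]

/-- tower property on an event that does not depend on `A`. -/
theorem pb_prb_inter_tower (π : κ → ℝ) (A : Set κ) (E : Set (κ → Bool)) {F : Set (κ → Bool)}
    (hF : pbFreeSet A F) :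
    prb π (E ∩ F) = exq π (F.indicator fun s => prb π {x | pbMix A x s ∈ E}) := by
  rw [pb_prb_tower π A]
  refine pb_exq_congr π fun s => ?_
  by_cases hs : s ∈ F
  · rw [Set.indicator_of_mem hs]
    congr 1
    ext x
    simp only [Set.mem_ofPred_eq, Set.mem_inter_iff, hF x s, hs, and_true]
  · rw [Set.indicator_of_notMem hs]
    have : {x | pbMix A x s ∈ E ∩ F} = (∅ : Set (κ → Bool)) := by
      ext x
      simp only [Set.mem_ofPred_eq, Set.mem_inter_iff, hF x s, hs, and_false,
        Set.mem_empty_iff_false]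
    rw [this, pb_prb_empty]

variable {π : κ → ℝ}

/-- **Conditional bound**: if, whatever the entries off `A`, the conditional probability of `E` is
`≤ c` on `F`, and `F` does not depend on `A`, then `prb (E ∩ F) ≤ c * prb F`. -/
theorem pb_prb_inter_le (hπ : IsProbArray π) (A : Set κ) (E : Set (κ → Bool))
    {F : Set (κ → Bool)} (hF : pbFreeSet A F) {c : ℝ}
    (h : ∀ s ∈ F, prb π {x | pbMix A x s ∈ E} ≤ c) : prb π (E ∩ F) ≤ c * prb π F := by
  rw [pb_prb_inter_tower π A E hF]
  exact pb_exq_indicator_le hπ F h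

/-- conditional bound, unconditional form. -/
theorem pb_prb_le_of_cond (hπ : IsProbArray π) (A : Set κ) (E : Set (κ → Bool)) {c : ℝ}
    (h : ∀ s, prb π {x | pbMix A x s ∈ E} ≤ c) : prb π E ≤ c := by
  have := pb_prb_inter_le hπ A E (pbFreeSet_univ A) (c := c) fun s _ => h s
  simpa using this

/-- conditional expectation bound. -/
theorem pb_exq_le_of_cond (hπ : IsProbArray π) (A : Set κ) (f : (κ → Bool) → ℝ) {c : ℝ}
    (h : ∀ s, exq π (fun x => f (pbMix A x s)) ≤ c) : exq π f ≤ c := by
  rw [pb_tower π A]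
  exact pb_exq_le_of_le hπ h

/-- conditional moment bound with a known nonnegative factor: if `g ≥ 0` does not depend on `A` and
the conditional expectation of `f` is `≤ c`, then `E[g f] ≤ c E[g]`. -/
theorem pb_exq_mul_le_of_cond (hπ : IsProbArray π) (A : Set κ) {g : (κ → Bool) → ℝ}
    (hg : pbFree A g) (hg0 : ∀ s, 0 ≤ g s) (f : (κ → Bool) → ℝ) {c : ℝ}
    (h : ∀ s, exq π (fun x => f (pbMix A x s)) ≤ c) :
    exq π (fun s => g s * f s) ≤ c * exq π g := by
  rw [pb_tower_mul π A hg, ← pb_exq_const_mul]
  refine pb_exq_mono hπ fun s => ?_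
  rw [mul_comm c]
  exact mul_le_mul_of_nonneg_left (h s) (hg0 s)

/-- **Independence**: `E` depends only on `A` (is free of `Aᶜ`), `F` is free of `A`. -/
theorem pb_prb_inter_of_indep (π : κ → ℝ) (A : Set κ) {E F : Set (κ → Bool)}
    (hE : pbFreeSet Aᶜ E) (hF : pbFreeSet A F) : prb π (E ∩ F) = prb π E * prb π F := by
  rw [pb_prb_inter_tower π A E hF]
  have : (F.indicator fun s => prb π {x | pbMix A x s ∈ E}) =
      fun s => prb π E * F.indicator (fun _ => 1) s := by
    funext s
    have h1 : {x | pbMix A x s ∈ E} = E := by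
      ext x
      have := hE s x
      rw [pbMix_compl] at this
      exact this
    by_cases hs : s ∈ F <;> simp [hs, h1]
  rw [this, pb_exq_const_mul, ← pb_prb_eq_exq]

/-- independence for expectations of products. -/
theorem pb_exq_mul_of_indep (π : κ → ℝ) (A : Set κ) {f g : (κ → Bool) → ℝ}
    (hf : pbFree Aᶜ f) (hg : pbFree A g) : exq π (fun s => g s * f s) = exq π g * exq π f := by
  rw [pb_tower_mul π A hg]
  have : ∀ s, exq π (fun x => f (pbMix A x s)) = exq π f := by
    intro s
    refine pb_exq_congr π fun x => ?_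
    have := hf s x
    rwa [pbMix_compl] at this
  simp only [this]
  rw [pb_exq_mul_const]

/-- **Product bound for tests on pairwise disjoint entry sets.**  `A i` (`i ∈ t`) are sets of
entries, the event `E i` does not depend on `A j` for `j ≠ i`, and whatever the entries off `A i`,
the conditional probability of `E i` is `≤ c i`.  Then `prb (⋂ E i) ≤ ∏ c i`. -/
theorem pb_prb_biInter_le_prod {ι : Type*} (hπ : IsProbArray π) (t : Finset ι) (A : ι → Set κ)
    (E : ι → Set (κ → Bool)) (c : ι → ℝ)
    (hfree : ∀ i ∈ t, ∀ j ∈ t, i ≠ j → pbFreeSet (A i) (E j))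
    (hc : ∀ i ∈ t, ∀ s, prb π {x | pbMix (A i) x s ∈ E i} ≤ c i) :
    prb π (⋂ i ∈ t, E i) ≤ ∏ i ∈ t, c i := by
  classical
  induction t using Finset.induction_on with
  | empty => simp
  | insert a t ha ih =>
    rw [Finset.prod_insert ha, Finset.set_biInter_insert]
    have hF : pbFreeSet (A a) (⋂ i ∈ t, E i) :=
      pbFreeSet.biInter fun i hi => hfree a (Finset.mem_insert_self a t) i
        (Finset.mem_insert_of_mem hi) (fun h => ha (h ▸ hi))
    have h1 := pb_prb_inter_le hπ (A a) (E a) hF (c := c a)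
      fun s _ => hc a (Finset.mem_insert_self a t) s
    have hca : 0 ≤ c a :=
      (pb_prb_nonneg hπ _).trans (hc a (Finset.mem_insert_self a t) fun _ => false)
    refine h1.trans (mul_le_mul_of_nonneg_left (ih ?_ ?_) hca)
    · exact fun i hi j hj hij =>
        hfree i (Finset.mem_insert_of_mem hi) j (Finset.mem_insert_of_mem hj) hij
    · exact fun i hi s => hc i (Finset.mem_insert_of_mem hi) s

end Mix

end Claimed.Agent.R293
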