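/-
R293 / ProbMarg.lean  (owner: helper271).  PROB package, part 3: cylinders and atoms, marginals along
injections (principal minors), sequential conditioning (iterated moment bounds).  Prefix `pb`.
-/
import Claimed.Agent.R293.ProbMix

set_option autoImplicit false
set_option linter.unusedSectionVars false

namespace Claimed.Agent.R293

open Finset

section Cylinder

variable {κ : Type*} [Fintype κ] [DecidableEq κ]

/-- **Cylinders**: the probability that the bits in `T` take prescribed values. -/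
theorem pb_prb_cylinder (π : κ → ℝ) (T : Finset κ) (t : κ → Bool) :
    prb π {s | ∀ k ∈ T, s k = t k} = ∏ k ∈ T, (if t k then π k else 1 - π k) := by
  set h : κ → Bool → ℝ := fun k b => if k ∈ T then (if b = t k then (1 : ℝ) else 0) else 1 with hh
  have hind : ({s : κ → Bool | ∀ k ∈ T, s k = t k}.indicator fun _ => (1 : ℝ)) =
      fun s => ∏ k, h k (s k) := by
    funext s
    by_cases hs : ∀ k ∈ T, s k = t k
    · rw [Set.indicator_of_mem (show s ∈ {s : κ → Bool | ∀ k ∈ T, s k = t k} from hs)]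
      symm
      refine Finset.prod_eq_one fun k _ => ?_
      by_cases hk : k ∈ T
      · simp [hh, hk, hs k hk]
      · simp [hh, hk]
    · rw [Set.indicator_of_notMem (show s ∉ {s : κ → Bool | ∀ k ∈ T, s k = t k} from hs)]
      push Not at hs
      obtain ⟨k, hk, hne⟩ := hs
      symm
      refine Finset.prod_eq_zero (Finset.mem_univ k) ?_
      simp [hh, hk, hne]
  rw [pb_prb_eq_exq, hind, pb_exq_prod π h, ← Fintype.prod_ite_mem T]
  refine Finset.prod_congr rfl fun k _ => ?_
  by_cases hk : k ∈ T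
  · cases htk : t k <;> simp [hh, hk, htk]
  · simp [hh, hk]

/-- atoms on `T` are `≤ b ^ #T`. -/
theorem pb_prb_cylinder_le {π : κ → ℝ} (hπ : IsProbArray π) {b : ℝ}
    (hb : ∀ k, π k ≤ b ∧ 1 - π k ≤ b) (T : Finset κ) (t : κ → Bool) :
    prb π {s | ∀ k ∈ T, s k = t k} ≤ b ^ T.card := by
  rw [pb_prb_cylinder, ← Finset.prod_const]
  refine Finset.prod_le_prod (fun k _ => ?_) fun k _ => ?_
  · split_ifs
    · exact (hπ k).1
    · linarith [(hπ k).2]
  · split_ifs
    · exact (hb k).1
    · exact (hb k).2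

/-- an event that determines the bits in `T` (any two of its patterns agree on `T`) has probability
`≤ b ^ #T`. -/
theorem pb_prb_le_pow_of_agree {π : κ → ℝ} (hπ : IsProbArray π) {b : ℝ}
    (hb : ∀ k, π k ≤ b ∧ 1 - π k ≤ b) (T : Finset κ) (E : Set (κ → Bool))
    (h : ∀ s ∈ E, ∀ s' ∈ E, ∀ k ∈ T, s k = s' k) : prb π E ≤ b ^ T.card := by
  rcases E.eq_empty_or_nonempty with rfl | ⟨t, ht⟩
  · rw [pb_prb_empty]
    rcases isEmpty_or_nonempty κ with hκ | ⟨⟨k⟩⟩
    · have : T = ∅ := Finset.eq_empty_of_isEmpty T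
      simp [this]
    · exact pow_nonneg ((hπ k).1.trans (hb k).1) _
  · exact (pb_prb_mono hπ fun s hs k hk => h s hs t ht k hk).trans (pb_prb_cylinder_le hπ hb T t)

/-- conditional form: if, the entries off `T` being fixed by `s`, at most one assignment of the bits
in `T` puts the pattern in `E`, the conditional probability is `≤ b ^ #T`. -/
theorem pb_prb_mix_le_pow {π : κ → ℝ} (hπ : IsProbArray π) {b : ℝ}
    (hb : ∀ k, π k ≤ b ∧ 1 - π k ≤ b) (T : Finset κ) (E : Set (κ → Bool)) (s : κ → Bool)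
    (h : ∀ x x' : κ → Bool, pbMix (T : Set κ) x s ∈ E → pbMix (T : Set κ) x' s ∈ E →
      ∀ k ∈ T, x k = x' k) :
    prb π {x | pbMix (T : Set κ) x s ∈ E} ≤ b ^ T.card :=
  pb_prb_le_pow_of_agree hπ hb T _ fun x hx x' hx' => h x x' hx hx'

end Cylinder

section Marginal

variable {κ κ' : Type*} [Fintype κ] [DecidableEq κ] [Fintype κ'] [DecidableEq κ']

theorem pb_isProbArray_comp {π : κ → ℝ} (hπ : IsProbArray π) (e : κ' → κ) :
    IsProbArray (π ∘ e) := fun k => hπ (e k)

/-- the law of the restriction `s ∘ e` along an injection: point masses. -/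
theorem pb_prb_comp_eq (π : κ → ℝ) {e : κ' → κ} (he : Function.Injective e) (t : κ' → Bool) :
    prb π {s | s ∘ e = t} = bern (π ∘ e) t := by
  have hset : {s : κ → Bool | s ∘ e = t} =
      {s | ∀ k ∈ Finset.univ.image e, s k = Function.extend e t (fun _ => false) k} := by
    ext s
    simp only [Set.mem_ofPred_eq, Finset.mem_image, Finset.mem_univ, true_and,
      forall_exists_index, forall_apply_eq_imp_iff, he.extend_apply]
    exact funext_iff
  rw [hset, pb_prb_cylinder, Finset.prod_image fun a _ b _ h => he h, bern]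
  refine Finset.prod_congr rfl fun k _ => ?_
  rw [he.extend_apply]
  rfl

/-- **Marginal along an injection** (expectations). -/
theorem pb_exq_comp (π : κ → ℝ) {e : κ' → κ} (he : Function.Injective e)
    (f : (κ' → Bool) → ℝ) : exq π (fun s => f (s ∘ e)) = exq (π ∘ e) f := by
  have h1 : exq π (fun s => f (s ∘ e)) =
      ∑ t : κ' → Bool, ∑ s ∈ Finset.univ.filter (fun s : κ → Bool => s ∘ e = t),
        bern π s * f (s ∘ e) := by
    rw [exq, Finset.sum_fiberwise]
  rw [h1]
  refine Finset.sum_congr rfl fun t _ => ?_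
  rw [← pb_prb_comp_eq π he t, prb, Finset.sum_mul, Finset.sum_filter]
  refine Finset.sum_congr rfl fun s _ => ?_
  by_cases hs : s ∘ e = t
  · rw [if_pos hs, Set.indicator_of_mem (show s ∈ {s : κ → Bool | s ∘ e = t} from hs), hs]
  · rw [if_neg hs, Set.indicator_of_notMem (show s ∉ {s : κ → Bool | s ∘ e = t} from hs), zero_mul]

/-- **Marginal along an injection** (probabilities). -/
theorem pb_prb_comp (π : κ → ℝ) {e : κ' → κ} (he : Function.Injective e)
    (E : Set (κ' → Bool)) : prb π {s | s ∘ e ∈ E} = prb (π ∘ e) E := by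
  rw [pb_prb_eq_exq, pb_prb_eq_exq, ← pb_exq_comp π he]
  rfl

/-- counting bound for the restriction along an injection. -/
theorem pb_prb_comp_le_card_mul {π : κ → ℝ} (hπ : IsProbArray π) {b : ℝ}
    (hb : ∀ k, π k ≤ b ∧ 1 - π k ≤ b) {e : κ' → κ} (he : Function.Injective e)
    (S : Set (κ' → Bool)) : prb π {s | s ∘ e ∈ S} ≤ Nat.card S * b ^ Fintype.card κ' := by
  rw [pb_prb_comp π he]
  exact pb_prb_le_card_mul _ S fun t _ =>
    pb_bern_le_pow (pb_isProbArray_comp hπ e) (fun k => hb (e k)) t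

/-- an event on `s ∘ e` does not depend on entries outside the range of `e`. -/
theorem pbFreeSet_comp {A : Set κ} {e : κ' → κ} (h : ∀ k, e k ∉ A) (E : Set (κ' → Bool)) :
    pbFreeSet A {s : κ → Bool | s ∘ e ∈ E} := by
  intro x s
  have : pbMix A x s ∘ e = s ∘ e := funext fun k => pbMix_of_notMem (h k) x s
  simp only [Set.mem_ofPred_eq, this]

/-- resampling `A ⊇ range e` resamples all of `s ∘ e`. -/
theorem pbMix_comp_of_mem {A : Set κ} {e : κ' → κ} (h : ∀ k, e k ∈ A) (x s : κ → Bool) :
    pbMix A x s ∘ e = x ∘ e := funext fun k => pbMix_of_mem (h k) x s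

theorem pbMix_comp_of_notMem {A : Set κ} {e : κ' → κ} (h : ∀ k, e k ∉ A) (x s : κ → Bool) :
    pbMix A x s ∘ e = s ∘ e := funext fun k => pbMix_of_notMem (h k) x s

end Marginal

section Minor

/-- principal minors of bit matrices. -/
theorem pb_bitMat_comp_map {ι ι' : Type*} (e : ι' → ι) (s : Sym2 ι → Bool) :
    bitMat (s ∘ Sym2.map e) = (bitMat s).submatrix e e := rfl

theorem pb_sgnMat_comp_map {ι ι' : Type*} (e : ι' → ι) (s : Sym2 ι → Bool) :
    sgnMat (s ∘ Sym2.map e) = (sgnMat s).submatrix e e := rfl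

theorem pb_meanMat_comp_map {ι ι' : Type*} (e : ι' → ι) (π : Sym2 ι → ℝ) :
    meanMat (π ∘ Sym2.map e) = (meanMat π).submatrix e e := rfl

/-- **The law of a principal minor** `B.submatrix e e` of the bit matrix with parameters `π` is
the bit-matrix law with parameters `π ∘ Sym2.map e`. -/
theorem pb_prb_submatrix {k m : ℕ} (π : Sym2 (Fin m) → ℝ) {e : Fin k → Fin m}
    (he : Function.Injective e) (P : Set (Matrix (Fin k) (Fin k) ℤ)) :
    prb π {s | (bitMat s).submatrix e e ∈ P} = prb (π ∘ Sym2.map e) {t | bitMat t ∈ P} := by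
  rw [← pb_prb_comp π (Sym2.map.injective he)]
  rfl

/-- principal minors stay in the bit model. -/
theorem pb_bitModel_comp_map {p : ℝ} {k m : ℕ} {π : Sym2 (Fin m) → ℝ} (h : BitModel p π)
    (e : Fin k → Fin m) : BitModel p (π ∘ Sym2.map e) where
  val z := h.val _
  rank_le := by
    rw [pb_meanMat_comp_map]
    exact (Matrix.rank_submatrix_le _ e e).trans h.rank_le

theorem pb_bitModel_isProbArray {p : ℝ} (hp0 : 0 ≤ p) (hp1 : p ≤ 1) {m : ℕ}
    {π : Sym2 (Fin m) → ℝ} (h : BitModel p π) : IsProbArray π := by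
  intro z
  rcases h.val z with hz | hz <;> rw [hz] <;> constructor <;> linarith

/-- in the bit model with `p ≤ 1/2` all one-bit atoms are `≤ 1 - p`. -/
theorem pb_bitModel_atom_le {p : ℝ} (hp : p ≤ 1 / 2) {m : ℕ} {π : Sym2 (Fin m) → ℝ}
    (h : BitModel p π) (z : Sym2 (Fin m)) : π z ≤ 1 - p ∧ 1 - π z ≤ 1 - p := by
  rcases h.val z with hz | hz <;> rw [hz] <;> constructor <;> linarith

end Minor

section Sequential

variable {κ : Type*} [Fintype κ] [DecidableEq κ] {π : κ → ℝ}

theorem pbFree.prod_range {A : Set κ} {r : ℕ} {g : ℕ → (κ → Bool) → ℝ}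
    (h : ∀ t < r, pbFree A (g t)) : pbFree A (fun s => ∏ t ∈ Finset.range r, g t s) := by
  intro x s
  exact Finset.prod_congr rfl fun t ht => h t (Finset.mem_range.1 ht) x s

/-- **Iterated conditional moment bound** (successive conditioning, as in B (6.6)).
The entry sets `A 0, A 1, …` are exposed in this order; `g t ≥ 0` does not depend on the entries
exposed later (`g t'` is free of `A t` for `t' < t`), and whatever the other entries, the
conditional expectation of `g t` over the entries `A t` is `≤ c t`.  Then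
`E ∏_{t<r} g t ≤ ∏_{t<r} c t`. -/
theorem pb_exq_prod_le_prod (hπ : IsProbArray π) (r : ℕ) (A : ℕ → Set κ)
    (g : ℕ → (κ → Bool) → ℝ) (c : ℕ → ℝ) (hg0 : ∀ t < r, ∀ s, 0 ≤ g t s)
    (hfree : ∀ t < r, ∀ t' < t, pbFree (A t) (g t'))
    (hc : ∀ t < r, ∀ s, exq π (fun x => g t (pbMix (A t) x s)) ≤ c t) :
    exq π (fun s => ∏ t ∈ Finset.range r, g t s) ≤ ∏ t ∈ Finset.range r, c t := by
  induction r with
  | zero => simp [pb_exq_const]
  | succ r ih =>
    simp only [Finset.prod_range_succ]
    have hG : pbFree (A r) (fun s => ∏ t ∈ Finset.range r, g t s) :=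
      pbFree.prod_range fun t ht => hfree r (Nat.lt_succ_self r) t ht
    have hG0 : ∀ s, 0 ≤ ∏ t ∈ Finset.range r, g t s := fun s =>
      Finset.prod_nonneg fun t ht => hg0 t ((Finset.mem_range.1 ht).trans (Nat.lt_succ_self r)) s
    have h1 := pb_exq_mul_le_of_cond hπ (A r) hG hG0 (g r) (c := c r) (hc r (Nat.lt_succ_self r))
    have hcr : 0 ≤ c r :=
      (pb_exq_nonneg hπ fun x => hg0 r (Nat.lt_succ_self r) _).trans
        (hc r (Nat.lt_succ_self r) fun _ => false)
    have h2 := ih (fun t ht => hg0 t (ht.trans (Nat.lt_succ_self r)))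
      (fun t ht => hfree t (ht.trans (Nat.lt_succ_self r)))
      (fun t ht => hc t (ht.trans (Nat.lt_succ_self r)))
    calc exq π (fun s => (∏ t ∈ Finset.range r, g t s) * g r s)
        ≤ c r * exq π (fun s => ∏ t ∈ Finset.range r, g t s) := h1
      _ ≤ c r * ∏ t ∈ Finset.range r, c t := mul_le_mul_of_nonneg_left h2 hcr
      _ = (∏ t ∈ Finset.range r, c t) * c r := mul_comm _ _

/-- sequential product bound for events: `E t'` is free of `A t` for `t' < t`, and the conditional
probability of `E t` over the entries `A t` is `≤ c t`. -/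
theorem pb_prb_iInter_le_prod_seq (hπ : IsProbArray π) (r : ℕ) (A : ℕ → Set κ)
    (E : ℕ → Set (κ → Bool)) (c : ℕ → ℝ)
    (hfree : ∀ t < r, ∀ t' < t, pbFreeSet (A t) (E t'))
    (hc : ∀ t < r, ∀ s, prb π {x | pbMix (A t) x s ∈ E t} ≤ c t) :
    prb π (⋂ t ∈ Finset.range r, E t) ≤ ∏ t ∈ Finset.range r, c t := by
  induction r with
  | zero => simp
  | succ r ih =>
    rw [Finset.prod_range_succ, Finset.range_add_one, Finset.set_biInter_insert]
    have hF : pbFreeSet (A r) (⋂ t ∈ Finset.range r, E t) :=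
      pbFreeSet.biInter fun t ht => hfree r (Nat.lt_succ_self r) t (Finset.mem_range.1 ht)
    have h1 := pb_prb_inter_le hπ (A r) (E r) hF (c := c r)
      fun s _ => hc r (Nat.lt_succ_self r) s
    have hcr : 0 ≤ c r := (pb_prb_nonneg hπ _).trans (hc r (Nat.lt_succ_self r) fun _ => false)
    have h2 := ih (fun t ht => hfree t (ht.trans (Nat.lt_succ_self r)))
      (fun t ht => hc t (ht.trans (Nat.lt_succ_self r)))
    calc prb π (E r ∩ ⋂ t ∈ Finset.range r, E t)
        ≤ c r * prb π (⋂ t ∈ Finset.range r, E t) := h1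
      _ ≤ c r * ∏ t ∈ Finset.range r, c t := mul_le_mul_of_nonneg_left h2 hcr
      _ = (∏ t ∈ Finset.range r, c t) * c r := mul_comm _ _

end Sequential

end Claimed.Agent.R293
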