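/-
R293 / CrkTail.lean  (owner: helper136).  B eq. (3.1): corank tail of a random symmetric bit matrix
over an arbitrary field,  `prb (rank + k ≤ d) ≤ 2^d b^(k(k+1)/2)`.
No sorry.
-/
import Claimed.Agent.R293.CrkLinAlg
import Claimed.Agent.R293.ProbMarg

set_option autoImplicit false

namespace Claimed.Agent.R293

open Matrix Finset

variable {ι : Type*} [Fintype ι] [DecidableEq ι] (F : Type*) [Field F]

/-- the symmetric bit matrix, with entries in the field `F`. -/
def crkMat (s : Sym2 ι → Bool) : Matrix ι ι F := (bitMat s).map (Int.cast : ℤ → F)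

omit [Fintype ι] [DecidableEq ι] in
theorem crkMat_apply (s : Sym2 ι → Bool) (i j : ι) :
    crkMat F s i j = if s s(i, j) then 1 else 0 := by
  show ((bitMat s i j : ℤ) : F) = _
  unfold bitMat
  split_ifs <;> simp

omit [Fintype ι] [DecidableEq ι] in
theorem crkMat_isSymm (s : Sym2 ι → Bool) : (crkMat F s).IsSymm := by
  ext i j
  rw [Matrix.transpose_apply, crkMat_apply, crkMat_apply, Sym2.eq_swap]

/-- for a fixed principal set `I`: the event "rank `= #I` and the block on `I` is invertible" fixes all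
bits on pairs outside `I`, given the other bits. -/
theorem crk_prb_fixed {π : Sym2 ι → ℝ} (hπ : IsProbArray π) {b : ℝ}
    (hb : ∀ e, π e ≤ b ∧ 1 - π e ≤ b) (I : Finset ι) :
    prb π {s | (crkMat F s).rank = I.card ∧ (crkBlock (crkMat F s) I).det ≠ 0} ≤
      b ^ (Iᶜ.sym2).card := by
  refine pb_prb_le_of_cond hπ (↑(Iᶜ.sym2) : Set (Sym2 ι)) _ fun s => ?_
  refine pb_prb_mix_le_pow hπ hb (Iᶜ.sym2) _ s ?_
  intro x x' hx hx' e he
  have hagree : ∀ i j, (i ∈ I ∨ j ∈ I) →
      crkMat F (pbMix (↑(Iᶜ.sym2) : Set (Sym2 ι)) x s) i j =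
        crkMat F (pbMix (↑(Iᶜ.sym2) : Set (Sym2 ι)) x' s) i j := by
    intro i j hij
    have hnot : s(i, j) ∉ (↑(Iᶜ.sym2) : Set (Sym2 ι)) := by
      intro hmem
      have h1 := Finset.mem_sym2_iff.1 (Finset.mem_coe.1 hmem)
      rcases hij with h | h
      · exact (Finset.mem_compl.1 (h1 i (by simp))) h
      · exact (Finset.mem_compl.1 (h1 j (by simp))) h
    rw [crkMat_apply, crkMat_apply, pbMix_of_notMem hnot, pbMix_of_notMem hnot]
  have heq := crk_eq_of_agree _ _ I hx.1 hx'.1 hx.2 hagree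
  induction e using Sym2.ind with | _ i j =>
  have h1 := congrFun (congrFun heq i) j
  have hmem : s(i, j) ∈ (↑(Iᶜ.sym2) : Set (Sym2 ι)) := Finset.mem_coe.2 he
  rw [crkMat_apply, crkMat_apply, pbMix_of_mem hmem, pbMix_of_mem hmem] at h1
  cases hx1 : x s(i, j) <;> cases hx2 : x' s(i, j) <;> simp [hx1, hx2] at h1 ⊢

/-- **B eq. (3.1), corank tail.**  `b` bounds all atoms. -/
theorem crk_tail {π : Sym2 ι → ℝ} (hπ : IsProbArray π) {b : ℝ}
    (hb : ∀ e, π e ≤ b ∧ 1 - π e ≤ b) (hb0 : 0 ≤ b) (hb1 : b ≤ 1) (k : ℕ) :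
    prb π {s | (crkMat F s).rank + k ≤ Fintype.card ι} ≤
      2 ^ Fintype.card ι * b ^ (Nat.choose (k + 1) 2) := by
  classical
  set t : Finset (Finset ι) := univ.filter fun I => I.card + k ≤ Fintype.card ι with ht
  have hsub : {s | (crkMat F s).rank + k ≤ Fintype.card ι} ⊆
      ⋃ I ∈ t, {s | (crkMat F s).rank = I.card ∧ (crkBlock (crkMat F s) I).det ≠ 0} := by
    intro s hs
    obtain ⟨I, hI, hdet⟩ := crk_exists_principal (crkMat F s) (crkMat_isSymm F s)
    simp only [Set.mem_iUnion]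
    refine ⟨I, ?_, hI.symm, hdet⟩
    rw [ht, Finset.mem_filter]
    exact ⟨Finset.mem_univ _, by rw [hI]; exact hs⟩
  refine (pb_prb_mono hπ hsub).trans ?_
  refine (pb_prb_biUnion_le_card_mul hπ t _ (c := b ^ (Nat.choose (k + 1) 2)) ?_).trans ?_
  · intro I hI
    refine (crk_prb_fixed F hπ hb I).trans ?_
    refine pow_le_pow_of_le_one hb0 hb1 ?_
    rw [Finset.card_sym2, Finset.card_compl]
    refine Nat.choose_le_choose 2 ?_
    have := (Finset.mem_filter.1 hI).2
    omega
  · refine mul_le_mul_of_nonneg_right ?_ (pow_nonneg hb0 _)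
    have h1 : t.card ≤ (univ : Finset (Finset ι)).card := Finset.card_le_card (Finset.filter_subset _ _)
    rw [Finset.card_univ, Fintype.card_finset] at h1
    exact_mod_cast h1

end Claimed.Agent.R293
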