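/-
R293 / Iface.lean  (owner: helper79).  TOP-LEVEL INTERFACE STATEMENTS of the row293 blueprint (S0541), as `def … : Prop`.
No sorry.  Each package proves `theorem … : StXxx`; glue theorems take them as hypotheses.
Numbers refer to paper B = "The sharp singularity rate for biased symmetric sign matrices".
-/
import Claimed.Agent.R293.Model
import Claimed.Prelude.Def_0469

set_option autoImplicit false

namespace Claimed.Agent.R293

open Filter Topology

/-! ### END (helper26): from the `Sym2` model to the frozen statement -/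

/-- the frozen probability (all `n²` bits, lower triangle unused) equals the `Sym2` form. -/
def StFrozenEq : Prop :=
  ∀ (p : ℝ) (n : ℕ), Claims.C0469.symSignSingularProb p n = sgnProb p n

/-- negating the matrix exchanges `p` and `1-p`. -/
def StSymm : Prop := ∀ (p : ℝ) (n : ℕ), sgnProb (1 - p) n = sgnProb p n

/-- lower bound: the first two rows agree. -/
def StLower : Prop :=
  ∀ p : ℝ, 0 < p → p < 1 → ∀ n : ℕ, 2 ≤ n → (p ^ 3 + (1 - p) ^ 3) * cQ p ^ (n - 2) ≤ sgnProb p n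

/-- upper bound (the whole content): `P(det = 0) ≤ 2^{-(d_* - ε) n}` eventually, for `0 < p ≤ 1/2`. -/
def StUpper : Prop :=
  ∀ p : ℝ, 0 < p → p ≤ 1 / 2 → ∀ ε : ℝ, 0 < ε →
    ∀ᶠ n : ℕ in atTop, sgnProb p n ≤ (2 : ℝ) ^ (-((cD p - ε) * n))

/-- the frozen statement S0541. -/
def StFrozen : Prop :=
  ∀ p : ℝ, 0 < p → p < 1 →
    Tendsto (fun n : ℕ => Claims.C0469.symSignSingularProb p n ^ ((1 : ℝ) / n)) atTop
      (𝓝 (p ^ 2 + (1 - p) ^ 2))

/-! ### RED (helper78): B Section 2.   `StColumn → StUpper` -/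

/-- **B Proposition 2.5 (column estimate)**, also for `p = 1/2`. -/
def StColumn : Prop :=
  ∀ p : ℝ, 0 < p → p ≤ 1 / 2 → ∀ L0 : ℝ, 1 ≤ L0 → ∃ e1 : ℝ, 0 < e1 ∧ ∀ e0 : ℝ, 0 < e0 → e0 ≤ e1 →
    ∀ᶠ N : ℕ in atTop, ∀ m : ℕ, m + 1 = N → ∀ π : Sym2 (Fin m) → ℝ, BitModel p π →
      prb π {s | (bitMat s).det ≠ 0 ∧ (2 : ℝ) ^ (e0 * N) < (admCount L0 N (bitMat s) : ℝ)}
        ≤ (2 : ℝ) ^ (-((2 * cA p - 10 * e0) * N))

/-! ### INT (helper103): B Section 4 -/

/-- integer `0/1` vector of a bit vector. -/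
def bitVecZ {ι : Type*} (z : ι → Bool) : ι → ℤ := fun i => if z i then 1 else 0

/-- every lattice `B ℤ^m ⊆ K ⊆ ℤ^m` of index `≥ N^{τ N}` meets every translate of the cube in `< 2^{α N}` points. -/
def SmallInt (α τ : ℝ) (N m : ℕ) (B : Matrix (Fin m) (Fin m) ℤ) : Prop :=
  ∀ K : AddSubgroup (Fin m → ℤ), (∀ y : Fin m → ℤ, B.mulVec y ∈ K) →
    (N : ℝ) ^ (τ * N) ≤ (K.index : ℝ) →
      ∀ x : Fin m → ℤ, (Nat.card {z : Fin m → Bool // bitVecZ z - x ∈ K} : ℝ) < (2 : ℝ) ^ (α * N)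

/-- **B Theorem 4.1 (simultaneous lattice intersections)**. -/
def StSmallInt : Prop :=
  ∀ p : ℝ, 0 < p → p ≤ 1 / 2 → ∀ D : ℝ, 0 < D → ∀ α : ℝ, 0 < α → α < 1 →
    Typically p (fun N m B => SmallInt α (ell N ^ (-D)) N m B)

/-! ### TYP (helper148): B Lemma 3.1 -/

/-- **B Lemma 3.1 (uniform prime corank)**. -/
def StPrimeCorank : Prop :=
  ∀ p : ℝ, 0 < p → p ≤ 1 / 2 →
    Typically p (fun N m B => ∀ q : ℕ, q.Prime →
      (m : ℝ) - ((B.map (Int.cast : ℤ → ZMod q)).rank : ℝ) ≤ (N : ℝ) ^ ((3 : ℝ) / 5))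

end Claimed.Agent.R293
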