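/-
R293 / LayerDefs.lean  (owner: helper205).  COMMON DEFINITIONS for the packages DISC / PAIR / PATH
(paper B Sections 5, 6; paper A Sections 6, 7, Lemma 11.1).  Only definitions, no sorry.

Everything is decomposition free: the layer heights `k_G(l,j)` are defined through the orders
`|G / l^t G|`, so that A 7.3-7.5 and A 11.1 never need the structure theorem.
The bridge to cyclic decompositions (`layer G l j = #{i | j ≤ b_i}`) is needed in DISC only.
-/
import Claimed.Agent.R293.Model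

set_option autoImplicit false

namespace Claimed.Agent.R293

open scoped BigOperators

/-! ### Scales -/

/-- `R = ⌈ℓ²⌉`  (B (5.5)). -/
noncomputable def scaleR (N : ℕ) : ℕ := ⌈(ell N) ^ 2⌉₊

/-- `σ = R⁻⁶`  (B (5.5)). -/
noncomputable def scaleSigma (N : ℕ) : ℝ := ((scaleR N : ℝ) ^ 6)⁻¹

/-- the weight `ν_l = log_N l / N` of a layer at the prime `l`. -/
noncomputable def nu (N l : ℕ) : ℝ := Real.log l / (N * Real.log N)

/-! ### Layers of a finite abelian group -/

section Group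

variable (G : Type*) [AddCommGroup G]

/-- the subgroup `n G`. -/
def mulSub (n : ℕ) : AddSubgroup G := (nsmulAddMonoidHom (α := G) n).range

/-- `F_G(l,t) = log_l |G / l^t G| = ∑_{e ≤ t} k_G(l,e)`  (A (7.9)). -/
noncomputable def prefixLog (l t : ℕ) : ℕ := padicValNat l (Nat.card (G ⧸ mulSub G (l ^ t)))

/-- the layer height `k_G(l,j) = #{i : b_{l,i} ≥ j}`, defined as `F_G(l,j) - F_G(l,j-1)`;
it is `0` for `j = 0`. -/
noncomputable def layer (l j : ℕ) : ℕ := prefixLog G l j - prefixLog G l (j - 1)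

/-- a finite index set which contains all layers `(l,j)` of positive height. -/
noncomputable def layerIndex : Finset (ℕ × ℕ) :=
  (Nat.card G).primeFactors ×ˢ Finset.Icc 1 (Nat.log 2 (Nat.card G))

/-- `∑_{(l,j)} f (k_G(l,j)) ν_l`; only meaningful when `f 0 = 0`. -/
noncomputable def layerSum (N : ℕ) (f : ℕ → ℝ) : ℝ :=
  ∑ x ∈ layerIndex G, f (layer G x.1 x.2) * nu N x.1

/-- `W_s(G) = ∑ (k_G(l,j) - s)_+ ν_l`  (B (5.2)); the subtraction is truncated subtraction in `ℕ`. -/
noncomputable def tailW (N s : ℕ) : ℝ := layerSum G N (fun k => ((k - s : ℕ) : ℝ))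

/-- `T_2(G) = ∑_{k_G(l,j) = 2} ν_l`  (B (5.3)). -/
noncomputable def weightT2 (N : ℕ) : ℝ := layerSum G N (fun k => if k = 2 then 1 else 0)

/-- `J(G) = ∑_{k_G(l,j) ≥ 3} k_G(l,j) ν_l`  (B (5.3)). -/
noncomputable def weightJ (N : ℕ) : ℝ := layerSum G N (fun k => if 3 ≤ k then (k : ℝ) else 0)

/-- number of layers of height exactly two at `l`  (`= b_{l,2} - b_{l,3}`). -/
noncomputable def twoCount (l : ℕ) : ℕ :=
  ((Finset.Icc 1 (Nat.log 2 (Nat.card G))).filter (fun j => layer G l j = 2)).card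

/-- number of layers of positive height at `l`  (`= b_{l,1}`). -/
noncomputable def topExp (l : ℕ) : ℕ :=
  ((Finset.Icc 1 (Nat.log 2 (Nat.card G))).filter (fun j => 1 ≤ layer G l j)).card

/-- `∑_{j : k_G(l,j) ≥ 3} k_G(l,j)  (= ∑_i min(b_{l,i}, b_{l,3}))`: the exponent of `l` in the bound of A Lemma 6.3. -/
noncomputable def highExp (l : ℕ) : ℕ :=
  ∑ j ∈ (Finset.Icc 1 (Nat.log 2 (Nat.card G))).filter (fun j => 3 ≤ layer G l j), layer G l j

/-- a positive layer `(l,j)` of `G` is *retained* in `G → G/⟨v⟩`  (A Lemma 7.3). -/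
def Retained (v : G) (l j : ℕ) : Prop :=
  1 ≤ layer G l j ∧ layer (G ⧸ AddSubgroup.zmultiples v) l j = layer G l j

end Group

/-! ### The discriminant group of an integer matrix -/

section Matrix

variable {m : ℕ}

/-- the column lattice `B ℤ^m`. -/
def colLat (B : Matrix (Fin m) (Fin m) ℤ) : AddSubgroup (Fin m → ℤ) :=
  (Matrix.mulVecLin B).range.toAddSubgroup

/-- the discriminant group `G_B = ℤ^m / B ℤ^m`. -/
abbrev DiscGroup (B : Matrix (Fin m) (Fin m) ℤ) : Type := (Fin m → ℤ) ⧸ colLat B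

/-- `B⁻¹` over `ℚ`. -/
noncomputable def invQ (B : Matrix (Fin m) (Fin m) ℤ) : Matrix (Fin m) (Fin m) ℚ :=
  (B.map (Int.cast : ℤ → ℚ))⁻¹

/-- the rational bilinear form `x^T B⁻¹ y` on integer vectors. -/
noncomputable def invForm (B : Matrix (Fin m) (Fin m) ℤ) (x y : Fin m → ℤ) : ℚ :=
  (fun i => (x i : ℚ)) ⬝ᵥ (invQ B).mulVec (fun i => (y i : ℚ))

/-- a rational number is an integer. -/
def IsInt (q : ℚ) : Prop := ∃ n : ℤ, q = n

/-- symmetric matrix with entries in `{0,1}`. -/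
def IsBitMatrix (B : Matrix (Fin m) (Fin m) ℤ) : Prop :=
  B.IsSymm ∧ ∀ i j, B i j = 0 ∨ B i j = 1

/-- `W_s(B)`. -/
noncomputable abbrev matW (N s : ℕ) (B : Matrix (Fin m) (Fin m) ℤ) : ℝ := tailW (DiscGroup B) N s
/-- `T_2(B)`. -/
noncomputable abbrev matT2 (N : ℕ) (B : Matrix (Fin m) (Fin m) ℤ) : ℝ := weightT2 (DiscGroup B) N
/-- `J_B`. -/
noncomputable abbrev matJ (N : ℕ) (B : Matrix (Fin m) (Fin m) ℤ) : ℝ := weightJ (DiscGroup B) N

end Matrix

end Claimed.Agent.R293
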