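import Mathlib

/-!
# Row 293: robust subsets and robust cube extraction (paper A, Lemma 3.7)

Everything is over an arbitrary field `k` (specialise to `ℝ` or `ℚ`).
-/

set_option autoImplicit false

namespace Claimed.Agent.R293

open Module

open scoped Classical in
/-- `A` is `ρ`-robust: each affine subspace `E` of the affine span `F` of `A` of codimension `t` in
`F` contains at most `2^{-ρ t} |A|` points of `A`. -/
def IsRobust (k : Type*) [Field k] {V : Type*} [AddCommGroup V] [Module k V]
    (ρ : ℝ) (A : Finset V) : Prop :=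
  ∀ E : AffineSubspace k V, E ≤ affineSpan k (A : Set V) →
    ((A.filter (· ∈ E)).card : ℝ) ≤
      (2 : ℝ) ^ (-(ρ * ((finrank k (vectorSpan k (A : Set V)) : ℝ) - finrank k E.direction))) * A.card

section Extraction

variable {k : Type*} [Field k] {V : Type*} [AddCommGroup V] [Module k V] [FiniteDimensional k V]

/-- the potential `|Q| 2^{-ρ dim aff Q}` -/
noncomputable def robustPot (k : Type*) [Field k] {V : Type*} [AddCommGroup V] [Module k V]
    (ρ : ℝ) (Q : Finset V) : ℝ :=
  (Q.card : ℝ) * (2 : ℝ) ^ (-(ρ * (finrank k (vectorSpan k (Q : Set V)) : ℝ)))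

open scoped Classical in
/-- **Robust extraction** (general part of Lemma 3.7). -/
theorem exists_robust_restriction (ρ : ℝ) (hρ : 0 < ρ) (A : Finset V) (hA : A.Nonempty) :
    ∃ A₀ : Finset V, A₀ ⊆ A ∧ A₀.Nonempty ∧
      A₀ = A.filter (· ∈ affineSpan k (A₀ : Set V)) ∧ IsRobust k ρ A₀ ∧
      (A.card : ℝ) * (2 : ℝ) ^ (-(ρ * ((finrank k (vectorSpan k (A : Set V)) : ℝ)
        - finrank k (vectorSpan k (A₀ : Set V))))) ≤ A₀.card := by
  obtain ⟨A₀, hA₀mem, hmax⟩ := Finset.exists_max_image (A.powerset.filter Finset.Nonempty)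
    (robustPot k ρ) ⟨A, by simp [hA]⟩
  simp only [Finset.mem_filter, Finset.mem_powerset] at hA₀mem hmax
  obtain ⟨hsub, hne⟩ := hA₀mem
  have h2 : ∀ x : ℝ, 0 < (2 : ℝ) ^ x := fun x => Real.rpow_pos_of_pos two_pos x
  refine ⟨A₀, hsub, hne, ?_, ?_, ?_⟩
  · -- closedness
    set Q' := A.filter (· ∈ affineSpan k (A₀ : Set V)) with hQ'
    have hsubQ : A₀ ⊆ Q' := fun x hx =>
      Finset.mem_filter.2 ⟨hsub hx, subset_affineSpan k _ hx⟩
    have hspan : affineSpan k (Q' : Set V) = affineSpan k (A₀ : Set V) := by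
      apply le_antisymm
      · rw [affineSpan_le]
        intro x hx
        exact (Finset.mem_filter.1 hx).2
      · exact affineSpan_mono k (by exact_mod_cast hsubQ)
    have hvs : vectorSpan k (Q' : Set V) = vectorSpan k (A₀ : Set V) := by
      rw [← direction_affineSpan, ← direction_affineSpan, hspan]
    have := hmax Q' ⟨Finset.filter_subset _ _, hne.mono hsubQ⟩
    unfold robustPot at this
    rw [hvs] at this
    have hcard : (Q'.card : ℝ) ≤ A₀.card := le_of_mul_le_mul_right this (h2 _)
    exact Finset.eq_of_subset_of_card_le hsubQ (by exact_mod_cast hcard)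
  · -- robustness
    intro E hE
    set Q := A₀.filter (· ∈ E) with hQ
    rcases Q.eq_empty_or_nonempty with hemp | hQne
    · rw [hemp]
      simp only [Finset.card_empty, Nat.cast_zero]
      exact mul_nonneg (h2 _).le (Nat.cast_nonneg _)
    · have hQsub : Q ⊆ A := (Finset.filter_subset _ _).trans hsub
      have h1 := hmax Q ⟨hQsub, hQne⟩
      unfold robustPot at h1
      have hdim : finrank k (vectorSpan k (Q : Set V)) ≤ finrank k E.direction := by
        apply Submodule.finrank_mono
        rw [← direction_affineSpan]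
        apply AffineSubspace.direction_le
        rw [affineSpan_le]
        intro x hx
        exact (Finset.mem_filter.1 hx).2
      have hdim' : (finrank k (vectorSpan k (Q : Set V)) : ℝ) ≤ finrank k E.direction := by
        exact_mod_cast hdim
      -- |Q| ≤ |A₀| 2^{-ρ r} 2^{ρ dim Q}
      have h3 : (Q.card : ℝ) ≤ (A₀.card : ℝ) *
          (2 : ℝ) ^ (-(ρ * (finrank k (vectorSpan k (A₀ : Set V)) : ℝ))) *
          (2 : ℝ) ^ (ρ * (finrank k (vectorSpan k (Q : Set V)) : ℝ)) := by
        have := mul_le_mul_of_nonneg_right h1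
          (h2 (ρ * (finrank k (vectorSpan k (Q : Set V)) : ℝ))).le
        rwa [mul_assoc, ← Real.rpow_add two_pos, neg_add_cancel, Real.rpow_zero, mul_one] at this
      refine h3.trans ?_
      rw [mul_assoc, ← Real.rpow_add two_pos, mul_comm]
      apply mul_le_mul_of_nonneg_right _ (Nat.cast_nonneg _)
      apply Real.rpow_le_rpow_of_exponent_le one_le_two
      nlinarith
  · have h1 := hmax A ⟨Finset.Subset.refl _, hA⟩
    unfold robustPot at h1
    have := mul_le_mul_of_nonneg_right h1
      (h2 (ρ * (finrank k (vectorSpan k (A₀ : Set V)) : ℝ))).le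
    rw [mul_assoc, mul_assoc, ← Real.rpow_add two_pos, ← Real.rpow_add two_pos, neg_add_cancel,
      Real.rpow_zero, mul_one] at this
    have e : -(ρ * ((finrank k (vectorSpan k (A : Set V)) : ℝ)
        - finrank k (vectorSpan k (A₀ : Set V)))) =
        -(ρ * (finrank k (vectorSpan k (A : Set V)) : ℝ))
          + ρ * (finrank k (vectorSpan k (A₀ : Set V)) : ℝ) := by ring
    rw [e]
    exact this

end Extraction

section Cube

variable {k : Type*} [Field k] {m : ℕ}

/-- A set of `0/1` vectors whose affine span has dimension `r` has at most `2^r` elements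
(projection to `r` suitable coordinates is injective on the affine span). -/
theorem card_le_two_pow_finrank_vectorSpan (A : Finset (Fin m → k))
    (hcube : ∀ x ∈ A, ∀ i, x i = 0 ∨ x i = 1) :
    A.card ≤ 2 ^ finrank k (vectorSpan k (A : Set (Fin m → k))) := by
  classical
  set W := vectorSpan k (A : Set (Fin m → k)) with hW
  let φ : Fin m → Module.Dual k W := fun i => (LinearMap.proj i).comp W.subtype
  obtain ⟨κ, a, ha, hspan, hli⟩ := exists_linearIndependent' k φ
  have : Finite κ := Finite.of_injective a ha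
  have : Fintype κ := Fintype.ofFinite κ
  have hκ : Fintype.card κ ≤ finrank k W := by
    have := hli.fintype_card_le_finrank
    rwa [Subspace.dual_finrank_eq] at this
  -- the projection to the coordinates `a j`
  have hinj : Set.InjOn (fun (x : Fin m → k) (j : κ) => x (a j)) (A : Set (Fin m → k)) := by
    intro x hx y hy hxy
    have hw : x - y ∈ W := vsub_mem_vectorSpan k hx hy
    let w : W := ⟨x - y, hw⟩
    let Z : Submodule k (Module.Dual k W) := LinearMap.ker (Module.Dual.eval k W w)
    have hZ : Submodule.span k (Set.range (φ ∘ a)) ≤ Z := by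
      rw [Submodule.span_le]
      rintro _ ⟨j, rfl⟩
      have := congrFun hxy j
      simp only [Z, SetLike.mem_coe, LinearMap.mem_ker, Module.Dual.eval_apply, Function.comp, φ,
        LinearMap.comp_apply, Submodule.subtype_apply, LinearMap.proj_apply, w, Pi.sub_apply]
      exact sub_eq_zero.2 this
    funext i
    have hi : φ i ∈ Z := hZ (hspan ▸ Submodule.subset_span ⟨i, rfl⟩)
    simp only [Z, LinearMap.mem_ker, Module.Dual.eval_apply, φ,
        LinearMap.comp_apply, Submodule.subtype_apply, LinearMap.proj_apply, w, Pi.sub_apply] at hi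
    exact sub_eq_zero.1 hi
  have hmaps : ∀ x ∈ A, (fun (j : κ) => x (a j)) ∈ Fintype.piFinset (fun _ : κ => ({0, 1} : Finset k)) := by
    intro x hx
    rw [Fintype.mem_piFinset]
    intro j
    rcases hcube x hx (a j) with h | h <;> simp [h]
  calc A.card ≤ (Fintype.piFinset (fun _ : κ => ({0, 1} : Finset k))).card :=
        Finset.card_le_card_of_injOn _ hmaps hinj
    _ = 2 ^ Fintype.card κ := by
        rw [Fintype.card_piFinset]
        simp
    _ ≤ 2 ^ finrank k W := Nat.pow_le_pow_right (by norm_num) hκ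

open scoped Classical in
/-- **Robust cube extraction** (paper A, Lemma 3.7; paper B, Lemma 5.4). -/
theorem robust_cube_extraction (ρ : ℝ) (hρ : 0 < ρ) (A : Finset (Fin m → k)) (hA : A.Nonempty)
    (hcube : ∀ x ∈ A, ∀ i, x i = 0 ∨ x i = 1) :
    ∃ A₀ : Finset (Fin m → k), A₀ ⊆ A ∧ A₀.Nonempty ∧
      A₀ = A.filter (· ∈ affineSpan k (A₀ : Set (Fin m → k))) ∧ IsRobust k ρ A₀ ∧
      (A.card : ℝ) * (2 : ℝ) ^ (-(ρ * ((finrank k (vectorSpan k (A : Set (Fin m → k))) : ℝ)
        - finrank k (vectorSpan k (A₀ : Set (Fin m → k)))))) ≤ A₀.card ∧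
      (A.card : ℝ) * (2 : ℝ) ^ (-(ρ * m)) ≤ A₀.card ∧
      A₀.card ≤ 2 ^ finrank k (vectorSpan k (A₀ : Set (Fin m → k))) := by
  obtain ⟨A₀, hsub, hne, hcl, hrob, hcard⟩ := exists_robust_restriction (k := k) ρ hρ A hA
  refine ⟨A₀, hsub, hne, hcl, hrob, hcard, ?_,
    card_le_two_pow_finrank_vectorSpan A₀ (fun x hx => hcube x (hsub hx))⟩
  refine le_trans ?_ hcard
  apply mul_le_mul_of_nonneg_left _ (Nat.cast_nonneg _)
  apply Real.rpow_le_rpow_of_exponent_le one_le_two
  have h1 : (finrank k (vectorSpan k (A : Set (Fin m → k))) : ℝ) ≤ m := by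
    have := Submodule.finrank_le (vectorSpan k (A : Set (Fin m → k)))
    rw [Module.finrank_fin_fun] at this
    exact_mod_cast this
  have h2 : (0 : ℝ) ≤ finrank k (vectorSpan k (A₀ : Set (Fin m → k))) := Nat.cast_nonneg _
  nlinarith

end Cube

end Claimed.Agent.R293
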