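/-
R293 / SpcDefs.lean (owner: helper202).  Package SPC = paper B, Proposition 5.10 (small-spectrum bound).
Definitions and the interface statement `StSmallSpectrum`.  No sorry.
-/
import Claimed.Agent.R293.Model

set_option autoImplicit false

namespace Claimed.Agent.R293

open Finset

/-- "`B` has at most `ξ N` eigenvalues in `[-w√N, w√N]`", in a form free of eigenvalues: every subspace on
which `‖B v‖ ≤ w √N ‖v‖` has dimension at most `ξ N`. -/
def SmallSpec (w ξ : ℝ) (N m : ℕ) (B : Matrix (Fin m) (Fin m) ℤ) : Prop :=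
  ∀ V : Submodule ℝ (Fin m → ℝ),
    (∀ v ∈ V, ∑ i, ((toR B).mulVec v i) ^ 2 ≤ w ^ 2 * N * ∑ i, (v i) ^ 2) →
      (Module.finrank ℝ V : ℝ) ≤ ξ * N

/-- **Interface of package SPC** = paper B, Proposition 5.10. -/
def StSmallSpectrum (p : ℝ) : Prop :=
  ∀ ξ : ℝ, 0 < ξ → ∃ w : ℝ, 0 < w ∧ Typically p (SmallSpec w ξ)

section Mat
variable {n : Type*} [Fintype n] [DecidableEq n]

/-- `∑ g(λ_i(A))` for a real symmetric matrix (junk `0` otherwise). -/
noncomputable def spcTr (g : ℝ → ℝ) (A : Matrix n n ℝ) : ℝ :=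
  if h : A.IsHermitian then ∑ i, g (h.eigenvalues i) else 0

/-- `A` with row and column `k` replaced by zeros. -/
def spcZero (k : n) (A : Matrix n n ℝ) : Matrix n n ℝ :=
  fun i j => if i = k ∨ j = k then 0 else A i j

/-- column `k` of `A` with the diagonal entry replaced by zero. -/
def spcCol (k : n) (A : Matrix n n ℝ) : n → ℝ :=
  fun i => if i = k then 0 else A i k

/-- `(A² + η²)⁻¹`. -/
noncomputable def spcRes (η : ℝ) (A : Matrix n n ℝ) : Matrix n n ℝ :=
  (A * A + (η ^ 2) • (1 : Matrix n n ℝ))⁻¹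

/-- squared Frobenius norm. -/
def spcFrob (A : Matrix n n ℝ) : ℝ := ∑ i, ∑ j, (A i j) ^ 2

end Mat

/-- the tent function `(1 - |x|/δ)₊`. -/
noncomputable def spcTent (δ x : ℝ) : ℝ := max (1 - |x| / δ) 0

/-- `|x|/δ`. -/
noncomputable def spcG1 (δ x : ℝ) : ℝ := |x| / δ

/-- `(|x|/δ - 1)₊`. -/
noncomputable def spcG2 (δ x : ℝ) : ℝ := max (|x| / δ - 1) 0

end Claimed.Agent.R293
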