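/-
R293 / PairDefs.lean  (owner: helper205).  Definitions of the package PAIR (paper B, Section 5).  No sorry.
-/
import Claimed.Agent.R293.Iface
import Claimed.Agent.R293.LayerDefs
import Claimed.Agent.R293.LatDefs
import Claimed.Agent.R293.RobustExtract
import Claimed.Agent.R293.SpcDefs

set_option autoImplicit false

namespace Claimed.Agent.R293

open Module Matrix

variable {m : ℕ}

/-! ### additivity of the inverse form -/

lemma invForm_add_left (B : Matrix (Fin m) (Fin m) ℤ) (x x' y : Fin m → ℤ) :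
    invForm B (x + x') y = invForm B x y + invForm B x' y := by
  unfold invForm
  rw [← add_dotProduct]
  congr 1
  ext i; simp

lemma invForm_add_right (B : Matrix (Fin m) (Fin m) ℤ) (x y y' : Fin m → ℤ) :
    invForm B x (y + y') = invForm B x y + invForm B x y' := by
  unfold invForm
  rw [← dotProduct_add, ← Matrix.mulVec_add]
  congr 2
  ext i; simp

lemma invForm_neg_left (B : Matrix (Fin m) (Fin m) ℤ) (x y : Fin m → ℤ) :
    invForm B (-x) y = - invForm B x y := by
  unfold invForm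
  rw [← neg_dotProduct]
  congr 1

lemma invForm_zero_left (B : Matrix (Fin m) (Fin m) ℤ) (y : Fin m → ℤ) :
    invForm B 0 y = 0 := by
  unfold invForm
  have : (fun i => (((0 : Fin m → ℤ) i : ℤ) : ℚ)) = 0 := by ext i; simp
  rw [this, zero_dotProduct]

lemma IsInt.add {a b : ℚ} (ha : IsInt a) (hb : IsInt b) : IsInt (a + b) := by
  obtain ⟨n, rfl⟩ := ha; obtain ⟨k, rfl⟩ := hb; exact ⟨n + k, by push_cast; ring⟩

lemma IsInt.neg {a : ℚ} (ha : IsInt a) : IsInt (-a) := by
  obtain ⟨n, rfl⟩ := ha; exact ⟨-n, by push_cast; ring⟩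

lemma IsInt.zero : IsInt 0 := ⟨0, by simp⟩

/-! ### subgroups of `ℤ^m` attached to the pairing -/

/-- the subgroup of `ℤ^m` generated by the differences of the elements of `X`. -/
def diffLat (X : Set (Fin m → ℤ)) : AddSubgroup (Fin m → ℤ) :=
  AddSubgroup.closure {d | ∃ x ∈ X, ∃ y ∈ X, d = x - y}

/-- kernel of `Λ → Hom(Λ, ℚ/ℤ)`, `u ↦ u^T B⁻¹ (·) mod ℤ`.  Its relative index in `Λ` is the order of the image
of the restricted pairing map (A Lemma 6.3, B (5.8)). -/
def pairKer (B : Matrix (Fin m) (Fin m) ℤ) (Λ : AddSubgroup (Fin m → ℤ)) :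
    AddSubgroup (Fin m → ℤ) where
  carrier := {u | u ∈ Λ ∧ ∀ w ∈ Λ, IsInt (invForm B u w)}
  add_mem' := by
    rintro a b ⟨ha, ha'⟩ ⟨hb, hb'⟩
    exact ⟨Λ.add_mem ha hb, fun w hw => by
      rw [invForm_add_left]; exact (ha' w hw).add (hb' w hw)⟩
  zero_mem' := ⟨Λ.zero_mem, fun w _ => by rw [invForm_zero_left]; exact IsInt.zero⟩
  neg_mem' := by
    rintro a ⟨ha, ha'⟩
    exact ⟨Λ.neg_mem ha, fun w hw => by rw [invForm_neg_left]; exact (ha' w hw).neg⟩

/-- the radical lattice `K = Λ ∩ rad (B⁻¹|_Λ)`. -/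
def radLat (B : Matrix (Fin m) (Fin m) ℤ) (Λ : AddSubgroup (Fin m → ℤ)) :
    AddSubgroup (Fin m → ℤ) where
  carrier := {u | u ∈ Λ ∧ ∀ w ∈ Λ, invForm B u w = 0}
  add_mem' := by
    rintro a b ⟨ha, ha'⟩ ⟨hb, hb'⟩
    exact ⟨Λ.add_mem ha hb, fun w hw => by rw [invForm_add_left, ha' w hw, hb' w hw, add_zero]⟩
  zero_mem' := ⟨Λ.zero_mem, fun w _ => invForm_zero_left B w⟩
  neg_mem' := by
    rintro a ⟨ha, ha'⟩
    exact ⟨Λ.neg_mem ha, fun w hw => by rw [invForm_neg_left, ha' w hw, neg_zero]⟩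

/-! ### restricted bilinear forms on subspaces of `ℝ^m` -/

/-- radical of the bilinear form `x^T C y` restricted to `W × W`. -/
def formRad (C : Matrix (Fin m) (Fin m) ℝ) (W : Submodule ℝ (EucM m)) : Submodule ℝ (EucM m) where
  carrier := {x | x ∈ W ∧ ∀ y ∈ W, (fun i => x i) ⬝ᵥ C.mulVec (fun i => y i) = 0}
  add_mem' := by
    rintro a b ⟨ha, ha'⟩ ⟨hb, hb'⟩
    refine ⟨W.add_mem ha hb, fun y hy => ?_⟩
    have : (fun i => (a + b) i) = (fun i => a i) + (fun i => b i) := by ext i; simp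
    rw [this, add_dotProduct, ha' y hy, hb' y hy, add_zero]
  zero_mem' := ⟨W.zero_mem, fun y _ => by
    have : (fun i => (0 : EucM m) i) = 0 := by ext i; simp
    rw [this, zero_dotProduct]⟩
  smul_mem' := by
    rintro c a ⟨ha, ha'⟩
    refine ⟨W.smul_mem c ha, fun y hy => ?_⟩
    have : (fun i => (c • a) i) = c • (fun i => a i) := by ext i; simp
    rw [this, smul_dotProduct, ha' y hy, smul_zero]

/-- **conclusion of B Proposition 5.9** for one matrix: the inverse form keeps its rank, up to `ξ N`, on every rational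
subspace of height at most `exp (N ℓ^D)`. -/
def InvRank (D ξ : ℝ) (N : ℕ) (B : Matrix (Fin m) (Fin m) ℤ) : Prop :=
  ∀ F : Submodule ℝ (EucM m), IsRat F → height F ≤ Real.exp (N * ell N ^ D) →
    (finrank ℝ (formRad (toR B)⁻¹ F) : ℝ) ≤ ξ * N

/-! ### the graph map -/

/-- the graph map `γ(x) = (x, B⁻¹ x) : ℝ^m → ℝ^{m+m}`. -/
noncomputable def graphMap (B : Matrix (Fin m) (Fin m) ℤ) : (Fin m → ℝ) →ₗ[ℝ] EucM (m + m) where
  toFun x := WithLp.toLp 2 (Fin.append x ((toR B)⁻¹.mulVec x))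
  map_add' x y := by
    have h : Fin.append (x + y) ((toR B)⁻¹.mulVec (x + y)) =
        Fin.append x ((toR B)⁻¹.mulVec x) + Fin.append y ((toR B)⁻¹.mulVec y) := by
      funext i
      refine Fin.addCases (fun j => ?_) (fun j => ?_) i
      · rw [Pi.add_apply, Fin.append_left, Fin.append_left, Fin.append_left, Pi.add_apply]
      · rw [Pi.add_apply, Fin.append_right, Fin.append_right, Fin.append_right,
          Matrix.mulVec_add, Pi.add_apply]
    rw [h, WithLp.toLp_add]
  map_smul' c x := by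
    have h : Fin.append (c • x) ((toR B)⁻¹.mulVec (c • x)) =
        c • Fin.append x ((toR B)⁻¹.mulVec x) := by
      funext i
      refine Fin.addCases (fun j => ?_) (fun j => ?_) i
      · rw [Pi.smul_apply, Fin.append_left, Fin.append_left, Pi.smul_apply]
      · rw [Pi.smul_apply, Fin.append_right, Fin.append_right, Matrix.mulVec_smul, Pi.smul_apply]
    rw [h, WithLp.toLp_smul, RingHom.id_apply]

/-- the identity `ℝ^m → ℝ^m` as a map from functions to `EuclideanSpace`. -/
noncomputable def eucMap (m : ℕ) : (Fin m → ℝ) →ₗ[ℝ] EucM m :=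
  (WithLp.linearEquiv 2 ℝ (Fin m → ℝ)).symm.toLinearMap

/-- real vector of an integer vector. -/
def zToR (x : Fin m → ℤ) : Fin m → ℝ := fun i => (x i : ℝ)

/-- image of a subgroup `Λ ≤ ℤ^m` under a linear map `Φ : ℝ^m → E`. -/
def imgLat {E : Type*} [AddCommGroup E] [Module ℝ E] (Φ : (Fin m → ℝ) →ₗ[ℝ] E)
    (Λ : AddSubgroup (Fin m → ℤ)) : Submodule ℤ E :=
  Submodule.span ℤ {v | ∃ x ∈ Λ, v = Φ (zToR x)}

/-! ### colourings (A Lemmas 6.1-6.3, B Lemmas 5.2, 5.3) -/

/-- `col l z` is the colour at the prime `l` of the integer vector `z` (only the colours of isotropic vectors matter).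
* `le`  : at most `1 + 8 (b_{l,2} - b_{l,3})` colours at `l`  (weaker than A (6.2) for odd `l`, but all that paper B
          needs: `C_l = 1` if there is no layer of height two, `log₂ C_l ≤ 4 (b_{l,2}-b_{l,3})`, `C_l ≤ 1 + 8 b_{l,1}`);
* `sub` : B Lemma 5.3: every colour class at `l` lies in a lattice `B ℤ^m ≤ K ≤ ℤ^m` whose index is a power
          `l^e`, `e ≥ b_{l,2} - b_{l,3}`;
* `img` : A Lemma 6.3: on the differences of a set of isotropic vectors which is monochromatic at every prime, the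
          restricted pairing map has image of order at most `∏_l l^{∑_{k ≥ 3} k_B(l,j)} = N^{N J_B}`. -/
structure IsColoring (B : Matrix (Fin m) (Fin m) ℤ) (col : ℕ → (Fin m → ℤ) → ℕ) : Prop where
  le : ∀ l z, col l z ≤ 8 * twoCount (DiscGroup B) l
  sub : ∀ l, l.Prime → ∀ c : ℕ, ∃ K : AddSubgroup (Fin m → ℤ), colLat B ≤ K ∧
      (∃ e, twoCount (DiscGroup B) l ≤ e ∧ K.index = l ^ e) ∧
      ∀ z, IsInt (invForm B z z) → col l z = c → z ∈ K
  img : ∀ X : Set (Fin m → ℤ), (∀ z ∈ X, IsInt (invForm B z z)) →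
      (∀ l, l.Prime → ∀ z ∈ X, ∀ z' ∈ X, col l z = col l z') →
      (pairKer B (diffLat X)).relIndex (diffLat X) ≠ 0 ∧
      (pairKer B (diffLat X)).relIndex (diffLat X) ≤
        ∏ l ∈ (Nat.card (DiscGroup B)).primeFactors, l ^ highExp (DiscGroup B) l

end Claimed.Agent.R293
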