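/-
R293 / PairIface.lean  (owner: helper205).  INTERFACE STATEMENTS of the package PAIR (paper B, Section 5), as `def … : Prop`.
No sorry.  Part 1: what PAIR imports from DISC / LAT / COV / TYP.  Part 2: what PAIR proves.
Numbers: "B x.y" = paper B (biased), "A x.y" = paper A (unbiased).
-/
import Claimed.Agent.R293.PairDefs
import Claimed.Agent.R293.CovIface

set_option autoImplicit false

namespace Claimed.Agent.R293

open Filter Module Matrix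

/-! ## Part 1.  Imported statements -/

/-- **DISC** (A Lemmas 6.1-6.3 = B Lemma 5.2, and B Lemma 5.3): every nonsingular symmetric integer matrix has a colouring. -/
def StColoring : Prop :=
  ∀ (m : ℕ) (B : Matrix (Fin m) (Fin m) ℤ), B.IsSymm → B.det ≠ 0 →
    ∃ col : ℕ → (Fin m → ℤ) → ℕ, IsColoring B col

/-- **LAT** (A Lemma 3.8 = B Lemma 5.6): determinant of a robust image lattice.  Same as `latRob_asymp` of `LatRobust.lean`
(helper195) with `latDiff Φ A` unfolded; bridge in `PairLat.lean`. -/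
def StRobustImage : Prop :=
  ∀ D : ℝ, 0 < D → ∀ C0 : ℝ, 0 < C0 → ∃ C : ℝ, 0 < C ∧ ∀ᶠ N : ℕ in atTop, ∀ m : ℕ, m ≤ N →
    ∀ A : Finset (Fin m → ℝ), A.Nonempty → IsRobust ℝ (ell N ^ (-D)) A →
      ∀ (d : ℕ) (Φ : (Fin m → ℝ) →ₗ[ℝ] EucM d), Function.Injective Φ →
        (∀ a ∈ A, ∀ b ∈ A, ‖Φ a - Φ b‖ ≤ C0 * Real.sqrt N) →
        IsLat (Submodule.span ℤ {y | ∃ a ∈ A, ∃ b ∈ A, y = Φ a - Φ b}) →
        latDet (Submodule.span ℤ {y | ∃ a ∈ A, ∃ b ∈ A, y = Φ a - Φ b}) ≤ Real.exp (C * N * ell N)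

/-- **LAT** (A Lemma 3.8, height form) = `latRob_height'` of `LatRobust.lean`. -/
def StRobustHeight : Prop :=
  ∀ D : ℝ, 0 < D → ∃ C : ℝ, 0 < C ∧ ∀ᶠ N : ℕ in atTop, ∀ m : ℕ, m ≤ N →
    ∀ A : Finset (Fin m → ℝ), A.Nonempty → (∀ x ∈ A, ∀ i, x i = 0 ∨ x i = 1) →
      IsRobust ℝ (ell N ^ (-D)) A →
      IsRat ((vectorSpan ℝ (A : Set (Fin m → ℝ))).map (eucMap m)) ∧
        height ((vectorSpan ℝ (A : Set (Fin m → ℝ))).map (eucMap m)) ≤ Real.exp (C * N * ell N)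

/- **COV** (A Theorem 4.1 = B Theorem 3.2): `StCover` of `CovIface.lean` (helper112). -/

/- **TYP** (B eq. (3.1)): `crk_tail` of `CrkTail.lean` (helper136); the block version with a shift is `StCrkBlock` of
`PairLeaves.lean`. -/

/- **SPC** (B Proposition 5.10): `StSmallSpectrum p` of `SpcDefs.lean` (helper202). -/

/-! ## Part 2.  Statements proved by PAIR -/

/-- **B Lemma 5.4** (cost of specifying colours), for the colour counts `C_l = 1 + 8 (b_{l,2} - b_{l,3})`. -/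
def StColorCost : Prop :=
  ∀ ε : ℝ, 0 < ε → ∀ᶠ N : ℕ in atTop, ∀ m : ℕ, m ≤ N → ∀ B : Matrix (Fin m) (Fin m) ℤ,
    IsBitMatrix B → B.det ≠ 0 →
    (scaleSigma N ≤ matT2 N B → ∃ Ps : Finset ℕ, Ps ⊆ (Nat.card (DiscGroup B)).primeFactors ∧
        scaleSigma N ≤ ∑ l ∈ Ps, (twoCount (DiscGroup B) l : ℝ) * nu N l ∧
        ∑ l ∈ Ps, Real.logb 2 (1 + 8 * (twoCount (DiscGroup B) l : ℝ)) ≤ ε * N) ∧
    (matT2 N B < scaleSigma N →
        ∑ l ∈ (Nat.card (DiscGroup B)).primeFactors,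
          Real.logb 2 (1 + 8 * (twoCount (DiscGroup B) l : ℝ)) ≤ ε * N)

/-- **B eq. (5.11)**: many layers of height two force few admissible columns. -/
def StHeightTwo : Prop :=
  ∀ α : ℝ, 0 < α → ∀ ε : ℝ, 0 < ε → ∀ L0 : ℝ, ∀ᶠ N : ℕ in atTop, ∀ m : ℕ, m ≤ N →
    ∀ B : Matrix (Fin m) (Fin m) ℤ, IsBitMatrix B → B.det ≠ 0 → scaleSigma N ≤ matT2 N B →
      SmallInt α (ell N ^ (-(20 : ℝ))) N m B → (admCount L0 N B : ℝ) ≤ (2 : ℝ) ^ ((α + ε) * N)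

/-- **B Lemma 5.8** (the graph comparison). -/
def StGraphComparison : Prop :=
  ∀ L0 : ℝ, 1 ≤ L0 → ∀ ξ : ℝ, 0 < ξ → ∀ w : ℝ, 0 < w → ∀ ε : ℝ, 0 < ε →
    ∀ᶠ N : ℕ in atTop, ∀ m : ℕ, InRange N m → ∀ B : Matrix (Fin m) (Fin m) ℤ,
      IsBitMatrix B → B.det ≠ 0 → matT2 N B < scaleSigma N → InvRank 2 ξ N B → SmallSpec w ξ N m B →
        (admCount L0 N B : ℝ) ≤ (2 : ℝ) ^ ((2 * matJ N B + 2 * ξ + ε) * N)

/-- **B Proposition 5.9** (uniform inverse restriction rank). -/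
def StInvRank : Prop :=
  ∀ p : ℝ, 0 < p → p ≤ 1 / 2 → ∀ D : ℝ, 0 < D → ∀ ξ : ℝ, 0 < ξ →
    Typically p (fun N _ B => InvRank D ξ N B)

/-- **B Proposition 5.1** (static column estimate): the output of PAIR. -/
def StStatic : Prop :=
  ∀ p : ℝ, 0 < p → p ≤ 1 / 2 → ∀ L0 : ℝ, 1 ≤ L0 → ∀ e0 : ℝ, 0 < e0 → ∃ ζ : ℝ, 0 < ζ ∧
    Typically p (fun N _ B => matW N 2 B ≤ ζ → (admCount L0 N B : ℝ) ≤ (2 : ℝ) ^ (e0 * N))

end Claimed.Agent.R293
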