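/-
R293 / DiscIface.lean  (owner: helper144).  Package DISC (paper A Lemmas 6.1-6.3 = paper B Lemmas 5.2, 5.3).
The OUTPUT of DISC is `StColoring` of `PairIface.lean` (helper205); `IsColoring`, `pairKer`, `diffLat` live in `PairDefs.lean`.
This file only adds the Gram form of A Lemma 6.4 (optional for PAIR).  No sorry.
-/
import Claimed.Agent.R293.PairIface

set_option autoImplicit false

namespace Claimed.Agent.R293

open scoped BigOperators

variable {m : ℕ}

/-- Gram matrix of the vectors `y i` for the bilinear form with matrix `A`. -/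
def discGram {s : ℕ} (A : Matrix (Fin m) (Fin m) ℝ) (y : Fin s → Fin m → ℝ) : Matrix (Fin s) (Fin s) ℝ :=
  Matrix.of fun i j => y i ⬝ᵥ A.mulVec (y j)

/-- **PAIRDET** (A Lemma 6.4 together with `det K ≥ 1`), Gram form.  `A` is the matrix of the Euclidean structure
(for the graph metric: `A = 1 + B⁻²`), assumed `≥ 1`.  `x` is a `ℤ`-basis of the lattice `L`, `s` the rank of the form
`B⁻¹` on `L`, `t` the order of the image of the restricted pairing map.  Then there are `s` real vectors `y`
(the complement basis vectors of the radical lattice, projected `A`-orthogonally off the radical) with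
`t · |det (yᵀ B⁻¹ y)| ≥ 1` and `det (yᵀ A y) ≤ det (xᵀ A x)`. -/
def StPairDet : Prop :=
  ∀ (m : ℕ) (B : Matrix (Fin m) (Fin m) ℤ), B.IsSymm → B.det ≠ 0 →
  ∀ A : Matrix (Fin m) (Fin m) ℝ, A.IsSymm → (∀ v : Fin m → ℝ, v ⬝ᵥ v ≤ v ⬝ᵥ A.mulVec v) →
  ∀ (r : ℕ) (x : Fin r → Fin m → ℤ), LinearIndependent ℤ x →
  ∀ s : ℕ, s = (Matrix.of fun i j => invForm B (x i) (x j)).rank →
    (pairKer B (AddSubgroup.closure (Set.range x))).relIndex (AddSubgroup.closure (Set.range x)) ≠ 0 ∧
    ∃ y : Fin s → Fin m → ℝ,
      1 ≤ ((pairKer B (AddSubgroup.closure (Set.range x))).relIndex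
            (AddSubgroup.closure (Set.range x)) : ℝ) * |(discGram (toR B)⁻¹ y).det| ∧
      (discGram A y).det ≤ (discGram A (fun i => zToR (x i))).det

end Claimed.Agent.R293
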