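/-
R293 / PathDefs.lean  (owner: helper144).  DEFINITIONS of the package PATH
(paper B Section 6; paper A Section 7 and Lemma 11.1).  No sorry.

Design.
* All finite groups of PATH are quotients `ℤ^k / K`, `K : AddSubgroup (Fin k → ℤ)` of finite index
  (`K = C ℤ^k`, `K = C ℤ^k + ℤ v₁`, ...): layers of `K` := layers of `(Fin k → ℤ) ⧸ K` (LayerDefs).
* A path of principal minors = ONE permutation `σ` of `Fin m` + a word of widths `w : Fin H → Bool`
  (`true` = width two); the nodes are the LEADING principal minors `lead (B.submatrix σ σ) (nodeSize m w t)`.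
  So after transporting the law along `σ`, everything is about leading minors of one bit-model matrix.
-/
import Claimed.Agent.R293.PairIface
import Claimed.Agent.R293.ProbMarg

set_option autoImplicit false

namespace Claimed.Agent.R293

open scoped BigOperators

/-! ### leading principal minors and their bordering columns -/

section Lead
variable {m : ℕ}

/-- the matrix `B` extended by `0` to `ℕ × ℕ`. -/
def natMat (B : Matrix (Fin m) (Fin m) ℤ) (i j : ℕ) : ℤ :=
  if h : i < m ∧ j < m then B ⟨i, h.1⟩ ⟨j, h.2⟩ else 0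

/-- leading principal `k × k` minor (meaningful for `k ≤ m`). -/
def lead (B : Matrix (Fin m) (Fin m) ℤ) (k : ℕ) : Matrix (Fin k) (Fin k) ℤ :=
  fun i j => natMat B i j

/-- the part of column `a` in the rows `< k`. -/
def leadCol (B : Matrix (Fin m) (Fin m) ℤ) (k a : ℕ) : Fin k → ℤ := fun i => natMat B i a

/-- the same column as a bit vector. -/
def leadColB (B : Matrix (Fin m) (Fin m) ℤ) (k a : ℕ) : Fin k → Bool :=
  fun i => decide (natMat B i a = 1)

end Lead

/-! ### layers of a lattice `K ≤ ℤ^k`, retention -/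

section Lat
variable {k : ℕ}

/-- `k_G(l,j)` for `G = ℤ^k / K`. -/
noncomputable abbrev latLayer (K : AddSubgroup (Fin k → ℤ)) (l j : ℕ) : ℕ :=
  layer ((Fin k → ℤ) ⧸ K) l j

/-- index set containing all positive layers of `ℤ^k / K`. -/
noncomputable abbrev latIndex (K : AddSubgroup (Fin k → ℤ)) : Finset (ℕ × ℕ) :=
  layerIndex ((Fin k → ℤ) ⧸ K)

/-- `K + ℤ v`; `ℤ^k / (K + ℤ v) = (ℤ^k / K) / ⟨v⟩`. -/
def addVec (K : AddSubgroup (Fin k → ℤ)) (v : Fin k → ℤ) : AddSubgroup (Fin k → ℤ) :=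
  K ⊔ AddSubgroup.zmultiples v

/-- the positive layer `(l,j)` of `ℤ^k / K` is retained on quotienting by the class of `v`. -/
def LatRetained (K : AddSubgroup (Fin k → ℤ)) (v : Fin k → ℤ) (l j : ℕ) : Prop :=
  1 ≤ latLayer K l j ∧ latLayer (addVec K v) l j = latLayer K l j

open Classical in
/-- total weight `∑ ν_l` of the retained layers of height `≥ h`. -/
noncomputable def retWge (N h : ℕ) (K : AddSubgroup (Fin k → ℤ)) (v : Fin k → ℤ) : ℝ :=
  ∑ x ∈ latIndex K, if LatRetained K v x.1 x.2 ∧ h ≤ latLayer K x.1 x.2 then nu N x.1 else 0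

/-- total weight of the retained layers  (B (6.6)). -/
noncomputable def retW (N : ℕ) (K : AddSubgroup (Fin k → ℤ)) (v : Fin k → ℤ) : ℝ := retWge N 0 K v

open Classical in
/-- `Q_hi = ∑ k_G(l,j) ν_l` over the retained layers of height `≥ R - 1`  (B (6.10)). -/
noncomputable def heavyW (N : ℕ) (K : AddSubgroup (Fin k → ℤ)) (v : Fin k → ℤ) : ℝ :=
  ∑ x ∈ latIndex K, if LatRetained K v x.1 x.2 ∧ scaleR N - 1 ≤ latLayer K x.1 x.2
    then (latLayer K x.1 x.2 : ℝ) * nu N x.1 else 0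

/-- `q(D) = ∑_{(l,j) ∈ D} k_G(l,j) ν_l`  (B (6.4)). -/
noncomputable def maskQ (N : ℕ) (K : AddSubgroup (Fin k → ℤ)) (D : Finset (ℕ × ℕ)) : ℝ :=
  ∑ x ∈ D, (latLayer K x.1 x.2 : ℝ) * nu N x.1

/-- `D` is a set of positive layers of `ℤ^k / K`. -/
def IsMask (K : AddSubgroup (Fin k → ℤ)) (D : Finset (ℕ × ℕ)) : Prop :=
  D ⊆ latIndex K ∧ ∀ x ∈ D, 1 ≤ latLayer K x.1 x.2

/-- all layers of `D` are retained by `v`. -/
def MaskRetained (K : AddSubgroup (Fin k → ℤ)) (v : Fin k → ℤ) (D : Finset (ℕ × ℕ)) : Prop :=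
  ∀ x ∈ D, LatRetained K v x.1 x.2

/-- law of a column: independent bits with success probabilities in `{p, 1-p}`. -/
def ColModel (p : ℝ) (ρ : Fin k → ℝ) : Prop := ∀ i, ρ i = p ∨ ρ i = 1 - p

end Lat

/-! ### steps, gates, costly steps -/

section Step
variable {m : ℕ}

/-- the lattice before the `i`-th column (`i = 0, 1`) of the extension starting at the leading minor of size `k`
is tested: `C ℤ^k`, resp. `C ℤ^k + ℤ v₁`. -/
def preLat (B : Matrix (Fin m) (Fin m) ℤ) (k i : ℕ) : AddSubgroup (Fin k → ℤ) :=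
  if i = 0 then colLat (lead B k) else addVec (colLat (lead B k)) (leadCol B k k)

/-- the width-two gate  (B (6.2)). -/
def Gate (L0 : ℝ) (N : ℕ) (B : Matrix (Fin m) (Fin m) ℤ) (k : ℕ) : Prop :=
  IsAdmCol L0 N (lead B k) (leadColB B k k) ∧ IsAdmCol L0 N (lead B k) (leadColB B k (k + 1))

/-- the `i`-th column test of the extension starting at size `k` retains weight `≥ σ`. -/
def CostlyCol (N : ℕ) (B : Matrix (Fin m) (Fin m) ℤ) (k i : ℕ) : Prop :=
  scaleSigma N ≤ retW N (preLat B k i) (leadCol B k (k + i))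

/-- the extension of width `wd ∈ {1,2}` starting at size `k` is costly  (B (6.6)). -/
def Costly (N : ℕ) (B : Matrix (Fin m) (Fin m) ℤ) (k wd : ℕ) : Prop :=
  ∃ i < wd, CostlyCol N B k i

open Classical in
/-- the truncated heavy weight `Q̃` of one column test  (proof of B Lemma 6.6). -/
noncomputable def qTilde (N : ℕ) (η : ℝ) (B : Matrix (Fin m) (Fin m) ℤ) (k i : ℕ) : ℝ :=
  if (lead B k).det ≠ 0 ∧ η / (100 * Real.log N) ≤ heavyW N (preLat B k i) (leadCol B k (k + i))
  then heavyW N (preLat B k i) (leadCol B k (k + i)) else 0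

end Step

/-! ### paths -/

section Path
variable {m H : ℕ}

/-- number of steps of a path, `H₀ = 2 ⌈N^{3/5}⌉`. -/
noncomputable def pathLen (N : ℕ) : ℕ := 2 * ⌈(N : ℝ) ^ ((3 : ℝ) / 5)⌉₊

/-- width of step `u` (from node `u` to node `u+1`); `0` for `u ≥ H`. -/
def wdt (w : Fin H → Bool) (u : ℕ) : ℕ := if h : u < H then (if w ⟨u, h⟩ then 2 else 1) else 0

/-- size of node `t` (`0 ≤ t ≤ H`); node `H` is the whole matrix. -/
def nodeSize (m : ℕ) (w : Fin H → Bool) (t : ℕ) : ℕ := m - ∑ u ∈ Finset.Ico t H, wdt w u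

/-- node `t` of the path of leading minors with widths `w`. -/
def node (B : Matrix (Fin m) (Fin m) ℤ) (w : Fin H → Bool) (t : ℕ) :
    Matrix (Fin (nodeSize m w t)) (Fin (nodeSize m w t)) ℤ := lead B (nodeSize m w t)

/-- all nodes are nonsingular and all width-two gates hold. -/
def IsGatedPath (L0 : ℝ) (N : ℕ) (B : Matrix (Fin m) (Fin m) ℤ) (w : Fin H → Bool) : Prop :=
  (∀ t ≤ H, (node B w t).det ≠ 0) ∧ ∀ t < H, wdt w t = 2 → Gate L0 N B (nodeSize m w t)

/-- the permutations used for paths which delete at most `M` indices: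
increasing on the first `m - M` positions. -/
def pathPerms (m M : ℕ) : Set (Equiv.Perm (Fin m)) :=
  {σ | ∀ i j : Fin m, i < j → (j : ℕ) + M < m → σ i < σ j}

/-- `∑ Q̃` over all column tests of the path. -/
noncomputable def totalQ (N : ℕ) (η : ℝ) (B : Matrix (Fin m) (Fin m) ℤ) (w : Fin H → Bool) : ℝ :=
  ∑ t ∈ Finset.range H, ∑ i ∈ Finset.range (wdt w t), qTilde N η B (nodeSize m w t) i

/-- the prime-corank property of B Lemma 3.1 for one matrix. -/
def CorankOK (N : ℕ) {k : ℕ} (C : Matrix (Fin k) (Fin k) ℤ) : Prop :=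
  ∀ q : ℕ, q.Prime → (k : ℝ) - ((C.map (Int.cast : ℤ → ZMod q)).rank : ℝ) ≤ (N : ℝ) ^ ((3 : ℝ) / 5)

/-- the typical set `𝒯` of B Section 6.3 (for nonsingular matrices). -/
def PathGood (L0 e0 α ζ : ℝ) (N k : ℕ) (C : Matrix (Fin k) (Fin k) ℤ) : Prop :=
  SmallInt α (ell N ^ (-(20 : ℝ))) N k C ∧ CorankOK N C ∧
    (matW N 2 C ≤ ζ → (admCount L0 N C : ℝ) ≤ (2 : ℝ) ^ (e0 * N))

/-- the event `𝒜` of a fixed path: gated path all of whose nodes are typical. -/
def PathA (L0 e0 α ζ : ℝ) (N : ℕ) (B : Matrix (Fin m) (Fin m) ℤ) (w : Fin H → Bool) : Prop :=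
  IsGatedPath L0 N B w ∧ ∀ t ≤ H, PathGood L0 e0 α ζ N (nodeSize m w t) (node B w t)

end Path

end Claimed.Agent.R293
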