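/-
R293 / PathIface.lean  (owner: helper144).  INTERFACE / LEAF STATEMENTS of the package PATH, as `def St… : Prop`.  No sorry.
Output of PATH:  `StColumn` (Iface.lean)  from  `StSmallInt`, `StPrimeCorank` (Iface.lean), `StStatic` (PairIface.lean).
"B x.y" = paper B (biased), "A x.y" = paper A (unbiased).  Each leaf proves `theorem path_xxx : StXxx` (possibly from other `St…`
taken as hypotheses) in its own file `R293/Path<Name>.lean`, prefix `path`.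
-/
import Claimed.Agent.R293.PathDefs

set_option autoImplicit false

namespace Claimed.Agent.R293

open Filter
open scoped BigOperators

/-! ## Part ALG: finite abelian groups / integer matrices (A Section 7, A Lemma 11.1).  No probability. -/

/-- layer heights are nonincreasing in `j`. -/
def StLayerAnti : Prop :=
  ∀ (G : Type) [AddCommGroup G] [Finite G] (l : ℕ), l.Prime → ∀ j j' : ℕ, 1 ≤ j → j ≤ j' →
    layer G l j' ≤ layer G l j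

/-- positive layers at primes lie in `layerIndex`. -/
def StLayerSupport : Prop :=
  ∀ (G : Type) [AddCommGroup G] [Finite G] (l j : ℕ), l.Prime → 1 ≤ layer G l j → (l, j) ∈ layerIndex G

/-- B (5.1) / A (2.5): `∑ k_G(l,j) log l = log |G|`. -/
def StLayerTotal : Prop :=
  ∀ (G : Type) [AddCommGroup G] [Finite G],
    ∑ x ∈ layerIndex G, (layer G x.1 x.2 : ℝ) * Real.log x.1 = Real.log (Nat.card G)

/-- **A Lemma 7.3**: in a one-element quotient every layer height drops by `0` or `1`. -/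
def StLayerDrop : Prop :=
  ∀ (k : ℕ) (K : AddSubgroup (Fin k → ℤ)), K.index ≠ 0 → ∀ (v : Fin k → ℤ) (l j : ℕ), l.Prime →
    latLayer (addVec K v) l j ≤ latLayer K l j ∧ latLayer K l j ≤ latLayer (addVec K v) l j + 1

/-- **A Lemma 7.4 = B Lemma 6.2 (i)** (retention lattice). -/
def StRetLat : Prop :=
  ∀ (k : ℕ) (K : AddSubgroup (Fin k → ℤ)), K.index ≠ 0 → ∀ D : Finset (ℕ × ℕ), IsMask K D →
    ∃ KD : AddSubgroup (Fin k → ℤ), K ≤ KD ∧ KD.index = ∏ x ∈ D, x.1 ^ latLayer K x.1 x.2 ∧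
      ∀ v : Fin k → ℤ, MaskRetained K v D → v ∈ KD

/-- `F_G(l,t)` for `G = ℤ^k / K`. -/
noncomputable abbrev latPrefix {k : ℕ} (K : AddSubgroup (Fin k → ℤ)) (l t : ℕ) : ℕ :=
  prefixLog ((Fin k → ℤ) ⧸ K) l t

/-- the lattice `C ℤ^k + ℤ v₁ + … + ℤ v_h` of the common quotient (`h = 1, 2`) of the extension starting at size `k`. -/
def postLat {m : ℕ} (B : Matrix (Fin m) (Fin m) ℤ) (k h : ℕ) : AddSubgroup (Fin k → ℤ) :=
  if h = 1 then addVec (preLat B k 0) (leadCol B k k) else addVec (preLat B k 1) (leadCol B k (k + 1))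

/-- **A (7.7), (7.11)** (common quotient): `ℤ^k/(Cℤ^k + Vℤ^h) ≅ G_B/⟨e_{k+1},…,e_{k+h}⟩`, hence
`k_B - h ≤ k_{H_h} ≤ k_B`. -/
def StCommonQuot : Prop :=
  ∀ (m : ℕ) (B : Matrix (Fin m) (Fin m) ℤ), B.IsSymm → ∀ k h : ℕ, (h = 1 ∨ h = 2) → k + h ≤ m →
    (lead B k).det ≠ 0 → (lead B (k + h)).det ≠ 0 → ∀ l j : ℕ, l.Prime →
      latLayer (postLat B k h) l j ≤ layer (DiscGroup (lead B (k + h))) l j ∧
      layer (DiscGroup (lead B (k + h))) l j ≤ latLayer (postLat B k h) l j + h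

/-- **A Lemma 7.5** (symmetric kernel inequality): `F_B(l,t) + 2 U_t ≤ F_C(l,t) + h t`, `U_t = F_C(l,t) - F_{H_h}(l,t)`. -/
def StKernelIneq : Prop :=
  ∀ (m : ℕ) (B : Matrix (Fin m) (Fin m) ℤ), B.IsSymm → ∀ k h : ℕ, (h = 1 ∨ h = 2) → k + h ≤ m →
    (lead B k).det ≠ 0 → (lead B (k + h)).det ≠ 0 → ∀ l t : ℕ, l.Prime →
      prefixLog (DiscGroup (lead B (k + h))) l t + 2 * (latPrefix (preLat B k 0) l t - latPrefix (postLat B k h) l t)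
        ≤ latPrefix (preLat B k 0) l t + h * t

/-- **A Lemma 11.1 = B (6.5)**, width one. -/
def StTail1 : Prop :=
  ∀ (N m : ℕ) (B : Matrix (Fin m) (Fin m) ℤ), B.IsSymm → ∀ k : ℕ, k + 1 ≤ m →
    (lead B k).det ≠ 0 → (lead B (k + 1)).det ≠ 0 → ∀ s : ℕ, 1 ≤ s →
      matW N s (lead B (k + 1)) ≤ matW N (s + 1) (lead B k)
        + 2 * retWge N s (preLat B k 0) (leadCol B k k)

/-- **A Lemma 11.1 = B (6.5)**, width two. -/
def StTail2 : Prop :=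
  ∀ (N m : ℕ) (B : Matrix (Fin m) (Fin m) ℤ), B.IsSymm → ∀ k : ℕ, k + 2 ≤ m →
    (lead B k).det ≠ 0 → (lead B (k + 2)).det ≠ 0 → ∀ s : ℕ, 2 ≤ s →
      matW N s (lead B (k + 2)) ≤ matW N (s + 2) (lead B k)
        + 2 * (retWge N (s - 1) (preLat B k 0) (leadCol B k k)
              + retWge N (s - 1) (preLat B k 1) (leadCol B k (k + 1)))

/-- **A (7.11)**: `k_B ≤ k_C + 1` for a width-one extension, in the form `W_{s+1}(B) ≤ W_s(C)`. -/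
def StShift1 : Prop :=
  ∀ (N m : ℕ) (B : Matrix (Fin m) (Fin m) ℤ), B.IsSymm → ∀ k : ℕ, k + 1 ≤ m →
    (lead B k).det ≠ 0 → (lead B (k + 1)).det ≠ 0 → ∀ s : ℕ,
      matW N (s + 1) (lead B (k + 1)) ≤ matW N s (lead B k)

/-- `k_C(l,j) ≤ k_C(l,1) = corank of C mod l`. -/
def StLayerCorank : Prop :=
  ∀ (k : ℕ) (C : Matrix (Fin k) (Fin k) ℤ), C.det ≠ 0 → ∀ l j : ℕ, l.Prime →
    (layer (DiscGroup C) l j : ℝ) ≤ (k : ℝ) - ((C.map (Int.cast : ℤ → ZMod l)).rank : ℝ)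

/-- `[ℤ^k : C ℤ^k] = |det C|`, and Hadamard for bit matrices: `|det C| ≤ N^{N/2}` for `k ≤ N`. -/
def StIndexDet : Prop :=
  ∀ (k : ℕ) (C : Matrix (Fin k) (Fin k) ℤ), (colLat C).index = C.det.natAbs

def StHadamardBit : Prop :=
  ∀ (N k : ℕ), k ≤ N → ∀ C : Matrix (Fin k) (Fin k) ℤ, IsBitMatrix C →
    (C.det.natAbs : ℝ) ≤ (N : ℝ) ^ ((N : ℝ) / 2)

/-- **A Lemma 7.1 = B Lemma 6.1** iterated: every nonsingular symmetric bit matrix is the end of a gated path of `H` steps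
of leading minors, after a permutation which is increasing on the first `m - 2H` positions. -/
def StPathExists : Prop :=
  ∀ (L0 : ℝ), 1 ≤ L0 → ∀ (N m H : ℕ), m ≤ N → 2 * H ≤ m → ∀ B : Matrix (Fin m) (Fin m) ℤ,
    IsBitMatrix B → B.det ≠ 0 →
      ∃ σ ∈ pathPerms m (2 * H), ∃ w : Fin H → Bool, IsGatedPath L0 N (B.submatrix σ σ) w

open Classical in
/-- there are at most `m^M` permutations in `pathPerms m M`. -/
def StPathCount : Prop :=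
  ∀ m M : ℕ, 1 ≤ m → (Finset.univ.filter (fun σ : Equiv.Perm (Fin m) => σ ∈ pathPerms m M)).card ≤ m ^ M

/-- invariance of the number of admissible columns under simultaneous permutations. -/
def StAdmPerm : Prop :=
  ∀ (L0 : ℝ) (N m : ℕ) (B : Matrix (Fin m) (Fin m) ℤ) (σ : Equiv.Perm (Fin m)),
    admCount L0 N (B.submatrix σ σ) = admCount L0 N B

/-! ## Part COL: one random column against a fixed lattice (B Lemmas 6.3-6.5) -/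

/-- the standing hypotheses on the pre-test lattice: `C ℤ^k ≤ K` for a nonsingular bit matrix `C` of size `k ∈ I_N`. -/
def LatOK (N k : ℕ) (C : Matrix (Fin k) (Fin k) ℤ) (K : AddSubgroup (Fin k → ℤ)) : Prop :=
  InRange N k ∧ IsBitMatrix C ∧ C.det ≠ 0 ∧ colLat C ≤ K

/-- **B Lemma 6.4** (dissociation and a lattice constraint). -/
def StDissoc : Prop :=
  ∀ (N k : ℕ), 2 ≤ N → k ≤ N → ∀ C : Matrix (Fin k) (Fin k) ℤ, IsBitMatrix C → C.det ≠ 0 →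
    ∀ K : AddSubgroup (Fin k → ℤ), colLat C ≤ K →
    ∀ (b : ℝ) (ρ : Fin k → ℝ), IsProbArray ρ → (∀ i, ρ i ≤ b ∧ 1 - ρ i ≤ b) → b ≤ 1 →
    ∀ q : ℝ, 0 ≤ q → (N : ℝ) ^ (q * N) ≤ (K.index : ℝ) →
      prb ρ {z | bitVecZ z ∈ K} ≤ b ^ (2 * q * N / 3)

open Classical in
/-- **B (6.8)**: the retention pattern at the primes `l ≤ √N` takes at most `2^{N^{4/5}}` values
(prefix lengths on the `O(N^{3/4} √log N)` plateaus). -/
def StSmallPattern : Prop :=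
  ∀ᶠ N : ℕ in atTop, ∀ (k : ℕ) (C : Matrix (Fin k) (Fin k) ℤ) (K : AddSubgroup (Fin k → ℤ)), LatOK N k C K →
    ∃ Ps : Finset (Finset (ℕ × ℕ)), (Ps.card : ℝ) ≤ (2 : ℝ) ^ ((N : ℝ) ^ ((4 : ℝ) / 5)) ∧
      ∀ v : Fin k → ℤ, (latIndex K).filter (fun x => x.1 ^ 2 ≤ N ∧ LatRetained K v x.1 x.2) ∈ Ps

/-- cover of `{retained weight ≥ σ}` by `2^{εN}` masks of weight `≥ σ`  (proof of B Lemma 6.3). -/
def StRetCover : Prop :=
  ∀ ε : ℝ, 0 < ε → ∀ᶠ N : ℕ in atTop,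
    ∀ (k : ℕ) (C : Matrix (Fin k) (Fin k) ℤ) (K : AddSubgroup (Fin k → ℤ)), LatOK N k C K →
    ∃ Ds : Finset (Finset (ℕ × ℕ)), (Ds.card : ℝ) ≤ (2 : ℝ) ^ (ε * N) ∧
      (∀ D ∈ Ds, IsMask K D ∧ scaleSigma N ≤ maskQ N K D) ∧
      ∀ v : Fin k → ℤ, scaleSigma N ≤ retW N K v → ∃ D ∈ Ds, MaskRetained K v D

/-- cover of `{Q_hi ∈ [q,2q)}` by `2^{ε q N}` masks with `q(D) ≥ q`  (proof of B Lemma 6.5). -/
def StHeavyCover : Prop :=
  ∀ η : ℝ, 0 < η → η < 1 → ∀ ε : ℝ, 0 < ε → ∀ᶠ N : ℕ in atTop,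
    ∀ (k : ℕ) (C : Matrix (Fin k) (Fin k) ℤ) (K : AddSubgroup (Fin k → ℤ)), LatOK N k C K →
    ∀ q : ℝ, η / (100 * Real.log N) ≤ q → q ≤ 1 / 2 →
    ∃ Ds : Finset (Finset (ℕ × ℕ)), (Ds.card : ℝ) ≤ (2 : ℝ) ^ (ε * q * N) ∧
      (∀ D ∈ Ds, IsMask K D ∧ q ≤ maskQ N K D) ∧
      ∀ v : Fin k → ℤ, q ≤ heavyW N K v → heavyW N K v < 2 * q → ∃ D ∈ Ds, MaskRetained K v D

/-- **B Lemma 6.3**, one column: almost full cost of retention. -/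
def StRetCost : Prop :=
  ∀ p : ℝ, 0 < p → p ≤ 1 / 2 → ∀ α : ℝ, 0 < α → α < 1 → ∀ ε : ℝ, 0 < ε → ∀ᶠ N : ℕ in atTop,
    ∀ (k : ℕ) (C : Matrix (Fin k) (Fin k) ℤ) (K : AddSubgroup (Fin k → ℤ)), LatOK N k C K →
    SmallInt α (ell N ^ (-(20 : ℝ))) N k C → ∀ ρ : Fin k → ℝ, ColModel p ρ →
      prb ρ {z | scaleSigma N ≤ retW N K (bitVecZ z)} ≤ (2 : ℝ) ^ (-((cA p - α - ε) * N))

/-- **B Lemma 6.5**: cost of heavy retained layers (no typicality). -/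
def StHeavyCost : Prop :=
  ∀ p : ℝ, 0 < p → p ≤ 1 / 2 → ∀ η : ℝ, 0 < η → η < 1 → ∀ c : ℝ, c < 2 * cA p / 3 → ∀ᶠ N : ℕ in atTop,
    ∀ (k : ℕ) (C : Matrix (Fin k) (Fin k) ℤ) (K : AddSubgroup (Fin k → ℤ)), LatOK N k C K →
    ∀ ρ : Fin k → ℝ, ColModel p ρ → ∀ q : ℝ, η / (100 * Real.log N) ≤ q → q ≤ 1 / 2 →
      prb ρ {z | q ≤ heavyW N K (bitVecZ z) ∧ heavyW N K (bitVecZ z) < 2 * q} ≤ (2 : ℝ) ^ (-(c * q * N))

/-- one-column exponential moment  (B (6.12)):  `E 2^{c N Q̃} ≤ 1 + 2^{-N^{1/2}}`, `Q̃` = `Q_hi` truncated below `η/(100 log N)`. -/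
def StHeavyMoment1 : Prop :=
  ∀ p : ℝ, 0 < p → p ≤ 1 / 2 → ∀ η : ℝ, 0 < η → η < 1 → ∃ c : ℝ, 0 < c ∧ ∀ᶠ N : ℕ in atTop,
    ∀ (k : ℕ) (C : Matrix (Fin k) (Fin k) ℤ) (K : AddSubgroup (Fin k → ℤ)), LatOK N k C K →
    ∀ ρ : Fin k → ℝ, ColModel p ρ →
      exq ρ (fun z => (2 : ℝ) ^ (c * N * (if η / (100 * Real.log N) ≤ heavyW N K (bitVecZ z)
          then heavyW N K (bitVecZ z) else 0))) ≤ 1 + (2 : ℝ) ^ (-((N : ℝ) ^ ((1 : ℝ) / 2)))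

/-! ## Part PTH: fixed paths of leading minors of a bit-model matrix of size `m = N - 1` (B Sections 6.3, 6.4) -/

/-- union bound over all nodes of all paths: a typical property holds at all nonsingular nodes. -/
def StTypicalNodes : Prop :=
  ∀ p : ℝ, 0 < p → p ≤ 1 / 2 → ∀ Good : ℕ → ∀ m : ℕ, Matrix (Fin m) (Fin m) ℤ → Prop, Typically p Good →
    ∀ A : ℝ, ∀ᶠ N : ℕ in atTop, ∀ m : ℕ, m + 1 = N → ∀ π : Sym2 (Fin m) → ℝ, BitModel p π →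
      prb π {s | ∃ σ ∈ pathPerms m (2 * pathLen N), ∃ k : ℕ, m ≤ k + 2 * pathLen N ∧ k ≤ m ∧
          (lead ((bitMat s).submatrix σ σ) k).det ≠ 0 ∧ ¬ Good N k (lead ((bitMat s).submatrix σ σ) k)}
        ≤ (2 : ℝ) ^ (-(A * N))

/-- **B (6.13)**: exponential moment of `∑ Q̃` along a fixed path. -/
def StHeavyMoment : Prop :=
  ∀ p : ℝ, 0 < p → p ≤ 1 / 2 → ∀ η : ℝ, 0 < η → η < 1 → ∃ c : ℝ, 0 < c ∧ ∀ᶠ N : ℕ in atTop,
    ∀ m : ℕ, m + 1 = N → ∀ π : Sym2 (Fin m) → ℝ, BitModel p π → ∀ w : Fin (pathLen N) → Bool,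
      exq π (fun s => (2 : ℝ) ^ (c * N * totalQ N η (bitMat s) w)) ≤ 2

/-- deterministic half of **B Lemma 6.6**: a large `W_R` in the terminal window forces `∑ Q̃ ≥ (R-1) η / 4`  (B (6.14)). -/
def StHighTailDet : Prop :=
  ∀ η : ℝ, 0 < η → η < 1 → ∀ᶠ N : ℕ in atTop, ∀ m : ℕ, m + 1 = N → ∀ B : Matrix (Fin m) (Fin m) ℤ, IsBitMatrix B →
    ∀ w : Fin (pathLen N) → Bool,
    (∀ t ≤ pathLen N, (node B w t).det ≠ 0 ∧ CorankOK N (node B w t)) →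
    ∀ t0 : ℕ, pathLen N ≤ t0 + 5 * scaleR N → t0 ≤ pathLen N → η < matW N (scaleR N) (node B w t0) →
      ((scaleR N : ℝ) - 1) * η / 4 ≤ totalQ N η B w

/-- **B Lemma 6.6** (small high-layer tails on the window). -/
def StHighTail : Prop :=
  ∀ p : ℝ, 0 < p → p ≤ 1 / 2 → ∀ η : ℝ, 0 < η → η < 1 → ∃ c : ℝ, 0 < c ∧ ∀ᶠ N : ℕ in atTop,
    ∀ m : ℕ, m + 1 = N → ∀ π : Sym2 (Fin m) → ℝ, BitModel p π → ∀ w : Fin (pathLen N) → Bool,
      prb π {s | (∀ t ≤ pathLen N, (node (bitMat s) w t).det ≠ 0 ∧ CorankOK N (node (bitMat s) w t)) ∧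
          ∃ t0 : ℕ, pathLen N ≤ t0 + 5 * scaleR N ∧ t0 ≤ pathLen N ∧
            η < matW N (scaleR N) (node (bitMat s) w t0)}
        ≤ (2 : ℝ) ^ (-(c * N * scaleR N))

/-- **B Lemma 6.7** (the terminal-window alternative).  Deterministic. -/
def StWindow : Prop :=
  ∀ ζ : ℝ, 0 < ζ → ∀ η : ℝ, 0 < η → 4 * η < ζ → ∀ᶠ N : ℕ in atTop,
    ∀ m : ℕ, m + 1 = N → ∀ B : Matrix (Fin m) (Fin m) ℤ, IsBitMatrix B → ∀ w : Fin (pathLen N) → Bool,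
    (∀ t ≤ pathLen N, (node B w t).det ≠ 0) →
    (∀ t : ℕ, pathLen N ≤ t + 5 * scaleR N → t ≤ pathLen N → matW N (scaleR N) (node B w t) ≤ η) →
    ζ < matW N 2 (node B w (pathLen N)) →
      (∃ r t : ℕ, pathLen N ≤ r + 5 * scaleR N ∧ r < t ∧ t < pathLen N ∧
          Costly N B (nodeSize m w r) (wdt w r) ∧ Costly N B (nodeSize m w t) (wdt w t)) ∨
      (∃ t : ℕ, pathLen N ≤ t + 5 * scaleR N ∧ t < pathLen N ∧ wdt w t = 2 ∧ matW N 2 (node B w t) ≤ ζ)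

/-- the event `D` of B (6.15): typical nonsingular start of size `k` and costly extension of width `wd`. -/
def CostlyEv (α : ℝ) (N : ℕ) {m : ℕ} (B : Matrix (Fin m) (Fin m) ℤ) (k wd : ℕ) : Prop :=
  (lead B k).det ≠ 0 ∧ SmallInt α (ell N ^ (-(20 : ℝ))) N k (lead B k) ∧ Costly N B k wd

/-- **B (6.15)**: two costly positions `k + wd ≤ k'` cost `p_N²`, `p_N = 2^{-N(a - 2 e₀)}`. -/
def StTwoCostly : Prop :=
  ∀ p : ℝ, 0 < p → p ≤ 1 / 2 → ∀ e0 : ℝ, 0 < e0 → ∀ α : ℝ, 0 < α → α < e0 → α < 1 → ∀ᶠ N : ℕ in atTop,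
    ∀ (m : ℕ) (π : Sym2 (Fin m) → ℝ), BitModel p π → ∀ k wd k' wd' : ℕ, InRange N k → InRange N k' →
      1 ≤ wd → wd ≤ 2 → 1 ≤ wd' → wd' ≤ 2 → k + wd ≤ k' → k' + wd' ≤ m →
      prb π {s | CostlyEv α N (bitMat s) k wd ∧ CostlyEv α N (bitMat s) k' wd'}
        ≤ ((2 : ℝ) ^ (-((cA p - 2 * e0) * N))) ^ 2

/-- **B Lemma 6.3, last assertion**: a gate at a start with at most `T` admissible columns costs `(T b^k)²`.  Exact. -/
def StGateCost : Prop :=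
  ∀ p : ℝ, 0 < p → p ≤ 1 / 2 → ∀ (L0 : ℝ) (N m : ℕ) (π : Sym2 (Fin m) → ℝ), BitModel p π →
    ∀ k : ℕ, k + 2 ≤ m → ∀ T : ℝ, 0 ≤ T →
      prb π {s | (admCount L0 N (lead (bitMat s) k) : ℝ) ≤ T ∧ Gate L0 N (bitMat s) k}
        ≤ (T * (1 - p) ^ k) ^ 2

/-- fixed-path bound = B Lemmas 6.6, 6.7 + (6.15) + gate cost: for one word of widths. -/
def StFixedPath : Prop :=
  ∀ p : ℝ, 0 < p → p ≤ 1 / 2 → ∀ L0 : ℝ, 1 ≤ L0 → ∀ e0 : ℝ, 0 < e0 → ∀ α : ℝ, 0 < α → α < e0 → α < 1 →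
    ∀ ζ : ℝ, 0 < ζ → ∀ᶠ N : ℕ in atTop, ∀ m : ℕ, m + 1 = N → ∀ π : Sym2 (Fin m) → ℝ, BitModel p π →
    ∀ w : Fin (pathLen N) → Bool,
      prb π {s | PathA L0 e0 α ζ N (bitMat s) w ∧ ζ < matW N 2 (node (bitMat s) w (pathLen N))}
        ≤ (2 : ℝ) ^ (-((2 * cA p - 5 * e0) * N))

end Claimed.Agent.R293
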