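/-
R293 / PairLeaves.lean  (owner: helper205, PAIR sub-captain).  LEAF STATEMENTS of the package PAIR (paper B, Section 5), as
`def St… : Prop`.  No sorry.  A leaf owner proves `theorem pair_xxx : (inputs →) StPairXxx` in the file named in table `subtask`
(target row293, names PAIR-*), prefix `pair` + a short tag of the leaf for auxiliary lemmas.

DAG  (me = helper205)
  StStatic          <- StSmallInt, StHeightTwo, StGraphComparison, StInvRank, StSmallSpectrum, StPairLayerBit     [PairStatic, me]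
  StHeightTwo       <- StColoring, StColorCost, StIndexDet, StPairScale                                            [PairHeightTwo]
  StColorCost       <- StPairCostAbs, StPairLayerBit                                                               [PairColorCost, me]
  StPairLayerBit    <- StLayerTotal, StLayerSupport, StIndexDet, StHadamardBit  (PathIface.lean)                   [PairLayerBit]
  StGraphComparison <- StColoring, StPairClass, StPairSetup, StPairDiffSpan, StPairLatBound, StPairRadRank, StPairRankCast,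
                       StPairDet, StPairSpecGram, StPairArith, StPairLayerBit                                      [PairGraph, me]
  StPairClass       <- StColorCost, StPairLayerBit, StPairScale ;   StPairLatBound <- StRobustImage, StRobustHeight, StPairDiffSpan
  StPairSpecGram    <- StPairWGram <- StPairCB
  StInvRank         <- StCover, StPairFixed, StPairNullStab, StPairPerpDist, StPairDualRad                         [PairInvRank]
  StPairFixed       <- StCrkBlock, StPairCoordBasis, StPairRadRank                                                 [PairFixed]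
-/
import Claimed.Agent.R293.PathIface
import Claimed.Agent.R293.DiscIface
import Claimed.Agent.R293.CrkTail

set_option autoImplicit false

namespace Claimed.Agent.R293

open Filter Module Matrix Topology

/-! ## A.  Scales and layers -/

/-- **Leaf SCALE**: `ℓ → ∞`, `σ → 0`, `σ > 0` eventually, `ℓ^{-20} ≤ σ` eventually.
(`R = ⌈ℓ²⌉ ≤ 2 ℓ²` for `ℓ ≥ 1`, so `σ ≥ 2^{-6} ℓ^{-12} ≥ ℓ^{-20}` as soon as `ℓ^8 ≥ 64`.) -/
def StPairScale : Prop :=
  Tendsto ell atTop atTop ∧ Tendsto scaleSigma atTop (𝓝 0) ∧ (∀ᶠ N : ℕ in atTop, 0 < scaleSigma N) ∧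
    ∀ᶠ N : ℕ in atTop, ell N ^ (-(20 : ℝ)) ≤ scaleSigma N

/-- **Leaf LAYERBIT**: everything PAIR needs to know about the layers of `G_B`.  Pure `Finset` manipulations of the definitions
in `LayerDefs.lean` + `StLayerTotal`, `StLayerSupport`, `StIndexDet`, `StHadamardBit` (`PathIface.lean`).
`Nat.card (DiscGroup B) = (colLat B).index` by definition. -/
def StPairLayerBit : Prop :=
  ∀ N m : ℕ, 2 ≤ N → m ≤ N → ∀ B : Matrix (Fin m) (Fin m) ℤ, IsBitMatrix B → B.det ≠ 0 →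
    0 ≤ matJ N B ∧ matJ N B ≤ 1 / 2 ∧ matJ N B ≤ 3 * matW N 2 B ∧
    ((∏ l ∈ (Nat.card (DiscGroup B)).primeFactors, l ^ highExp (DiscGroup B) l : ℕ) : ℝ)
        = (N : ℝ) ^ ((N : ℝ) * matJ N B) ∧
    matT2 N B = ∑ l ∈ (Nat.card (DiscGroup B)).primeFactors, (twoCount (DiscGroup B) l : ℝ) * nu N l ∧
    (∀ l : ℕ, (twoCount (DiscGroup B) l : ℝ) ≤ (N : ℝ) ^ 2) ∧
    (∀ l : ℕ, l.Prime → l ∉ (Nat.card (DiscGroup B)).primeFactors → twoCount (DiscGroup B) l = 0)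

/-! ## B.  The cost of colours (B Lemma 5.4) -/

/-- **Leaf COSTABS** (B Lemma 5.4, abstract form: no groups).  `PF` = the primes dividing `|G_B|`, `k l = b_{l,2} - b_{l,3}`.
Small `l` (`l² ≤ N`): at most `√N` of them, each costs `≤ log₂ (1 + 8 N²)`.  Large `l`: `ν_l > 1/(2N)` and
`log₂ (1 + 8k) ≤ 4k`, so a set of large `l` of weight `< σ` costs `≤ 8 σ N`.
(i): take `Ps ⊆ PF` minimal (cardinality) among the sets containing all small `l` with weight `≥ σ`; if it contains a large `l₀`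
then `Ps \ {l₀}` has weight `< σ`; charge `l₀` by `log₂ (1 + 8 N²)`. -/
def StPairCostAbs : Prop :=
  ∀ ε : ℝ, 0 < ε → ∀ᶠ N : ℕ in atTop, ∀ (PF : Finset ℕ) (k : ℕ → ℕ), (∀ l ∈ PF, 1 ≤ l) →
    (∀ l ∈ PF, (k l : ℝ) ≤ (N : ℝ) ^ 2) →
    (scaleSigma N ≤ ∑ l ∈ PF, (k l : ℝ) * nu N l → ∃ Ps : Finset ℕ, Ps ⊆ PF ∧
        scaleSigma N ≤ ∑ l ∈ Ps, (k l : ℝ) * nu N l ∧
        ∑ l ∈ Ps, Real.logb 2 (1 + 8 * (k l : ℝ)) ≤ ε * N) ∧
    (∑ l ∈ PF, (k l : ℝ) * nu N l < scaleSigma N →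
        ∑ l ∈ PF, Real.logb 2 (1 + 8 * (k l : ℝ)) ≤ ε * N)

/-! ## D.  The graph comparison (B Lemma 5.8) -/

/-- **Leaf CB** (Cauchy-Binet, unordered form; not in Mathlib).
`det (M N) = ∑_f (∏_i M i (f i)) det (N (f i) j)` by multilinearity (`Matrix.detRowAlternating`, `MultilinearMap.map_sum`,
`map_smul_univ`); then average over `f ↦ f ∘ σ`, `σ : Perm (Fin s)` (`Matrix.det_permute`). -/
def StPairCB : Prop :=
  ∀ (s m : ℕ) (Z : Matrix (Fin s) (Fin m) ℝ) (μ : Fin m → ℝ),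
    (s.factorial : ℝ) * (Z * Matrix.diagonal μ * Zᵀ).det
      = ∑ f : Fin s → Fin m, (∏ i, μ (f i)) * ((Z.submatrix id f).det) ^ 2

/-- **Leaf WGRAM** (weighted Gram inequality).  By `StPairCB` for `μ` and for `μ = 1`: only injective `f` contribute, and an
injective `f` meets `bad` in at most `#bad` points. -/
def StPairWGram : Prop :=
  ∀ (s m : ℕ) (Z : Matrix (Fin s) (Fin m) ℝ) (μ : Fin m → ℝ) (a : ℝ) (bad : Finset (Fin m)),
    0 ≤ a → a ≤ 1 → (∀ i, |μ i| ≤ 1) → (∀ i, i ∉ bad → |μ i| ≤ a) →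
      |(Z * Matrix.diagonal μ * Zᵀ).det| ≤ a ^ (s - bad.card) * (Z * Zᵀ).det

/-- **Leaf SPECGRAM** (B (5.17), Gram form).  Spectral theorem for `toR B = U diag(λ) Uᵀ`; `Z' = yᵀ U diag(√(1+λ⁻²))`,
`μ_i = λ_i/(1+λ_i²)`, `bad = {i | |λ_i| ≤ w√N}`; `#bad ≤ ξN` by `SmallSpec` applied to the span of the eigenvectors in `bad`
(see `SpcCount.lean` for `spcCoord`). -/
def StPairSpecGram : Prop :=
  ∀ (w ξ : ℝ) (N m : ℕ) (B : Matrix (Fin m) (Fin m) ℤ), B.IsSymm → B.det ≠ 0 → 0 < w →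
    1 ≤ w * Real.sqrt N → SmallSpec w ξ N m B →
    ∃ t : ℕ, (t : ℝ) ≤ ξ * N ∧ ∀ (s : ℕ) (y : Fin s → Fin m → ℝ),
      |(discGram (toR B)⁻¹ y).det| ≤ ((w * Real.sqrt N)⁻¹) ^ (s - t) *
        (discGram (1 + (toR B)⁻¹ * (toR B)⁻¹) y).det

/-- `x` is a `ℤ`-basis of the lattice generated by the differences of the `0/1` vectors in `V`. -/
structure IsDiffBasis {m r : ℕ} (V : Finset (Fin m → Bool)) (x : Fin r → Fin m → ℤ) : Prop where
  indepR : LinearIndependent ℝ (fun i => zToR (x i))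
  indepZ : LinearIndependent ℤ x
  closure_eq : AddSubgroup.closure (Set.range x) = diffLat {u | ∃ z ∈ V, u = bitVecZ z}

/-- **Leaf SETUP**: every subgroup of `ℤ^m` has a `ℤ`-basis which is `ℝ`-linearly independent.
(`latOfSubgroup Λ ≤ intLat m` is discrete: `lat_of_discrete` / `lat_of_le` in `LatBasic.lean`, `latInt_sub_isLat` in `LatInt.lean`;
pull the lattice basis back to `ℤ^m`.) -/
def StPairSetup : Prop :=
  ∀ (m : ℕ) (Λ : AddSubgroup (Fin m → ℤ)), ∃ (r : ℕ) (x : Fin r → Fin m → ℤ),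
    LinearIndependent ℝ (fun i => zToR (x i)) ∧ LinearIndependent ℤ x ∧
      AddSubgroup.closure (Set.range x) = Λ

/-- **Leaf DIFFSPAN**: translations between the three languages (`Fin m → Bool`, `Fin m → ℤ`, `Fin m → ℝ`). -/
def StPairDiffSpan : Prop :=
  ∀ (m r : ℕ) (V : Finset (Fin m → Bool)) (x : Fin r → Fin m → ℤ), IsDiffBasis V x →
    Submodule.span ℝ (Set.range fun i => zToR (x i))
        = vectorSpan ℝ ((V.image bitVec : Finset (Fin m → ℝ)) : Set (Fin m → ℝ)) ∧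
    V.card ≤ 2 ^ r ∧
    ∀ (d : ℕ) (Φ : (Fin m → ℝ) →ₗ[ℝ] EucM d),
      Submodule.span ℤ {y | ∃ a ∈ V.image bitVec, ∃ b ∈ V.image bitVec, y = Φ a - Φ b}
        = Submodule.span ℤ (Set.range fun i => Φ (zToR (x i)))

/-- **Leaf LATBOUND** (B (5.13)): height of `F₀` and determinant of the graph lattice.
`‖γ(a) - γ(b)‖² ≤ m + 4 L₀² N`;  `⟪γ u, γ v⟫ = u ⬝ᵥ (1 + B⁻¹ B⁻¹) v`;  `lat_det_sq`. -/
def StPairLatBound : Prop :=
  ∀ L0 : ℝ, 1 ≤ L0 → ∃ C : ℝ, 0 < C ∧ ∀ᶠ N : ℕ in atTop, ∀ m : ℕ, m ≤ N →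
    ∀ B : Matrix (Fin m) (Fin m) ℤ, B.IsSymm → B.det ≠ 0 →
    ∀ V : Finset (Fin m → Bool), V.Nonempty → IsRobust ℝ (ell N ^ (-(2 : ℝ))) (V.image bitVec) →
    (∀ z ∈ V, ∑ i, ((toR B)⁻¹.mulVec (bitVec z) i) ^ 2 ≤ L0 ^ 2 * N) →
    ∀ (r : ℕ) (x : Fin r → Fin m → ℤ), IsDiffBasis V x →
      IsRat (Submodule.span ℝ (Set.range fun i => eucMap m (zToR (x i)))) ∧
      height (Submodule.span ℝ (Set.range fun i => eucMap m (zToR (x i)))) ≤ Real.exp (C * N * ell N) ∧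
      (discGram (1 + (toR B)⁻¹ * (toR B)⁻¹) (fun i => zToR (x i))).det ≤ Real.exp (C * N * ell N)

/-- **Leaf RADRANK**: nullity of a restricted form = corank of its Gram matrix in a basis.
(`c ↦ ∑ c_a v_a` identifies `ker Gᵀ` with the radical.) -/
def StPairRadRank : Prop :=
  ∀ (m : ℕ) (C : Matrix (Fin m) (Fin m) ℝ) (κ : Type) [Fintype κ] [DecidableEq κ] (v : κ → Fin m → ℝ),
    LinearIndependent ℝ v →
      finrank ℝ (formRad C (Submodule.span ℝ (Set.range fun a => eucMap m (v a))))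
        + (Matrix.of fun a b => v a ⬝ᵥ C.mulVec (v b)).rank = Fintype.card κ

/-- **Leaf RANKCAST**: the rank of a rational matrix does not change over `ℝ` (`Matrix.exists_rank_normal_form`). -/
def StPairRankCast : Prop :=
  ∀ (r : ℕ) (M : Matrix (Fin r) (Fin r) ℚ), (M.map (Rat.cast : ℚ → ℝ)).rank = M.rank

/-- **Leaf CLASS** (B (5.12)): a largest colour class, then robust extraction with `ρ = ℓ^{-2}`.
Colour vectors `(col l z)_{l ∈ PF}` take at most `∏ (1 + 8 k_l) ≤ 2^{εN/2}` values (`StColorCost` (ii));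
for primes `l ∉ PF`, `col l z ≤ 8 · 0`.  Then `robust_cube_extraction` (loss `2^{ρ m}`, `ρ m ≤ ε N / 2`). -/
def StPairClass : Prop :=
  ∀ ε : ℝ, 0 < ε → ∀ᶠ N : ℕ in atTop, ∀ m : ℕ, m ≤ N → ∀ B : Matrix (Fin m) (Fin m) ℤ,
    IsBitMatrix B → B.det ≠ 0 → matT2 N B < scaleSigma N →
    ∀ col : ℕ → (Fin m → ℤ) → ℕ, IsColoring B col → ∀ S : Finset (Fin m → Bool), S.Nonempty →
    ∃ V : Finset (Fin m → Bool), V ⊆ S ∧ V.Nonempty ∧
      (∀ l : ℕ, l.Prime → ∀ z ∈ V, ∀ z' ∈ V, col l (bitVecZ z) = col l (bitVecZ z')) ∧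
      IsRobust ℝ (ell N ^ (-(2 : ℝ))) (V.image bitVec) ∧
      (S.card : ℝ) ≤ (2 : ℝ) ^ (ε * N) * V.card

/-- **Leaf ARITH** (end of the proof of B Lemma 5.8; real numbers only).  If `s ≤ t` trivial.  Otherwise take logarithms:
`(s - t) (½ log N + log w) ≤ N J log N + C N ℓ`, and `J log N + C ℓ ≤ (2J + ε)(½ log N + log w)` for large `N`, uniformly in
`J ∈ [0,1]`, because `ℓ = log log N = o(log N)`. -/
def StPairArith : Prop :=
  ∀ C : ℝ, 0 < C → ∀ w : ℝ, 0 < w → ∀ ξ : ℝ, 0 < ξ → ∀ ε : ℝ, 0 < ε → ∀ᶠ N : ℕ in atTop,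
    ∀ (J : ℝ) (s t : ℕ), 0 ≤ J → J ≤ 1 → (t : ℝ) ≤ ξ * N →
      1 ≤ (N : ℝ) ^ ((N : ℝ) * J) * (((w * Real.sqrt N)⁻¹) ^ (s - t) * Real.exp (C * N * ell N)) →
      (s : ℝ) ≤ (2 * J + ξ + ε) * N

/-! ## E.  Uniform inverse restriction rank (B Proposition 5.9) -/

/-- **Leaf NULLSTAB**: restricted nullity is `1`-Lipschitz for the rank distance.  For `Z ≤ U`:
`rad(C|_U) ⊓ Z ≤ rad(C|_Z)`, and `rad(C|_Z) → Dual (U/Z)`, `x ↦ xᵀ C ·`, has kernel `≤ rad(C|_U)`.  Apply to `Z = U ⊓ V`. -/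
def StPairNullStab : Prop :=
  ∀ (m : ℕ) (C : Matrix (Fin m) (Fin m) ℝ) (U V : Submodule ℝ (EucM m)),
    finrank ℝ (formRad C U) ≤ finrank ℝ (formRad C V) + rkDist U V

/-- **Leaf PERPDIST**: orthocomplements preserve the rank distance. -/
def StPairPerpDist : Prop :=
  ∀ (m : ℕ) (U V : Submodule ℝ (EucM m)), rkDist Uᗮ Vᗮ = rkDist U V

/-- **Leaf DUALRAD**: `rad(B|_{F^⊥}) = F^⊥ ∩ B⁻¹ F` and `rad(B⁻¹|_F) = F ∩ B F^⊥`; multiplication by `B` is an isomorphism. -/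
def StPairDualRad : Prop :=
  ∀ (m : ℕ) (B : Matrix (Fin m) (Fin m) ℤ), B.IsSymm → B.det ≠ 0 → ∀ F : Submodule ℝ (EucM m),
    finrank ℝ (formRad (toR B)⁻¹ F) = finrank ℝ (formRad (toR B) Fᗮ)

/-- **Leaf CRKBLOCK** (B (3.1) for a principal block with a shift).  Adapt `crk_prb_fixed` / `crk_tail` of `CrkTail.lean`:
`X s = (crkMat s)[I,I] + H s`; union over `I' ⊆ I` with `rank X = #I'`, `det X[I',I'] ≠ 0`; given the bits outside
`Sym2 (I \ I')` the matrix `X` is determined (`crk_eq_of_agree`), hence so are the bits in `Sym2 (I \ I')`. -/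
def StCrkBlock : Prop :=
  ∀ (m : ℕ) (π : Sym2 (Fin m) → ℝ) (b : ℝ), IsProbArray π → (∀ e, π e ≤ b ∧ 1 - π e ≤ b) → 0 ≤ b → b ≤ 1 →
    ∀ (I : Finset (Fin m)) (H : (Sym2 (Fin m) → Bool) → Matrix I I ℝ), (∀ s, (H s).IsSymm) →
    (∀ s s' : Sym2 (Fin m) → Bool, (∀ e, e ∉ I.sym2 → s e = s' e) → H s = H s') → ∀ k : ℕ,
      prb π {s | (crkBlock (crkMat ℝ s) I + H s).rank + k ≤ I.card}
        ≤ 2 ^ I.card * b ^ (Nat.choose (k + 1) 2)

/-- **Leaf COORDBASIS**: a subspace of `ℝ^m` has a basis which is the identity on a suitable set `I` of coordinates.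
(The coordinate functionals span `Dual U`; extract a basis, as in `card_le_two_pow_finrank_vectorSpan` of `RobustExtract.lean`;
the projection `U → ℝ^I` is then an isomorphism.) -/
def StPairCoordBasis : Prop :=
  ∀ (m : ℕ) (U : Submodule ℝ (EucM m)), ∃ (I : Finset (Fin m)) (v : I → Fin m → ℝ),
    LinearIndependent ℝ v ∧ Submodule.span ℝ (Set.range fun a => eucMap m (v a)) = U ∧
      ∀ a b : I, v a (b : Fin m) = if a = b then 1 else 0

/-- **Leaf FIXED** (B (5.18)): nullity tail of the random form on a fixed subspace.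
In the basis of `StPairCoordBasis`: `v_aᵀ B v_b = B_{ab} + H_{ab}`, `H_{ab} = ∑_{(i,j) ∉ I×I} v_a(i) B_{ij} v_b(j)`. -/
def StPairFixed : Prop :=
  ∀ (m : ℕ) (π : Sym2 (Fin m) → ℝ) (b : ℝ), IsProbArray π → (∀ e, π e ≤ b ∧ 1 - π e ≤ b) → 0 ≤ b → b ≤ 1 →
    ∀ (U : Submodule ℝ (EucM m)) (k : ℕ),
      prb π {s | k ≤ finrank ℝ (formRad (toR (bitMat s)) U)} ≤ 2 ^ m * b ^ (Nat.choose (k + 1) 2)

end Claimed.Agent.R293
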