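/-
R293 / CrkBlock.lean  (owner: helper136).  PAIR-CRKBLOCK: corank tail (B (3.1)) for a principal block of the random
symmetric bit matrix, shifted by a symmetric matrix which does not depend on the bits of the block.  Prefix `crkb`.  No sorry.
-/
import Claimed.Agent.R293.PairLeaves

set_option autoImplicit false

namespace Claimed.Agent.R293

open Matrix Finset

variable {m : ℕ}

/-- the set of pairs (in `Fin m`) with both ends in `I \ J`, for `J ⊆ I`. -/
def crkbT (I : Finset (Fin m)) (J : Finset I) : Finset (Sym2 (Fin m)) :=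
  (Jᶜ.sym2).image (Sym2.map (fun a : I => (a : Fin m)))

theorem crkbT_card (I : Finset (Fin m)) (J : Finset I) :
    (crkbT I J).card = Nat.choose (I.card - J.card + 1) 2 := by
  unfold crkbT
  rw [Finset.card_image_of_injective _ (Sym2.map.injective Subtype.val_injective), Finset.card_sym2,
    Finset.card_compl, Fintype.card_coe]

theorem crkbT_mk_mem {I : Finset (Fin m)} {J : Finset I} {a b : I} :
    s((a : Fin m), (b : Fin m)) ∈ crkbT I J ↔ a ∉ J ∧ b ∉ J := by
  unfold crkbT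
  rw [Finset.mem_image]
  constructor
  · rintro ⟨e, he, h⟩
    have h1 : e = s(a, b) := Sym2.map.injective Subtype.val_injective (by rw [h, Sym2.map_mk])
    subst h1
    rw [Finset.mk_mem_sym2_iff] at he
    exact ⟨Finset.mem_compl.1 he.1, Finset.mem_compl.1 he.2⟩
  · rintro ⟨ha, hb⟩
    exact ⟨s(a, b), Finset.mk_mem_sym2_iff.2 ⟨Finset.mem_compl.2 ha, Finset.mem_compl.2 hb⟩, rfl⟩

theorem crkbT_exists {I : Finset (Fin m)} {J : Finset I} {e : Sym2 (Fin m)} (he : e ∈ crkbT I J) :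
    ∃ a b : I, e = s((a : Fin m), (b : Fin m)) := by
  unfold crkbT at he
  obtain ⟨e', -, rfl⟩ := Finset.mem_image.1 he
  induction e' using Sym2.ind with | _ a b =>
  exact ⟨a, b, rfl⟩

theorem crkbT_subset (I : Finset (Fin m)) (J : Finset I) : crkbT I J ⊆ I.sym2 := by
  intro e he
  obtain ⟨a, b, rfl⟩ := crkbT_exists he
  exact Finset.mk_mem_sym2_iff.2 ⟨a.2, b.2⟩

/-- fixed `J ⊆ I`: "rank `= #J` and the block on `J` is invertible" fixes all bits on pairs in `I \ J`. -/
theorem crkb_prb_fixed {π : Sym2 (Fin m) → ℝ} (hπ : IsProbArray π) {b : ℝ}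
    (hb : ∀ e, π e ≤ b ∧ 1 - π e ≤ b) (I : Finset (Fin m))
    (H : (Sym2 (Fin m) → Bool) → Matrix I I ℝ)
    (hH : ∀ s s' : Sym2 (Fin m) → Bool, (∀ e, e ∉ I.sym2 → s e = s' e) → H s = H s')
    (J : Finset I) :
    prb π {s | (crkBlock (crkMat ℝ s) I + H s).rank = J.card ∧
        (crkBlock (crkBlock (crkMat ℝ s) I + H s) J).det ≠ 0} ≤ b ^ (crkbT I J).card := by
  refine pb_prb_le_of_cond hπ (↑(crkbT I J) : Set (Sym2 (Fin m))) _ fun s => ?_
  refine pb_prb_mix_le_pow hπ hb (crkbT I J) _ s ?_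
  intro x x' hx hx' e he
  have hHeq : H (pbMix (↑(crkbT I J) : Set (Sym2 (Fin m))) x s) =
      H (pbMix (↑(crkbT I J) : Set (Sym2 (Fin m))) x' s) := by
    refine hH _ _ fun e he => ?_
    have hnot : e ∉ (↑(crkbT I J) : Set (Sym2 (Fin m))) := fun h => he (crkbT_subset I J h)
    rw [pbMix_of_notMem hnot, pbMix_of_notMem hnot]
  have hagree : ∀ i j : I, (i ∈ J ∨ j ∈ J) →
      (crkBlock (crkMat ℝ (pbMix (↑(crkbT I J) : Set (Sym2 (Fin m))) x s)) I +
          H (pbMix (↑(crkbT I J) : Set (Sym2 (Fin m))) x s)) i j =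
        (crkBlock (crkMat ℝ (pbMix (↑(crkbT I J) : Set (Sym2 (Fin m))) x' s)) I +
          H (pbMix (↑(crkbT I J) : Set (Sym2 (Fin m))) x' s)) i j := by
    intro i j hij
    have hnot : s((i : Fin m), (j : Fin m)) ∉ (↑(crkbT I J) : Set (Sym2 (Fin m))) := by
      intro hmem
      have h1 := crkbT_mk_mem.1 (Finset.mem_coe.1 hmem)
      rcases hij with h | h
      · exact h1.1 h
      · exact h1.2 h
    rw [Matrix.add_apply, Matrix.add_apply, hHeq]
    congr 1
    show crkMat ℝ _ (i : Fin m) (j : Fin m) = crkMat ℝ _ (i : Fin m) (j : Fin m)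
    rw [crkMat_apply, crkMat_apply, pbMix_of_notMem hnot, pbMix_of_notMem hnot]
  have heq := crk_eq_of_agree _ _ J hx.1 hx'.1 hx.2 hagree
  rw [hHeq] at heq
  have heq' := add_right_cancel heq
  obtain ⟨i, j, rfl⟩ := crkbT_exists he
  have h1 : crkMat ℝ (pbMix (↑(crkbT I J) : Set (Sym2 (Fin m))) x s) (i : Fin m) (j : Fin m) =
      crkMat ℝ (pbMix (↑(crkbT I J) : Set (Sym2 (Fin m))) x' s) (i : Fin m) (j : Fin m) :=
    congrFun (congrFun heq' i) j
  have hmem : s((i : Fin m), (j : Fin m)) ∈ (↑(crkbT I J) : Set (Sym2 (Fin m))) := Finset.mem_coe.2 he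
  rw [crkMat_apply, crkMat_apply, pbMix_of_mem hmem, pbMix_of_mem hmem] at h1
  cases hx1 : x s((i : Fin m), (j : Fin m)) <;> cases hx2 : x' s((i : Fin m), (j : Fin m)) <;>
    simp [hx1, hx2] at h1 ⊢

theorem crk_block : StCrkBlock := by
  classical
  intro m π b hπ hb hb0 hb1 I H hsymm hH k
  set t : Finset (Finset I) := univ.filter fun J => J.card + k ≤ I.card with ht
  have hsub : {s | (crkBlock (crkMat ℝ s) I + H s).rank + k ≤ I.card} ⊆
      ⋃ J ∈ t, {s | (crkBlock (crkMat ℝ s) I + H s).rank = J.card ∧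
        (crkBlock (crkBlock (crkMat ℝ s) I + H s) J).det ≠ 0} := by
    intro s hs
    have hS : (crkBlock (crkMat ℝ s) I + H s).IsSymm :=
      Matrix.IsSymm.add ((crkMat_isSymm ℝ s).submatrix _) (hsymm s)
    obtain ⟨J, hJ, hdet⟩ := crk_exists_principal _ hS
    simp only [Set.mem_iUnion]
    refine ⟨J, ?_, hJ.symm, hdet⟩
    rw [ht, Finset.mem_filter]
    exact ⟨Finset.mem_univ _, by rw [hJ]; exact hs⟩
  refine (pb_prb_mono hπ hsub).trans ?_
  refine (pb_prb_biUnion_le_card_mul hπ t _ (c := b ^ (Nat.choose (k + 1) 2)) ?_).trans ?_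
  · intro J hJ
    refine (crkb_prb_fixed hπ hb I H hH J).trans ?_
    refine pow_le_pow_of_le_one hb0 hb1 ?_
    rw [crkbT_card]
    refine Nat.choose_le_choose 2 ?_
    have := (Finset.mem_filter.1 hJ).2
    omega
  · refine mul_le_mul_of_nonneg_right ?_ (pow_nonneg hb0 _)
    have h1 : t.card ≤ (univ : Finset (Finset I)).card := Finset.card_le_card (Finset.filter_subset _ _)
    rw [Finset.card_univ, Fintype.card_finset, Fintype.card_coe] at h1
    exact_mod_cast h1

end Claimed.Agent.R293
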