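/-
R293 / CrkPrime.lean  (owner: helper136).  B Lemma 3.1 (uniform prime corank):
`theorem crk_primeCorank : StPrimeCorank`.
No sorry.
-/
import Claimed.Agent.R293.CrkTail
import Claimed.Agent.R293.Iface

set_option autoImplicit false

namespace Claimed.Agent.R293

open Filter

/-- the asymptotic inequality behind B Lemma 3.1. -/
theorem crk_asymp {b : ℝ} (hb0 : 0 < b) (hb1 : b < 1) (A : ℝ) :
    ∀ᶠ N : ℕ in atTop, ∀ m : ℕ, m ≤ N →
      ((m.factorial : ℝ) + 1) *
        (2 ^ m * b ^ (Nat.choose (⌊(N : ℝ) ^ ((3 : ℝ) / 5)⌋₊ + 1 + 1) 2)) ≤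
          (2 : ℝ) ^ (-(A * N)) := by
  set c : ℝ := -Real.log b with hc
  have hcpos : 0 < c := by rw [hc]; exact neg_pos.2 (Real.log_neg hb0 hb1)
  have hlog2 : 0 < Real.log 2 := Real.log_pos (by norm_num)
  have e1 : ∀ᶠ x : ℝ in atTop, Real.log x ≤ c / 4 * x ^ ((1 : ℝ) / 5) := by
    have h := (isLittleO_log_rpow_atTop (show (0 : ℝ) < 1 / 5 by norm_num)).bound
      (show (0 : ℝ) < c / 4 by positivity)
    filter_upwards [h, eventually_ge_atTop (0 : ℝ)] with x hx hx0
    have h1 : ‖x ^ ((1 : ℝ) / 5)‖ = x ^ ((1 : ℝ) / 5) :=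
      Real.norm_of_nonneg (Real.rpow_nonneg hx0 _)
    rw [h1] at hx
    exact (le_abs_self _).trans hx
  have e2 : ∀ᶠ x : ℝ in atTop, (A + 2) * Real.log 2 ≤ c / 4 * x ^ ((1 : ℝ) / 5) := by
    have h := (tendsto_rpow_atTop (show (0 : ℝ) < 1 / 5 by norm_num)).eventually_ge_atTop
      ((A + 2) * Real.log 2 / (c / 4))
    filter_upwards [h] with x hx
    rw [div_le_iff₀ (by positivity)] at hx
    linarith
  filter_upwards [tendsto_natCast_atTop_atTop.eventually e1,
    tendsto_natCast_atTop_atTop.eventually e2, eventually_ge_atTop 1] with N h1 h2 hN m hm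
  set x : ℝ := (N : ℝ) with hx
  have hx1 : (1 : ℝ) ≤ x := by rw [hx]; exact_mod_cast hN
  have hx0 : 0 < x := by linarith
  set k : ℕ := ⌊x ^ ((3 : ℝ) / 5)⌋₊ + 1 with hk
  have hkx : x ^ ((3 : ℝ) / 5) ≤ (k : ℝ) := by
    rw [hk]; push_cast; exact (Nat.lt_floor_add_one _).le
  -- the exponent
  have hchoose : x * x ^ ((1 : ℝ) / 5) / 2 ≤ (Nat.choose (k + 1) 2 : ℝ) := by
    rw [Nat.cast_choose_two]
    push_cast
    have h3 : x * x ^ ((1 : ℝ) / 5) = x ^ ((3 : ℝ) / 5) * x ^ ((3 : ℝ) / 5) := by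
      rw [← Real.rpow_add hx0, ← Real.rpow_one_add' hx0.le (by norm_num)]
      norm_num
    have h4 : 0 ≤ x ^ ((3 : ℝ) / 5) := Real.rpow_nonneg hx0.le _
    rw [h3]
    nlinarith
  -- the three factors
  have f1 : ((m.factorial : ℝ) + 1) ≤ Real.exp (Real.log 2 + x * Real.log x) := by
    have h5 : (m.factorial : ℝ) ≤ x ^ N := by
      have : m.factorial ≤ N ^ N :=
        (Nat.factorial_le hm).trans (Nat.factorial_le_pow N)
      rw [hx]; exact_mod_cast this
    have h6 : x ^ N = Real.exp (x * Real.log x) := by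
      rw [hx, Real.exp_nat_mul, Real.exp_log (by rw [← hx]; exact hx0)]
    have h7 : (1 : ℝ) ≤ x ^ N := one_le_pow₀ hx1
    rw [Real.exp_add, Real.exp_log (by norm_num), ← h6]
    linarith
  have f2 : (2 : ℝ) ^ m ≤ Real.exp (x * Real.log 2) := by
    rw [hx, Real.exp_nat_mul, Real.exp_log (by norm_num)]
    exact pow_le_pow_right₀ (by norm_num) hm
  have f3 : b ^ (Nat.choose (k + 1) 2) ≤ Real.exp (-(c * (x * x ^ ((1 : ℝ) / 5) / 2))) := by
    have : b ^ (Nat.choose (k + 1) 2) = Real.exp ((Nat.choose (k + 1) 2 : ℝ) * Real.log b) := by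
      rw [Real.exp_nat_mul, Real.exp_log hb0]
    rw [this, Real.exp_le_exp]
    have h8 : Real.log b = -c := by rw [hc]; ring
    rw [h8]
    nlinarith
  have f4 : (2 : ℝ) ^ (-(A * x)) = Real.exp (-(A * x) * Real.log 2) := by
    rw [Real.rpow_def_of_pos (by norm_num)]; ring_nf
  rw [f4]
  calc ((m.factorial : ℝ) + 1) * (2 ^ m * b ^ (Nat.choose (k + 1) 2))
      ≤ Real.exp (Real.log 2 + x * Real.log x) * (Real.exp (x * Real.log 2) *
          Real.exp (-(c * (x * x ^ ((1 : ℝ) / 5) / 2)))) := by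
        gcongr
    _ = Real.exp (Real.log 2 + x * Real.log x + x * Real.log 2
          - c * (x * x ^ ((1 : ℝ) / 5) / 2)) := by
        rw [← Real.exp_add, ← Real.exp_add]; ring_nf
    _ ≤ Real.exp (-(A * x) * Real.log 2) := by
        rw [Real.exp_le_exp]
        have g1 : x * Real.log x ≤ x * (c / 4 * x ^ ((1 : ℝ) / 5)) :=
          mul_le_mul_of_nonneg_left h1 hx0.le
        have g2 : x * ((A + 2) * Real.log 2) ≤ x * (c / 4 * x ^ ((1 : ℝ) / 5)) :=
          mul_le_mul_of_nonneg_left h2 hx0.le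
        have g3 : Real.log 2 ≤ x * Real.log 2 := by nlinarith
        nlinarith

/-- the determinant of a `0/1` matrix of size `m` is at most `m!` in absolute value. -/
theorem crk_abs_det_le {m : ℕ} (s : Sym2 (Fin m) → Bool) : |(bitMat s).det| ≤ (m.factorial : ℤ) := by
  have h := Matrix.det_le (A := bitMat s) (abv := AbsoluteValue.abs) (x := 1) (by
    intro i j
    unfold bitMat
    split_ifs <;> simp)
  simpa using h

/-- a prime modulo which a nonsingular bit matrix has positive corank is at most `m!`. -/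
theorem crk_prime_le {m : ℕ} (s : Sym2 (Fin m) → Bool) (hdet : (bitMat s).det ≠ 0) {q : ℕ}
    (hq : q.Prime) (hrank : ((bitMat s).map (Int.cast : ℤ → ZMod q)).rank < m) :
    q ≤ m.factorial := by
  have : Fact q.Prime := ⟨hq⟩
  have h0 : ((bitMat s).map (Int.cast : ℤ → ZMod q)).det = 0 := by
    by_contra hne
    have hunit : IsUnit ((bitMat s).map (Int.cast : ℤ → ZMod q)) :=
      (Matrix.isUnit_iff_isUnit_det _).2 (isUnit_iff_ne_zero.2 hne)
    have := Matrix.rank_of_isUnit _ hunit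
    rw [Fintype.card_fin] at this
    omega
  have h1 : (((bitMat s).det : ℤ) : ZMod q) = 0 := by
    rw [← h0]
    exact (Int.castRingHom (ZMod q)).map_det (bitMat s)
  have h2 : (q : ℤ) ∣ (bitMat s).det := (ZMod.intCast_zmod_eq_zero_iff_dvd _ q).1 h1
  have h3 : (q : ℤ) ≤ |(bitMat s).det| :=
    Int.le_of_dvd (abs_pos.2 hdet) ((dvd_abs _ _).2 h2)
  exact_mod_cast h3.trans (crk_abs_det_le s)

/-- **B Lemma 3.1 (uniform prime corank).** -/
theorem crk_primeCorank : StPrimeCorank := by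
  intro p hp0 hp1 A
  have hb0 : (0 : ℝ) < 1 - p := by linarith
  have hb1 : (1 : ℝ) - p < 1 := by linarith
  filter_upwards [crk_asymp hb0 hb1 A] with N hN m hm π hπ
  have hprob : IsProbArray π := pb_bitModel_isProbArray hp0.le (by linarith) hπ
  have hatom := pb_bitModel_atom_le hp1 hπ
  set k : ℕ := ⌊(N : ℝ) ^ ((3 : ℝ) / 5)⌋₊ + 1 with hk
  set t : Finset ℕ := (Finset.range (m.factorial + 1)).filter Nat.Prime with ht
  have hsub : {s : Sym2 (Fin m) → Bool | (bitMat s).det ≠ 0 ∧ ¬ ∀ q : ℕ, q.Prime →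
      (m : ℝ) - (((bitMat s).map (Int.cast : ℤ → ZMod q)).rank : ℝ) ≤ (N : ℝ) ^ ((3 : ℝ) / 5)} ⊆
      ⋃ q ∈ t, {s | ((bitMat s).map (Int.cast : ℤ → ZMod q)).rank + k ≤ m} := by
    rintro s ⟨hdet, hbad⟩
    push Not at hbad
    obtain ⟨q, hq, hlt⟩ := hbad
    have hpos : (0 : ℝ) ≤ (N : ℝ) ^ ((3 : ℝ) / 5) := Real.rpow_nonneg (Nat.cast_nonneg N) _
    set r : ℕ := ((bitMat s).map (Int.cast : ℤ → ZMod q)).rank with hr
    have hrm : r < m := by
      have : (r : ℝ) < m := by linarith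
      exact_mod_cast this
    have hfl : ⌊(N : ℝ) ^ ((3 : ℝ) / 5)⌋₊ < m - r := by
      rw [Nat.floor_lt hpos, Nat.cast_sub hrm.le]
      exact hlt
    simp only [Set.mem_iUnion]
    refine ⟨q, ?_, ?_⟩
    · rw [ht, Finset.mem_filter, Finset.mem_range]
      exact ⟨Nat.lt_succ_of_le (crk_prime_le s hdet hq hrm), hq⟩
    · show r + k ≤ m
      omega
  refine (pb_prb_mono hprob hsub).trans ?_
  refine (pb_prb_biUnion_le_card_mul hprob t _
    (c := 2 ^ m * (1 - p) ^ (Nat.choose (k + 1) 2)) ?_).trans ?_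
  · intro q hq
    have : Fact q.Prime := ⟨(Finset.mem_filter.1 hq).2⟩
    have h := crk_tail (ι := Fin m) (ZMod q) hprob hatom hb0.le hb1.le k
    rw [Fintype.card_fin] at h
    exact h
  · refine le_trans ?_ (hN m hm.2)
    refine mul_le_mul_of_nonneg_right ?_ (by positivity)
    have h1 : t.card ≤ m.factorial + 1 := by
      refine (Finset.card_filter_le _ _).trans ?_
      rw [Finset.card_range]
    exact_mod_cast h1

end Claimed.Agent.R293
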