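/-
R293 / DiscStmts.lean  (owner: helper256).  Package DISC: definitions and LEAF STATEMENTS (`def StDisc… : Prop`) for the proof of
`StColoring` (PairIface.lean) = paper A Lemmas 6.1-6.3 = paper B Lemmas 5.2, 5.3.   No sorry.
The glue  `disc_coloring : (leaves) → StColoring`  is in `DiscMain.lean`.

DESIGN (no structure theorem, no orthogonal decomposition).  `Z = ℤ^m`, `Λ = B ℤ^m`, `G = Z/Λ`, `f = invForm B`.
For a prime `l` put `h = discH G l = #{j : k_G(l,j) ≥ 3}`, `c = discC G l = (prime-to-l part of |G|) · l^h`,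
`R = discTor Λ c = {x : c x ∈ Λ}` = radical of `c f` modulo `ℤ`.  `Z/R ≅ cG` is an `l`-group with at most two generators.
In coordinates w.r.t. two generators, `l^N c f` is an integral binary form and the colouring is the arithmetic statement
`DiscGoodForm`.  KEY PROPERTY of the colouring: isotropic `z, z'` of the same colour at `l` satisfy `c f(z,z') ∈ ℤ`.
`img` and `sub` of `IsColoring` follow from the key property by counting.
-/
import Claimed.Agent.R293.DiscIface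
import Claimed.Agent.R293.PathIface

set_option autoImplicit false

namespace Claimed.Agent.R293

open scoped BigOperators

/-! ## Definitions -/

/-- number of layers of height at least three at `l`  (`= b_{l,3}`). -/
noncomputable def discH (G : Type*) [AddCommGroup G] (l : ℕ) : ℕ :=
  ((Finset.Icc 1 (Nat.log 2 (Nat.card G))).filter (fun j => 3 ≤ layer G l j)).card

/-- `c_l = (prime-to-l part of |G|) · l^{b_{l,3}}`. -/
noncomputable def discC (G : Type*) [AddCommGroup G] (l : ℕ) : ℕ :=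
  ordCompl[l] (Nat.card G) * l ^ discH G l

/-- `{x : c x ∈ Λ}`. -/
def discTor {Z : Type*} [AddCommGroup Z] (Λ : AddSubgroup Z) (c : ℕ) : AddSubgroup Z :=
  Λ.comap (nsmulAddMonoidHom (α := Z) c)

/-- The binary form `a X X' + b (X Y' + X' Y) + c Y Y'` modulo `l^n` is *good*: there are `k` and a colouring of `ℤ²` with
colours `≤ 8 k` such that (1) the radical modulo `l^n` lies in `l^k ℤ²`, (2) isotropic vectors of the same colour are orthogonal. -/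
def DiscGoodForm (l n : ℕ) (a b c : ℤ) : Prop :=
  ∃ (k : ℕ) (col : ℤ → ℤ → ℕ), (∀ X Y, col X Y ≤ 8 * k) ∧
    (∀ X Y : ℤ, (l : ℤ) ^ n ∣ a * X + b * Y → (l : ℤ) ^ n ∣ b * X + c * Y →
      (l : ℤ) ^ k ∣ X ∧ (l : ℤ) ^ k ∣ Y) ∧
    (∀ X Y X' Y' : ℤ, (l : ℤ) ^ n ∣ a * X * X + 2 * b * X * Y + c * Y * Y →
      (l : ℤ) ^ n ∣ a * X' * X' + 2 * b * X' * Y' + c * Y' * Y' → col X Y = col X' Y' →
      (l : ℤ) ^ n ∣ a * X * X' + b * (X * Y' + X' * Y) + c * Y * Y')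

/-! ## Leaves: the pairing -/

/-- **DISC-PB**: `invForm B` is symmetric and its radical modulo `ℤ` is the column lattice. -/
def StDiscPairBasic : Prop :=
  ∀ (m : ℕ) (B : Matrix (Fin m) (Fin m) ℤ), B.IsSymm → B.det ≠ 0 →
    (∀ x y, invForm B x y = invForm B y x) ∧
    (∀ x, x ∈ colLat B ↔ ∀ y, IsInt (invForm B x y))

/-! ## Leaves: abstract abelian groups -/

/-- **DISC-NAK** (Nakayama, two generators). -/
def StDiscNak : Prop :=
  ∀ (Z : Type) [AddCommGroup Z] (R : AddSubgroup Z) (l N : ℕ), l.Prime → (∀ z : Z, l ^ N • z ∈ R) →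
    (R ⊔ mulSub Z l).index ≠ 0 → (R ⊔ mulSub Z l).index ≤ l ^ 2 →
    ∃ g₁ g₂ : Z, ∀ z : Z, ∃ X Y : ℤ, z - (X • g₁ + Y • g₂) ∈ R

/-- **DISC-IDX**: `[Z : R_c + l^k Z] = |cG / c l^k G| = l^{F(h+k) - F(h)}` for `c = (prime-to-l part of |G|) · l^h`. -/
def StDiscIdx : Prop :=
  ∀ (Z : Type) [AddCommGroup Z] (Λ : AddSubgroup Z) [Finite (Z ⧸ Λ)] (l : ℕ), l.Prime → ∀ h k : ℕ,
    (discTor Λ (ordCompl[l] (Nat.card (Z ⧸ Λ)) * l ^ h) ⊔ mulSub Z (l ^ k)).index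
      = l ^ (prefixLog (Z ⧸ Λ) l (h + k) - prefixLog (Z ⧸ Λ) l h)

/-- **DISC-CNT**: if `X g₁ + Y g₂ ∈ S` forces `q ∣ X, Y` then `[Z : S] ≥ q²`. -/
def StDiscCount : Prop :=
  ∀ (Z : Type) [AddCommGroup Z] (S : AddSubgroup Z) (g₁ g₂ : Z) (q : ℕ), S.index ≠ 0 →
    (∀ X Y : ℤ, X • g₁ + Y • g₂ ∈ S → (q : ℤ) ∣ X ∧ (q : ℤ) ∣ Y) → q ^ 2 ≤ S.index

/-- **DISC-DUAL** (`|Hom(Z/K, ℚ/ℤ)| ≤ |Z/K|`): if `φ` is integral on `K × K` and `R ≤ K` contains every `x ∈ K` with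
`φ(x, Z) ⊆ ℤ`, then `[K : R] ≤ [Z : K]`. -/
def StDiscDual : Prop :=
  ∀ (Z : Type) [AddCommGroup Z] (φ : Z →+ Z →+ ℚ) (K R : AddSubgroup Z), K.index ≠ 0 → R ≤ K →
    (∀ x ∈ K, (∀ y, IsInt (φ x y)) → x ∈ R) → (∀ x ∈ K, ∀ y ∈ K, IsInt (φ x y)) →
    R.relIndex K ≤ K.index

/-- **DISC-QUOT** (`|H/nH| ≤ |G/nG|` for `H ≤ G` finite abelian), in the lattice model. -/
def StDiscQuot : Prop :=
  ∀ (Z : Type) [AddCommGroup Z] (Λ : AddSubgroup Z) [Finite (Z ⧸ Λ)] (n : ℕ) (L P : AddSubgroup Z), P ≤ L →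
    (∀ u ∈ L, n • u ∈ P) → (∀ u ∈ L, u ∈ Λ → u ∈ P) →
    P.relIndex L ≠ 0 ∧ P.relIndex L ≤ Nat.card ((Z ⧸ Λ) ⧸ mulSub (Z ⧸ Λ) n)

/-- **DISC-CRT**: `|G / (∏ l^{h_l}) G| = ∏ l^{F_G(l,h_l)}`. -/
def StDiscCrt : Prop :=
  ∀ (G : Type) [AddCommGroup G] [Finite G] (h : ℕ → ℕ),
    Nat.card (G ⧸ mulSub G (∏ l ∈ (Nat.card G).primeFactors, l ^ h l))
      = ∏ l ∈ (Nat.card G).primeFactors, l ^ prefixLog G l (h l)

/-- **DISC-LC**: combinatorics of the layers (from antitonicity, support, `F(t) = ∑_{j ≤ t} k(j)`). -/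
def StDiscLayer : Prop :=
  ∀ (G : Type) [AddCommGroup G] [Finite G] (l : ℕ), l.Prime →
    layer G l (discH G l + 1) ≤ 2 ∧
    highExp G l = prefixLog G l (discH G l) ∧
    prefixLog G l (discH G l + twoCount G l) - prefixLog G l (discH G l) = 2 * twoCount G l ∧
    ∀ k, 2 * k ≤ prefixLog G l (discH G l + k) - prefixLog G l (discH G l) → k ≤ twoCount G l

/-! ## Leaves: arithmetic -/

/-- **DISC-GCD**: the denominators.  `gcd_l (n_{l'} l^{h_l}) = ∏ l^{h_l}`. -/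
def StDiscGcd : Prop :=
  ∀ n : ℕ, n ≠ 0 → ∀ (h : ℕ → ℕ) (q : ℚ), IsInt ((n : ℚ) * q) →
    (∀ l, l.Prime → l ∣ n → IsInt (((ordCompl[l] n * l ^ h l : ℕ) : ℚ) * q)) →
    IsInt (((∏ l ∈ n.primeFactors, l ^ h l : ℕ) : ℚ) * q)

/-- **DISC-AR-D**: diagonal forms `a₁ X X' + l^d a₂ Y Y'`, `a₁, a₂` units  (take `k = n - d`). -/
def StDiscArithDiag : Prop :=
  ∀ (l n d : ℕ) (a₁ a₂ : ℤ), l.Prime → d ≤ n → ¬ (l : ℤ) ∣ a₁ → ¬ (l : ℤ) ∣ a₂ →
    DiscGoodForm l n a₁ 0 ((l : ℤ) ^ d * a₂)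

/-- **DISC-AR-E**: the even forms at `l = 2`: `2a X X' + b (X Y' + X' Y) + 2c Y Y'`, `b` odd  (take `k = n`). -/
def StDiscArithEven : Prop :=
  ∀ (n : ℕ) (a b c : ℤ), Odd b → DiscGoodForm 2 n (2 * a) b (2 * c)

/-- **DISC-AR**: every integral binary form is good at every prime power. -/
def StDiscArith : Prop :=
  ∀ (l n : ℕ) (a b c : ℤ), l.Prime → DiscGoodForm l n a b c

/-- **DISC-AR-R**: reduction to the normal forms. -/
def StDiscArithRed : Prop := StDiscArithDiag → StDiscArithEven → StDiscArith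

/-! ## The key property -/

/-- colouring at one prime: isotropic vectors of the same colour are orthogonal for `c_l f` modulo `ℤ`. -/
def StDiscPrime : Prop :=
  ∀ (m : ℕ) (B : Matrix (Fin m) (Fin m) ℤ), B.IsSymm → B.det ≠ 0 → ∀ l : ℕ, l.Prime →
    ∃ col : (Fin m → ℤ) → ℕ, (∀ z, col z ≤ 8 * twoCount (DiscGroup B) l) ∧
      ∀ z z', IsInt (invForm B z z) → IsInt (invForm B z' z') → col z = col z' →
        IsInt (invForm B (discC (DiscGroup B) l • z) z')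

end Claimed.Agent.R293
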