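/-
R293 / DiscArithCore.lean  (owner: helper225).  Package DISC, common tools of the leaves DISC-AR-D / DISC-AR-E
(colourings of the isotropic vectors of binary forms modulo `l^n`).  Prefix `discac`.  No sorry.

* `DiscacCol l n a b c K`: the isotropic vectors mod `l^n` can be coloured with colours `≤ K` such that vectors of
  the same colour are orthogonal mod `l^n`.
* `DiscacPrim l n a b c`: the same for the primitive isotropic vectors, with colours `≤ 7`.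
* `discac_descent`: `Col (n-2) K → Prim n → Col n (K+8)`  (a vector divisible by `l` is `l` times a vector which is isotropic mod `l^(n-2)`).
* `discac_gram`: isotropic vectors with `l^n ∣ X Y' - X' Y` are orthogonal (Gram identity).
* `discac_trans`, `discac_trans2`: transitivity of `l^n ∣ X Y' - X' Y` through a primitive reference vector.
-/
import Claimed.Agent.R293.DiscStmts

set_option autoImplicit false

namespace Claimed.Agent.R293

/-- colourings of the isotropic vectors modulo `l^n` with colours `≤ K`. -/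
def DiscacCol (l n : ℕ) (a b c : ℤ) (K : ℕ) : Prop :=
  ∃ col : ℤ → ℤ → ℕ, (∀ X Y, col X Y ≤ K) ∧
    ∀ X Y X' Y' : ℤ, (l : ℤ) ^ n ∣ a * X * X + 2 * b * X * Y + c * Y * Y →
      (l : ℤ) ^ n ∣ a * X' * X' + 2 * b * X' * Y' + c * Y' * Y' → col X Y = col X' Y' →
      (l : ℤ) ^ n ∣ a * X * X' + b * (X * Y' + X' * Y) + c * Y * Y'

/-- colourings of the primitive isotropic vectors modulo `l^n` with colours `≤ 7`. -/
def DiscacPrim (l n : ℕ) (a b c : ℤ) : Prop :=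
  ∃ pc : ℤ → ℤ → ℕ, (∀ X Y, pc X Y ≤ 7) ∧
    ∀ X Y X' Y' : ℤ, ¬ ((l : ℤ) ∣ X ∧ (l : ℤ) ∣ Y) → ¬ ((l : ℤ) ∣ X' ∧ (l : ℤ) ∣ Y') →
      (l : ℤ) ^ n ∣ a * X * X + 2 * b * X * Y + c * Y * Y →
      (l : ℤ) ^ n ∣ a * X' * X' + 2 * b * X' * Y' + c * Y' * Y' → pc X Y = pc X' Y' →
      (l : ℤ) ^ n ∣ a * X * X' + b * (X * Y' + X' * Y) + c * Y * Y'

theorem discac_col_mono {l n : ℕ} {a b c : ℤ} {K K' : ℕ} (h : DiscacCol l n a b c K) (hK : K ≤ K') :
    DiscacCol l n a b c K' := by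
  obtain ⟨col, h1, h2⟩ := h
  exact ⟨col, fun X Y => (h1 X Y).trans hK, h2⟩

theorem discac_col_zero (l : ℕ) (a b c : ℤ) (K : ℕ) : DiscacCol l 0 a b c K :=
  ⟨fun _ _ => 0, fun _ _ => Nat.zero_le _, fun _ _ _ _ _ _ _ => by simp⟩

theorem discac_prim_zero (l : ℕ) (a b c : ℤ) : DiscacPrim l 0 a b c :=
  ⟨fun _ _ => 0, fun _ _ => Nat.zero_le _, fun _ _ _ _ _ _ _ _ _ => by simp⟩

theorem discac_dvd_of_sq_mul {l : ℤ} (hl : l ≠ 0) {n : ℕ} {z : ℤ} (h : l ^ n ∣ l ^ 2 * z) :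
    l ^ (n - 2) ∣ z := by
  by_cases hn : 2 ≤ n
  · have h1 : l ^ n = l ^ 2 * l ^ (n - 2) := by rw [← pow_add]; congr 1; omega
    rw [h1] at h
    exact (mul_dvd_mul_iff_left (pow_ne_zero 2 hl)).1 h
  · have : n - 2 = 0 := by omega
    rw [this]; simp

theorem discac_sq_mul_dvd {l : ℤ} {n : ℕ} {z : ℤ} (h : l ^ (n - 2) ∣ z) : l ^ n ∣ l ^ 2 * z := by
  have h1 : l ^ n ∣ l ^ 2 * l ^ (n - 2) := by
    rw [← pow_add]; exact pow_dvd_pow l (by omega)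
  exact h1.trans (mul_dvd_mul_left _ h)

/-- **Descent**: vectors divisible by `l` are treated modulo `l^(n-2)`. -/
theorem discac_descent {l n : ℕ} (hl : l ≠ 0) {a b c : ℤ} {K : ℕ} (h : DiscacCol l (n - 2) a b c K)
    (hp : DiscacPrim l n a b c) : DiscacCol l n a b c (K + 8) := by
  classical
  obtain ⟨col', h1, h2⟩ := h
  obtain ⟨pc, h3, h4⟩ := hp
  have hl' : (l : ℤ) ≠ 0 := by exact_mod_cast hl
  refine ⟨fun X Y => if (l : ℤ) ∣ X ∧ (l : ℤ) ∣ Y then col' (X / l) (Y / l) else K + 1 + pc X Y,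
    fun X Y => ?_, fun X Y X' Y' hq hq' hc => ?_⟩
  · dsimp only
    split_ifs
    · exact (h1 _ _).trans (Nat.le_add_right _ _)
    · have := h3 X Y; omega
  · dsimp only at hc
    by_cases hu : (l : ℤ) ∣ X ∧ (l : ℤ) ∣ Y <;> by_cases hu' : (l : ℤ) ∣ X' ∧ (l : ℤ) ∣ Y'
    · rw [if_pos hu, if_pos hu'] at hc
      obtain ⟨⟨x, rfl⟩, ⟨y, rfl⟩⟩ := hu
      obtain ⟨⟨x', rfl⟩, ⟨y', rfl⟩⟩ := hu'
      simp only [Int.mul_ediv_cancel_left _ hl'] at hc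
      have e1 : a * (l * x) * (l * x) + 2 * b * (l * x) * (l * y) + c * (l * y) * (l * y)
          = (l : ℤ) ^ 2 * (a * x * x + 2 * b * x * y + c * y * y) := by ring
      have e2 : a * (l * x') * (l * x') + 2 * b * (l * x') * (l * y') + c * (l * y') * (l * y')
          = (l : ℤ) ^ 2 * (a * x' * x' + 2 * b * x' * y' + c * y' * y') := by ring
      have e3 : a * (l * x) * (l * x') + b * (l * x * (l * y') + l * x' * (l * y)) + c * (l * y) * (l * y')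
          = (l : ℤ) ^ 2 * (a * x * x' + b * (x * y' + x' * y) + c * y * y') := by ring
      rw [e1] at hq
      rw [e2] at hq'
      rw [e3]
      exact discac_sq_mul_dvd (h2 x y x' y' (discac_dvd_of_sq_mul hl' hq) (discac_dvd_of_sq_mul hl' hq') hc)
    · rw [if_pos hu, if_neg hu'] at hc
      have := h1 (X / l) (Y / l); omega
    · rw [if_neg hu, if_pos hu'] at hc
      have := h1 (X' / l) (Y' / l); omega
    · rw [if_neg hu, if_neg hu'] at hc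
      exact h4 X Y X' Y' hu hu' hq hq' (by omega)

/-- **Gram identity**: isotropic vectors with `M ∣ X Y' - X' Y` are orthogonal. -/
theorem discac_gram {M a b c X Y X' Y' : ℤ} (hq : M ∣ a * X * X + 2 * b * X * Y + c * Y * Y)
    (hq' : M ∣ a * X' * X' + 2 * b * X' * Y' + c * Y' * Y') (hQ : M ∣ X * Y' - X' * Y) :
    M ∣ a * X * X' + b * (X * Y' + X' * Y) + c * Y * Y' := by
  have e : (a * X * X' + b * (X * Y' + X' * Y) + c * Y * Y') ^ 2
      = (a * X * X + 2 * b * X * Y + c * Y * Y) * (a * X' * X' + 2 * b * X' * Y' + c * Y' * Y')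
        - (a * c - b ^ 2) * ((X * Y' - X' * Y) * (X * Y' - X' * Y)) := by ring
  have h1 : M ^ 2 ∣ (a * X * X' + b * (X * Y' + X' * Y) + c * Y * Y') ^ 2 := by
    rw [e, sq]
    exact dvd_sub (mul_dvd_mul hq hq') (Dvd.dvd.mul_left (mul_dvd_mul hQ hQ) _)
  exact (Int.pow_dvd_pow_iff two_ne_zero).1 h1

theorem discac_coprime_pow {l : ℕ} (hl : l.Prime) (n : ℕ) {x : ℤ} (hx : ¬ (l : ℤ) ∣ x) :
    IsCoprime ((l : ℤ) ^ n) x :=
  (((Nat.prime_iff_prime_int.1 hl).coprime_iff_not_dvd).2 hx).pow_left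

/-- transitivity through a primitive reference vector `(Xs, Ys)`. -/
theorem discac_trans {l : ℕ} (hl : l.Prime) (n : ℕ) {X Y X' Y' Xs Ys : ℤ}
    (hs : ¬ ((l : ℤ) ∣ Xs ∧ (l : ℤ) ∣ Ys)) (h1 : (l : ℤ) ^ n ∣ X * Ys - Xs * Y)
    (h2 : (l : ℤ) ^ n ∣ X' * Ys - Xs * Y') : (l : ℤ) ^ n ∣ X * Y' - X' * Y := by
  have eY : Ys * (X * Y' - X' * Y) = Y' * (X * Ys - Xs * Y) - Y * (X' * Ys - Xs * Y') := by ring
  have eX : Xs * (X * Y' - X' * Y) = X' * (X * Ys - Xs * Y) - X * (X' * Ys - Xs * Y') := by ring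
  by_cases hX : (l : ℤ) ∣ Xs
  · have hY : ¬ (l : ℤ) ∣ Ys := fun h => hs ⟨hX, h⟩
    refine (discac_coprime_pow hl n hY).dvd_of_dvd_mul_left ?_
    rw [eY]
    exact dvd_sub (Dvd.dvd.mul_left h1 _) (Dvd.dvd.mul_left h2 _)
  · refine (discac_coprime_pow hl n hX).dvd_of_dvd_mul_left ?_
    rw [eX]
    exact dvd_sub (Dvd.dvd.mul_left h1 _) (Dvd.dvd.mul_left h2 _)

/-- the half-step at `l = 2`. -/
theorem discac_trans2 (m : ℕ) {X Y X' Y' Xs Ys : ℤ}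
    (hs : ¬ ((2 : ℤ) ∣ Xs ∧ (2 : ℤ) ∣ Ys)) (hX : (2 : ℤ) ∣ X ↔ (2 : ℤ) ∣ X') (hY : (2 : ℤ) ∣ Y ↔ (2 : ℤ) ∣ Y')
    (h1 : (2 : ℤ) ^ m ∣ X * Ys - Xs * Y) (h2 : (2 : ℤ) ^ m ∣ X' * Ys - Xs * Y')
    (h12 : (2 : ℤ) ^ (m + 1) ∣ X * Ys - Xs * Y ↔ (2 : ℤ) ^ (m + 1) ∣ X' * Ys - Xs * Y') :
    (2 : ℤ) ^ (m + 1) ∣ X * Y' - X' * Y := by
  obtain ⟨o₁, ho₁⟩ := h1
  obtain ⟨o₂, ho₂⟩ := h2
  have hpow : (2 : ℤ) ^ m ≠ 0 := pow_ne_zero m two_ne_zero
  have ho : (2 : ℤ) ∣ o₁ ↔ (2 : ℤ) ∣ o₂ := by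
    rw [ho₁, ho₂, pow_succ, mul_dvd_mul_iff_left hpow, mul_dvd_mul_iff_left hpow] at h12
    exact h12
  have eY : Ys * (X * Y' - X' * Y) = 2 ^ m * (Y' * o₁ - Y * o₂) := by
    have : Ys * (X * Y' - X' * Y) = Y' * (X * Ys - Xs * Y) - Y * (X' * Ys - Xs * Y') := by ring
    rw [this, ho₁, ho₂]; ring
  have eX : Xs * (X * Y' - X' * Y) = 2 ^ m * (X' * o₁ - X * o₂) := by
    have : Xs * (X * Y' - X' * Y) = X' * (X * Ys - Xs * Y) - X * (X' * Ys - Xs * Y') := by ring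
    rw [this, ho₁, ho₂]; ring
  have par : ∀ u u' : ℤ, ((2 : ℤ) ∣ u ↔ (2 : ℤ) ∣ u') → (2 : ℤ) ∣ u' * o₁ - u * o₂ := by
    intro u u' huu
    simp only [← even_iff_two_dvd] at huu ho ⊢
    rw [Int.even_sub, Int.even_mul, Int.even_mul]
    tauto
  have hc : ∀ x : ℤ, ¬ (2 : ℤ) ∣ x → IsCoprime ((2 : ℤ) ^ (m + 1)) x := fun x hx => by
    have := discac_coprime_pow Nat.prime_two (m + 1) (x := x) (by simpa using hx)
    simpa using this
  by_cases hXs : (2 : ℤ) ∣ Xs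
  · have hYs : ¬ (2 : ℤ) ∣ Ys := fun h => hs ⟨hXs, h⟩
    refine (hc _ hYs).dvd_of_dvd_mul_left ?_
    rw [eY, pow_succ]
    exact mul_dvd_mul_left _ (par Y Y' hY)
  · refine (hc _ hXs).dvd_of_dvd_mul_left ?_
    rw [eX, pow_succ]
    exact mul_dvd_mul_left _ (par X X' hX)

/-- encoding of three bits. -/
def discacEnc (p : Bool × Bool × Bool) : ℕ := p.1.toNat + 2 * p.2.1.toNat + 4 * p.2.2.toNat

theorem discacEnc_le (p : Bool × Bool × Bool) : discacEnc p ≤ 7 := by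
  revert p; decide

theorem discacEnc_inj : ∀ p p' : Bool × Bool × Bool, discacEnc p = discacEnc p' → p = p' := by
  decide

end Claimed.Agent.R293
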