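/-
R293 / DiscArithDiag.lean  (owner: helper225).  Package DISC, leaf DISC-AR-D: diagonal binary forms
`a₁ X X' + l^d a₂ Y Y'` modulo `l^n`, `disc_arithDiag : StDiscArithDiag`.  Prefix `discad`.  No sorry.

* `d = 0`: primitive isotropic vectors have unit coordinates and `l^n ∣ Q Q⁺`, `Q = X Y* - X* Y`, `Q⁺ = X Y* + X* Y` for a
  reference vector `(X*,Y*)`; odd `l`: `l^n ∣ Q` or `l^n ∣ Q⁺`; `l = 2`: `2^(n-1) ∣ Q` or `2^(n-1) ∣ Q⁺`, one more bit.
* `d = 1`: no primitive isotropic vector modulo `l^n`, `n ≥ 2`.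
* `d + 2`: `l ∣ X`, substitute `X = l X₁`: the form `(a₁, l^d a₂)` modulo `l^(n-2)`.
-/
import Claimed.Agent.R293.DiscArithCore

set_option autoImplicit false

namespace Claimed.Agent.R293

theorem discad_units {l : ℕ} (hl : l.Prime) {a₁ a₂ : ℤ} (h1 : ¬ (l : ℤ) ∣ a₁) (h2 : ¬ (l : ℤ) ∣ a₂)
    (m : ℕ) {X Y : ℤ} (hu : ¬ ((l : ℤ) ∣ X ∧ (l : ℤ) ∣ Y))
    (hq : (l : ℤ) ^ (m + 1) ∣ a₁ * X * X + 2 * 0 * X * Y + a₂ * Y * Y) :
    ¬ (l : ℤ) ∣ X ∧ ¬ (l : ℤ) ∣ Y := by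
  have hp : Prime (l : ℤ) := Nat.prime_iff_prime_int.1 hl
  have hq1 : (l : ℤ) ∣ a₁ * X * X + 2 * 0 * X * Y + a₂ * Y * Y :=
    (dvd_pow_self _ (Nat.succ_ne_zero m)).trans hq
  constructor
  · intro hX
    apply hu
    refine ⟨hX, ?_⟩
    have e : a₂ * Y * Y = (a₁ * X * X + 2 * 0 * X * Y + a₂ * Y * Y) - a₁ * X * X := by ring
    have h3 : (l : ℤ) ∣ a₂ * Y * Y := by
      rw [e]; exact dvd_sub hq1 (Dvd.dvd.mul_left hX _)
    rcases hp.dvd_or_dvd h3 with h4 | h4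
    · rcases hp.dvd_or_dvd h4 with h5 | h5
      · exact absurd h5 h2
      · exact h5
    · exact h4
  · intro hY
    apply hu
    refine ⟨?_, hY⟩
    have e : a₁ * X * X = (a₁ * X * X + 2 * 0 * X * Y + a₂ * Y * Y) - a₂ * Y * Y := by ring
    have h3 : (l : ℤ) ∣ a₁ * X * X := by
      rw [e]; exact dvd_sub hq1 (Dvd.dvd.mul_left hY _)
    rcases hp.dvd_or_dvd h3 with h4 | h4
    · rcases hp.dvd_or_dvd h4 with h5 | h5
      · exact absurd h5 h1
      · exact h5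
    · exact h4

theorem discad_prod {l : ℕ} (hl : l.Prime) {a₁ a₂ : ℤ} (h1 : ¬ (l : ℤ) ∣ a₁) (n : ℕ) {X Y Xs Ys : ℤ}
    (hq : (l : ℤ) ^ n ∣ a₁ * X * X + 2 * 0 * X * Y + a₂ * Y * Y)
    (hqs : (l : ℤ) ^ n ∣ a₁ * Xs * Xs + 2 * 0 * Xs * Ys + a₂ * Ys * Ys) :
    (l : ℤ) ^ n ∣ (X * Ys - Xs * Y) * (X * Ys + Xs * Y) := by
  refine (discac_coprime_pow hl n h1).dvd_of_dvd_mul_left ?_
  have e : a₁ * ((X * Ys - Xs * Y) * (X * Ys + Xs * Y))
      = Ys * Ys * (a₁ * X * X + 2 * 0 * X * Y + a₂ * Y * Y)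
        - Y * Y * (a₁ * Xs * Xs + 2 * 0 * Xs * Ys + a₂ * Ys * Ys) := by ring
  rw [e]
  exact dvd_sub (Dvd.dvd.mul_left hq _) (Dvd.dvd.mul_left hqs _)

theorem discad_prim_odd {l : ℕ} (hl : l.Prime) (hodd : l ≠ 2) {a₁ a₂ : ℤ} (h1 : ¬ (l : ℤ) ∣ a₁)
    (h2 : ¬ (l : ℤ) ∣ a₂) (n : ℕ) : DiscacPrim l n a₁ 0 a₂ := by
  classical
  have hp : Prime (l : ℤ) := Nat.prime_iff_prime_int.1 hl
  cases n with
  | zero => exact discac_prim_zero _ _ _ _
  | succ m =>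
    by_cases hE : ∃ w : ℤ × ℤ, ¬ ((l : ℤ) ∣ w.1 ∧ (l : ℤ) ∣ w.2) ∧
        (l : ℤ) ^ (m + 1) ∣ a₁ * w.1 * w.1 + 2 * 0 * w.1 * w.2 + a₂ * w.2 * w.2
    · obtain ⟨⟨Xs, Ys⟩, hs, hqs⟩ := hE
      simp only at hs hqs
      have hsu := discad_units hl h1 h2 m hs hqs
      have alt : ∀ X Y : ℤ, ¬ ((l : ℤ) ∣ X ∧ (l : ℤ) ∣ Y) →
          (l : ℤ) ^ (m + 1) ∣ a₁ * X * X + 2 * 0 * X * Y + a₂ * Y * Y →
          (l : ℤ) ^ (m + 1) ∣ X * Ys - Xs * Y ∨ (l : ℤ) ^ (m + 1) ∣ X * Ys + Xs * Y := by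
        intro X Y hu hq
        have huu := discad_units hl h1 h2 m hu hq
        have hprod := discad_prod hl h1 (m + 1) hq hqs
        by_cases hQ : (l : ℤ) ∣ X * Ys - Xs * Y
        · have hQp : ¬ (l : ℤ) ∣ X * Ys + Xs * Y := by
            intro hQp
            have h3 : (l : ℤ) ∣ 2 * (X * Ys) := by
              have e : 2 * (X * Ys) = (X * Ys - Xs * Y) + (X * Ys + Xs * Y) := by ring
              rw [e]; exact dvd_add hQ hQp
            rcases hp.dvd_or_dvd h3 with h | h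
            · have h4 : l ∣ 2 := by exact_mod_cast h
              exact hodd ((Nat.prime_dvd_prime_iff_eq hl Nat.prime_two).1 h4)
            · rcases hp.dvd_or_dvd h with h | h
              · exact huu.1 h
              · exact hsu.2 h
          left
          exact (discac_coprime_pow hl (m + 1) hQp).dvd_of_dvd_mul_right hprod
        · right
          exact (discac_coprime_pow hl (m + 1) hQ).dvd_of_dvd_mul_left hprod
      refine ⟨fun X Y => if (l : ℤ) ^ (m + 1) ∣ X * Ys - Xs * Y then 0 else 1, fun X Y => ?_, ?_⟩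
      · dsimp only
        split_ifs <;> omega
      intro X Y X' Y' hu hu' hq hq' hc
      dsimp only at hc
      refine discac_gram hq hq' ?_
      by_cases hA : (l : ℤ) ^ (m + 1) ∣ X * Ys - Xs * Y
      · have hA' : (l : ℤ) ^ (m + 1) ∣ X' * Ys - Xs * Y' := by
          by_contra hA'
          rw [if_pos hA, if_neg hA'] at hc
          omega
        exact discac_trans hl _ hs hA hA'
      · have hA' : ¬ (l : ℤ) ^ (m + 1) ∣ X' * Ys - Xs * Y' := by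
          intro hA'
          rw [if_neg hA, if_pos hA'] at hc
          omega
        have p1 : (l : ℤ) ^ (m + 1) ∣ X * Ys - (-Xs) * Y := by
          have := (alt X Y hu hq).resolve_left hA
          have e : X * Ys - (-Xs) * Y = X * Ys + Xs * Y := by ring
          rwa [e]
        have p2 : (l : ℤ) ^ (m + 1) ∣ X' * Ys - (-Xs) * Y' := by
          have := (alt X' Y' hu' hq').resolve_left hA'
          have e : X' * Ys - (-Xs) * Y' = X' * Ys + Xs * Y' := by ring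
          rwa [e]
        have hs' : ¬ ((l : ℤ) ∣ -Xs ∧ (l : ℤ) ∣ Ys) := fun h => hs ⟨(dvd_neg.1 h.1), h.2⟩
        exact discac_trans hl _ hs' p1 p2
    · exact ⟨fun _ _ => 0, fun _ _ => Nat.zero_le _,
        fun X Y _ _ hu _ hq _ _ => absurd ⟨(X, Y), hu, hq⟩ hE⟩

theorem discad_prim_two {a₁ a₂ : ℤ} (h1 : ¬ ((2 : ℕ) : ℤ) ∣ a₁) (h2 : ¬ ((2 : ℕ) : ℤ) ∣ a₂) (n : ℕ) :
    DiscacPrim 2 n a₁ 0 a₂ := by
  classical
  cases n with
  | zero => exact discac_prim_zero _ _ _ _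
  | succ m =>
    by_cases hE : ∃ w : ℤ × ℤ, ¬ (((2 : ℕ) : ℤ) ∣ w.1 ∧ ((2 : ℕ) : ℤ) ∣ w.2) ∧
        ((2 : ℕ) : ℤ) ^ (m + 1) ∣ a₁ * w.1 * w.1 + 2 * 0 * w.1 * w.2 + a₂ * w.2 * w.2
    · obtain ⟨⟨Xs, Ys⟩, hs, hqs⟩ := hE
      simp only at hs hqs
      have hsu := discad_units Nat.prime_two h1 h2 m hs hqs
      have alt : ∀ X Y : ℤ, ¬ (((2 : ℕ) : ℤ) ∣ X ∧ ((2 : ℕ) : ℤ) ∣ Y) →
          ((2 : ℕ) : ℤ) ^ (m + 1) ∣ a₁ * X * X + 2 * 0 * X * Y + a₂ * Y * Y →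
          (2 : ℤ) ^ m ∣ X * Ys - Xs * Y ∨ (2 : ℤ) ^ m ∣ X * Ys + Xs * Y := by
        intro X Y hu hq
        have huu := discad_units Nat.prime_two h1 h2 m hu hq
        have hprod := discad_prod Nat.prime_two h1 (m + 1) hq hqs
        simp only [Nat.cast_ofNat, ← even_iff_two_dvd] at huu hsu hprod
        have hQe : Even (X * Ys - Xs * Y) := by
          rw [Int.even_sub, Int.even_mul, Int.even_mul]; tauto
        have hQpe : Even (X * Ys + Xs * Y) := by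
          rw [Int.even_add, Int.even_mul, Int.even_mul]; tauto
        obtain ⟨A, hA⟩ := hQe
        obtain ⟨A', hA'⟩ := hQpe
        have hsum : A + A' = X * Ys := by linarith
        have hodd : ¬ Even (A + A') := by
          rw [hsum, Int.even_mul]; tauto
        rw [hA, hA'] at hprod ⊢
        have h20 : (2 : ℤ) ≠ 0 := two_ne_zero
        by_cases hAe : Even A
        · -- `A'` is odd
          have hA'o : ¬ Even A' := by
            intro h; exact hodd (hAe.add h)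
          left
          have e : (A + A) * (A' + A') = (2 * (A + A)) * A' := by ring
          rw [e] at hprod
          have h3 : (2 : ℤ) ^ (m + 1) ∣ 2 * (A + A) := by
            have hc : IsCoprime ((2 : ℤ) ^ (m + 1)) A' := by
              have := discac_coprime_pow Nat.prime_two (m + 1) (x := A')
                (by simpa [even_iff_two_dvd] using hA'o)
              simpa using this
            exact hc.dvd_of_dvd_mul_right hprod
          rw [pow_succ', mul_dvd_mul_iff_left h20] at h3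
          exact h3
        · right
          have e : (A + A) * (A' + A') = A * (2 * (A' + A')) := by ring
          rw [e] at hprod
          have h3 : (2 : ℤ) ^ (m + 1) ∣ 2 * (A' + A') := by
            have hc : IsCoprime ((2 : ℤ) ^ (m + 1)) A := by
              have := discac_coprime_pow Nat.prime_two (m + 1) (x := A)
                (by simpa [even_iff_two_dvd] using hAe)
              simpa using this
            exact hc.dvd_of_dvd_mul_left hprod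
          rw [pow_succ', mul_dvd_mul_iff_left h20] at h3
          exact h3
      refine ⟨fun X Y => discacEnc (decide ((2 : ℤ) ^ m ∣ X * Ys - Xs * Y),
        decide ((2 : ℤ) ^ (m + 1) ∣ X * Ys - Xs * Y),
        decide ((2 : ℤ) ^ (m + 1) ∣ X * Ys + Xs * Y)), fun X Y => discacEnc_le _, ?_⟩
      intro X Y X' Y' hu hu' hq hq' hc
      have hc' := discacEnc_inj _ _ hc
      simp only [Prod.mk.injEq] at hc'
      obtain ⟨hc1, hc2, hc3⟩ := hc'
      have i1 := decide_eq_decide.1 hc1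
      have i2 := decide_eq_decide.1 hc2
      have i3 := decide_eq_decide.1 hc3
      have huu := discad_units Nat.prime_two h1 h2 m hu hq
      have huu' := discad_units Nat.prime_two h1 h2 m hu' hq'
      have al := alt X Y hu hq
      have al' := alt X' Y' hu' hq'
      refine discac_gram hq hq' ?_
      simp only [Nat.cast_ofNat] at huu huu' hs ⊢
      have iX : (2 : ℤ) ∣ X ↔ (2 : ℤ) ∣ X' :=
        ⟨fun h => absurd h huu.1, fun h => absurd h huu'.1⟩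
      have iY : (2 : ℤ) ∣ Y ↔ (2 : ℤ) ∣ Y' :=
        ⟨fun h => absurd h huu.2, fun h => absurd h huu'.2⟩
      by_cases hA : (2 : ℤ) ^ m ∣ X * Ys - Xs * Y
      · exact discac_trans2 m hs iX iY hA (i1.1 hA) i2
      · have hA' : ¬ (2 : ℤ) ^ m ∣ X' * Ys - Xs * Y' := fun h => hA (i1.2 h)
        have e : ∀ U W : ℤ, U * Ys - (-Xs) * W = U * Ys + Xs * W := fun U W => by ring
        have hs' : ¬ ((2 : ℤ) ∣ -Xs ∧ (2 : ℤ) ∣ Ys) := fun h => hs ⟨(dvd_neg.1 h.1), h.2⟩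
        refine discac_trans2 m hs' iX iY ?_ ?_ ?_
        · rw [e]; exact al.resolve_left hA
        · rw [e]; exact al'.resolve_left hA'
        · rw [e, e]; exact i3
    · exact ⟨fun _ _ => 0, fun _ _ => Nat.zero_le _,
        fun X Y _ _ hu _ hq _ _ => absurd ⟨(X, Y), hu, hq⟩ hE⟩

theorem discad_prim {l : ℕ} (hl : l.Prime) {a₁ a₂ : ℤ} (h1 : ¬ (l : ℤ) ∣ a₁)
    (h2 : ¬ (l : ℤ) ∣ a₂) (n : ℕ) : DiscacPrim l n a₁ 0 a₂ := by
  by_cases h : l = 2
  · subst h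
    exact discad_prim_two h1 h2 n
  · exact discad_prim_odd hl h h1 h2 n

/-- `d = 0`. -/
theorem discad_col_zero {l : ℕ} (hl : l.Prime) {a₁ a₂ : ℤ} (h1 : ¬ (l : ℤ) ∣ a₁)
    (h2 : ¬ (l : ℤ) ∣ a₂) (n : ℕ) : DiscacCol l n a₁ 0 a₂ (8 * n) := by
  induction n using Nat.strong_induction_on with
  | _ n ih =>
    rcases Nat.eq_zero_or_pos n with rfl | hn
    · exact discac_col_zero _ _ _ _ _
    · have h3 := discac_descent (n := n) hl.ne_zero (ih (n - 2) (by omega)) (discad_prim hl h1 h2 n)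
      exact discac_col_mono h3 (by omega)

theorem discad_dvd_X {l : ℕ} (hl : l.Prime) {a₁ c : ℤ} (h1 : ¬ (l : ℤ) ∣ a₁) (hc : (l : ℤ) ∣ c)
    (m : ℕ) {X Y : ℤ} (hq : (l : ℤ) ^ (m + 1) ∣ a₁ * X * X + 2 * 0 * X * Y + c * Y * Y) :
    (l : ℤ) ∣ X := by
  have hp : Prime (l : ℤ) := Nat.prime_iff_prime_int.1 hl
  have hq1 : (l : ℤ) ∣ a₁ * X * X + 2 * 0 * X * Y + c * Y * Y :=
    (dvd_pow_self _ (Nat.succ_ne_zero m)).trans hq
  have e : a₁ * X * X = (a₁ * X * X + 2 * 0 * X * Y + c * Y * Y) - c * (Y * Y) := by ring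
  have h3 : (l : ℤ) ∣ a₁ * X * X := by
    rw [e]; exact dvd_sub hq1 (Dvd.dvd.mul_right hc _)
  rcases hp.dvd_or_dvd h3 with h4 | h4
  · rcases hp.dvd_or_dvd h4 with h5 | h5
    · exact absurd h5 h1
    · exact h5
  · exact h4

/-- `d = 1`: no primitive isotropic vectors modulo `l^(m+2)`. -/
theorem discad_prim_one {l : ℕ} (hl : l.Prime) {a₁ a₂ : ℤ} (h1 : ¬ (l : ℤ) ∣ a₁)
    (h2 : ¬ (l : ℤ) ∣ a₂) (m : ℕ) : DiscacPrim l (m + 2) a₁ 0 (l * a₂) := by
  have hp : Prime (l : ℤ) := Nat.prime_iff_prime_int.1 hl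
  have hl0 : (l : ℤ) ≠ 0 := hp.ne_zero
  refine ⟨fun _ _ => 0, fun _ _ => Nat.zero_le _, fun X Y _ _ hu _ hq _ _ => ?_⟩
  exfalso
  have hX := discad_dvd_X hl h1 (Dvd.intro _ rfl) (m + 1) hq
  apply hu
  refine ⟨hX, ?_⟩
  obtain ⟨x, rfl⟩ := hX
  have hq2 : (l : ℤ) ^ 2 ∣ a₁ * (l * x) * (l * x) + 2 * 0 * (l * x) * Y + l * a₂ * Y * Y :=
    (pow_dvd_pow _ (by omega)).trans hq
  have e : (l : ℤ) * (a₂ * Y * Y) = (a₁ * (l * x) * (l * x) + 2 * 0 * (l * x) * Y + l * a₂ * Y * Y)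
      - (l : ℤ) ^ 2 * (a₁ * x * x) := by ring
  have h3 : (l : ℤ) ^ 2 ∣ (l : ℤ) * (a₂ * Y * Y) := by
    rw [e]; exact dvd_sub hq2 (Dvd.intro _ rfl)
  rw [sq, mul_dvd_mul_iff_left hl0] at h3
  rcases hp.dvd_or_dvd h3 with h4 | h4
  · rcases hp.dvd_or_dvd h4 with h5 | h5
    · exact absurd h5 h2
    · exact h5
  · exact h4

/-- `d = 1`. -/
theorem discad_col_one {l : ℕ} (hl : l.Prime) {a₁ a₂ : ℤ} (h1 : ¬ (l : ℤ) ∣ a₁)
    (h2 : ¬ (l : ℤ) ∣ a₂) (n : ℕ) : DiscacCol l n a₁ 0 (l * a₂) (8 * (n - 1)) := by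
  induction n using Nat.strong_induction_on with
  | _ n ih =>
    match n, ih with
    | 0, _ => exact discac_col_zero _ _ _ _ _
    | 1, _ =>
      refine ⟨fun _ _ => 0, fun _ _ => Nat.zero_le _, fun X Y X' Y' hq hq' _ => ?_⟩
      have hX := discad_dvd_X hl h1 (Dvd.intro _ rfl) 0 hq
      rw [pow_one]
      have e : a₁ * X * X' + 0 * (X * Y' + X' * Y) + l * a₂ * Y * Y'
          = X * (a₁ * X') + l * (a₂ * Y * Y') := by ring
      rw [e]
      exact dvd_add (Dvd.dvd.mul_right hX _) (Dvd.intro _ rfl)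
    | m + 2, ih =>
      have h3 := discac_descent (n := m + 2) hl.ne_zero (ih (m + 2 - 2) (by omega))
        (discad_prim_one hl h1 h2 m)
      exact discac_col_mono h3 (by omega)

/-- from `d` to `d + 2`. -/
theorem discad_shift {l : ℕ} (hl : l.Prime) {a₁ c : ℤ} (h1 : ¬ (l : ℤ) ∣ a₁) {n K : ℕ}
    (h : DiscacCol l n a₁ 0 c K) : DiscacCol l (n + 2) a₁ 0 ((l : ℤ) ^ 2 * c) K := by
  have hp : Prime (l : ℤ) := Nat.prime_iff_prime_int.1 hl
  have hl0 : (l : ℤ) ≠ 0 := hp.ne_zero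
  obtain ⟨col', hb, hcol⟩ := h
  refine ⟨fun X Y => col' (X / l) Y, fun X Y => hb _ _, ?_⟩
  intro X Y X' Y' hq hq' hc
  obtain ⟨x, rfl⟩ := discad_dvd_X hl h1 (Dvd.intro _ (by ring : (l : ℤ) * (l * c) = (l : ℤ) ^ 2 * c))
    (n + 1) hq
  obtain ⟨x', rfl⟩ := discad_dvd_X hl h1 (Dvd.intro _ (by ring : (l : ℤ) * (l * c) = (l : ℤ) ^ 2 * c))
    (n + 1) hq'
  simp only [Int.mul_ediv_cancel_left _ hl0] at hc
  have e1 : a₁ * (l * x) * (l * x) + 2 * 0 * (l * x) * Y + (l : ℤ) ^ 2 * c * Y * Y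
      = (l : ℤ) ^ 2 * (a₁ * x * x + 2 * 0 * x * Y + c * Y * Y) := by ring
  have e2 : a₁ * (l * x') * (l * x') + 2 * 0 * (l * x') * Y' + (l : ℤ) ^ 2 * c * Y' * Y'
      = (l : ℤ) ^ 2 * (a₁ * x' * x' + 2 * 0 * x' * Y' + c * Y' * Y') := by ring
  have e3 : a₁ * (l * x) * (l * x') + 0 * (l * x * Y' + l * x' * Y) + (l : ℤ) ^ 2 * c * Y * Y'
      = (l : ℤ) ^ 2 * (a₁ * x * x' + 0 * (x * Y' + x' * Y) + c * Y * Y') := by ring
  have e4 : (l : ℤ) ^ (n + 2) = (l : ℤ) ^ 2 * (l : ℤ) ^ n := by ring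
  have hl2 : (l : ℤ) ^ 2 ≠ 0 := pow_ne_zero 2 hl0
  rw [e1, e4, mul_dvd_mul_iff_left hl2] at hq
  rw [e2, e4, mul_dvd_mul_iff_left hl2] at hq'
  rw [e3, e4, mul_dvd_mul_iff_left hl2]
  exact hcol x Y x' Y' hq hq' hc

theorem discad_col {l : ℕ} (hl : l.Prime) {a₁ a₂ : ℤ} (h1 : ¬ (l : ℤ) ∣ a₁) (h2 : ¬ (l : ℤ) ∣ a₂) :
    ∀ d n : ℕ, d ≤ n → DiscacCol l n a₁ 0 ((l : ℤ) ^ d * a₂) (8 * (n - d)) := by
  intro d
  induction d using Nat.strong_induction_on with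
  | _ d ih =>
    intro n hdn
    match d, ih, hdn with
    | 0, _, _ =>
      rw [pow_zero, one_mul]
      exact discad_col_zero hl h1 h2 n
    | 1, _, _ =>
      rw [pow_one]
      exact discad_col_one hl h1 h2 n
    | d + 2, ih, hdn =>
      obtain ⟨n', rfl⟩ : ∃ n', n = n' + 2 := ⟨n - 2, by omega⟩
      have h3 := discad_shift hl h1 (ih d (by omega) n' (by omega))
      have e : (l : ℤ) ^ (d + 2) * a₂ = (l : ℤ) ^ 2 * ((l : ℤ) ^ d * a₂) := by ring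
      rw [e]
      exact discac_col_mono h3 (by omega)

/-- **DISC-AR-D**. -/
theorem disc_arithDiag : StDiscArithDiag := by
  intro l n d a₁ a₂ hl hdn h1 h2
  obtain ⟨col, hb, hcol⟩ := discad_col hl h1 h2 d n hdn
  refine ⟨n - d, col, hb, ?_, hcol⟩
  intro X Y hX hY
  have hl0 : (l : ℤ) ≠ 0 := (Nat.prime_iff_prime_int.1 hl).ne_zero
  constructor
  · have h3 : (l : ℤ) ^ n ∣ a₁ * X := by simpa using hX
    exact (pow_dvd_pow _ (Nat.sub_le n d)).trans ((discac_coprime_pow hl n h1).dvd_of_dvd_mul_left h3)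
  · have h3 : (l : ℤ) ^ d * (l : ℤ) ^ (n - d) ∣ (l : ℤ) ^ d * (a₂ * Y) := by
      rw [← pow_add, Nat.add_sub_cancel' hdn]
      have e : (l : ℤ) ^ d * (a₂ * Y) = 0 * X + (l : ℤ) ^ d * a₂ * Y := by ring
      rw [e]; exact hY
    rw [mul_dvd_mul_iff_left (pow_ne_zero d hl0)] at h3
    exact (discac_coprime_pow hl (n - d) h2).dvd_of_dvd_mul_left h3

end Claimed.Agent.R293
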