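/-
R293 / DiscArithEven.lean  (owner: helper225).  Package DISC, leaf DISC-AR-E: the even binary forms at `l = 2`,
`disc_arithEven : StDiscArithEven`.  Prefix `discae`.  No sorry.

Primitive vectors `u` with `2^m ∣ q₀(u) = a X² + b X Y + c Y²` (`b` odd): two such vectors which are congruent mod `2` satisfy
`2^m ∣ X Y' - X' Y` (simple roots).  One more bit (relative to a reference vector of the parity class) gives `2^(m+1)`.
-/
import Claimed.Agent.R293.DiscArithCore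

set_option autoImplicit false

namespace Claimed.Agent.R293

theorem discae_coprime (m : ℕ) {x : ℤ} (hx : ¬ Even x) : IsCoprime ((2 : ℤ) ^ m) x := by
  have := discac_coprime_pow Nat.prime_two m (x := x) (by simpa [even_iff_two_dvd] using hx)
  simpa using this

theorem discae_half (m : ℕ) {a b c X Y Xs Ys : ℤ} (hb : Odd b)
    (hu : ¬ ((2 : ℤ) ∣ X ∧ (2 : ℤ) ∣ Y)) (hX : (2 : ℤ) ∣ X ↔ (2 : ℤ) ∣ Xs) (hY : (2 : ℤ) ∣ Y ↔ (2 : ℤ) ∣ Ys)
    (hq : (2 : ℤ) ^ m ∣ a * X * X + b * X * Y + c * Y * Y)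
    (hqs : (2 : ℤ) ^ m ∣ a * Xs * Xs + b * Xs * Ys + c * Ys * Ys) :
    (2 : ℤ) ^ m ∣ X * Ys - Xs * Y := by
  simp only [← even_iff_two_dvd] at hu hX hY
  have hb' : ¬ Even b := Int.not_even_iff_odd.2 hb
  by_cases hYe : Even Y
  · have hXo : ¬ Even X := fun h => hu ⟨h, hYe⟩
    have e : (X * Ys - Xs * Y) * (b * X * Xs + c * (Xs * Y + X * Ys))
        = X * X * (a * Xs * Xs + b * Xs * Ys + c * Ys * Ys)
          - Xs * Xs * (a * X * X + b * X * Y + c * Y * Y) := by ring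
    have hW : ¬ Even (b * X * Xs + c * (Xs * Y + X * Ys)) := by
      rw [Int.even_add, Int.even_mul, Int.even_mul, Int.even_mul, Int.even_add, Int.even_mul,
        Int.even_mul]
      tauto
    refine (discae_coprime m hW).dvd_of_dvd_mul_right ?_
    rw [e]
    exact dvd_sub (Dvd.dvd.mul_left hqs _) (Dvd.dvd.mul_left hq _)
  · have e : (X * Ys - Xs * Y) * (a * (X * Ys + Xs * Y) + b * Y * Ys)
        = Ys * Ys * (a * X * X + b * X * Y + c * Y * Y)
          - Y * Y * (a * Xs * Xs + b * Xs * Ys + c * Ys * Ys) := by ring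
    have hW : ¬ Even (a * (X * Ys + Xs * Y) + b * Y * Ys) := by
      rw [Int.even_add, Int.even_mul, Int.even_mul, Int.even_mul, Int.even_add, Int.even_mul,
        Int.even_mul]
      tauto
    refine (discae_coprime m hW).dvd_of_dvd_mul_right ?_
    rw [e]
    exact dvd_sub (Dvd.dvd.mul_left hq _) (Dvd.dvd.mul_left hqs _)

theorem discae_prim (n : ℕ) (a b c : ℤ) (hb : Odd b) : DiscacPrim 2 n (2 * a) b (2 * c) := by
  classical
  cases n with
  | zero => exact discac_prim_zero _ _ _ _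
  | succ m =>
    let S : ℤ → ℤ → Prop := fun X Y =>
      ¬ ((2 : ℤ) ∣ X ∧ (2 : ℤ) ∣ Y) ∧ (2 : ℤ) ^ m ∣ a * X * X + b * X * Y + c * Y * Y
    let E : Bool → Bool → Prop := fun p p' =>
      ∃ w : ℤ × ℤ, S w.1 w.2 ∧ decide ((2 : ℤ) ∣ w.1) = p ∧ decide ((2 : ℤ) ∣ w.2) = p'
    let ref : Bool → Bool → ℤ × ℤ := fun p p' => if h : E p p' then h.choose else (0, 0)
    have href : ∀ p p', E p p' → S (ref p p').1 (ref p p').2 ∧
        decide ((2 : ℤ) ∣ (ref p p').1) = p ∧ decide ((2 : ℤ) ∣ (ref p p').2) = p' := by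
      intro p p' h
      simp only [ref, dif_pos h]
      exact h.choose_spec
    refine ⟨fun X Y => discacEnc (decide ((2 : ℤ) ∣ X), decide ((2 : ℤ) ∣ Y),
      decide ((2 : ℤ) ^ (m + 1) ∣ X * (ref (decide ((2 : ℤ) ∣ X)) (decide ((2 : ℤ) ∣ Y))).2
        - (ref (decide ((2 : ℤ) ∣ X)) (decide ((2 : ℤ) ∣ Y))).1 * Y)),
      fun X Y => discacEnc_le _, ?_⟩
    intro X Y X' Y' hu hu' hq hq' hc
    simp only [Nat.cast_ofNat] at hu hu' hq hq' ⊢
    have hc' := discacEnc_inj _ _ hc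
    simp only [Prod.mk.injEq] at hc'
    obtain ⟨hc1, hc2, hc3⟩ := hc'
    rw [← hc1, ← hc2] at hc3
    have h2 : (2 : ℤ) ≠ 0 := two_ne_zero
    have hS : S X Y := by
      refine ⟨hu, ?_⟩
      have e : 2 * a * X * X + 2 * b * X * Y + 2 * c * Y * Y
          = 2 * (a * X * X + b * X * Y + c * Y * Y) := by ring
      rw [e, pow_succ', mul_dvd_mul_iff_left h2] at hq
      exact hq
    have hS' : S X' Y' := by
      refine ⟨hu', ?_⟩
      have e : 2 * a * X' * X' + 2 * b * X' * Y' + 2 * c * Y' * Y'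
          = 2 * (a * X' * X' + b * X' * Y' + c * Y' * Y') := by ring
      rw [e, pow_succ', mul_dvd_mul_iff_left h2] at hq'
      exact hq'
    obtain ⟨hR, hR1, hR2⟩ := href (decide ((2 : ℤ) ∣ X)) (decide ((2 : ℤ) ∣ Y)) ⟨(X, Y), hS, rfl, rfl⟩
    set Xs := (ref (decide ((2 : ℤ) ∣ X)) (decide ((2 : ℤ) ∣ Y))).1 with hXs
    set Ys := (ref (decide ((2 : ℤ) ∣ X)) (decide ((2 : ℤ) ∣ Y))).2 with hYs
    have i1 : (2 : ℤ) ∣ X ↔ (2 : ℤ) ∣ X' := decide_eq_decide.1 hc1
    have i2 : (2 : ℤ) ∣ Y ↔ (2 : ℤ) ∣ Y' := decide_eq_decide.1 hc2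
    have i3 := decide_eq_decide.1 hc3
    have j1 : (2 : ℤ) ∣ Xs ↔ (2 : ℤ) ∣ X := decide_eq_decide.1 hR1
    have j2 : (2 : ℤ) ∣ Ys ↔ (2 : ℤ) ∣ Y := decide_eq_decide.1 hR2
    have k1 := discae_half m hb hS.1 j1.symm j2.symm hS.2 hR.2
    have k2 := discae_half m hb hS'.1 (i1.symm.trans j1.symm) (i2.symm.trans j2.symm) hS'.2 hR.2
    exact discac_gram hq hq' (discac_trans2 m hR.1 i1 i2 k1 k2 i3)

theorem discae_col (a b c : ℤ) (hb : Odd b) (n : ℕ) : DiscacCol 2 n (2 * a) b (2 * c) (8 * n) := by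
  induction n using Nat.strong_induction_on with
  | _ n ih =>
    rcases Nat.eq_zero_or_pos n with rfl | hn
    · exact discac_col_zero _ _ _ _ _
    · have h1 := discac_descent (n := n) two_ne_zero (ih (n - 2) (by omega)) (discae_prim n a b c hb)
      exact discac_col_mono h1 (by omega)

/-- **DISC-AR-E**. -/
theorem disc_arithEven : StDiscArithEven := by
  intro n a b c hb
  obtain ⟨col, h1, h2⟩ := discae_col a b c hb n
  refine ⟨n, col, h1, ?_, h2⟩
  intro X Y hX hY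
  simp only [Nat.cast_ofNat] at hX hY ⊢
  have hD : ¬ Even (4 * a * c - b * b) := by
    have hb' : ¬ Even b := Int.not_even_iff_odd.2 hb
    rw [Int.even_sub, Int.even_mul, Int.even_mul, Int.even_mul]
    have : Even (4 : ℤ) := ⟨2, by norm_num⟩
    tauto
  constructor
  · refine (discae_coprime n hD).dvd_of_dvd_mul_left ?_
    have e : (4 * a * c - b * b) * X = 2 * c * (2 * a * X + b * Y) - b * (b * X + 2 * c * Y) := by ring
    rw [e]
    exact dvd_sub (Dvd.dvd.mul_left hX _) (Dvd.dvd.mul_left hY _)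
  · refine (discae_coprime n hD).dvd_of_dvd_mul_left ?_
    have e : (4 * a * c - b * b) * Y = 2 * a * (b * X + 2 * c * Y) - b * (2 * a * X + b * Y) := by ring
    rw [e]
    exact dvd_sub (Dvd.dvd.mul_left hY _) (Dvd.dvd.mul_left hX _)

end Claimed.Agent.R293
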