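/-
R293 / DiscArithRed.lean  (owner: helper193).  Leaf DISC-AR-R: reduction of integral binary forms modulo `l^n` to the
normal forms (diagonal forms, even forms at `2`).  Prefix `discar`.  No sorry.
-/
import Claimed.Agent.R293.DiscStmts

set_option autoImplicit false

namespace Claimed.Agent.R293

theorem discar_dvd_congr {d x y : ℤ} (h : d ∣ x - y) : d ∣ x ↔ d ∣ y := by
  constructor
  · intro hx
    have := dvd_sub hx h
    simpa using this
  · intro hy
    have := dvd_add h hy
    simpa using this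

/-- `DiscGoodForm` depends on the coefficients only modulo `l^n`. -/
theorem discar_congr {l n : ℕ} {a b c a' b' c' : ℤ} (ha : (l : ℤ) ^ n ∣ a - a')
    (hb : (l : ℤ) ^ n ∣ b - b') (hc : (l : ℤ) ^ n ∣ c - c') (h : DiscGoodForm l n a b c) :
    DiscGoodForm l n a' b' c' := by
  obtain ⟨k, col, h1, h2, h3⟩ := h
  obtain ⟨u, hu⟩ := ha
  obtain ⟨v, hv⟩ := hb
  obtain ⟨w, hw⟩ := hc
  refine ⟨k, col, h1, fun X Y e1 e2 => h2 X Y ?_ ?_, fun X Y X' Y' e1 e2 e3 => ?_⟩
  · refine (discar_dvd_congr ⟨u * X + v * Y, ?_⟩).2 e1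
    linear_combination X * hu + Y * hv
  · refine (discar_dvd_congr ⟨v * X + w * Y, ?_⟩).2 e2
    linear_combination X * hv + Y * hw
  · have f1 : (l : ℤ) ^ n ∣ a * X * X + 2 * b * X * Y + c * Y * Y := by
      refine (discar_dvd_congr ⟨u * X * X + 2 * v * X * Y + w * Y * Y, ?_⟩).2 e1
      linear_combination X * X * hu + 2 * X * Y * hv + Y * Y * hw
    have f2 : (l : ℤ) ^ n ∣ a * X' * X' + 2 * b * X' * Y' + c * Y' * Y' := by
      refine (discar_dvd_congr ⟨u * X' * X' + 2 * v * X' * Y' + w * Y' * Y', ?_⟩).2 e2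
      linear_combination X' * X' * hu + 2 * X' * Y' * hv + Y' * Y' * hw
    refine (discar_dvd_congr ⟨u * X * X' + v * (X * Y' + X' * Y) + w * Y * Y', ?_⟩).1 (h3 X Y X' Y' f1 f2 e3)
    linear_combination X * X' * hu + (X * Y' + X' * Y) * hv + Y * Y' * hw

/-- invariance under `(X, Y) ↦ (X + s Y, Y)`. -/
theorem discar_shear {l n : ℕ} {a b c : ℤ} (s : ℤ) (h : DiscGoodForm l n a b c) :
    DiscGoodForm l n a (a * s + b) (a * s * s + 2 * b * s + c) := by
  obtain ⟨k, col, h1, h2, h3⟩ := h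
  refine ⟨k, fun X Y => col (X + s * Y) Y, fun X Y => h1 _ _, fun X Y e1 e2 => ?_,
    fun X Y X' Y' e1 e2 e3 => ?_⟩
  · have f1 : (l : ℤ) ^ n ∣ a * (X + s * Y) + b * Y := by
      have : a * (X + s * Y) + b * Y = a * X + (a * s + b) * Y := by ring
      rw [this]; exact e1
    have f2 : (l : ℤ) ^ n ∣ b * (X + s * Y) + c * Y := by
      have : b * (X + s * Y) + c * Y
          = ((a * s + b) * X + (a * s * s + 2 * b * s + c) * Y) - s * (a * X + (a * s + b) * Y) := by
        ring
      rw [this]; exact dvd_sub e2 (Dvd.dvd.mul_left e1 _)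
    obtain ⟨g1, g2⟩ := h2 _ _ f1 f2
    refine ⟨?_, g2⟩
    have : X = (X + s * Y) - s * Y := by ring
    rw [this]; exact dvd_sub g1 (Dvd.dvd.mul_left g2 _)
  · have f1 : (l : ℤ) ^ n ∣ a * (X + s * Y) * (X + s * Y) + 2 * b * (X + s * Y) * Y + c * Y * Y := by
      have : a * (X + s * Y) * (X + s * Y) + 2 * b * (X + s * Y) * Y + c * Y * Y
          = a * X * X + 2 * (a * s + b) * X * Y + (a * s * s + 2 * b * s + c) * Y * Y := by ring
      rw [this]; exact e1
    have f2 : (l : ℤ) ^ n ∣ a * (X' + s * Y') * (X' + s * Y') + 2 * b * (X' + s * Y') * Y'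
        + c * Y' * Y' := by
      have : a * (X' + s * Y') * (X' + s * Y') + 2 * b * (X' + s * Y') * Y' + c * Y' * Y'
          = a * X' * X' + 2 * (a * s + b) * X' * Y' + (a * s * s + 2 * b * s + c) * Y' * Y' := by ring
      rw [this]; exact e2
    have := h3 _ _ _ _ f1 f2 e3
    have e : a * X * X' + (a * s + b) * (X * Y' + X' * Y) + (a * s * s + 2 * b * s + c) * Y * Y'
        = a * (X + s * Y) * (X' + s * Y') + b * ((X + s * Y) * Y' + (X' + s * Y') * Y) + c * Y * Y' := by
      ring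
    rw [e]; exact this

/-- invariance under the swap of the two variables. -/
theorem discar_swap {l n : ℕ} {a b c : ℤ} (h : DiscGoodForm l n a b c) : DiscGoodForm l n c b a := by
  obtain ⟨k, col, h1, h2, h3⟩ := h
  refine ⟨k, fun X Y => col Y X, fun X Y => h1 _ _, fun X Y e1 e2 => ?_,
    fun X Y X' Y' e1 e2 e3 => ?_⟩
  · have f1 : (l : ℤ) ^ n ∣ a * Y + b * X := by rw [add_comm]; exact e2
    have f2 : (l : ℤ) ^ n ∣ b * Y + c * X := by rw [add_comm]; exact e1
    exact (h2 _ _ f1 f2).symm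
  · have f1 : (l : ℤ) ^ n ∣ a * Y * Y + 2 * b * Y * X + c * X * X := by
      have : a * Y * Y + 2 * b * Y * X + c * X * X = c * X * X + 2 * b * X * Y + a * Y * Y := by ring
      rw [this]; exact e1
    have f2 : (l : ℤ) ^ n ∣ a * Y' * Y' + 2 * b * Y' * X' + c * X' * X' := by
      have : a * Y' * Y' + 2 * b * Y' * X' + c * X' * X'
          = c * X' * X' + 2 * b * X' * Y' + a * Y' * Y' := by ring
      rw [this]; exact e2
    have := h3 _ _ _ _ f1 f2 e3
    have e : c * X * X' + b * (X * Y' + X' * Y) + a * Y * Y'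
        = a * Y * Y' + b * (Y * X' + Y' * X) + c * X * X' := by ring
    rw [e]; exact this

theorem discar_pow_succ_dvd {l : ℕ} (hl : l ≠ 0) (n : ℕ) (x : ℤ) :
    (l : ℤ) ^ (n + 1) ∣ (l : ℤ) * x ↔ (l : ℤ) ^ n ∣ x := by
  have hl' : (l : ℤ) ≠ 0 := by exact_mod_cast hl
  rw [pow_succ, mul_comm ((l : ℤ) ^ n) (l : ℤ)]
  exact mul_dvd_mul_iff_left hl'

/-- scaling of the form by `l`. -/
theorem discar_scale {l n : ℕ} (hl : l ≠ 0) {a b c : ℤ} (h : DiscGoodForm l n a b c) :
    DiscGoodForm l (n + 1) ((l : ℤ) * a) ((l : ℤ) * b) ((l : ℤ) * c) := by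
  obtain ⟨k, col, h1, h2, h3⟩ := h
  refine ⟨k, col, h1, fun X Y e1 e2 => h2 X Y ?_ ?_, fun X Y X' Y' e1 e2 e3 => ?_⟩
  · rw [← discar_pow_succ_dvd hl]
    have : (l : ℤ) * (a * X + b * Y) = (l : ℤ) * a * X + (l : ℤ) * b * Y := by ring
    rw [this]; exact e1
  · rw [← discar_pow_succ_dvd hl]
    have : (l : ℤ) * (b * X + c * Y) = (l : ℤ) * b * X + (l : ℤ) * c * Y := by ring
    rw [this]; exact e2
  · have f1 : (l : ℤ) ^ n ∣ a * X * X + 2 * b * X * Y + c * Y * Y := by
      rw [← discar_pow_succ_dvd hl]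
      have : (l : ℤ) * (a * X * X + 2 * b * X * Y + c * Y * Y)
          = (l : ℤ) * a * X * X + 2 * ((l : ℤ) * b) * X * Y + (l : ℤ) * c * Y * Y := by ring
      rw [this]; exact e1
    have f2 : (l : ℤ) ^ n ∣ a * X' * X' + 2 * b * X' * Y' + c * Y' * Y' := by
      rw [← discar_pow_succ_dvd hl]
      have : (l : ℤ) * (a * X' * X' + 2 * b * X' * Y' + c * Y' * Y')
          = (l : ℤ) * a * X' * X' + 2 * ((l : ℤ) * b) * X' * Y' + (l : ℤ) * c * Y' * Y' := by ring
      rw [this]; exact e2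
    have := (discar_pow_succ_dvd hl n _).2 (h3 _ _ _ _ f1 f2 e3)
    have e : (l : ℤ) * a * X * X' + (l : ℤ) * b * (X * Y' + X' * Y) + (l : ℤ) * c * Y * Y'
        = (l : ℤ) * (a * X * X' + b * (X * Y' + X' * Y) + c * Y * Y') := by ring
    rw [e]; exact this

theorem discar_zero (l : ℕ) (a b c : ℤ) : DiscGoodForm l 0 a b c :=
  ⟨0, fun _ _ => 0, fun _ _ => le_refl _, fun _ _ _ _ => by simp, fun _ _ _ _ _ _ _ => by simp⟩

/-- every integer is `l^d · unit` modulo `l^N` with `d ≤ N`. -/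
theorem discar_val {l : ℕ} (hl : l.Prime) (N : ℕ) :
    ∀ c : ℤ, ∃ d, d ≤ N ∧ ∃ a₂ : ℤ, ¬ (l : ℤ) ∣ a₂ ∧ (l : ℤ) ^ N ∣ (l : ℤ) ^ d * a₂ - c := by
  have h1 : ¬ (l : ℤ) ∣ 1 := by
    intro h
    have := Int.natAbs_dvd_natAbs.2 h
    simp only [Int.natAbs_natCast, Int.natAbs_one, Nat.dvd_one] at this
    exact hl.one_lt.ne' this
  induction N with
  | zero => exact fun c => ⟨0, le_refl _, 1, h1, by simp⟩
  | succ N ih =>
    intro c
    by_cases hc : (l : ℤ) ∣ c
    · obtain ⟨c1, rfl⟩ := hc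
      obtain ⟨d, hd, a₂, ha, hdv⟩ := ih c1
      refine ⟨d + 1, by omega, a₂, ha, ?_⟩
      have : (l : ℤ) ^ (d + 1) * a₂ - (l : ℤ) * c1 = (l : ℤ) * ((l : ℤ) ^ d * a₂ - c1) := by ring
      rw [this]
      exact (discar_pow_succ_dvd hl.ne_zero N _).2 hdv
    · exact ⟨0, Nat.zero_le _, c, hc, by simp⟩

/-- the case of a unit leading coefficient. -/
theorem discar_unit (hD : StDiscArithDiag) {l : ℕ} (hl : l.Prime) (N : ℕ) {a : ℤ} (b c : ℤ)
    (ha : ¬ (l : ℤ) ∣ a) : DiscGoodForm l N a b c := by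
  have hp : Prime (l : ℤ) := Nat.prime_iff_prime_int.1 hl
  have hcop : IsCoprime a ((l : ℤ) ^ N) :=
    IsCoprime.pow_right ((Prime.coprime_iff_not_dvd hp).2 ha).symm
  obtain ⟨u, v, huv⟩ := hcop
  -- `u a + v l^N = 1`
  obtain ⟨d, hd, a₂, ha₂, hdv⟩ := discar_val hl N (c - u * b * b)
  have h0 := hD l N d a a₂ hl hd ha ha₂
  have h1 := discar_shear (u * b) h0
  obtain ⟨t, ht⟩ := hdv
  refine discar_congr (dvd_refl _ |>.trans (by simp)) ⟨-(v * b), ?_⟩ ⟨t - v * u * b * b, ?_⟩ h1
  · linear_combination b * huv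
  · linear_combination ht + u * b * b * huv

/-- **DISC-AR-R.** -/
theorem disc_arithRed : StDiscArithRed := by
  intro hD hE l n
  induction n with
  | zero => exact fun a b c _ => discar_zero l a b c
  | succ n ih =>
    intro a b c hl
    by_cases ha : (l : ℤ) ∣ a
    · by_cases hc : (l : ℤ) ∣ c
      · by_cases hb : (l : ℤ) ∣ b
        · obtain ⟨a0, rfl⟩ := ha
          obtain ⟨b0, rfl⟩ := hb
          obtain ⟨c0, rfl⟩ := hc
          exact discar_scale hl.ne_zero (ih a0 b0 c0 hl)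
        · rcases hl.eq_two_or_odd' with h2 | hodd
          · subst h2
            obtain ⟨a0, rfl⟩ := ha
            obtain ⟨c0, rfl⟩ := hc
            have hbo : Odd b := by
              rw [← Int.not_even_iff_odd, even_iff_two_dvd]
              exact hb
            exact hE (n + 1) a0 b c0 hbo
          · -- odd `l`: the shear with `s = 1` makes the last coefficient a unit
            have hp : Prime (l : ℤ) := Nat.prime_iff_prime_int.1 hl
            have h2 : ¬ (l : ℤ) ∣ 2 := by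
              intro h
              have h' : l ∣ 2 := by exact_mod_cast h
              have := (Nat.prime_dvd_prime_iff_eq hl Nat.prime_two).1 h'
              subst this
              exact absurd hodd (by decide)
            have hc' : ¬ (l : ℤ) ∣ a + 2 * b + c := by
              intro h
              have h3 : (l : ℤ) ∣ 2 * b := by
                have : 2 * b = (a + 2 * b + c) - a - c := by ring
                rw [this]; exact dvd_sub (dvd_sub h ha) hc
              rcases hp.dvd_or_dvd h3 with h4 | h4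
              · exact h2 h4
              · exact hb h4
            have g1 := discar_swap (discar_unit hD hl (n + 1) (a + b) a hc')
            have g2 := discar_shear (-1) g1
            have e1 : a * (-1) + (a + b) = b := by ring
            have e2 : a * (-1) * (-1) + 2 * (a + b) * (-1) + (a + 2 * b + c) = c := by ring
            rw [e1, e2] at g2
            exact g2
      · exact discar_swap (discar_unit hD hl (n + 1) b a hc)
    · exact discar_unit hD hl (n + 1) b c ha

end Claimed.Agent.R293
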