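/-
R293 / DiscCount.lean  (owner: helper14).  Package DISC, leaf DISC-CNT: `disc_count : StDiscCount`.  No sorry.
-/
import Claimed.Agent.R293.DiscStmts

set_option autoImplicit false

namespace Claimed.Agent.R293

/-- **DISC-CNT**: if `X g₁ + Y g₂ ∈ S` forces `q ∣ X, Y` then `[Z : S] ≥ q²`. -/
theorem disc_count : StDiscCount := by
  intro Z _ S g₁ g₂ q hS h
  have hfi : S.FiniteIndex := ⟨hS⟩
  have hfin : Finite (Z ⧸ S) := AddSubgroup.finite_quotient_of_finiteIndex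
  let f : Fin q × Fin q → Z ⧸ S := fun p =>
    QuotientAddGroup.mk ((((p.1 : ℕ) : ℤ)) • g₁ + (((p.2 : ℕ) : ℤ)) • g₂)
  have hf : Function.Injective f := by
    rintro ⟨a, b⟩ ⟨a', b'⟩ hab
    have h1 : -((((a : ℕ) : ℤ)) • g₁ + (((b : ℕ) : ℤ)) • g₂)
        + ((((a' : ℕ) : ℤ)) • g₁ + (((b' : ℕ) : ℤ)) • g₂) ∈ S := QuotientAddGroup.eq.1 hab
    have h2 : ((((a' : ℕ) : ℤ)) - ((a : ℕ) : ℤ)) • g₁ + ((((b' : ℕ) : ℤ)) - ((b : ℕ) : ℤ)) • g₂ ∈ S := by
      convert h1 using 1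
      simp only [sub_smul]
      abel
    obtain ⟨d1, d2⟩ := h _ _ h2
    have ha := a.isLt
    have ha' := a'.isLt
    have hb := b.isLt
    have hb' := b'.isLt
    have e1 : (((a' : ℕ) : ℤ)) - ((a : ℕ) : ℤ) = 0 :=
      Int.eq_zero_of_abs_lt_dvd d1 (by rw [abs_lt]; constructor <;> omega)
    have e2 : (((b' : ℕ) : ℤ)) - ((b : ℕ) : ℤ) = 0 :=
      Int.eq_zero_of_abs_lt_dvd d2 (by rw [abs_lt]; constructor <;> omega)
    have e3 : a = a' := Fin.ext (by omega)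
    have e4 : b = b' := Fin.ext (by omega)
    rw [e3, e4]
  have hcard := Nat.card_le_card_of_injective f hf
  simpa [Nat.card_prod, sq, AddSubgroup.index] using hcard

end Claimed.Agent.R293
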