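/-
R293 / PathLayer.lean (owner: helper96).  Leaf PATH-A1: basic API for `mulSub`, `prefixLog`, `layer`
(LayerDefs.lean) of a finite abelian group, decomposition free, and the interface statements
`StLayerAnti`, `StLayerSupport`, `StLayerTotal` of PathIface.lean.
-/
import Claimed.Agent.R293.PathIface

set_option autoImplicit false

namespace Claimed.Agent.R293

open scoped BigOperators

section API

variable (G : Type*) [AddCommGroup G]

theorem pathl_mem_mulSub {n : ℕ} {x : G} : x ∈ mulSub G n ↔ ∃ y : G, n • y = x := by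
  simp [mulSub, AddMonoidHom.mem_range]

theorem pathl_nsmul_mem_mulSub (n : ℕ) (y : G) : n • y ∈ mulSub G n :=
  (pathl_mem_mulSub G).2 ⟨y, rfl⟩

theorem pathl_mulSub_one : mulSub G 1 = ⊤ := by
  rw [eq_top_iff]
  intro x _
  exact (pathl_mem_mulSub G).2 ⟨x, one_nsmul x⟩

theorem pathl_mulSub_map (a b : ℕ) :
    (mulSub G a).map (nsmulAddMonoidHom (α := G) b) = mulSub G (b * a) := by
  ext x
  simp only [AddSubgroup.mem_map, pathl_mem_mulSub, nsmulAddMonoidHom_apply]
  constructor
  · rintro ⟨_, ⟨y, rfl⟩, rfl⟩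
    exact ⟨y, by rw [mul_nsmul']⟩
  · rintro ⟨y, rfl⟩
    exact ⟨a • y, ⟨y, rfl⟩, by rw [mul_nsmul']⟩

theorem pathl_mulSub_le_of_dvd {a b : ℕ} (h : a ∣ b) : mulSub G b ≤ mulSub G a := by
  obtain ⟨c, rfl⟩ := h
  intro x hx
  obtain ⟨y, rfl⟩ := (pathl_mem_mulSub G).1 hx
  exact (pathl_mem_mulSub G).2 ⟨c • y, by rw [mul_nsmul']⟩

theorem pathl_mulSub_pow_anti (l : ℕ) {s t : ℕ} (h : s ≤ t) :
    mulSub G (l ^ t) ≤ mulSub G (l ^ s) :=
  pathl_mulSub_le_of_dvd G (pow_dvd_pow l h)

theorem pathl_card_quot (n : ℕ) : Nat.card (G ⧸ mulSub G n) = (mulSub G n).index := rfl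

theorem pathl_prefixLog_def (l t : ℕ) :
    prefixLog G l t = padicValNat l (mulSub G (l ^ t)).index := rfl

theorem pathl_prefixLog_zero (l : ℕ) : prefixLog G l 0 = 0 := by
  rw [pathl_prefixLog_def, pow_zero, pathl_mulSub_one, AddSubgroup.index_top]
  simp

theorem pathl_layer_zero (l : ℕ) : layer G l 0 = 0 := by
  simp [layer]

theorem pathl_layer_succ (l t : ℕ) :
    layer G l (t + 1) = prefixLog G l (t + 1) - prefixLog G l t := rfl

variable {G}

/-- invariance under isomorphisms. -/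
theorem pathl_mulSub_map_equiv {H : Type*} [AddCommGroup H] (e : G ≃+ H) (n : ℕ) :
    (mulSub G n).map (e : G →+ H) = mulSub H n := by
  ext x
  simp only [AddSubgroup.mem_map, pathl_mem_mulSub]
  constructor
  · rintro ⟨_, ⟨y, rfl⟩, rfl⟩
    exact ⟨e y, by simp⟩
  · rintro ⟨y, rfl⟩
    exact ⟨n • e.symm y, ⟨e.symm y, rfl⟩, by simp⟩

theorem pathl_index_congr {H : Type*} [AddCommGroup H] (e : G ≃+ H) (n : ℕ) :
    (mulSub G n).index = (mulSub H n).index := by
  rw [← pathl_mulSub_map_equiv e n, AddSubgroup.index_map_equiv]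

theorem pathl_prefixLog_congr {H : Type*} [AddCommGroup H] (e : G ≃+ H) (l t : ℕ) :
    prefixLog G l t = prefixLog H l t := by
  rw [pathl_prefixLog_def, pathl_prefixLog_def, pathl_index_congr e]

theorem pathl_layer_congr {H : Type*} [AddCommGroup H] (e : G ≃+ H) (l j : ℕ) :
    layer G l j = layer H l j := by
  simp only [layer, pathl_prefixLog_congr e]

theorem pathl_layerIndex_congr {H : Type*} [AddCommGroup H] (e : G ≃+ H) :
    layerIndex G = layerIndex H := by
  simp only [layerIndex, Nat.card_congr e.toEquiv]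

theorem pathl_layerSum_congr {H : Type*} [AddCommGroup H] (e : G ≃+ H) (N : ℕ) (f : ℕ → ℝ) :
    layerSum G N f = layerSum H N f := by
  simp only [layerSum, pathl_layerIndex_congr e, pathl_layer_congr e]

variable (G) [Finite G]

/-- `|G / l^t G|` is a power of `l`. -/
theorem pathl_index_eq_pow {l : ℕ} (hl : l.Prime) (t : ℕ) :
    (mulSub G (l ^ t)).index = l ^ prefixLog G l t := by
  have : Fact l.Prime := ⟨hl⟩
  have hp : IsPGroup l (Multiplicative (G ⧸ mulSub G (l ^ t))) := by
    intro g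
    refine ⟨t, ?_⟩
    obtain ⟨x, hx⟩ := QuotientAddGroup.mk_surjective (Multiplicative.toAdd g)
    have h1 : (l ^ t) • (Multiplicative.toAdd g) = 0 := by
      rw [← hx, ← QuotientAddGroup.mk_nsmul, QuotientAddGroup.eq_zero_iff]
      exact pathl_nsmul_mem_mulSub G _ x
    exact congrArg Multiplicative.ofAdd h1
  obtain ⟨n, hn⟩ := IsPGroup.iff_card.mp hp
  have h2 : (mulSub G (l ^ t)).index = l ^ n := by
    rw [← hn]
    rfl
  rw [pathl_prefixLog_def, h2, padicValNat.prime_pow]

theorem pathl_card_quot_eq_pow {l : ℕ} (hl : l.Prime) (t : ℕ) :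
    Nat.card (G ⧸ mulSub G (l ^ t)) = l ^ prefixLog G l t :=
  pathl_index_eq_pow G hl t

theorem pathl_prefixLog_mono {l : ℕ} (hl : l.Prime) : Monotone (prefixLog G l) := by
  intro s t hst
  have h := AddSubgroup.index_dvd_of_le (pathl_mulSub_pow_anti G l hst)
  rw [pathl_index_eq_pow G hl, pathl_index_eq_pow G hl] at h
  exact (Nat.pow_dvd_pow_iff_le_right hl.one_lt).mp h

theorem pathl_prefixLog_succ {l : ℕ} (hl : l.Prime) (t : ℕ) :
    prefixLog G l (t + 1) = prefixLog G l t + layer G l (t + 1) := by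
  rw [pathl_layer_succ]
  have : prefixLog G l t ≤ prefixLog G l (t + 1) := pathl_prefixLog_mono G hl (Nat.le_succ t)
  omega

theorem pathl_prefixLog_eq_sum {l : ℕ} (hl : l.Prime) (t : ℕ) :
    prefixLog G l t = ∑ j ∈ Finset.Icc 1 t, layer G l j := by
  induction t with
  | zero => simp [pathl_prefixLog_zero]
  | succ t ih =>
    rw [pathl_prefixLog_succ G hl, ih, Finset.sum_Icc_succ_top (by omega)]

/-- `[l^t G : l^(t+1) G] = l ^ k_G(l,t+1)`. -/
theorem pathl_relIndex {l : ℕ} (hl : l.Prime) (t : ℕ) :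
    (mulSub G (l ^ (t + 1))).relIndex (mulSub G (l ^ t)) = l ^ layer G l (t + 1) := by
  have h := AddSubgroup.relIndex_mul_index (pathl_mulSub_pow_anti G l (Nat.le_succ t))
  rw [pathl_index_eq_pow G hl, pathl_index_eq_pow G hl, pathl_prefixLog_succ G hl, pow_add,
    mul_comm] at h
  exact Nat.eq_of_mul_eq_mul_left (pow_pos hl.pos _) h

omit [Finite G] in
/-- the relative index can only drop under a homomorphism. -/
theorem pathl_relIndex_map_dvd {H : Type*} [AddCommGroup H] (f : G →+ H) {A B : AddSubgroup G}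
    (hAB : A ≤ B) : (A.map f).relIndex (B.map f) ∣ A.relIndex B := by
  rw [AddSubgroup.relIndex_map_map]
  have h1 : B ⊔ f.ker = B ⊔ (A ⊔ f.ker) := by
    rw [← sup_assoc, sup_eq_left.mpr hAB]
  rw [h1, AddSubgroup.relIndex_sup_right]
  exact AddSubgroup.relIndex_dvd_of_le_left B le_sup_left

theorem pathl_layer_succ_le {l : ℕ} (hl : l.Prime) (j : ℕ) (hj : 1 ≤ j) :
    layer G l (j + 1) ≤ layer G l j := by
  obtain ⟨i, rfl⟩ : ∃ i, j = i + 1 := ⟨j - 1, by omega⟩
  have h := pathl_relIndex_map_dvd G (nsmulAddMonoidHom (α := G) l)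
    (pathl_mulSub_pow_anti G l (Nat.le_succ i))
  rw [pathl_mulSub_map, pathl_mulSub_map, ← pow_succ', ← pow_succ', pathl_relIndex G hl,
    pathl_relIndex G hl] at h
  exact (Nat.pow_dvd_pow_iff_le_right hl.one_lt).mp h

theorem pathl_layer_anti {l : ℕ} (hl : l.Prime) {j j' : ℕ} (hj : 1 ≤ j) (hjj : j ≤ j') :
    layer G l j' ≤ layer G l j := by
  induction j', hjj using Nat.le_induction with
  | base => exact le_rfl
  | succ n hn ih => exact (pathl_layer_succ_le G hl n (hj.trans hn)).trans ih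

theorem pathl_pow_prefixLog_dvd_card {l : ℕ} (hl : l.Prime) (t : ℕ) :
    l ^ prefixLog G l t ∣ Nat.card G := by
  rw [← pathl_index_eq_pow G hl]
  exact AddSubgroup.index_dvd_card _

theorem pathl_prefixLog_le_padic {l : ℕ} (hl : l.Prime) (t : ℕ) :
    prefixLog G l t ≤ padicValNat l (Nat.card G) := by
  have : Fact l.Prime := ⟨hl⟩
  exact (padicValNat_dvd_iff_le Nat.card_pos.ne').mp (pathl_pow_prefixLog_dvd_card G hl t)

/-- if the layer `j` is positive then all the layers `1, …, j` are, so `j ≤ F_G(l,j)`. -/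
theorem pathl_le_prefixLog_of_layer_pos {l : ℕ} (hl : l.Prime) {j : ℕ} (h : 1 ≤ layer G l j) :
    j ≤ prefixLog G l j := by
  rw [pathl_prefixLog_eq_sum G hl]
  calc j = ∑ _i ∈ Finset.Icc 1 j, 1 := by simp
    _ ≤ ∑ i ∈ Finset.Icc 1 j, layer G l i := by
        refine Finset.sum_le_sum fun i hi => ?_
        rw [Finset.mem_Icc] at hi
        exact h.trans (pathl_layer_anti G hl hi.1 hi.2)

theorem pathl_layer_support {l j : ℕ} (hl : l.Prime) (h : 1 ≤ layer G l j) :
    (l, j) ∈ layerIndex G := by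
  have hj1 : 1 ≤ j := by
    by_contra hcon
    have : j = 0 := by omega
    subst this
    rw [pathl_layer_zero] at h
    omega
  have h1 := pathl_le_prefixLog_of_layer_pos G hl h
  have h2 := pathl_pow_prefixLog_dvd_card G hl j
  have hc : Nat.card G ≠ 0 := Nat.card_pos.ne'
  have h3 : l ^ j ∣ Nat.card G := (pow_dvd_pow l h1).trans h2
  simp only [layerIndex, Finset.mem_product, Nat.mem_primeFactors, Finset.mem_Icc]
  refine ⟨⟨hl, (dvd_pow_self l (by omega)).trans h3, hc⟩, hj1, ?_⟩
  apply Nat.le_log_of_pow_le (by norm_num)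
  calc 2 ^ j ≤ l ^ j := Nat.pow_le_pow_left hl.two_le j
    _ ≤ Nat.card G := Nat.le_of_dvd Nat.card_pos h3

/-- once a layer vanishes, `F_G(l,t)` has reached the `l`-adic valuation of `|G|`. -/
theorem pathl_prefixLog_stable {l : ℕ} (hl : l.Prime) {t : ℕ} (h : layer G l (t + 1) = 0) :
    prefixLog G l t = padicValNat l (Nat.card G) := by
  have : Fact l.Prime := ⟨hl⟩
  set H := mulSub G (l ^ t) with hH
  have h1 : H ≤ mulSub G (l ^ (t + 1)) := by
    have := pathl_relIndex G hl t
    rw [h, pow_zero, AddSubgroup.relIndex_eq_one] at this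
    exact this
  -- multiplication by `l` is onto on `H`
  have hsurj : ∀ x ∈ H, ∃ y ∈ H, l • y = x := by
    intro x hx
    obtain ⟨z, rfl⟩ := (pathl_mem_mulSub G).1 (h1 hx)
    exact ⟨l ^ t • z, pathl_nsmul_mem_mulSub G _ z, by rw [← mul_nsmul', ← pow_succ']⟩
  have hnd : ¬ l ∣ Nat.card H := by
    intro hdvd
    obtain ⟨x, hx⟩ := exists_prime_addOrderOf_dvd_card' (G := H) l hdvd
    let f : H → H := fun y => l • y
    have hfs : Function.Surjective f := by
      rintro ⟨x, hx⟩
      obtain ⟨y, hy, hyx⟩ := hsurj x hx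
      exact ⟨⟨y, hy⟩, Subtype.ext hyx⟩
    have hfi : Function.Injective f := Finite.injective_iff_surjective.mpr hfs
    have h0 : f x = f 0 := by
      simp only [f, smul_zero]
      rw [← hx]
      exact addOrderOf_nsmul_eq_zero x
    have hx0 : x = 0 := hfi h0
    rw [hx0, addOrderOf_zero] at hx
    exact hl.one_lt.ne hx
  have h2 : Nat.card H * H.index = Nat.card G := AddSubgroup.card_mul_index H
  rw [← h2, pathl_index_eq_pow G hl, padicValNat.mul Nat.card_pos.ne' (pow_pos hl.pos _).ne',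
    padicValNat.prime_pow, padicValNat.eq_zero_of_not_dvd hnd, zero_add]

theorem pathl_prefixLog_log {l : ℕ} (hl : l.Prime) :
    prefixLog G l (Nat.log 2 (Nat.card G)) = padicValNat l (Nat.card G) := by
  apply pathl_prefixLog_stable G hl
  by_contra hcon
  have h1 : 1 ≤ layer G l (Nat.log 2 (Nat.card G) + 1) := by omega
  have h2 := pathl_layer_support G hl h1
  simp only [layerIndex, Finset.mem_product, Finset.mem_Icc] at h2
  omega

theorem pathl_prefixLog_eq_padic {l : ℕ} (hl : l.Prime) {t : ℕ}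
    (ht : Nat.log 2 (Nat.card G) ≤ t) : prefixLog G l t = padicValNat l (Nat.card G) :=
  le_antisymm (pathl_prefixLog_le_padic G hl t)
    ((pathl_prefixLog_log G hl).symm.le.trans (pathl_prefixLog_mono G hl ht))

theorem pathl_layer_total :
    ∑ x ∈ layerIndex G, (layer G x.1 x.2 : ℝ) * Real.log x.1 = Real.log (Nat.card G) := by
  have hc : Nat.card G ≠ 0 := Nat.card_pos.ne'
  rw [layerIndex, Finset.sum_product]
  have h1 : ∀ l ∈ (Nat.card G).primeFactors,
      ∑ j ∈ Finset.Icc 1 (Nat.log 2 (Nat.card G)), (layer G l j : ℝ) * Real.log l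
        = ((Nat.card G).factorization l : ℝ) * Real.log l := by
    intro l hl
    have hlp : l.Prime := Nat.prime_of_mem_primeFactors hl
    rw [← Finset.sum_mul, ← Nat.cast_sum, ← pathl_prefixLog_eq_sum G hlp, pathl_prefixLog_log G hlp,
      Nat.factorization_def _ hlp]
  rw [Finset.sum_congr rfl h1]
  conv_rhs => rw [← Nat.prod_factorization_pow_eq_self hc]
  rw [Finsupp.prod, Nat.support_factorization, Nat.cast_prod, Real.log_prod]
  · refine Finset.sum_congr rfl fun l _ => ?_
    rw [Nat.cast_pow, Real.log_pow]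
  · intro l hl
    have hlp : l.Prime := Nat.prime_of_mem_primeFactors hl
    exact_mod_cast (pow_pos hlp.pos _).ne'

theorem pathl_layer_eq_zero_of_notMem {l j : ℕ} (hl : l.Prime) (h : (l, j) ∉ layerIndex G) :
    layer G l j = 0 := by
  by_contra hcon
  exact h (pathl_layer_support G hl (by omega))

theorem pathl_layer_eq_zero_of_not_dvd {l : ℕ} (hl : l.Prime) (h : ¬ l ∣ Nat.card G) (j : ℕ) :
    layer G l j = 0 := by
  apply pathl_layer_eq_zero_of_notMem G hl
  simp only [layerIndex, Finset.mem_product, Nat.mem_primeFactors]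
  tauto

/-- a layer sum may be computed over any larger index set of (prime, exponent) pairs. -/
theorem pathl_layerSum_eq_of_subset {S : Finset (ℕ × ℕ)} (hS : layerIndex G ⊆ S)
    (hp : ∀ x ∈ S, x.1.Prime) (N : ℕ) {f : ℕ → ℝ} (hf : f 0 = 0) :
    layerSum G N f = ∑ x ∈ S, f (layer G x.1 x.2) * nu N x.1 := by
  rw [layerSum]
  refine Finset.sum_subset hS fun x hx hx' => ?_
  rw [pathl_layer_eq_zero_of_notMem G (hp x hx) hx', hf, zero_mul]

omit [Finite G] in
theorem pathl_prime_of_mem_layerIndex {x : ℕ × ℕ} (hx : x ∈ layerIndex G) : x.1.Prime := by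
  simp only [layerIndex, Finset.mem_product] at hx
  exact Nat.prime_of_mem_primeFactors hx.1

end API

theorem pathl_finite_quot {k : ℕ} {K : AddSubgroup (Fin k → ℤ)} (h : K.index ≠ 0) :
    Finite ((Fin k → ℤ) ⧸ K) :=
  AddSubgroup.index_ne_zero_iff_finite.mp h

theorem path_layerAnti : StLayerAnti := fun G _ _ _ hl _ _ hj hjj => pathl_layer_anti G hl hj hjj

theorem path_layerSupport : StLayerSupport := fun G _ _ _ _ hl h => pathl_layer_support G hl h

theorem path_layerTotal : StLayerTotal := fun G _ _ => pathl_layer_total G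

end Claimed.Agent.R293
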