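/-
R293 / DiscCrt.lean  (DISC leaf CRT, owner helper38).
`|G / (∏ l^{h_l}) G| = ∏ l^{F_G(l,h_l)}`.
-/
import Claimed.Agent.R293.DiscStmts
import Claimed.Agent.R293.PathLayer

set_option autoImplicit false

namespace Claimed.Agent.R293

open scoped BigOperators
open AddSubgroup

section
variable (G : Type*) [AddCommGroup G]

/-- for coprime `a`, `b`: `a x ∈ ab G` iff `x ∈ b G`. -/
theorem discr_comap_coprime {a b : ℕ} (hab : Nat.Coprime a b) :
    (mulSub G (a * b)).comap (nsmulAddMonoidHom (α := G) a) = mulSub G b := by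
  ext x
  rw [AddSubgroup.mem_comap, pathl_mem_mulSub, pathl_mem_mulSub, nsmulAddMonoidHom_apply]
  constructor
  · rintro ⟨y, hy⟩
    -- `a (x - b y) = 0`
    have h0 : a • (x - b • y) = 0 := by
      rw [smul_sub, ← hy, smul_smul, sub_self]
    have hbez : (a : ℤ) * Nat.gcdA a b + (b : ℤ) * Nat.gcdB a b = 1 := by
      have := Nat.gcd_eq_gcd_ab a b
      rw [hab.gcd_eq_one] at this
      exact_mod_cast this.symm
    have h1 : x - b • y = b • (Nat.gcdB a b • (x - b • y)) := by
      have h2 : ((a : ℤ) * Nat.gcdA a b + (b : ℤ) * Nat.gcdB a b) • (x - b • y) = x - b • y := by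
        rw [hbez, one_smul]
      rw [add_smul, mul_comm (a : ℤ), mul_smul, mul_smul, natCast_zsmul, natCast_zsmul, h0,
        smul_zero, zero_add] at h2
      exact h2.symm
    refine ⟨y + Nat.gcdB a b • (x - b • y), ?_⟩
    rw [smul_add, ← h1]
    abel
  · rintro ⟨y, rfl⟩
    exact ⟨y, by rw [mul_smul]⟩

/-- multiplicativity of `|G/nG|` for coprime arguments. -/
theorem discr_index_mul {a b : ℕ} (hab : Nat.Coprime a b) :
    (mulSub G (a * b)).index = (mulSub G a).index * (mulSub G b).index := by
  have h1 : mulSub G (a * b) ≤ mulSub G a := pathl_mulSub_le_of_dvd G (dvd_mul_right a b)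
  rw [← AddSubgroup.relIndex_mul_index h1, mul_comm]
  congr 1
  rw [← discr_comap_coprime G hab, AddSubgroup.index_comap]
  rfl

variable [Finite G]

/-- products of prime powers. -/
theorem discr_index_prod (S : Finset ℕ) (hS : ∀ l ∈ S, l.Prime) (h : ℕ → ℕ) :
    (mulSub G (∏ l ∈ S, l ^ h l)).index = ∏ l ∈ S, l ^ prefixLog G l (h l) := by
  classical
  induction S using Finset.induction_on with
  | empty => simp [pathl_mulSub_one]
  | insert p S hp ih =>
    rw [Finset.prod_insert hp, Finset.prod_insert hp]
    have hcop : Nat.Coprime (p ^ h p) (∏ l ∈ S, l ^ h l) := by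
      apply Nat.Coprime.prod_right
      intro l hl
      apply Nat.Coprime.pow
      rw [Nat.coprime_primes (hS p (Finset.mem_insert_self p S))
        (hS l (Finset.mem_insert_of_mem hl))]
      rintro rfl
      exact hp hl
    rw [discr_index_mul G hcop, ih fun l hl => hS l (Finset.mem_insert_of_mem hl),
      pathl_index_eq_pow G (hS p (Finset.mem_insert_self p S))]

end

/-- **DISC-CRT.** -/
theorem disc_crt : StDiscCrt := by
  intro G _ _ h
  exact discr_index_prod G _ (fun l hl => Nat.prime_of_mem_primeFactors hl) h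

end Claimed.Agent.R293
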