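/-
R293 / DiscDual.lean  (owner: helper16).  Leaf DISC-DUAL: `disc_dual : StDiscDual`.
`K → AddChar (Z ⧸ K) ℂ`, `x ↦ (y ↦ exp (2 π i φ(x,y)))`; two elements of `K` with the same character differ by an element of `R`.
-/
import Claimed.Agent.R293.DiscStmts

set_option autoImplicit false

namespace Claimed.Agent.R293

open scoped BigOperators

/-- the character `q ↦ exp (2 π i q)` of `ℚ`. -/
noncomputable def discdChar : AddChar ℚ ℂ where
  toFun q := Complex.exp (2 * Real.pi * Complex.I * (q : ℂ))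
  map_zero_eq_one' := by simp
  map_add_eq_mul' a b := by
    rw [← Complex.exp_add]
    congr 1
    push_cast
    ring

theorem discdChar_apply (q : ℚ) : discdChar q = Complex.exp (2 * Real.pi * Complex.I * (q : ℂ)) := rfl

theorem discdChar_eq_one_iff (q : ℚ) : discdChar q = 1 ↔ IsInt q := by
  rw [discdChar_apply, Complex.exp_eq_one_iff]
  have h2 : (2 * Real.pi * Complex.I : ℂ) ≠ 0 := Complex.two_pi_I_ne_zero
  constructor
  · rintro ⟨n, hn⟩
    refine ⟨n, ?_⟩
    have h3 : (q : ℂ) = (n : ℂ) := by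
      have : (2 * Real.pi * Complex.I : ℂ) * (q : ℂ) = (2 * Real.pi * Complex.I : ℂ) * (n : ℂ) := by
        rw [hn]; ring
      exact mul_left_cancel₀ h2 this
    have h4 : ((q : ℚ) : ℂ) = (((n : ℤ) : ℚ) : ℂ) := by rw [h3]; push_cast; rfl
    exact_mod_cast h4
  · rintro ⟨n, rfl⟩
    refine ⟨n, ?_⟩
    push_cast
    ring

/-- the character of `Z ⧸ K` attached to `x ∈ K`. -/
noncomputable def discdQuotChar {Z : Type} [AddCommGroup Z] (φ : Z →+ Z →+ ℚ) (K : AddSubgroup Z)
    (x : Z) (hx : ∀ y ∈ K, IsInt (φ x y)) : AddChar (Z ⧸ K) ℂ :=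
  AddChar.toAddMonoidHomEquiv.symm
    (QuotientAddGroup.lift K ((AddChar.toAddMonoidHomEquiv discdChar).comp (φ x)) (fun y hy => by
      have := (discdChar_eq_one_iff _).2 (hx y hy)
      simpa using this))

theorem discdQuotChar_mk {Z : Type} [AddCommGroup Z] (φ : Z →+ Z →+ ℚ) (K : AddSubgroup Z)
    (x : Z) (hx : ∀ y ∈ K, IsInt (φ x y)) (y : Z) :
    discdQuotChar φ K x hx (QuotientAddGroup.mk y) = discdChar (φ x y) := rfl

theorem disc_dual : StDiscDual := by
  intro Z _ φ K R hK hRK hrad hint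
  have : K.FiniteIndex := ⟨hK⟩
  have : Finite (Z ⧸ K) := inferInstance
  cases nonempty_fintype (Z ⧸ K)
  let χ : K → AddChar (Z ⧸ K) ℂ := fun x => discdQuotChar φ K x (hint x x.2)
  have hχ : ∀ a b : K, χ a = χ b → (a : Z) - b ∈ R := by
    intro a b hab
    refine hrad _ (K.sub_mem a.2 b.2) fun y => ?_
    rw [← discdChar_eq_one_iff, map_sub, AddMonoidHom.sub_apply, AddChar.map_sub_eq_div]
    have h1 : χ a (QuotientAddGroup.mk y) = χ b (QuotientAddGroup.mk y) := by rw [hab]
    rw [discdQuotChar_mk, discdQuotChar_mk] at h1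
    rw [h1]
    exact div_self (by rw [discdChar_apply]; exact Complex.exp_ne_zero _)
  let g : (K ⧸ R.addSubgroupOf K) → AddChar (Z ⧸ K) ℂ := fun q => χ q.out
  have hg : Function.Injective g := by
    intro q q' hq
    have h1 := hχ _ _ hq
    rw [← QuotientAddGroup.out_eq' q, ← QuotientAddGroup.out_eq' q']
    rw [QuotientAddGroup.eq]
    rw [AddSubgroup.mem_addSubgroupOf]
    have h2 : ((-(q.out) + q'.out : K) : Z) = -((q.out : Z) - q'.out) := by
      push_cast; abel
    rw [h2]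
    exact R.neg_mem h1
  have h1 : Nat.card (K ⧸ R.addSubgroupOf K) ≤ Nat.card (AddChar (Z ⧸ K) ℂ) :=
    Nat.card_le_card_of_injective g hg
  have h2 : Nat.card (AddChar (Z ⧸ K) ℂ) ≤ Nat.card (Z ⧸ K) := by
    rw [Nat.card_eq_fintype_card, Nat.card_eq_fintype_card]
    exact AddChar.card_addChar_le _ _
  exact h1.trans h2

end Claimed.Agent.R293
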