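/-
R293 / DiscGcd.lean  (owner: helper14).  Package DISC, leaf DISC-GCD: `disc_gcd : StDiscGcd`.  No sorry.
-/
import Claimed.Agent.R293.DiscStmts

set_option autoImplicit false

namespace Claimed.Agent.R293

open scoped BigOperators

/-- `k q ∈ ℤ` iff the denominator of `q` divides `k`. -/
theorem discg_isInt_iff (k : ℕ) (q : ℚ) : IsInt ((k : ℚ) * q) ↔ q.den ∣ k := by
  constructor
  · rintro ⟨n, hn⟩
    have hden : (q.den : ℚ) ≠ 0 := by exact_mod_cast q.den_ne_zero
    have h1 : (k : ℚ) * (q.num : ℚ) = (n : ℚ) * (q.den : ℚ) := by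
      rw [← hn, mul_assoc, Rat.mul_den_eq_num]
    have h2 : (k : ℤ) * q.num = n * (q.den : ℤ) := by exact_mod_cast h1
    have h3 : (q.den : ℤ) ∣ (k : ℤ) * q.num := ⟨n, by rw [h2]; ring⟩
    have h4 : IsCoprime (q.den : ℤ) q.num := by
      rw [Int.isCoprime_iff_gcd_eq_one, Int.gcd_comm]
      simpa [Int.gcd] using q.reduced
    exact_mod_cast h4.dvd_of_dvd_mul_right h3
  · rintro ⟨c, rfl⟩
    refine ⟨(c : ℤ) * q.num, ?_⟩
    push_cast
    rw [← Rat.mul_den_eq_num q]
    ring

/-- **DISC-GCD**: the denominators.  `gcd_l (n_{l'} l^{h_l}) = ∏ l^{h_l}`. -/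
theorem disc_gcd : StDiscGcd := by
  intro n hn h q h0 hl
  rw [discg_isInt_iff] at h0 ⊢
  have hD : q.den ≠ 0 := q.den_ne_zero
  have hP : (∏ l ∈ n.primeFactors, l ^ h l) ≠ 0 :=
    Finset.prod_ne_zero_iff.2 fun l hl' => pow_ne_zero _ (Nat.prime_of_mem_primeFactors hl').ne_zero
  rw [← Nat.factorization_le_iff_dvd hD hP]
  intro p
  by_cases hp : p.Prime
  · by_cases hpn : p ∣ n
    · have h1 := (discg_isInt_iff _ q).1 (hl p hp hpn)
      have hne : ordCompl[p] n * p ^ h p ≠ 0 :=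
        mul_ne_zero (Nat.ordCompl_pos p hn).ne' (pow_ne_zero _ hp.ne_zero)
      have h2 := (Nat.factorization_le_iff_dvd hD hne).2 h1 p
      have h3 : (ordCompl[p] n * p ^ h p).factorization p = h p := by
        rw [Nat.factorization_mul (Nat.ordCompl_pos p hn).ne' (pow_ne_zero _ hp.ne_zero),
          Nat.factorization_ordCompl, hp.factorization_pow]
        simp
      have h4 : p ^ h p ∣ ∏ l ∈ n.primeFactors, l ^ h l :=
        Finset.dvd_prod_of_mem (fun l => l ^ h l) (Nat.mem_primeFactors.2 ⟨hp, hpn, hn⟩)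
      have h5 := (hp.pow_dvd_iff_le_factorization hP).1 h4
      omega
    · have h1 := (Nat.factorization_le_iff_dvd hD hn).2 h0 p
      rw [Nat.factorization_eq_zero_of_not_dvd hpn] at h1
      omega
  · rw [Nat.factorization_eq_zero_of_not_prime _ hp]
    exact Nat.zero_le _

end Claimed.Agent.R293
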