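/-
R293 / DiscIdx.lean  (DISC leaf IDX, owner helper38).
`[Z : R_c + l^k Z] = l^{F(h+k) - F(h)}` for `c = (prime-to-l part of |G|) · l^h`.
-/
import Claimed.Agent.R293.DiscCrt

set_option autoImplicit false

namespace Claimed.Agent.R293

open scoped BigOperators
open AddSubgroup

/-- `R_c + d Z` is the preimage of `c d G` under `x ↦ c [x]`. -/
theorem disci_comap {Z : Type*} [AddCommGroup Z] (Λ : AddSubgroup Z) (c d : ℕ) :
    (mulSub (Z ⧸ Λ) (c * d)).comap
        ((nsmulAddMonoidHom (α := Z ⧸ Λ) c).comp (QuotientAddGroup.mk' Λ))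
      = discTor Λ c ⊔ mulSub Z d := by
  ext x
  rw [AddSubgroup.mem_comap, pathl_mem_mulSub, AddSubgroup.mem_sup]
  simp only [AddMonoidHom.comp_apply, nsmulAddMonoidHom_apply, QuotientAddGroup.mk'_apply]
  constructor
  · rintro ⟨g, hg⟩
    obtain ⟨y, rfl⟩ := QuotientAddGroup.mk_surjective g
    refine ⟨x - d • y, ?_, d • y, pathl_nsmul_mem_mulSub Z d y, by abel⟩
    show c • (x - d • y) ∈ Λ
    have h1 : ((c • (x - d • y) : Z) : Z ⧸ Λ) = 0 := by
      rw [smul_sub, smul_smul, QuotientAddGroup.mk_sub, QuotientAddGroup.mk_nsmul,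
        QuotientAddGroup.mk_nsmul, hg, sub_self]
    exact (QuotientAddGroup.eq_zero_iff _).mp h1
  · rintro ⟨r, hr, s, hs, rfl⟩
    obtain ⟨y, rfl⟩ := (pathl_mem_mulSub Z).mp hs
    refine ⟨(y : Z ⧸ Λ), ?_⟩
    have hr' : ((c • r : Z) : Z ⧸ Λ) = 0 := (QuotientAddGroup.eq_zero_iff _).mpr hr
    rw [QuotientAddGroup.mk_nsmul] at hr'
    rw [QuotientAddGroup.mk_add, smul_add, hr', zero_add, QuotientAddGroup.mk_nsmul, smul_smul]

theorem disci_range {Z : Type*} [AddCommGroup Z] (Λ : AddSubgroup Z) (c : ℕ) :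
    ((nsmulAddMonoidHom (α := Z ⧸ Λ) c).comp (QuotientAddGroup.mk' Λ)).range = mulSub (Z ⧸ Λ) c := by
  rw [AddMonoidHom.range_comp, AddMonoidHom.range_eq_top.mpr (QuotientAddGroup.mk'_surjective Λ),
    ← AddMonoidHom.range_eq_map]
  rfl

/-- `[Z : R_c + d Z] = |cG / cd G|`. -/
theorem disci_index {Z : Type*} [AddCommGroup Z] (Λ : AddSubgroup Z) (c d : ℕ) :
    (discTor Λ c ⊔ mulSub Z d).index = (mulSub (Z ⧸ Λ) (c * d)).relIndex (mulSub (Z ⧸ Λ) c) := by
  rw [← disci_comap, AddSubgroup.index_comap, disci_range]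

/-- **DISC-IDX.** -/
theorem disc_idx : StDiscIdx := by
  intro Z _ Λ _ l hl h k
  set G := Z ⧸ Λ with hG
  set n' := ordCompl[l] (Nat.card G) with hn'
  have hcop : ∀ t, Nat.Coprime n' (l ^ t) := fun t =>
    (Nat.Coprime.pow_left t (Nat.coprime_ordCompl hl Nat.card_pos.ne')).symm
  rw [disci_index]
  have hle : mulSub G (n' * l ^ h * l ^ k) ≤ mulSub G (n' * l ^ h) :=
    pathl_mulSub_le_of_dvd G (dvd_mul_right _ _)
  have h1 := AddSubgroup.relIndex_mul_index hle
  rw [mul_assoc, ← pow_add] at h1 ⊢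
  rw [discr_index_mul G (hcop _), discr_index_mul G (hcop _), pathl_index_eq_pow G hl,
    pathl_index_eq_pow G hl] at h1
  have hmono : prefixLog G l h ≤ prefixLog G l (h + k) :=
    pathl_prefixLog_mono G hl (Nat.le_add_right h k)
  have ha : 0 < (mulSub G n').index := Nat.pos_of_ne_zero (AddSubgroup.index_ne_zero_of_finite)
  have h2 : l ^ prefixLog G l (h + k)
      = l ^ (prefixLog G l (h + k) - prefixLog G l h) * l ^ prefixLog G l h := by
    rw [← pow_add, Nat.sub_add_cancel hmono]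
  rw [h2] at h1
  have h3 : (mulSub G (n' * l ^ (h + k))).relIndex (mulSub G (n' * l ^ h))
        * ((mulSub G n').index * l ^ prefixLog G l h)
      = l ^ (prefixLog G l (h + k) - prefixLog G l h)
        * ((mulSub G n').index * l ^ prefixLog G l h) := by
    rw [h1]; ring
  exact Nat.eq_of_mul_eq_mul_right (Nat.mul_pos ha (pow_pos hl.pos _)) h3

end Claimed.Agent.R293
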