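/-
R293 / DiscLayer.lean  (owner: helper148; leaf DISC-LC #1333).
`disc_layer : StDiscLayer`: combinatorics of the layer heights at one prime (antitone, finitely supported,
`F(t) = ∑_{j ≤ t} k(j)`): `{j : k(j) ≥ 3} = [1,h]`, `{j : k(j) ≥ 2} = [1,h+n₂]`.
-/
import Claimed.Agent.R293.DiscStmts
import Claimed.Agent.R293.PathLayer

set_option autoImplicit false

namespace Claimed.Agent.R293

open scoped BigOperators

/-- a finite set of positive integers which is closed downwards is an initial segment. -/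
lemma discl_initial (S : Finset ℕ) (h1 : ∀ j ∈ S, 1 ≤ j)
    (h2 : ∀ j ∈ S, ∀ i, 1 ≤ i → i ≤ j → i ∈ S) : S = Finset.Icc 1 S.card := by
  ext j
  rw [Finset.mem_Icc]
  constructor
  · intro hj
    refine ⟨h1 j hj, ?_⟩
    have hsub : Finset.Icc 1 j ⊆ S := by
      intro i hi
      rw [Finset.mem_Icc] at hi
      exact h2 j hj i hi.1 hi.2
    have := Finset.card_le_card hsub
    simpa using this
  · rintro ⟨hj1, hj2⟩
    by_contra hj
    have hsub : S ⊆ Finset.Icc 1 (j - 1) := by
      intro i hi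
      rw [Finset.mem_Icc]
      refine ⟨h1 i hi, ?_⟩
      by_contra hlt
      exact hj (h2 i hi j hj1 (by omega))
    have := Finset.card_le_card hsub
    simp at this
    omega

/-- superlevel sets of an antitone finitely supported sequence. -/
lemma discl_level (k : ℕ → ℕ) (M s : ℕ) (hs : 1 ≤ s)
    (hanti : ∀ j j', 1 ≤ j → j ≤ j' → k j' ≤ k j) (hsupp : ∀ j, 1 ≤ k j → 1 ≤ j ∧ j ≤ M) (j : ℕ) :
    s ≤ k j ↔ 1 ≤ j ∧ j ≤ ((Finset.Icc 1 M).filter (fun j => s ≤ k j)).card := by
  have h := discl_initial ((Finset.Icc 1 M).filter (fun j => s ≤ k j))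
    (fun j hj => (Finset.mem_Icc.mp (Finset.mem_filter.mp hj).1).1)
    (fun j hj i hi hij => by
      rw [Finset.mem_filter, Finset.mem_Icc] at hj ⊢
      exact ⟨⟨hi, by omega⟩, le_trans hj.2 (hanti i j hi hij)⟩)
  have h' : j ∈ (Finset.Icc 1 M).filter (fun j => s ≤ k j)
      ↔ j ∈ Finset.Icc 1 ((Finset.Icc 1 M).filter (fun j => s ≤ k j)).card := by rw [← h]
  rw [Finset.mem_filter, Finset.mem_Icc, Finset.mem_Icc] at h'
  rw [← h']
  constructor
  · intro hj
    exact ⟨hsupp j (by omega), hj⟩
  · exact fun hj => hj.2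

/-- the abstract statement. -/
lemma discl_abs (k F : ℕ → ℕ) (M : ℕ)
    (hanti : ∀ j j', 1 ≤ j → j ≤ j' → k j' ≤ k j) (hsupp : ∀ j, 1 ≤ k j → 1 ≤ j ∧ j ≤ M)
    (hF : ∀ t, F (t + 1) = F t + k (t + 1)) (hFs : ∀ t, F t = ∑ j ∈ Finset.Icc 1 t, k j)
    (h n2 : ℕ) (hh : h = ((Finset.Icc 1 M).filter (fun j => 3 ≤ k j)).card)
    (hn : n2 = ((Finset.Icc 1 M).filter (fun j => k j = 2)).card) :
    k (h + 1) ≤ 2 ∧
    ∑ j ∈ (Finset.Icc 1 M).filter (fun j => 3 ≤ k j), k j = F h ∧
    F (h + n2) - F h = 2 * n2 ∧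
    ∀ K, 2 * K ≤ F (h + K) - F h → K ≤ n2 := by
  have h3 : ∀ j, 3 ≤ k j ↔ 1 ≤ j ∧ j ≤ h := by
    intro j
    rw [hh]
    exact discl_level k M 3 (by norm_num) hanti hsupp j
  have hcard : ((Finset.Icc 1 M).filter (fun j => 2 ≤ k j)).card = h + n2 := by
    rw [hh, hn, ← Finset.card_union_of_disjoint]
    · congr 1
      ext j
      simp only [Finset.mem_filter, Finset.mem_union]
      constructor
      · rintro ⟨h1, h2⟩
        rcases Nat.lt_or_ge 2 (k j) with h | h
        · exact Or.inl ⟨h1, h⟩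
        · exact Or.inr ⟨h1, by omega⟩
      · rintro (⟨h1, h2⟩ | ⟨h1, h2⟩)
        · exact ⟨h1, by omega⟩
        · exact ⟨h1, by omega⟩
    · rw [Finset.disjoint_filter]
      intro j _ h1 h2
      omega
  have h2 : ∀ j, 2 ≤ k j ↔ 1 ≤ j ∧ j ≤ h + n2 := by
    intro j
    rw [← hcard]
    exact discl_level k M 2 (by norm_num) hanti hsupp j
  have hsum : ∀ K, F (h + K) = F h + ∑ i ∈ Finset.range K, k (h + i + 1) := by
    intro K
    induction K with
    | zero => simp
    | succ K ih => rw [← add_assoc, hF, ih, Finset.sum_range_succ, add_assoc]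
  refine ⟨?_, ?_, ?_, ?_⟩
  · by_contra hc
    have := (h3 (h + 1)).mp (by omega)
    omega
  · rw [hFs]
    apply Finset.sum_congr _ fun _ _ => rfl
    ext j
    rw [Finset.mem_filter, Finset.mem_Icc, Finset.mem_Icc, h3]
    constructor
    · exact fun hj => hj.2
    · intro hj
      exact ⟨hsupp j (by have := (h3 j).mpr hj; omega), hj⟩
  · rw [hsum, Nat.add_sub_cancel_left]
    have : ∀ i ∈ Finset.range n2, k (h + i + 1) = 2 := by
      intro i hi
      rw [Finset.mem_range] at hi
      have a1 := (h2 (h + i + 1)).mpr ⟨by omega, by omega⟩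
      have a2 : ¬ 3 ≤ k (h + i + 1) := by
        intro hc
        have := (h3 _).mp hc
        omega
      omega
    rw [Finset.sum_congr rfl this]
    simp [mul_comm]
  · intro K hK
    rw [hsum, Nat.add_sub_cancel_left] at hK
    have hb : ∀ i ∈ Finset.range K, k (h + i + 1) ≤ 1 + (if i < n2 then 1 else 0) := by
      intro i _
      have a2 : ¬ 3 ≤ k (h + i + 1) := by
        intro hc
        have := (h3 _).mp hc
        omega
      split_ifs with hi
      · omega
      · have a1 : ¬ 2 ≤ k (h + i + 1) := by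
          intro hc
          have := (h2 _).mp hc
          omega
        omega
    have hle := Finset.sum_le_sum hb
    rw [Finset.sum_add_distrib, ← Finset.card_filter] at hle
    have hc : ((Finset.range K).filter (fun i => i < n2)).card ≤ n2 := by
      have hsub : (Finset.range K).filter (fun i => i < n2) ⊆ Finset.range n2 := by
        intro i hi
        rw [Finset.mem_filter] at hi
        exact Finset.mem_range.mpr hi.2
      simpa using Finset.card_le_card hsub
    simp at hle
    omega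

/-- **DISC-LC.** -/
theorem disc_layer : StDiscLayer := by
  intro G _ _ l hl
  have hsupp : ∀ j, 1 ≤ layer G l j → 1 ≤ j ∧ j ≤ Nat.log 2 (Nat.card G) := by
    intro j hj
    have := pathl_layer_support G hl hj
    rw [layerIndex, Finset.mem_product, Finset.mem_Icc] at this
    exact this.2
  exact discl_abs (layer G l) (prefixLog G l) (Nat.log 2 (Nat.card G))
    (fun j j' hj hjj => pathl_layer_anti G hl hj hjj) hsupp
    (fun t => pathl_prefixLog_succ G hl t) (fun t => pathl_prefixLog_eq_sum G hl t)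
    (discH G l) (twoCount G l) rfl rfl

end Claimed.Agent.R293
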