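/-
R293 / DiscNak.lean  (owner: helper193).  Leaf DISC-NAK: Nakayama with two generators.  Prefix `discn`.  No sorry.
-/
import Claimed.Agent.R293.DiscStmts

set_option autoImplicit false

namespace Claimed.Agent.R293

variable {Z : Type} [AddCommGroup Z]

/-- adjoining an element outside `A ⊇ l Z` divides the index by at least `l`. -/
theorem discn_index_step {l : ℕ} (hl : l.Prime) (A : AddSubgroup Z) (hA : mulSub Z l ≤ A)
    (hi : A.index ≠ 0) {g : Z} (hg : g ∉ A) :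
    (A ⊔ AddSubgroup.zmultiples g).index * l ≤ A.index := by
  set A' := A ⊔ AddSubgroup.zmultiples g with hA'
  have hle : A ≤ A' := le_sup_left
  have hgA' : g ∈ A' := (le_sup_right : AddSubgroup.zmultiples g ≤ A') (AddSubgroup.mem_zmultiples g)
  have hmul := AddSubgroup.relIndex_mul_index hle
  have hrel0 : A.relIndex A' ≠ 0 := fun h => hi (by rw [← hmul, h, zero_mul])
  -- the class of `g` in `A' / A` has order `l`
  set x : A' ⧸ A.addSubgroupOf A' := QuotientAddGroup.mk (⟨g, hgA'⟩ : A') with hx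
  have hx0 : x ≠ 0 := by
    intro h
    rw [hx, QuotientAddGroup.eq_zero_iff] at h
    exact hg (AddSubgroup.mem_addSubgroupOf.1 h)
  have hlx : l • x = 0 := by
    rw [hx, ← QuotientAddGroup.mk_nsmul, QuotientAddGroup.eq_zero_iff]
    refine AddSubgroup.mem_addSubgroupOf.2 (hA ?_)
    exact ⟨g, rfl⟩
  have := Fact.mk hl
  have hord : addOrderOf x = l := addOrderOf_eq_prime hlx hx0
  have hdvd : l ∣ A.relIndex A' := by
    have := addOrderOf_dvd_natCard x
    rw [hord] at this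
    exact this
  have hle2 : l ≤ A.relIndex A' := Nat.le_of_dvd (Nat.pos_of_ne_zero hrel0) hdvd
  calc A'.index * l ≤ A'.index * A.relIndex A' := Nat.mul_le_mul_left _ hle2
    _ = A.index := by rw [mul_comm, hmul]

/-- two elements generate `Z` modulo `S ⊇ l Z` if `[Z : S] ≤ l²`. -/
theorem discn_two_gen {l : ℕ} (hl : l.Prime) (S : AddSubgroup Z) (hS : mulSub Z l ≤ S)
    (hi : S.index ≠ 0) (hle : S.index ≤ l ^ 2) :
    ∃ g₁ g₂ : Z, S ⊔ AddSubgroup.zmultiples g₁ ⊔ AddSubgroup.zmultiples g₂ = ⊤ := by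
  by_cases h1 : S = ⊤
  · exact ⟨0, 0, by simp [h1]⟩
  obtain ⟨g₁, hg₁⟩ : ∃ g, g ∉ S := by
    by_contra h
    push Not at h
    exact h1 (eq_top_iff.2 fun x _ => h x)
  have st1 := discn_index_step hl S hS hi hg₁
  set S1 := S ⊔ AddSubgroup.zmultiples g₁ with hS1
  have hS1i : S1.index ≠ 0 := fun h =>
    hi (Nat.eq_zero_of_zero_dvd (h ▸ AddSubgroup.index_dvd_of_le (le_sup_left : S ≤ S1)))
  by_cases h2 : S1 = ⊤
  · exact ⟨g₁, 0, by simp [← hS1, h2]⟩
  obtain ⟨g₂, hg₂⟩ : ∃ g, g ∉ S1 := by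
    by_contra h
    push Not at h
    exact h2 (eq_top_iff.2 fun x _ => h x)
  have st2 := discn_index_step hl S1 (hS.trans le_sup_left) hS1i hg₂
  refine ⟨g₁, g₂, ?_⟩
  set S2 := S1 ⊔ AddSubgroup.zmultiples g₂ with hS2
  have hS2i : S2.index ≠ 0 := fun h =>
    hS1i (Nat.eq_zero_of_zero_dvd (h ▸ AddSubgroup.index_dvd_of_le (le_sup_left : S1 ≤ S2)))
  have hlpos : 0 < l := hl.pos
  have h3 : S2.index * (l * l) ≤ 1 * (l * l) := by
    calc S2.index * (l * l) = S2.index * l * l := by ring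
      _ ≤ S1.index * l := Nat.mul_le_mul_right _ st2
      _ ≤ S.index := st1
      _ ≤ l ^ 2 := hle
      _ = 1 * (l * l) := by ring
  have h4 : S2.index ≤ 1 := Nat.le_of_mul_le_mul_right h3 (Nat.mul_pos hlpos hlpos)
  exact AddSubgroup.index_eq_one.1 (by omega)

/-- **DISC-NAK.** -/
theorem disc_nak : StDiscNak := by
  intro Z _ R l N hl hN hi hle
  obtain ⟨g₁, g₂, htop⟩ := discn_two_gen hl (R ⊔ mulSub Z l) le_sup_right hi hle
  refine ⟨g₁, g₂, ?_⟩
  -- one step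
  have step : ∀ w : Z, ∃ X Y : ℤ, ∃ r ∈ R, ∃ w' : Z, w = X • g₁ + Y • g₂ + r + l • w' := by
    intro w
    have hw : w ∈ R ⊔ mulSub Z l ⊔ AddSubgroup.zmultiples g₁ ⊔ AddSubgroup.zmultiples g₂ := by
      rw [htop]; trivial
    obtain ⟨a, ha, b, hb, rfl⟩ := AddSubgroup.mem_sup.1 hw
    obtain ⟨c, hc, d, hd, rfl⟩ := AddSubgroup.mem_sup.1 ha
    obtain ⟨r, hr, e, he, rfl⟩ := AddSubgroup.mem_sup.1 hc
    obtain ⟨Y, rfl⟩ := AddSubgroup.mem_zmultiples_iff.1 hb
    obtain ⟨X, rfl⟩ := AddSubgroup.mem_zmultiples_iff.1 hd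
    obtain ⟨w', rfl⟩ := he
    refine ⟨X, Y, r, hr, w', ?_⟩
    simp only [nsmulAddMonoidHom_apply]
    abel
  have iter : ∀ j : ℕ, ∀ z : Z, ∃ X Y : ℤ, ∃ r ∈ R, ∃ w : Z,
      z = X • g₁ + Y • g₂ + r + l ^ j • w := by
    intro j
    induction j with
    | zero => exact fun z => ⟨0, 0, 0, R.zero_mem, z, by simp⟩
    | succ j ih =>
      intro z
      obtain ⟨X, Y, r, hr, w, rfl⟩ := ih z
      obtain ⟨X', Y', r', hr', w', rfl⟩ := step w
      refine ⟨X + (l ^ j : ℕ) * X', Y + (l ^ j : ℕ) * Y', r + l ^ j • r',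
        R.add_mem hr (R.nsmul_mem hr' _), w', ?_⟩
      rw [add_smul, add_smul, mul_smul, mul_smul, natCast_zsmul, natCast_zsmul, smul_add, smul_add,
        smul_add, pow_succ, mul_smul]
      abel
  intro z
  obtain ⟨X, Y, r, hr, w, rfl⟩ := iter N z
  refine ⟨X, Y, ?_⟩
  have : X • g₁ + Y • g₂ + r + l ^ N • w - (X • g₁ + Y • g₂) = r + l ^ N • w := by abel
  rw [this]
  exact R.add_mem hr (hN w)

end Claimed.Agent.R293
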