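/-
R293 / DiscPair.lean  (owner: helper14).  Package DISC, leaf DISC-PB: `disc_pairBasic : StDiscPairBasic`.  No sorry.
-/
import Claimed.Agent.R293.DiscStmts

set_option autoImplicit false

namespace Claimed.Agent.R293

open scoped BigOperators Matrix

variable {m : ℕ}

/-- the cast of an integer vector -/
def discpQ (x : Fin m → ℤ) : Fin m → ℚ := fun i => (x i : ℚ)

theorem discp_invForm_eq (B : Matrix (Fin m) (Fin m) ℤ) (x y : Fin m → ℤ) :
    invForm B x y = discpQ x ⬝ᵥ (invQ B) *ᵥ discpQ y := rfl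

theorem discp_invQ_transpose {B : Matrix (Fin m) (Fin m) ℤ} (hB : B.IsSymm) :
    (invQ B)ᵀ = invQ B := by
  unfold invQ
  rw [Matrix.transpose_nonsing_inv, ← Matrix.transpose_map, hB.eq]

theorem discp_symm {B : Matrix (Fin m) (Fin m) ℤ} (hB : B.IsSymm) (x y : Fin m → ℤ) :
    invForm B x y = invForm B y x := by
  rw [discp_invForm_eq, discp_invForm_eq, Matrix.dotProduct_mulVec, ← Matrix.mulVec_transpose,
    discp_invQ_transpose hB, dotProduct_comm]

theorem discp_det_ne {B : Matrix (Fin m) (Fin m) ℤ} (hdet : B.det ≠ 0) :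
    IsUnit (B.map (Int.cast : ℤ → ℚ)).det := by
  have h : (B.map (Int.cast : ℤ → ℚ)).det = ((B.det : ℤ) : ℚ) := by
    have := (Int.castRingHom ℚ).map_det B
    simpa [RingHom.mapMatrix_apply] using this.symm
  rw [h]
  exact isUnit_iff_ne_zero.2 (by exact_mod_cast hdet)

theorem discp_cast_mulVec (B : Matrix (Fin m) (Fin m) ℤ) (v : Fin m → ℤ) :
    discpQ (B *ᵥ v) = (B.map (Int.cast : ℤ → ℚ)) *ᵥ discpQ v := by
  funext i
  simp [discpQ, Matrix.mulVec, dotProduct]

theorem discp_mem_colLat (B : Matrix (Fin m) (Fin m) ℤ) (x : Fin m → ℤ) :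
    x ∈ colLat B ↔ ∃ v, B *ᵥ v = x := by
  simp [colLat, LinearMap.mem_range]

/-- **DISC-PB**: `invForm B` is symmetric and its radical modulo `ℤ` is the column lattice. -/
theorem disc_pairBasic : StDiscPairBasic := by
  intro m B hB hdet
  refine ⟨discp_symm hB, fun x => ?_⟩
  have hu := discp_det_ne hdet
  rw [discp_mem_colLat]
  constructor
  · rintro ⟨v, rfl⟩ y
    rw [discp_symm hB, discp_invForm_eq, discp_cast_mulVec, Matrix.mulVec_mulVec]
    unfold invQ
    rw [Matrix.nonsing_inv_mul _ hu, Matrix.one_mulVec]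
    refine ⟨y ⬝ᵥ v, ?_⟩
    simp [discpQ, dotProduct]
  · intro h
    have h1 : ∀ i, ∃ n : ℤ, ((invQ B) *ᵥ discpQ x) i = n := by
      intro i
      obtain ⟨n, hn⟩ := h (Pi.single i 1)
      refine ⟨n, ?_⟩
      rw [discp_symm hB, discp_invForm_eq] at hn
      rw [← hn]
      have : discpQ (Pi.single i (1 : ℤ)) = Pi.single i (1 : ℚ) := by
        funext j
        by_cases hj : j = i
        · subst hj; simp [discpQ]
        · simp [discpQ, hj]
      rw [this, single_one_dotProduct]
    choose v hv using h1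
    refine ⟨v, ?_⟩
    have h2 : discpQ v = (invQ B) *ᵥ discpQ x := by
      funext i
      exact (hv i).symm
    have h3 : discpQ (B *ᵥ v) = discpQ x := by
      rw [discp_cast_mulVec, h2, Matrix.mulVec_mulVec]
      unfold invQ
      rw [Matrix.mul_nonsing_inv _ hu, Matrix.one_mulVec]
    funext i
    have h4 : (((B *ᵥ v) i : ℤ) : ℚ) = ((x i : ℤ) : ℚ) := congrFun h3 i
    exact_mod_cast h4

end Claimed.Agent.R293
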