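/-
R293 / DiscMain.lean  (owner: helper256).  Package DISC: the glue
`disc_coloring : (leaves of DiscStmts.lean) → StColoring`.   No sorry.
-/
import Claimed.Agent.R293.DiscStmts

set_option autoImplicit false

namespace Claimed.Agent.R293

open scoped BigOperators

/-! ### generalities -/

theorem disc_card_nsmul_mem {Z : Type*} [AddCommGroup Z] (Λ : AddSubgroup Z) [Finite (Z ⧸ Λ)] (z : Z) :
    Nat.card (Z ⧸ Λ) • z ∈ Λ := by
  have h : Nat.card (Z ⧸ Λ) • (QuotientAddGroup.mk z : Z ⧸ Λ) = 0 := card_nsmul_eq_zero'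
  rw [← QuotientAddGroup.mk_nsmul] at h
  exact (QuotientAddGroup.eq_zero_iff _).1 h

theorem disc_isInt_sub {a b : ℚ} (ha : IsInt a) (hb : IsInt b) : IsInt (a - b) := by
  rw [sub_eq_add_neg]; exact ha.add hb.neg

/-- integrality of a biadditive form passes from generators to the generated subgroups. -/
theorem disc_isInt_closure {Z : Type*} [AddCommGroup Z] (φ : Z →+ Z →+ ℚ) (S T : Set Z)
    (h : ∀ x ∈ S, ∀ y ∈ T, IsInt (φ x y)) :
    ∀ x ∈ AddSubgroup.closure S, ∀ y ∈ AddSubgroup.closure T, IsInt (φ x y) := by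
  intro x hx y hy
  induction hx using AddSubgroup.closure_induction with
  | mem x hx =>
    induction hy using AddSubgroup.closure_induction with
    | mem y hy => exact h x hx y hy
    | zero => rw [map_zero]; exact IsInt.zero
    | add a b _ _ ha hb => rw [map_add]; exact ha.add hb
    | neg a _ ha => rw [map_neg]; exact ha.neg
  | zero => rw [map_zero, AddMonoidHom.zero_apply]; exact IsInt.zero
  | add a b _ _ ha hb => rw [map_add, AddMonoidHom.add_apply]; exact ha.add hb
  | neg a _ ha => rw [map_neg, AddMonoidHom.neg_apply]; exact ha.neg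

variable {m : ℕ}

/-- the inverse form as a bundled biadditive map. -/
noncomputable def discForm (B : Matrix (Fin m) (Fin m) ℤ) : (Fin m → ℤ) →+ (Fin m → ℤ) →+ ℚ :=
  AddMonoidHom.mk' (fun x => AddMonoidHom.mk' (fun y => invForm B x y) (invForm_add_right B x))
    (fun x x' => AddMonoidHom.ext fun y => invForm_add_left B x x' y)

@[simp] theorem discForm_apply (B : Matrix (Fin m) (Fin m) ℤ) (x y : Fin m → ℤ) :
    discForm B x y = invForm B x y := rfl

theorem disc_invForm_nsmul_left (B : Matrix (Fin m) (Fin m) ℤ) (n : ℕ) (x y : Fin m → ℤ) :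
    invForm B (n • x) y = (n : ℚ) * invForm B x y := by
  rw [← discForm_apply, map_nsmul, AddMonoidHom.nsmul_apply, nsmul_eq_mul, discForm_apply]

/-- the scaled form `c f`. -/
noncomputable def discFormC (B : Matrix (Fin m) (Fin m) ℤ) (c : ℕ) : (Fin m → ℤ) →+ (Fin m → ℤ) →+ ℚ :=
  (discForm B).comp (nsmulAddMonoidHom (α := Fin m → ℤ) c)

@[simp] theorem discFormC_apply (B : Matrix (Fin m) (Fin m) ℤ) (c : ℕ) (x y : Fin m → ℤ) :
    discFormC B c x y = invForm B (c • x) y := rfl

theorem disc_finite (hI : StIndexDet) (B : Matrix (Fin m) (Fin m) ℤ) (hdet : B.det ≠ 0) :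
    Finite (DiscGroup B) := by
  have h : (colLat B).index ≠ 0 := by
    rw [hI m B]; exact Int.natAbs_ne_zero.2 hdet
  have : (colLat B).FiniteIndex := ⟨h⟩
  exact AddSubgroup.finite_quotient_of_finiteIndex

theorem disc_mem_tor {Z : Type*} [AddCommGroup Z] (Λ : AddSubgroup Z) (c : ℕ) (x : Z) :
    x ∈ discTor Λ c ↔ c • x ∈ Λ := Iff.rfl

theorem disc_le_tor {Z : Type*} [AddCommGroup Z] (Λ : AddSubgroup Z) (c : ℕ) : Λ ≤ discTor Λ c :=
  fun _ hx => Λ.nsmul_mem hx c

/-! ### `sub` -/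

theorem disc_sub (hPB : StDiscPairBasic) (hI : StIndexDet) (hIdx : StDiscIdx) (hDual : StDiscDual)
    (hLC : StDiscLayer) (B : Matrix (Fin m) (Fin m) ℤ) (hB : B.IsSymm) (hdet : B.det ≠ 0)
    (l : ℕ) (hl : l.Prime) (col : (Fin m → ℤ) → ℕ)
    (hP : ∀ z z', IsInt (invForm B z z) → IsInt (invForm B z' z') → col z = col z' →
        IsInt (invForm B (discC (DiscGroup B) l • z) z')) (c₁ : ℕ) :
    ∃ K : AddSubgroup (Fin m → ℤ), colLat B ≤ K ∧
      (∃ e, twoCount (DiscGroup B) l ≤ e ∧ K.index = l ^ e) ∧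
      ∀ z, IsInt (invForm B z z) → col z = c₁ → z ∈ K := by
  have := disc_finite hI B hdet
  obtain ⟨hsymm, hrad⟩ := hPB m B hB hdet
  obtain ⟨-, -, hLC3, -⟩ := hLC (DiscGroup B) l hl
  set c := discC (DiscGroup B) l with hc
  set R := discTor (colLat B) c with hRdef
  set S : Set (Fin m → ℤ) := {z | IsInt (invForm B z z) ∧ col z = c₁} with hS
  set K := AddSubgroup.closure (S ∪ (R : Set (Fin m → ℤ))) with hK
  have hRK : R ≤ K := fun x hx => AddSubgroup.subset_closure (Or.inr hx)
  have hR : ∀ x, x ∈ R ↔ ∀ y, IsInt (invForm B (c • x) y) := fun x => hrad (c • x)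
  have hsymmC : ∀ x y, invForm B (c • x) y = invForm B (c • y) x := by
    intro x y
    rw [disc_invForm_nsmul_left, disc_invForm_nsmul_left, hsymm x y]
  -- integrality on `K × K`
  have hKK : ∀ x ∈ K, ∀ y ∈ K, IsInt (discFormC B c x y) := by
    apply disc_isInt_closure
    rintro x (hx | hx) y hy
    · rcases hy with hy | hy
      · exact hP x y hx.1 hy.1 (hx.2.trans hy.2.symm)
      · rw [discFormC_apply, hsymmC]; exact (hR y).1 hy x
    · exact (hR x).1 hx y
  -- indices
  set h := discH (DiscGroup B) l with hh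
  set N := (Nat.card (DiscGroup B)).factorization l with hN
  have hRN : mulSub (Fin m → ℤ) (l ^ N) ≤ R := by
    rintro z ⟨w, rfl⟩
    rw [hRdef, disc_mem_tor]
    have h1 : c • (nsmulAddMonoidHom (α := Fin m → ℤ) (l ^ N)) w
        = (l ^ h) • (Nat.card (DiscGroup B) • w) := by
      rw [nsmulAddMonoidHom_apply, smul_smul, smul_smul]
      congr 1
      have h0 := Nat.ordProj_mul_ordCompl_eq_self (Nat.card (DiscGroup B)) l
      calc c * l ^ N = l ^ h * (l ^ N * ordCompl[l] (Nat.card (DiscGroup B))) := by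
            rw [hc, discC]; ring
        _ = l ^ h * Nat.card (DiscGroup B) := by rw [hN, h0]
    rw [h1]
    exact (colLat B).nsmul_mem (disc_card_nsmul_mem (colLat B) w) _
  have hRidx : ∃ E, R.index = l ^ E := by
    refine ⟨prefixLog (DiscGroup B) l (h + N) - prefixLog (DiscGroup B) l h, ?_⟩
    have := hIdx (Fin m → ℤ) (colLat B) l hl h N
    rwa [show discTor (colLat B) (ordCompl[l] (Nat.card ((Fin m → ℤ) ⧸ colLat B)) * l ^ h) = R from rfl,
      sup_eq_left.2 hRN] at this
  obtain ⟨E, hE⟩ := hRidx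
  have hR0 : R.index ≠ 0 := by rw [hE]; exact pow_ne_zero _ hl.ne_zero
  have hR2 : l ^ (2 * twoCount (DiscGroup B) l) ≤ R.index := by
    have := hIdx (Fin m → ℤ) (colLat B) l hl h (twoCount (DiscGroup B) l)
    rw [show discTor (colLat B) (ordCompl[l] (Nat.card ((Fin m → ℤ) ⧸ colLat B)) * l ^ h) = R from rfl,
      hLC3] at this
    rw [← this]
    exact Nat.le_of_dvd (Nat.pos_of_ne_zero hR0) (AddSubgroup.index_dvd_of_le le_sup_left)
  have hKdvd : K.index ∣ l ^ E := hE ▸ AddSubgroup.index_dvd_of_le hRK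
  obtain ⟨e, -, he⟩ := (Nat.dvd_prime_pow hl).1 hKdvd
  have hK0 : K.index ≠ 0 := by rw [he]; exact pow_ne_zero _ hl.ne_zero
  have hdual : R.relIndex K ≤ K.index :=
    hDual (Fin m → ℤ) (discFormC B c) K R hK0 hRK (fun x _ hx => (hR x).2 hx) hKK
  have hle : R.index ≤ K.index * K.index := by
    rw [← AddSubgroup.relIndex_mul_index hRK]
    exact Nat.mul_le_mul_right _ hdual
  refine ⟨K, (disc_le_tor _ c).trans hRK, ⟨e, ?_, he⟩, fun z hz hcz =>
    AddSubgroup.subset_closure (Or.inl ⟨hz, hcz⟩)⟩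
  have h2 : l ^ (2 * twoCount (DiscGroup B) l) ≤ l ^ (2 * e) := by
    calc l ^ (2 * twoCount (DiscGroup B) l) ≤ R.index := hR2
      _ ≤ K.index * K.index := hle
      _ = l ^ (2 * e) := by rw [he, two_mul, pow_add]
  have := (Nat.pow_le_pow_iff_right hl.one_lt).1 h2
  omega

/-! ### `img` -/

theorem disc_img (hPB : StDiscPairBasic) (hI : StIndexDet) (hQuot : StDiscQuot) (hCrt : StDiscCrt)
    (hLC : StDiscLayer) (hGcd : StDiscGcd) (B : Matrix (Fin m) (Fin m) ℤ) (hB : B.IsSymm) (hdet : B.det ≠ 0)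
    (col : ℕ → (Fin m → ℤ) → ℕ)
    (hP : ∀ l, l.Prime → ∀ z z', IsInt (invForm B z z) → IsInt (invForm B z' z') → col l z = col l z' →
        IsInt (invForm B (discC (DiscGroup B) l • z) z'))
    (X : Set (Fin m → ℤ)) (hX : ∀ z ∈ X, IsInt (invForm B z z))
    (hmono : ∀ l, l.Prime → ∀ z ∈ X, ∀ z' ∈ X, col l z = col l z') :
    (pairKer B (diffLat X)).relIndex (diffLat X) ≠ 0 ∧
      (pairKer B (diffLat X)).relIndex (diffLat X) ≤
        ∏ l ∈ (Nat.card (DiscGroup B)).primeFactors, l ^ highExp (DiscGroup B) l := by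
  have := disc_finite hI B hdet
  obtain ⟨-, hrad⟩ := hPB m B hB hdet
  set L := diffLat X with hL
  -- step 1
  have h1 : ∀ l, l.Prime → ∀ u ∈ L, ∀ w ∈ L, IsInt (invForm B (discC (DiscGroup B) l • u) w) := by
    intro l hl
    have := disc_isInt_closure (discFormC B (discC (DiscGroup B) l))
      {d | ∃ x ∈ X, ∃ y ∈ X, d = x - y} {d | ∃ x ∈ X, ∃ y ∈ X, d = x - y} (by
        rintro _ ⟨x, hx, y, hy, rfl⟩ _ ⟨x', hx', y', hy', rfl⟩
        have key : ∀ a ∈ X, ∀ b ∈ X, IsInt (discFormC B (discC (DiscGroup B) l) a b) :=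
          fun a ha b hb => hP l hl a b (hX a ha) (hX b hb) (hmono l hl a ha b hb)
        rw [map_sub, map_sub, AddMonoidHom.sub_apply, AddMonoidHom.sub_apply]
        exact disc_isInt_sub (disc_isInt_sub (key x hx x' hx') (key y hy x' hx'))
          (disc_isInt_sub (key x hx y' hy') (key y hy y' hy')))
    exact this
  -- step 2
  set c₀ := ∏ l ∈ (Nat.card (DiscGroup B)).primeFactors, l ^ discH (DiscGroup B) l with hc₀
  have h2 : ∀ u ∈ L, ∀ w ∈ L, IsInt ((c₀ : ℚ) * invForm B u w) := by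
    intro u hu w hw
    apply hGcd (Nat.card (DiscGroup B)) Nat.card_pos.ne' (discH (DiscGroup B)) (invForm B u w)
    · rw [← disc_invForm_nsmul_left]
      exact (hrad _).1 (disc_card_nsmul_mem (colLat B) u) w
    · intro l hl _
      rw [← disc_invForm_nsmul_left]
      exact h1 l hl u hu w hw
  -- step 3
  have h3 := hQuot (Fin m → ℤ) (colLat B) c₀ L (pairKer B L) (fun u hu => hu.1)
    (fun u hu => ⟨L.nsmul_mem hu _, fun w hw => by
      rw [disc_invForm_nsmul_left]; exact h2 u hu w hw⟩)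
    (fun u hu hu' => ⟨hu, fun w _ => (hrad u).1 hu' w⟩)
  refine ⟨h3.1, h3.2.trans (le_of_eq ?_)⟩
  rw [hc₀, hCrt (DiscGroup B) (discH (DiscGroup B))]
  refine Finset.prod_congr rfl fun l hl => ?_
  rw [(hLC (DiscGroup B) l (Nat.prime_of_mem_primeFactors hl)).2.1]

/-! ### the colouring -/

theorem disc_coloring (hPrime : StDiscPrime) (hPB : StDiscPairBasic) (hI : StIndexDet) (hIdx : StDiscIdx)
    (hDual : StDiscDual) (hQuot : StDiscQuot) (hCrt : StDiscCrt) (hLC : StDiscLayer) (hGcd : StDiscGcd) :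
    StColoring := by
  classical
  intro m B hB hdet
  choose col hle hP using hPrime m B hB hdet
  refine ⟨fun l z => if h : l.Prime then col l h z else 0, ?_, ?_, ?_⟩
  · intro l z
    by_cases h : l.Prime
    · simp only [h, dif_pos]; exact hle l h z
    · simp only [h, dif_neg, not_false_iff, Nat.zero_le]
  · intro l hl c₁
    simp only [hl, dif_pos]
    exact disc_sub hPB hI hIdx hDual hLC B hB hdet l hl (col l hl) (hP l hl) c₁
  · intro X hX hmono
    apply disc_img hPB hI hQuot hCrt hLC hGcd B hB hdet _ _ X hX hmono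
    intro l hl z z' hz hz' hcol
    simp only [hl, dif_pos] at hcol
    exact hP l hl z z' hz hz' hcol

end Claimed.Agent.R293
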