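/-
R293 / DiscPrime.lean  (owner: helper256).  Package DISC: the colouring at one prime from the leaves
(`disc_prime : … → StDiscPrime`).   No sorry.
-/
import Claimed.Agent.R293.DiscMain

set_option autoImplicit false

namespace Claimed.Agent.R293

open scoped BigOperators

theorem disc_pow_nsmul_mem_tor {Z : Type*} [AddCommGroup Z] (Λ : AddSubgroup Z) [Finite (Z ⧸ Λ)]
    (l h : ℕ) (z : Z) :
    l ^ (Nat.card (Z ⧸ Λ)).factorization l • z ∈ discTor Λ (ordCompl[l] (Nat.card (Z ⧸ Λ)) * l ^ h) := by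
  rw [disc_mem_tor, smul_smul]
  have h0 := Nat.ordProj_mul_ordCompl_eq_self (Nat.card (Z ⧸ Λ)) l
  have h1 : ordCompl[l] (Nat.card (Z ⧸ Λ)) * l ^ h * l ^ (Nat.card (Z ⧸ Λ)).factorization l
      = l ^ h * Nat.card (Z ⧸ Λ) := by
    calc _ = l ^ h * (l ^ (Nat.card (Z ⧸ Λ)).factorization l * ordCompl[l] (Nat.card (Z ⧸ Λ))) := by ring
      _ = _ := by rw [h0]
  rw [h1, mul_smul]
  exact Λ.nsmul_mem (disc_card_nsmul_mem Λ z) _

theorem disc_isInt_iff_dvd {M : ℤ} (hM : M ≠ 0) {q : ℚ} {n : ℤ} (h : (M : ℚ) * q = n) :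
    IsInt q ↔ M ∣ n := by
  have hM' : (M : ℚ) ≠ 0 := by exact_mod_cast hM
  constructor
  · rintro ⟨k, rfl⟩
    refine ⟨k, ?_⟩
    exact_mod_cast h.symm
  · rintro ⟨k, rfl⟩
    refine ⟨k, ?_⟩
    push_cast at h
    exact mul_left_cancel₀ hM' h

theorem disc_isInt_natCast_mul (n : ℕ) {q : ℚ} (h : IsInt q) : IsInt ((n : ℚ) * q) := by
  obtain ⟨k, rfl⟩ := h
  exact ⟨n * k, by push_cast; ring⟩

/-- a symmetric biadditive form in coordinates with respect to two vectors. -/
theorem disc_form_coord {Z : Type*} [AddCommGroup Z] (F : Z →+ Z →+ ℚ) (hF : ∀ x y, F x y = F y x)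
    (g₁ g₂ : Z) (X Y X' Y' : ℤ) :
    F (X • g₁ + Y • g₂) (X' • g₁ + Y' • g₂)
      = F g₁ g₁ * X * X' + F g₁ g₂ * (X * Y' + X' * Y) + F g₂ g₂ * Y * Y' := by
  simp only [map_add, AddMonoidHom.add_apply, map_zsmul, AddMonoidHom.zsmul_apply, zsmul_eq_mul]
  rw [hF g₂ g₁]
  ring

theorem disc_prime (hPB : StDiscPairBasic) (hI : StIndexDet) (hNak : StDiscNak) (hIdx : StDiscIdx)
    (hCnt : StDiscCount) (hLC : StDiscLayer) (hAr : StDiscArith) : StDiscPrime := by
  intro m B hB hdet l hl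
  have := disc_finite hI B hdet
  obtain ⟨hsymm, hrad⟩ := hPB m B hB hdet
  obtain ⟨hLC1, -, -, hLC4⟩ := hLC (DiscGroup B) l hl
  set c := discC (DiscGroup B) l with hc
  set R := discTor (colLat B) c with hRdef
  set h := discH (DiscGroup B) l with hh
  set N := (Nat.card (DiscGroup B)).factorization l with hN
  set F := discFormC B c with hFdef
  have hR : ∀ x, x ∈ R ↔ ∀ y, IsInt (F x y) := fun x => hrad (c • x)
  have hF : ∀ x y, F x y = F y x := by
    intro x y
    rw [hFdef, discFormC_apply, discFormC_apply, disc_invForm_nsmul_left, disc_invForm_nsmul_left,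
      hsymm x y]
  have hRN : ∀ z : Fin m → ℤ, l ^ N • z ∈ R := fun z => disc_pow_nsmul_mem_tor (colLat B) l h z
  have hidx : ∀ k, (R ⊔ mulSub (Fin m → ℤ) (l ^ k)).index
      = l ^ (prefixLog (DiscGroup B) l (h + k) - prefixLog (DiscGroup B) l h) :=
    fun k => hIdx (Fin m → ℤ) (colLat B) l hl h k
  -- two generators
  have hidx1 : (R ⊔ mulSub (Fin m → ℤ) l).index = l ^ layer (DiscGroup B) l (h + 1) := by
    have := hidx 1
    rwa [pow_one] at this
  obtain ⟨g₁, g₂, hg⟩ := hNak (Fin m → ℤ) R l N hl hRN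
    (by rw [hidx1]; exact pow_ne_zero _ hl.ne_zero)
    (by rw [hidx1]; exact Nat.pow_le_pow_right hl.pos hLC1)
  choose cX cY hXY using hg
  -- the integral binary form
  have hint : ∀ x y, IsInt (((l : ℤ) ^ N : ℤ) * F x y) := by
    intro x y
    have h1 := (hR _).1 (hRN x) y
    rw [map_nsmul, AddMonoidHom.nsmul_apply, nsmul_eq_mul] at h1
    push_cast at h1 ⊢
    exact h1
  obtain ⟨a, ha⟩ := hint g₁ g₁
  obtain ⟨b, hb⟩ := hint g₁ g₂
  obtain ⟨d, hd⟩ := hint g₂ g₂
  have hM : ((l : ℤ) ^ N) ≠ 0 := pow_ne_zero _ (by exact_mod_cast hl.ne_zero)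
  have hcoord : ∀ X Y X' Y' : ℤ, (((l : ℤ) ^ N : ℤ) : ℚ) * F (X • g₁ + Y • g₂) (X' • g₁ + Y' • g₂)
      = ((a * X * X' + b * (X * Y' + X' * Y) + d * Y * Y' : ℤ) : ℚ) := by
    intro X Y X' Y'
    rw [disc_form_coord F hF]
    push_cast
    rw [← ha, ← hb, ← hd]
    push_cast
    ring
  have hdvd : ∀ X Y X' Y' : ℤ, IsInt (F (X • g₁ + Y • g₂) (X' • g₁ + Y' • g₂)) ↔
      (l : ℤ) ^ N ∣ a * X * X' + b * (X * Y' + X' * Y) + d * Y * Y' :=
    fun X Y X' Y' => disc_isInt_iff_dvd hM (hcoord X Y X' Y')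
  -- reduction modulo `R`
  have hmod : ∀ z z' u u', z - u ∈ R → z' - u' ∈ R → (IsInt (F z z') ↔ IsInt (F u u')) := by
    intro z z' u u' hz hz'
    have h1 : F z z' = F u u' + (F (z - u) z' + F (z' - u') u) := by
      rw [hF (z' - u') u]
      simp only [map_sub, AddMonoidHom.sub_apply]
      ring
    have h2 : IsInt (F (z - u) z' + F (z' - u') u) := ((hR _).1 hz z').add ((hR _).1 hz' u)
    constructor
    · intro h3
      have : F u u' = F z z' - (F (z - u) z' + F (z' - u') u) := by rw [h1]; ring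
      rw [this]; exact disc_isInt_sub h3 h2
    · intro h3
      rw [h1]; exact h3.add h2
  obtain ⟨k, col₀, hcol, hradk, horth⟩ := hAr l N a b d hl
  -- `k ≤ twoCount`
  have hk : k ≤ twoCount (DiscGroup B) l := by
    apply hLC4
    have h1 : (l ^ k) ^ 2 ≤ (R ⊔ mulSub (Fin m → ℤ) (l ^ k)).index := by
      apply hCnt (Fin m → ℤ) _ g₁ g₂ (l ^ k)
      · rw [hidx]; exact pow_ne_zero _ hl.ne_zero
      · intro X Y hmem
        obtain ⟨r, hr, w', ⟨w, rfl⟩, hsum⟩ := AddSubgroup.mem_sup.1 hmem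
        rw [nsmulAddMonoidHom_apply] at hsum
        set X₂ := X - (l : ℤ) ^ k * cX w with hX₂
        set Y₂ := Y - (l : ℤ) ^ k * cY w with hY₂
        have hu : X₂ • g₁ + Y₂ • g₂ ∈ R := by
          have : X₂ • g₁ + Y₂ • g₂ = r + l ^ k • (w - (cX w • g₁ + cY w • g₂)) := by
            rw [hX₂, hY₂, sub_smul, sub_smul, mul_smul, mul_smul, smul_sub, smul_add]
            have e1 : ∀ v : Fin m → ℤ, (l : ℤ) ^ k • v = l ^ k • v := by
              intro v
              rw [← natCast_zsmul]; push_cast; rfl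
            rw [e1, e1]
            have : X • g₁ + Y • g₂ = r + l ^ k • w := hsum.symm
            calc X • g₁ - l ^ k • cX w • g₁ + (Y • g₂ - l ^ k • cY w • g₂)
                = (X • g₁ + Y • g₂) - (l ^ k • cX w • g₁ + l ^ k • cY w • g₂) := by abel
              _ = _ := by rw [this]; abel
          rw [this]
          exact R.add_mem hr (R.nsmul_mem (hXY w) _)
        have t1 : (l : ℤ) ^ N ∣ a * X₂ + b * Y₂ := by
          have := (hdvd X₂ Y₂ 1 0).1 ((hR _).1 hu _)
          simpa using this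
        have t2 : (l : ℤ) ^ N ∣ b * X₂ + d * Y₂ := by
          have := (hdvd X₂ Y₂ 0 1).1 ((hR _).1 hu _)
          simpa using this
        obtain ⟨s1, s2⟩ := hradk X₂ Y₂ t1 t2
        push_cast
        constructor
        · have : X = X₂ + (l : ℤ) ^ k * cX w := by rw [hX₂]; ring
          rw [this]; exact dvd_add s1 (dvd_mul_right _ _)
        · have : Y = Y₂ + (l : ℤ) ^ k * cY w := by rw [hY₂]; ring
          rw [this]; exact dvd_add s2 (dvd_mul_right _ _)
    rw [hidx, ← pow_mul, mul_comm k 2] at h1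
    exact (Nat.pow_le_pow_iff_right hl.one_lt).1 h1
  refine ⟨fun z => col₀ (cX z) (cY z), fun z => (hcol _ _).trans (Nat.mul_le_mul_left 8 hk), ?_⟩
  intro z z' hz hz' hcc
  have iso : ∀ z, IsInt (invForm B z z) →
      (l : ℤ) ^ N ∣ a * cX z * cX z + 2 * b * cX z * cY z + d * cY z * cY z := by
    intro z hz
    have h1 : IsInt (F z z) := by
      rw [hFdef, discFormC_apply, disc_invForm_nsmul_left]
      exact disc_isInt_natCast_mul c hz
    have h2 := (hdvd _ _ _ _).1 ((hmod z z _ _ (hXY z) (hXY z)).1 h1)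
    have e : a * cX z * cX z + b * (cX z * cY z + cX z * cY z) + d * cY z * cY z
        = a * cX z * cX z + 2 * b * cX z * cY z + d * cY z * cY z := by ring
    rwa [e] at h2
  have h3 := horth _ _ _ _ (iso z hz) (iso z' hz') hcc
  exact (hmod z z' _ _ (hXY z) (hXY z')).2 ((hdvd _ _ _ _).2 h3)

end Claimed.Agent.R293
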