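/-
R293 / DiscQuot.lean  (DISC leaf QUOT, owner helper38).
`|H/nH| ≤ |G/nG|` for `H ≤ G` finite abelian, in the lattice model.
-/
import Claimed.Agent.R293.DiscStmts
import Claimed.Agent.R293.PathLayer

set_option autoImplicit false

namespace Claimed.Agent.R293

open scoped BigOperators
open AddSubgroup

/-- `|A/nA| = |A[n]|` for a finite abelian group. -/
theorem discq_index_eq_card_ker (A : Type*) [AddCommGroup A] [Finite A] (n : ℕ) :
    (mulSub A n).index = Nat.card (nsmulAddMonoidHom (α := A) n).ker := by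
  have h1 := AddSubgroup.card_mul_index (mulSub A n)
  have h2 := AddSubgroup.card_mul_index (nsmulAddMonoidHom (α := A) n).ker
  rw [AddSubgroup.index_ker] at h2
  have h3 : Nat.card (mulSub A n) = Nat.card (nsmulAddMonoidHom (α := A) n).range := rfl
  rw [← h3] at h2
  have hpos : 0 < Nat.card (mulSub A n) := Nat.card_pos
  have h4 : Nat.card (mulSub A n) * (mulSub A n).index
      = Nat.card (mulSub A n) * Nat.card (nsmulAddMonoidHom (α := A) n).ker := by
    rw [h1, mul_comm, h2]
  exact Nat.eq_of_mul_eq_mul_left hpos h4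

/-- `|H/nH| ≤ |G/nG|` for a subgroup `H` of a finite abelian group `G`. -/
theorem discq_index_le (G : Type*) [AddCommGroup G] [Finite G] (H : AddSubgroup G) (n : ℕ) :
    (mulSub H n).index ≤ (mulSub G n).index := by
  rw [discq_index_eq_card_ker, discq_index_eq_card_ker]
  refine Nat.card_le_card_of_injective
    (fun x : (nsmulAddMonoidHom (α := H) n).ker =>
      (⟨(x.1 : G), by
        have h := x.2
        rw [AddMonoidHom.mem_ker, nsmulAddMonoidHom_apply] at h ⊢
        have := congrArg (fun y : H => (y : G)) h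
        simpa using this⟩ : (nsmulAddMonoidHom (α := G) n).ker)) ?_
  intro x y hxy
  have : ((x.1 : H) : G) = ((y.1 : H) : G) :=
    congrArg (fun z : (nsmulAddMonoidHom (α := G) n).ker => (z : G)) hxy
  exact Subtype.ext (Subtype.ext this)

/-- **DISC-QUOT.** -/
theorem disc_quot : StDiscQuot := by
  intro Z _ Λ _ n L P hPL hn hΛ
  set G := Z ⧸ Λ with hG
  set H : AddSubgroup G := L.map (QuotientAddGroup.mk' Λ) with hH
  let φ : L →+ H := (QuotientAddGroup.mk' Λ).addSubgroupMap L
  have hφs : Function.Surjective φ := (QuotientAddGroup.mk' Λ).addSubgroupMap_surjective L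
  have hφ : ∀ u : L, ((φ u : H) : G) = ((u : Z) : G) := fun _ => rfl
  have hle : (mulSub H n).comap φ ≤ P.addSubgroupOf L := by
    intro u hu
    rw [AddSubgroup.mem_comap, pathl_mem_mulSub] at hu
    obtain ⟨g, hg⟩ := hu
    obtain ⟨u', rfl⟩ := hφs g
    rw [AddSubgroup.mem_addSubgroupOf]
    have h1 : (((u : Z) - n • (u' : Z) : Z) : G) = 0 := by
      have h2 := congrArg (fun y : H => (y : G)) hg
      simp only [AddSubgroup.coe_nsmul, hφ] at h2
      rw [QuotientAddGroup.mk_sub, QuotientAddGroup.mk_nsmul, h2, sub_self]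
    have h3 : (u : Z) - n • (u' : Z) ∈ Λ := (QuotientAddGroup.eq_zero_iff _).mp h1
    have h4 : (u : Z) - n • (u' : Z) ∈ P :=
      hΛ _ (L.sub_mem u.2 (L.nsmul_mem u'.2 n)) h3
    have h5 := P.add_mem h4 (hn _ u'.2)
    simpa using h5
  have hdvd := AddSubgroup.index_dvd_of_le hle
  rw [AddSubgroup.index_comap_of_surjective _ hφs] at hdvd
  have hne : (mulSub H n).index ≠ 0 := AddSubgroup.index_ne_zero_of_finite
  have hrel : P.relIndex L = (P.addSubgroupOf L).index := rfl
  rw [hrel]
  refine ⟨fun h0 => hne (by rw [h0] at hdvd; simpa using hdvd), ?_⟩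
  exact (Nat.le_of_dvd (Nat.pos_of_ne_zero hne) hdvd).trans (discq_index_le G H n)

end Claimed.Agent.R293
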