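/-
R293 / PathIndex.lean  (owner: helper136).  PATH-A7: index = |det|, Hadamard for bit matrices,
layer heights are bounded by the corank mod `l`.  Prefix `pathi`.  No sorry.
-/
import Claimed.Agent.R293.PathIface
import Claimed.Agent.R293.LatGram

set_option autoImplicit false

namespace Claimed.Agent.R293

open scoped BigOperators
variable {k : ℕ}

/-! ### `[ℤ^k : C ℤ^k] = |det C|` -/

theorem pathi_mem_colLat {C : Matrix (Fin k) (Fin k) ℤ} {x : Fin k → ℤ} :
    x ∈ colLat C ↔ ∃ y : Fin k → ℤ, C.mulVec y = x := by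
  unfold colLat
  rw [Submodule.mem_toAddSubgroup, LinearMap.mem_range]
  rfl

theorem pathi_index_of_det_ne_zero {C : Matrix (Fin k) (Fin k) ℤ} (h : C.det ≠ 0) :
    (colLat C).index = C.det.natAbs := by
  have hinj : Function.Injective (Matrix.mulVecLin C) :=
    Matrix.mulVec_injective_of_det_ne_zero h
  have key := Submodule.natAbs_det_equiv (Matrix.mulVecLin C).range
    (LinearEquiv.ofInjective (Matrix.mulVecLin C) hinj)
  have h1 : (Matrix.mulVecLin C).range.subtype ∘ₗ AddMonoidHom.toIntLinearMap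
      ((LinearEquiv.ofInjective (Matrix.mulVecLin C) hinj : (Fin k → ℤ) →+ (Matrix.mulVecLin C).range))
      = Matrix.mulVecLin C := by
    ext x i
    rfl
  rw [h1] at key
  have h2 : LinearMap.det (Matrix.mulVecLin C) = C.det := by
    rw [← Matrix.toLin'_apply', LinearMap.det_toLin']
  rw [h2] at key
  rw [key]
  rfl

theorem pathi_index_of_det_eq_zero {C : Matrix (Fin k) (Fin k) ℤ} (h : C.det = 0) :
    (colLat C).index = 0 := by
  obtain ⟨w, hw0, hw⟩ := Matrix.exists_vecMul_eq_zero_iff.2 h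
  by_contra hne
  apply hw0
  funext i
  have h1 : (colLat C).index • (Pi.single i 1 : Fin k → ℤ) ∈ colLat C :=
    AddSubgroup.nsmul_index_mem _ _
  obtain ⟨y, hy⟩ := pathi_mem_colLat.1 h1
  have h2 : w ⬝ᵥ C.mulVec y = 0 := by
    rw [Matrix.dotProduct_mulVec, hw, zero_dotProduct]
  rw [hy, dotProduct_smul, dotProduct_single, mul_one, nsmul_eq_mul] at h2
  rcases mul_eq_zero.1 h2 with h2 | h2
  · exact absurd (by exact_mod_cast h2) hne
  · exact h2

theorem path_indexDet : StIndexDet := by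
  intro k C
  by_cases h : C.det = 0
  · rw [pathi_index_of_det_eq_zero h, h]; rfl
  · exact pathi_index_of_det_ne_zero h

theorem pathi_finite_discGroup {C : Matrix (Fin k) (Fin k) ℤ} (h : C.det ≠ 0) :
    Finite (DiscGroup C) := by
  have h1 : (colLat C).index ≠ 0 := by
    rw [pathi_index_of_det_ne_zero h]
    exact Int.natAbs_ne_zero.2 h
  have : (colLat C).FiniteIndex := ⟨h1⟩
  exact AddSubgroup.finite_quotient_of_finiteIndex

/-! ### Hadamard -/

/-- the rows of an integer matrix as Euclidean vectors. -/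
noncomputable def pathiRow (C : Matrix (Fin k) (Fin k) ℤ) (i : Fin k) : EucM k :=
  WithLp.toLp 2 (fun j => (C i j : ℝ))

theorem pathi_gram_row (C : Matrix (Fin k) (Fin k) ℤ) :
    Matrix.gram ℝ (pathiRow C) =
      (C.map (Int.cast : ℤ → ℝ)) * (C.map (Int.cast : ℤ → ℝ)).transpose := by
  ext i j
  rw [Matrix.gram_apply, Matrix.mul_apply]
  simp [pathiRow, PiLp.inner_apply, mul_comm]

theorem pathi_gramDet_row (C : Matrix (Fin k) (Fin k) ℤ) :
    gramDet (pathiRow C) = (C.det : ℝ) ^ 2 := by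
  unfold gramDet
  rw [pathi_gram_row, Matrix.det_mul, Matrix.det_transpose, sq]
  have : (C.map (Int.cast : ℤ → ℝ)).det = (C.det : ℝ) := by
    have := (Int.castRingHom ℝ).map_det C
    simpa using this.symm
  rw [this]

theorem pathi_norm_row_sq (C : Matrix (Fin k) (Fin k) ℤ) (i : Fin k) :
    ‖pathiRow C i‖ ^ 2 = ∑ j, (C i j : ℝ) ^ 2 := by
  rw [EuclideanSpace.norm_sq_eq]
  simp [pathiRow]

/-- Hadamard for integer matrices with bounded entries. -/
theorem pathi_det_sq_le (C : Matrix (Fin k) (Fin k) ℤ) (hC : ∀ i j, C i j = 0 ∨ C i j = 1) :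
    (C.det : ℝ) ^ 2 ≤ (k : ℝ) ^ k := by
  rw [← pathi_gramDet_row]
  refine (lat_gramDet_le_prod _).trans ?_
  calc ∏ i, ‖pathiRow C i‖ ^ 2 ≤ ∏ _i : Fin k, (k : ℝ) := by
        refine Finset.prod_le_prod (fun i _ => by positivity) fun i _ => ?_
        rw [pathi_norm_row_sq]
        calc ∑ j, (C i j : ℝ) ^ 2 ≤ ∑ _j : Fin k, (1 : ℝ) := by
              refine Finset.sum_le_sum fun j _ => ?_
              rcases hC i j with h | h <;> simp [h]
          _ = k := by simp
    _ = (k : ℝ) ^ k := by simp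

theorem path_hadamardBit : StHadamardBit := by
  intro N k hk C hC
  have h1 := pathi_det_sq_le C hC.2
  have h2 : (k : ℝ) ^ k ≤ (N : ℝ) ^ N := by exact_mod_cast Nat.pow_self_mono hk
  have h3 : ((N : ℝ) ^ ((N : ℝ) / 2)) ^ 2 = (N : ℝ) ^ N := by
    rw [← Real.rpow_natCast, ← Real.rpow_mul (Nat.cast_nonneg N)]
    rw [show (N : ℝ) / 2 * ((2 : ℕ) : ℝ) = (N : ℝ) by push_cast; ring, Real.rpow_natCast]
  have h4 : ((C.det.natAbs : ℝ)) ^ 2 = (C.det : ℝ) ^ 2 := by
    rw [Nat.cast_natAbs, Int.cast_abs, sq_abs]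
  have h5 : (0 : ℝ) ≤ (N : ℝ) ^ ((N : ℝ) / 2) := Real.rpow_nonneg (Nat.cast_nonneg N) _
  refine (pow_le_pow_iff_left₀ (Nat.cast_nonneg _) h5 two_ne_zero).1 ?_
  rw [h4, h3]
  exact h1.trans h2

/-! ### corank mod `l` -/

theorem pathi_mulVec_mem_colLat (C : Matrix (Fin k) (Fin k) ℤ) (y : Fin k → ℤ) :
    C.mulVec y ∈ colLat C := pathi_mem_colLat.2 ⟨y, rfl⟩

/-- reduction of integer vectors mod `l`. -/
def pathiRed (l : ℕ) : (Fin k → ℤ) →+ (Fin k → ZMod l) :=
  (Int.castAddHom (ZMod l)).compLeft (Fin k)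

theorem pathiRed_apply (l : ℕ) (x : Fin k → ℤ) (i : Fin k) : pathiRed l x i = (x i : ZMod l) := rfl

theorem pathiRed_surjective (l : ℕ) : Function.Surjective (pathiRed (k := k) l) := by
  intro y
  choose x hx using fun i => ZMod.intCast_surjective (y i)
  exact ⟨x, funext hx⟩

theorem pathiRed_mulVec (l : ℕ) (C : Matrix (Fin k) (Fin k) ℤ) (y : Fin k → ℤ) :
    pathiRed l (C.mulVec y) = (C.map (Int.cast : ℤ → ZMod l)).mulVec (pathiRed l y) := by
  funext i
  simp [pathiRed_apply, Matrix.mulVec, dotProduct]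

theorem pathiRed_eq_zero {l : ℕ} {x : Fin k → ℤ} (h : pathiRed l x = 0) :
    ∃ z : Fin k → ℤ, x = l • z := by
  have h1 : ∀ i, (l : ℤ) ∣ x i := fun i => by
    rw [← ZMod.intCast_zmod_eq_zero_iff_dvd]
    exact congrFun h i
  choose z hz using h1
  exact ⟨z, funext fun i => by simp [hz i]⟩

/-- `|G/lG|` divides `l^(k - rank (C mod l))`. -/
theorem pathi_card_dvd (C : Matrix (Fin k) (Fin k) ℤ) (l : ℕ) [Fact l.Prime] :
    Nat.card (DiscGroup C ⧸ mulSub (DiscGroup C) l) ∣
      l ^ (k - (C.map (Int.cast : ℤ → ZMod l)).rank) := by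
  set Cb := C.map (Int.cast : ℤ → ZMod l) with hCb
  set R : Submodule (ZMod l) (Fin k → ZMod l) := (Matrix.mulVecLin Cb).range with hR
  let φ : (Fin k → ℤ) →+ ((Fin k → ZMod l) ⧸ R) := (R.mkQ).toAddMonoidHom.comp (pathiRed l)
  have hφ : ∀ x, φ x = R.mkQ (pathiRed l x) := fun x => rfl
  have h1 : ∀ x ∈ colLat C, φ x = 0 := by
    intro x hx
    obtain ⟨y, rfl⟩ := pathi_mem_colLat.1 hx
    rw [hφ, pathiRed_mulVec, Submodule.mkQ_apply, Submodule.Quotient.mk_eq_zero]
    exact ⟨_, rfl⟩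
  let g1 : DiscGroup C →+ ((Fin k → ZMod l) ⧸ R) := QuotientAddGroup.lift (colLat C) φ h1
  have hl : ∀ q : (Fin k → ZMod l) ⧸ R, l • q = 0 := by
    intro q
    rw [← Nat.cast_smul_eq_nsmul (ZMod l), ZMod.natCast_self, zero_smul]
  have h2 : ∀ x ∈ mulSub (DiscGroup C) l, g1 x = 0 := by
    rintro x ⟨g, rfl⟩
    show g1 (l • g) = 0
    rw [map_nsmul, hl]
  let g2 : (DiscGroup C ⧸ mulSub (DiscGroup C) l) →+ ((Fin k → ZMod l) ⧸ R) :=
    QuotientAddGroup.lift _ g1 h2
  have hinj : Function.Injective g2 := by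
    rw [injective_iff_map_eq_zero]
    intro a ha
    induction a using QuotientAddGroup.induction_on with
    | H a =>
      induction a using QuotientAddGroup.induction_on with
      | H x =>
        have h3 : φ x = 0 := ha
        rw [hφ, Submodule.mkQ_apply, Submodule.Quotient.mk_eq_zero] at h3
        obtain ⟨yb, hyb⟩ := h3
        obtain ⟨y, rfl⟩ := pathiRed_surjective l yb
        have h4 : pathiRed l (x - C.mulVec y) = 0 := by
          rw [map_sub, pathiRed_mulVec, sub_eq_zero]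
          exact hyb.symm
        obtain ⟨z, hz⟩ := pathiRed_eq_zero h4
        rw [QuotientAddGroup.eq_zero_iff]
        refine ⟨(z : DiscGroup C), ?_⟩
        show l • (z : DiscGroup C) = (x : DiscGroup C)
        rw [← QuotientAddGroup.mk_nsmul, ← hz, QuotientAddGroup.mk_sub, sub_eq_self,
          QuotientAddGroup.eq_zero_iff]
        exact pathi_mulVec_mem_colLat C y
  have h5 := AddSubgroup.card_dvd_of_injective g2 hinj
  have h6 : Nat.card ((Fin k → ZMod l) ⧸ R) = l ^ (k - Cb.rank) := by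
    rw [Module.natCard_eq_pow_finrank (K := ZMod l), Nat.card_zmod]
    congr 1
    have := Submodule.finrank_quotient_add_finrank R
    rw [Module.finrank_fin_fun] at this
    have h7 : Cb.rank = Module.finrank (ZMod l) R := rfl
    omega
  rwa [h6] at h5

theorem pathi_layer_one_le (C : Matrix (Fin k) (Fin k) ℤ) {l : ℕ} (hl : l.Prime) :
    layer (DiscGroup C) l 1 ≤ k - (C.map (Int.cast : ℤ → ZMod l)).rank := by
  have : Fact l.Prime := ⟨hl⟩
  have h1 := pathi_card_dvd C l
  obtain ⟨i, hi, h2⟩ := (Nat.dvd_prime_pow hl).1 h1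
  unfold layer prefixLog
  rw [pow_one, h2, padicValNat.prime_pow]
  omega

theorem path_layerCorank (hA : StLayerAnti) : StLayerCorank := by
  intro k C hdet l j hl
  have := pathi_finite_discGroup hdet
  have : Fact l.Prime := ⟨hl⟩
  have hrank : (C.map (Int.cast : ℤ → ZMod l)).rank ≤ k := by
    simpa using Matrix.rank_le_width (C.map (Int.cast : ℤ → ZMod l))
  have h1 : layer (DiscGroup C) l j ≤ k - (C.map (Int.cast : ℤ → ZMod l)).rank := by
    rcases Nat.eq_zero_or_pos j with rfl | hj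
    · simp [layer]
    · exact (hA (DiscGroup C) l hl 1 j le_rfl hj).trans (pathi_layer_one_le C hl)
  have h2 : ((k - (C.map (Int.cast : ℤ → ZMod l)).rank : ℕ) : ℝ)
      = (k : ℝ) - ((C.map (Int.cast : ℤ → ZMod l)).rank : ℝ) := by
    rw [Nat.cast_sub hrank]
  rw [← h2]
  exact_mod_cast h1

end Claimed.Agent.R293
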