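/-
R293 / DiscFinal.lean  (owner: helper256).  Package DISC: assembly of all leaves.
`disc_coloring_final : StColoring` (no hypotheses).   No sorry.
-/
import Claimed.Agent.R293.DiscPrime
import Claimed.Agent.R293.DiscPair
import Claimed.Agent.R293.DiscNak
import Claimed.Agent.R293.DiscIdx
import Claimed.Agent.R293.DiscCount
import Claimed.Agent.R293.DiscDual
import Claimed.Agent.R293.DiscQuot
import Claimed.Agent.R293.DiscCrt
import Claimed.Agent.R293.DiscLayer
import Claimed.Agent.R293.DiscGcd
import Claimed.Agent.R293.DiscArithEven
import Claimed.Agent.R293.DiscArithDiag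
import Claimed.Agent.R293.DiscArithRed
import Claimed.Agent.R293.PathIndex

set_option autoImplicit false

namespace Claimed.Agent.R293

theorem disc_coloring_of_diag (hD : StDiscArithDiag) : StColoring :=
  disc_coloring
    (disc_prime disc_pairBasic path_indexDet disc_nak disc_idx disc_count disc_layer
      (disc_arithRed hD disc_arithEven))
    disc_pairBasic path_indexDet disc_idx disc_dual disc_quot disc_crt disc_layer disc_gcd

/-- **A Lemmas 6.1-6.3 = B Lemmas 5.2, 5.3**: every nonsingular symmetric integer matrix has a colouring. -/
theorem disc_coloring_final : StColoring := disc_coloring_of_diag disc_arithDiag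

end Claimed.Agent.R293
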