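/-
R293 / PairBridge.lean  (owner: helper205).  Small bridges used by the PAIR leaves.  No sorry.
* `invForm` (over `ℚ`) versus the real inverse `(toR B)⁻¹`;
* `bitVecZ`, `zToR`, `bitVec`;
* admissible columns are isotropic;
* `IsBitMatrix B ↔ B = bitMat s`;
* calculus of `Typically`.
-/
import Claimed.Agent.R293.PairIface
import Claimed.Agent.R293.ProbMarg

set_option autoImplicit false

namespace Claimed.Agent.R293

open Filter Module Matrix

variable {m : ℕ}

/-- inverse commutes with a homomorphism of fields. -/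
theorem pair_inv_map {K L : Type*} [Field K] [Field L] (f : K →+* L) {n : Type*} [Fintype n] [DecidableEq n]
    (M : Matrix n n K) : (M.map f)⁻¹ = (M⁻¹).map f := by
  rw [Matrix.inv_def, Matrix.inv_def]
  have h1 : (M.map f).det = f M.det := by
    rw [← RingHom.mapMatrix_apply, ← RingHom.map_det]
  have h2 : (M.map f).adjugate = (M.adjugate).map f := by
    rw [← RingHom.mapMatrix_apply, ← RingHom.map_adjugate, RingHom.mapMatrix_apply]
  rw [h1, h2, Ring.inverse_eq_inv', Ring.inverse_eq_inv']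
  ext i j
  simp [Matrix.smul_apply, map_inv₀]

theorem pair_toR_eq (B : Matrix (Fin m) (Fin m) ℤ) :
    toR B = (B.map (Int.cast : ℤ → ℚ)).map (Rat.castHom ℝ) := by
  ext i j
  simp [toR]

/-- the real inverse is the cast of the rational inverse. -/
theorem pair_toR_inv (B : Matrix (Fin m) (Fin m) ℤ) :
    (toR B)⁻¹ = (invQ B).map (Rat.castHom ℝ) := by
  rw [pair_toR_eq, pair_inv_map]
  rfl

theorem pair_toR_inv_apply (B : Matrix (Fin m) (Fin m) ℤ) (i j : Fin m) :
    (toR B)⁻¹ i j = ((invQ B i j : ℚ) : ℝ) := by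
  rw [pair_toR_inv]
  rfl

/-- `invForm` is the real form `xᵀ B⁻¹ y`. -/
theorem pair_invForm_cast (B : Matrix (Fin m) (Fin m) ℤ) (x y : Fin m → ℤ) :
    ((invForm B x y : ℚ) : ℝ) = zToR x ⬝ᵥ (toR B)⁻¹.mulVec (zToR y) := by
  unfold invForm zToR
  simp only [dotProduct, Matrix.mulVec, pair_toR_inv_apply]
  push_cast
  rfl

theorem pair_zToR_bitVecZ (z : Fin m → Bool) : zToR (bitVecZ z) = bitVec z := by
  funext i
  unfold zToR bitVecZ bitVec
  split_ifs <;> simp

/-- admissible columns are isotropic for the discriminant pairing. -/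
theorem pair_isInt_of_adm {L0 : ℝ} {N : ℕ} {B : Matrix (Fin m) (Fin m) ℤ} {z : Fin m → Bool}
    (h : IsAdmCol L0 N B z) : IsInt (invForm B (bitVecZ z) (bitVecZ z)) := by
  have hc := pair_invForm_cast B (bitVecZ z) (bitVecZ z)
  rw [pair_zToR_bitVecZ] at hc
  rcases h.1 with h0 | h1
  · refine ⟨0, ?_⟩
    rw [h0] at hc
    exact_mod_cast hc
  · refine ⟨1, ?_⟩
    rw [h1] at hc
    exact_mod_cast hc

theorem pair_toR_isSymm {B : Matrix (Fin m) (Fin m) ℤ} (h : B.IsSymm) : (toR B).IsSymm := by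
  ext i j
  have := congrFun (congrFun h i) j
  simp only [Matrix.transpose_apply] at this
  simp [toR, Matrix.transpose_apply, this]

theorem pair_toR_det (B : Matrix (Fin m) (Fin m) ℤ) : (toR B).det = (B.det : ℝ) := by
  have : toR B = (Int.castRingHom ℝ).mapMatrix B := rfl
  rw [this, ← RingHom.map_det]
  rfl

theorem pair_toR_det_ne {B : Matrix (Fin m) (Fin m) ℤ} (h : B.det ≠ 0) : (toR B).det ≠ 0 := by
  rw [pair_toR_det]
  exact_mod_cast h

theorem pair_toR_inv_isSymm {B : Matrix (Fin m) (Fin m) ℤ} (h : B.IsSymm) : ((toR B)⁻¹).IsSymm := by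
  unfold Matrix.IsSymm
  rw [Matrix.transpose_nonsing_inv, pair_toR_isSymm h]

/-! ### bit matrices -/

theorem pair_isBit_bitMat (s : Sym2 (Fin m) → Bool) : IsBitMatrix (bitMat s) := by
  refine ⟨?_, fun i j => ?_⟩
  · ext i j
    simp only [Matrix.transpose_apply, bitMat]
    rw [Sym2.eq_swap]
  · unfold bitMat
    split_ifs
    · exact Or.inr rfl
    · exact Or.inl rfl

theorem pair_exists_bitMat {B : Matrix (Fin m) (Fin m) ℤ} (h : IsBitMatrix B) :
    ∃ s : Sym2 (Fin m) → Bool, B = bitMat s := by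
  classical
  have hsymm : ∀ i j, B i j = B j i := fun i j => by
    have := congrFun (congrFun h.1 j) i
    simpa [Matrix.transpose_apply] using this
  refine ⟨Sym2.lift ⟨fun i j => decide (B i j = 1), fun i j => by
    show decide (B i j = 1) = decide (B j i = 1)
    rw [hsymm i j]⟩, ?_⟩
  ext i j
  unfold bitMat
  simp only [Sym2.lift_mk, decide_eq_true_eq]
  rcases h.2 i j with h0 | h1
  · simp [h0]
  · simp [h1]

/-! ### calculus of `Typically` -/

/-- a property which follows (eventually, for nonsingular bit matrices in the range) from two typical properties is typical. -/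
theorem pair_typically_of2 {p : ℝ} (hp0 : 0 < p) (hp : p ≤ 1 / 2)
    {G1 G2 G : ℕ → ∀ m : ℕ, Matrix (Fin m) (Fin m) ℤ → Prop}
    (h1 : Typically p G1) (h2 : Typically p G2)
    (h : ∀ᶠ N : ℕ in atTop, ∀ m : ℕ, InRange N m → ∀ B : Matrix (Fin m) (Fin m) ℤ, IsBitMatrix B →
      B.det ≠ 0 → G1 N m B → G2 N m B → G N m B) : Typically p G := by
  intro A
  filter_upwards [h1 (A + 1), h2 (A + 1), h, eventually_ge_atTop 1] with N e1 e2 e3 hN m hm π hπ
  have hπ' : IsProbArray π := pb_bitModel_isProbArray hp0.le (by linarith) hπ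
  have hsub : {s | (bitMat s).det ≠ 0 ∧ ¬ G N m (bitMat s)} ⊆
      {s | (bitMat s).det ≠ 0 ∧ ¬ G1 N m (bitMat s)} ∪ {s | (bitMat s).det ≠ 0 ∧ ¬ G2 N m (bitMat s)} := by
    intro s hs
    by_cases c1 : G1 N m (bitMat s)
    · by_cases c2 : G2 N m (bitMat s)
      · exact absurd (e3 m hm _ (pair_isBit_bitMat s) hs.1 c1 c2) hs.2
      · exact Or.inr ⟨hs.1, c2⟩
    · exact Or.inl ⟨hs.1, c1⟩
  refine (pb_prb_mono hπ' hsub).trans ((pb_prb_union_le hπ' _ _).trans ?_)
  refine (add_le_add (e1 m hm π hπ) (e2 m hm π hπ)).trans ?_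
  have hN' : (1 : ℝ) ≤ N := by exact_mod_cast hN
  have h3 : (2 : ℝ) ^ (-((A + 1) * N)) ≤ (2 : ℝ) ^ (-(A * N) - 1) := by
    apply Real.rpow_le_rpow_of_exponent_le one_le_two
    nlinarith
  have h4 : (2 : ℝ) ^ (-(A * N) - 1) = (2 : ℝ) ^ (-(A * N)) / 2 := by
    rw [Real.rpow_sub (by norm_num), Real.rpow_one]
  linarith

theorem pair_typically_and {p : ℝ} (hp0 : 0 < p) (hp : p ≤ 1 / 2)
    {G1 G2 : ℕ → ∀ m : ℕ, Matrix (Fin m) (Fin m) ℤ → Prop}
    (h1 : Typically p G1) (h2 : Typically p G2) :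
    Typically p (fun N m B => G1 N m B ∧ G2 N m B) :=
  pair_typically_of2 hp0 hp h1 h2 (Eventually.of_forall fun _ _ _ _ _ _ a b => ⟨a, b⟩)

theorem pair_typically_mono {p : ℝ} (hp0 : 0 < p) (hp : p ≤ 1 / 2)
    {G1 G : ℕ → ∀ m : ℕ, Matrix (Fin m) (Fin m) ℤ → Prop} (h1 : Typically p G1)
    (h : ∀ᶠ N : ℕ in atTop, ∀ m : ℕ, InRange N m → ∀ B : Matrix (Fin m) (Fin m) ℤ, IsBitMatrix B →
      B.det ≠ 0 → G1 N m B → G N m B) : Typically p G :=
  pair_typically_of2 hp0 hp h1 h1 (h.mono fun _ e m hm B hB hd a _ => e m hm B hB hd a)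

end Claimed.Agent.R293
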