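/-
R293 / DiscPairDetA.lean (owner: helper62).  Package DISC-PAIRDET, part A: the inverse form in matrix language.
Sorry-free.  Prefix `discpd`.
-/
import Claimed.Agent.R293.DiscIface
import Claimed.Agent.R293.PairBridge

set_option autoImplicit false

namespace Claimed.Agent.R293

open Matrix

variable {m : ℕ}

/-- a family of integer vectors as a rational matrix (rows). -/
def discpdQ {n : ℕ} (w : Fin n → Fin m → ℤ) : Matrix (Fin n) (Fin m) ℚ :=
  Matrix.of fun i a => (w i a : ℚ)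

/-- integer combinations of a family. -/
def discpdCombo {n n' : ℕ} (U : Matrix (Fin n') (Fin n) ℤ) (w : Fin n → Fin m → ℤ) :
    Fin n' → Fin m → ℤ := fun i => ∑ j, U i j • w j

/-- the matrix of the inverse form between two families of integer vectors. -/
noncomputable def discpdF (B : Matrix (Fin m) (Fin m) ℤ) {n n' : ℕ} (w : Fin n → Fin m → ℤ)
    (w' : Fin n' → Fin m → ℤ) : Matrix (Fin n) (Fin n') ℚ :=
  Matrix.of fun i j => invForm B (w i) (w' j)

lemma discpdF_eq (B : Matrix (Fin m) (Fin m) ℤ) {n n' : ℕ} (w : Fin n → Fin m → ℤ)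
    (w' : Fin n' → Fin m → ℤ) : discpdF B w w' = discpdQ w * invQ B * (discpdQ w')ᵀ := by
  ext i j
  rw [Matrix.mul_assoc, Matrix.mul_apply]
  simp only [discpdF, invForm, Matrix.of_apply, dotProduct, Matrix.mulVec, discpdQ,
    Matrix.mul_apply, Matrix.transpose_apply]

lemma discpdQ_combo {n n' : ℕ} (U : Matrix (Fin n') (Fin n) ℤ) (w : Fin n → Fin m → ℤ) :
    discpdQ (discpdCombo U w) = U.map (Int.cast : ℤ → ℚ) * discpdQ w := by
  ext i a
  simp [discpdQ, discpdCombo, Matrix.mul_apply, Finset.sum_apply]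

lemma discpdF_combo_left (B : Matrix (Fin m) (Fin m) ℤ) {n n' n'' : ℕ}
    (U : Matrix (Fin n') (Fin n) ℤ) (w : Fin n → Fin m → ℤ) (w' : Fin n'' → Fin m → ℤ) :
    discpdF B (discpdCombo U w) w' = U.map (Int.cast : ℤ → ℚ) * discpdF B w w' := by
  simp only [discpdF_eq, discpdQ_combo, Matrix.mul_assoc]

lemma discpdF_combo_right (B : Matrix (Fin m) (Fin m) ℤ) {n n' n'' : ℕ}
    (U : Matrix (Fin n') (Fin n) ℤ) (w : Fin n → Fin m → ℤ) (w' : Fin n'' → Fin m → ℤ) :
    discpdF B w' (discpdCombo U w) = discpdF B w' w * (U.map (Int.cast : ℤ → ℚ))ᵀ := by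
  simp only [discpdF_eq, discpdQ_combo, Matrix.transpose_mul, Matrix.mul_assoc]

lemma discpd_invQ_isSymm {B : Matrix (Fin m) (Fin m) ℤ} (hB : B.IsSymm) : (invQ B).IsSymm := by
  unfold invQ Matrix.IsSymm
  rw [Matrix.transpose_nonsing_inv]
  congr 1
  ext i j
  have := congrFun (congrFun hB i) j
  simp only [Matrix.transpose_apply] at this
  simp [Matrix.transpose_apply, this]

lemma discpdF_transpose {B : Matrix (Fin m) (Fin m) ℤ} (hB : B.IsSymm) {n n' : ℕ}
    (w : Fin n → Fin m → ℤ) (w' : Fin n' → Fin m → ℤ) : (discpdF B w w')ᵀ = discpdF B w' w := by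
  simp only [discpdF_eq, Matrix.transpose_mul, Matrix.transpose_transpose,
    (discpd_invQ_isSymm hB).eq, Matrix.mul_assoc]

lemma discpd_invForm_symm {B : Matrix (Fin m) (Fin m) ℤ} (hB : B.IsSymm) (w w' : Fin m → ℤ) :
    invForm B w w' = invForm B w' w := by
  have := congrFun (congrFun (discpdF_transpose hB (fun _ : Fin 1 => w) (fun _ : Fin 1 => w')) 0) 0
  simpa [discpdF] using this

/-- `det B · B⁻¹` is the adjugate. -/
lemma discpd_det_smul_invQ {B : Matrix (Fin m) (Fin m) ℤ} (hB : B.det ≠ 0) :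
    (B.det : ℚ) • invQ B = B.adjugate.map (Int.cast : ℤ → ℚ) := by
  have h1 : (B.map (Int.cast : ℤ → ℚ)).det = (B.det : ℚ) := by
    have : B.map (Int.cast : ℤ → ℚ) = (Int.castRingHom ℚ).mapMatrix B := rfl
    rw [this, ← RingHom.map_det]
    rfl
  have h2 : (B.map (Int.cast : ℤ → ℚ)).adjugate = B.adjugate.map (Int.cast : ℤ → ℚ) := by
    have : B.map (Int.cast : ℤ → ℚ) = (Int.castRingHom ℚ).mapMatrix B := rfl
    rw [this, ← RingHom.map_adjugate]
    rfl
  have hd : (B.det : ℚ) ≠ 0 := by exact_mod_cast hB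
  unfold invQ
  rw [Matrix.inv_def, h1, h2, Ring.inverse_eq_inv', smul_smul, mul_inv_cancel₀ hd, one_smul]

lemma discpd_invForm_zsmul_left (B : Matrix (Fin m) (Fin m) ℤ) (d : ℤ) (w w' : Fin m → ℤ) :
    invForm B (d • w) w' = d * invForm B w w' := by
  unfold invForm
  rw [← smul_eq_mul, ← smul_dotProduct]
  congr 1
  ext i
  simp

/-- `det B · w` pairs integrally with everything. -/
lemma discpd_isInt_det_smul {B : Matrix (Fin m) (Fin m) ℤ} (hB : B.det ≠ 0) (w w' : Fin m → ℤ) :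
    IsInt (invForm B (B.det • w) w') := by
  refine ⟨w ⬝ᵥ B.adjugate.mulVec w', ?_⟩
  rw [discpd_invForm_zsmul_left]
  unfold invForm
  rw [← smul_eq_mul, ← dotProduct_smul, ← Matrix.smul_mulVec, discpd_det_smul_invQ hB]
  simp [dotProduct, Matrix.mulVec]

end Claimed.Agent.R293
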