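/-
R293 / IntDefs.lean  (owner: helper103, INT sub-captain).
INT package = paper B, Section 4: Theorem 4.1 (simultaneous lattice intersections) = `StSmallInt` of Iface.lean.
This file: DEFINITIONS of the package and EVERY LEAF as a `def StInt… : Prop` (no sorry).
Each leaf is proved in its own file `Int<Name>.lean` as `theorem int_… : StInt…` (possibly from other `St…` hypotheses).
The proof organisation (differs from the paper in several simplifications) is described in the comments.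

NOTATION.  `K ≤ ℤ^m` the violating lattice, `z : Fin f → ℤ^m` independent vectors of `K` with small Gram determinant,
`F = intSpan z`, `E = Fᗮ`, `W0 ≤ E` (`= E ⊓ U`), `S = intScale a b F W0 = a·P_{W0} + b·P_{E ⊓ W0ᗮ}` (`a = N²`, `b = N^{-(C+5)}`),
`L = intLatS S K = S(K)` a lattice spanning `E`.  Testers `y = S y'`, `y' ∈ latDual L`.
SIMPLIFICATIONS w.r.t. the paper:
 (1) no projected lattices `Π, Λ`: only the lattice `S(K)` (isotropic Gaussian) and INTEGER vectors with Gram determinants;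
 (2) `|u(Π/Λ)|` is replaced by the index of `intColon K u = {x | u x ∈ K}`; no passage `K → K + F_ℤ`;
 (3) B Lemma 4.3: restrict the product to `I' = J ∩ I_u`; only `ξ = ξ'` is "near"; no conditioning;
 (4) the `k` testers are chosen one after the other (last nonzero coordinate of `w`): no product measure;
 (5) all leaves are NON-ASYMPTOTIC inequalities; all asymptotics are in the leaf `IntNum`.
-/
import Claimed.Agent.R293.Iface
import Claimed.Agent.R293.LatDefs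

set_option autoImplicit false

namespace Claimed.Agent.R293

open Filter Submodule Module
open scoped RealInnerProductSpace

/-! ## 1. Testers (witnesses) -/

/-- `|(1-p) + p e^{2π i t}|² = 1 - 4 p (1-p) sin²(π t)`  (the same for `p ↔ 1-p`). -/
noncomputable def intPhiSq (p t : ℝ) : ℝ := 1 - 4 * p * (1 - p) * Real.sin (Real.pi * t) ^ 2

section Testers
variable {m k : ℕ}

/-- (W1) `B y^g ∈ ℤ^m`. -/
def IntW1 (B : Matrix (Fin m) (Fin m) ℤ) (y : Fin k → EucM m) : Prop :=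
  ∀ g v, ∃ n : ℤ, ∑ i, (B v i : ℝ) * y g i = n

/-- (W2) `‖y^g‖ ≤ ρ` and `dist(y^g, U) ≤ η`. -/
def IntW2 (ρ η : ℝ) (U : Submodule ℝ (EucM m)) (y : Fin k → EucM m) : Prop :=
  ∀ g, ‖y g‖ ≤ ρ ∧ ‖perpProj U (y g)‖ ≤ η

/-- (W3) Fourier decay on the coordinates `J`, squared form: `∏_{i∈J} |φ(∑_g w_g y^g_i)|² ≤ θ` for `0 ≠ w`, `‖w‖_∞ ≤ M`. -/
def IntW3 (p θ : ℝ) (M : ℕ) (J : Finset (Fin m)) (y : Fin k → EucM m) : Prop :=
  ∀ w : Fin k → ℤ, w ≠ 0 → (∀ g, |w g| ≤ (M : ℤ)) →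
    ∏ i ∈ J, intPhiSq p (∑ g, (w g : ℝ) * y g i) ≤ θ

end Testers

/-- a witness for `(U, J)`: `k` testers with (W1), (W2), (W3). -/
def IntWitness {m : ℕ} (p ρ η θ : ℝ) (M k : ℕ) (U : Submodule ℝ (EucM m)) (J : Finset (Fin m))
    (B : Matrix (Fin m) (Fin m) ℤ) : Prop :=
  ∃ y : Fin k → EucM m, IntW1 B y ∧ IntW2 ρ η U y ∧ IntW3 p θ M J y

/-! ## 2. PROBABILISTIC HALF: a fixed `(U, J)` rarely has a witness -/

/-- **Leaf P1 (cells).**  Grid cells along an orthonormal basis of `U`. -/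
def StIntCells : Prop :=
  ∀ (m : ℕ) (U : Submodule ℝ (EucM m)) (ρ ε : ℝ), 0 ≤ ρ → 0 < ε →
    ∃ (T : Finset (Fin (finrank ℝ U) → ℤ)) (cell : EucM m → (Fin (finrank ℝ U) → ℤ)),
      (T.card : ℝ) ≤ (2 * ρ * Real.sqrt (finrank ℝ U) / ε + 3) ^ (finrank ℝ U) ∧
      (∀ y, ‖y‖ ≤ ρ → cell y ∈ T) ∧
      (∀ y y', cell y = cell y' → ‖y - y'‖ ≤ ε + ‖perpProj U y‖ + ‖perpProj U y'‖)

/-- **Leaf P2 (row test, Fejér kernel).**  Independent bits `ξ_i` (`i ∈ κ`) with parameters in `{p,1-p}`; `k` linear forms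
`∑ ξ_i a^g_i + c_g` are simultaneously `δ`-close to integers with probability `≤ 2^k M^{-k} (1 + (2M)^k √θ)`. -/
def StIntRow : Prop :=
  ∀ (p : ℝ), 0 < p → p < 1 → ∀ (κ : Type) [Fintype κ] [DecidableEq κ] (k M : ℕ), 1 ≤ M →
    ∀ (δ θ : ℝ), 0 ≤ δ → δ * M ≤ 1 / 8 → 0 ≤ θ → ∀ (π : κ → ℝ), (∀ e, π e = p ∨ π e = 1 - p) →
    ∀ (a : Fin k → κ → ℝ) (c : Fin k → ℝ),
      (∀ w : Fin k → ℤ, w ≠ 0 → (∀ g, |w g| ≤ (M : ℤ)) →
        ∏ i, intPhiSq p (∑ g, (w g : ℝ) * a g i) ≤ θ) →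
      prb π {ξ | ∀ g, ∃ n : ℤ, |∑ i, (if ξ i then a g i else 0) + c g - n| ≤ δ} ≤
        (2 : ℝ) ^ k * ((M : ℝ) ^ k)⁻¹ * (1 + (2 * M : ℝ) ^ k * Real.sqrt θ)

/-- **P (assembly of the probabilistic half)**: `StIntCells → StIntRow → StIntProb`. -/
def StIntProb : Prop :=
  ∀ (p : ℝ), 0 < p → p < 1 → ∀ (m k M : ℕ), 1 ≤ M → ∀ (ρ η ε θ : ℝ), 0 ≤ ρ → 0 ≤ η → 0 < ε → 0 ≤ θ →
    Real.sqrt m * (ε + 2 * η) * M ≤ 1 / 8 →
    ∀ (U : Submodule ℝ (EucM m)) (J : Finset (Fin m)) (π : Sym2 (Fin m) → ℝ),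
      (∀ e, π e = p ∨ π e = 1 - p) →
      prb π {s | IntWitness p ρ η θ M k U J (bitMat s)} ≤
        (2 * ρ * Real.sqrt (finrank ℝ U) / ε + 3) ^ (finrank ℝ U * k) *
          ((2 : ℝ) ^ k * ((M : ℝ) ^ k)⁻¹ * (1 + (2 * M : ℝ) ^ k * Real.sqrt θ)) ^ (m - J.card)

/-! ## 3. DETERMINISTIC HALF: a violating lattice produces a witness -/

section Det
variable {m : ℕ}

/-- integer indicator vector of a set of coordinates. -/
def indZ (A : Finset (Fin m)) : Fin m → ℤ := fun i => if i ∈ A then 1 else 0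

/-- real span of a family of integer vectors. -/
noncomputable def intSpan {f : ℕ} (z : Fin f → Fin m → ℤ) : Submodule ℝ (EucM m) :=
  span ℝ (Set.range fun a => vecR (z a))

/-- Gram determinant of a family of integer vectors. -/
noncomputable def intGram {f : ℕ} (z : Fin f → Fin m → ℤ) : ℝ := gramDet fun a => vecR (z a)

/-- the change of scale `S = a·P_{W0} + b·P_{Fᗮ ⊓ W0ᗮ}` (it kills `F`), paper B (4.6). -/
noncomputable def intScale (a b : ℝ) (F W0 : Submodule ℝ (EucM m)) : EucM m →ₗ[ℝ] EucM m :=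
  a • (W0.starProjection : EucM m →L[ℝ] EucM m).toLinearMap +
    b • ((Fᗮ ⊓ W0ᗮ).starProjection : EucM m →L[ℝ] EucM m).toLinearMap

/-- the lattice `S(K)`. -/
noncomputable def intLatS (S : EucM m →ₗ[ℝ] EucM m) (K : AddSubgroup (Fin m → ℤ)) :
    Submodule ℤ (EucM m) :=
  (latOfSubgroup K).map (S.restrictScalars ℤ)

/-- subset sums of `{u S e_i : i ∈ I}` are pairwise at distance `> R` modulo `S(K)`. -/
def IntSep (S : EucM m →ₗ[ℝ] EucM m) (K : AddSubgroup (Fin m → ℤ)) (u : ℤ) (R : ℝ)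
    (I : Finset (Fin m)) : Prop :=
  ∀ A ⊆ I, ∀ A' ⊆ I, A ≠ A' → ∀ v ∈ K, R < ‖S (vecR (u • (indZ A - indZ A') - v))‖

/-- `(K : u) = {x | u x ∈ K}`; its index is `|u·(ℤ^m/K)|`. -/
def intColon (K : AddSubgroup (Fin m → ℤ)) (u : ℤ) : AddSubgroup (Fin m → ℤ) :=
  K.comap (zsmulAddGroupHom u)

/-- Gaussian weight `e^{-π‖y‖²}`. -/
noncomputable def intGw (y : EucM m) : ℝ := Real.exp (-(Real.pi * ‖y‖ ^ 2))

/-- standing assumptions of the deterministic half. -/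
structure IntSetup (B : Matrix (Fin m) (Fin m) ℤ) (K : AddSubgroup (Fin m → ℤ)) {f : ℕ}
    (z : Fin f → Fin m → ℤ) (W0 : Submodule ℝ (EucM m)) : Prop where
  bit : ∀ i j, B i j = 0 ∨ B i j = 1
  symm : B.IsSymm
  det_ne : B.det ≠ 0
  range_le : ∀ y, B.mulVec y ∈ K
  z_mem : ∀ a, z a ∈ K
  z_ind : LinearIndependent ℝ fun a => vecR (z a)
  W0_le : W0 ≤ (intSpan z)ᗮ

end Det

/-- **Leaf D1 (structure of a lattice with a large cube intersection; B (4.2)-(4.3); uses A 3.6 + RM count + cube/affine count).**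
Many cube points in one coset of `K` ⟹ `≥ αN/2` independent vectors of `K` with Gram determinant `≤ exp(2 N ℓ²)`. -/
def StIntStruct : Prop :=
  ∀ α : ℝ, 0 < α → ∀ᶠ N : ℕ in atTop, ∀ m : ℕ, m ≤ N → ∀ (K : AddSubgroup (Fin m → ℤ)) (x : Fin m → ℤ),
    (2 : ℝ) ^ (α * N) ≤ (Nat.card {z : Fin m → Bool // bitVecZ z - x ∈ K} : ℝ) →
    ∃ (f : ℕ) (z : Fin f → Fin m → ℤ), (∀ a, z a ∈ K) ∧ (LinearIndependent ℝ fun a => vecR (z a)) ∧
      intGram z ≤ Real.exp (2 * N * ell N ^ 2) ∧ α * N / 2 ≤ f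

/-- **Input COV (A Theorem 4.1), tuple form, height exponent 2.** -/
def IsIntCover (P : ℝ) (N m : ℕ) (𝒞 : Finset (Submodule ℝ (EucM m))) : Prop :=
  (𝒞.card : ℝ) ≤ (2 : ℝ) ^ ((N : ℝ) ^ 2 * ell N ^ (-P)) ∧
    ∀ (f : ℕ) (z : Fin f → Fin m → ℤ), (LinearIndependent ℝ fun a => vecR (z a)) →
      intGram z ≤ Real.exp (2 * N * ell N ^ 2) →
      ∃ V ∈ 𝒞, (rkDist (intSpan z) V : ℝ) ≤ N * ell N ^ (-P)

/-- the cover theorem in the form consumed by INT. -/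
def StIntCover : Prop :=
  ∀ P : ℝ, 0 < P → ∀ᶠ N : ℕ in atTop, ∀ m : ℕ, m ≤ N → ∃ 𝒞 : Finset (Submodule ℝ (EucM m)), IsIntCover P N m 𝒞

/-- **Leaf D2 (dimension bookkeeping).**  `U = Vᗮ`, `W0 = Fᗮ ⊓ U`. -/
def StIntDims : Prop :=
  ∀ (m : ℕ) (F V : Submodule ℝ (EucM m)),
    finrank ℝ (Vᗮ : Submodule ℝ (EucM m)) + finrank ℝ F ≤ m + rkDist F V ∧
    m ≤ finrank ℝ F + finrank ℝ (Fᗮ ⊓ Vᗮ : Submodule ℝ (EucM m)) + rkDist F V

/-- **Leaf D3a (torsion bound; replaces "G_B has ≤ g generators").**  `|Q| ≤ |u|^g |uQ|` for `Q = ℤ^m/K`. -/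
def StIntTors : Prop :=
  ∀ (m g : ℕ) (B : Matrix (Fin m) (Fin m) ℤ) (K : AddSubgroup (Fin m → ℤ)), (∀ y, B.mulVec y ∈ K) →
    (∀ q : ℕ, q.Prime → m ≤ (B.map (Int.cast : ℤ → ZMod q)).rank + g) →
    ∀ u : ℤ, u ≠ 0 → K.index ≤ u.natAbs ^ g * (intColon K u).index

/-- **Leaf D3 (separated subset sums, B Lemma 4.2), non-asymptotic.**  A maximal separated set `I` and the rank `t` of the errors. -/
def StIntSep : Prop :=
  ∀ (m : ℕ) (B : Matrix (Fin m) (Fin m) ℤ) (K : AddSubgroup (Fin m → ℤ)) (f : ℕ) (z : Fin f → Fin m → ℤ)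
    (W0 : Submodule ℝ (EucM m)), IntSetup B K z W0 →
    ∀ (a b R : ℝ), 1 ≤ a → 0 < b → b ≤ 1 → 0 < R → ∀ u : ℤ, u ≠ 0 →
    ∃ (I : Finset (Fin m)) (t : ℕ), IntSep (intScale a b (intSpan z) W0) K u R I ∧
      a ^ t * (b / a) ^ (m - f - finrank ℝ W0) ≤ Real.sqrt (intGram z) * R ^ t ∧
      ((intColon K u).index : ℝ) ≤
        Real.sqrt (intGram z) * ((m : ℝ) * (Real.sqrt m + R / b)) ^ (I.card + t)

/-- **Leaf D4 (choice of `J`; Markov + Chernoff lower tail for a random subset of density `γ/2`).** -/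
def StIntPickJ : Prop :=
  ∀ (m : ℕ) (γ : ℝ), 0 < γ → γ ≤ 1 → ∀ (ι : Type) [Fintype ι] (Iu : ι → Finset (Fin m)) (n1 : ℝ),
    (∀ u, n1 ≤ ((Iu u).card : ℝ)) → (Fintype.card ι : ℝ) * Real.exp (-(γ * n1 / 16)) < 1 / 2 →
    ∃ J : Finset (Fin m), (J.card : ℝ) ≤ γ * m ∧ ∀ u, γ * n1 / 4 ≤ ((J ∩ Iu u).card : ℝ)

/-! ### Gaussian inputs (GPOIS, helper62; LAT) -/

/-- GP0: Gaussian sums over lattices converge. -/
def StGpSummable : Prop :=
  ∀ (n : ℕ) (L : Submodule ℤ (EucM n)), IsLat L → Summable fun y : L => intGw (y : EucM n)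

/-- the dual of a lattice is a lattice with the same real span. -/
def StGpDualLat : Prop :=
  ∀ (n : ℕ) (L : Submodule ℤ (EucM n)), IsLat L → IsLat (latDual L) ∧ rspan (latDual L) = rspan L

/-- GP1 (Poisson + shift + scale √2): the characteristic function of the discrete Gaussian on `L*` is small far from `L`. -/
def StGpFourier : Prop :=
  ∀ (n : ℕ) (L : Submodule ℤ (EucM n)), IsLat L → ∀ x ∈ rspan L, ∀ d : ℝ, 0 ≤ d → (∀ v ∈ L, d ≤ ‖x - v‖) →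
    |∑' y : latDual L, intGw (y : EucM n) * Real.cos (2 * Real.pi * ⟪(y : EucM n), x⟫)| ≤
      (2 : ℝ) ^ ((latRank L : ℝ) / 2) * Real.exp (-(Real.pi * d ^ 2 / 2)) * ∑' y : latDual L, intGw (y : EucM n)

/-- GP2 (Banaszczyk tail, scale √2 only). -/
def StGpTail : Prop :=
  ∀ (n : ℕ) (L : Submodule ℤ (EucM n)), IsLat L → ∀ R : ℝ, 0 ≤ R →
    ∑' y : L, (if R < ‖(y : EucM n)‖ then intGw (y : EucM n) else 0) ≤
      (2 : ℝ) ^ ((latRank L : ℝ) / 2) * Real.exp (-(Real.pi * R ^ 2 / 2)) * ∑' y : L, intGw (y : EucM n)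

/-- **Leaf D-lat**: `S(K)` is a lattice spanning `E = Fᗮ`. -/
def StIntLat : Prop :=
  ∀ (m : ℕ) (B : Matrix (Fin m) (Fin m) ℤ) (K : AddSubgroup (Fin m → ℤ)) (f : ℕ) (z : Fin f → Fin m → ℤ)
    (W0 : Submodule ℝ (EucM m)), IntSetup B K z W0 → ∀ a b : ℝ, 0 < a → 0 < b →
    IsLat (intLatS (intScale a b (intSpan z) W0) K) ∧
      rspan (intLatS (intScale a b (intSpan z) W0) K) = (intSpan z)ᗮ

/-- **Leaf D5 (Fourier average, B Lemma 4.3), simplified.** -/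
def StIntFourierAvg : Prop :=
  ∀ (p : ℝ), 0 < p → p < 1 → ∀ (m : ℕ) (S : EucM m →ₗ[ℝ] EucM m) (K : AddSubgroup (Fin m → ℤ)),
    IsLat (intLatS S K) → (∀ x, S x ∈ rspan (intLatS S K)) →
    ∀ (u : ℤ) (R : ℝ), 0 ≤ R → ∀ I' : Finset (Fin m), IntSep S K u R I' → ∀ s : Fin m → ℝ,
      ∑' y : latDual (intLatS S K), intGw (y : EucM m) *
          ∏ i ∈ I', intPhiSq p ((u : ℝ) * ⟪(y : EucM m), S (EuclideanSpace.single i 1)⟫ + s i) ≤
        (cQ p ^ I'.card +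
            (2 : ℝ) ^ ((latRank (intLatS S K) : ℝ) / 2) * Real.exp (-(Real.pi * R ^ 2 / 2))) *
          ∑' y : latDual (intLatS S K), intGw (y : EucM m)

/-- **Leaf D6 (sequential selection of the testers, B (4.13)-(4.14)).** -/
def StIntSelect : Prop :=
  ∀ (p : ℝ), 0 < p → p < 1 → ∀ (m : ℕ) (S : EucM m →ₗ[ℝ] EucM m) (K : AddSubgroup (Fin m → ℤ)),
    IsLat (intLatS S K) → (∀ x, S x ∈ rspan (intLatS S K)) →
    ∀ (k M n0 : ℕ) (R θ : ℝ) (J : Finset (Fin m)), 0 ≤ R → 0 < θ →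
      (∀ u : ℤ, u ≠ 0 → |u| ≤ (M : ℤ) → ∃ I' ⊆ J, n0 ≤ I'.card ∧ IntSep S K u R I') →
      (2 * M + 1 : ℝ) ^ k * (cQ p ^ n0 +
            (2 : ℝ) ^ ((latRank (intLatS S K) : ℝ) / 2) * Real.exp (-(Real.pi * R ^ 2 / 2))) / θ +
          (2 : ℝ) ^ ((latRank (intLatS S K) : ℝ) / 2) * Real.exp (-(Real.pi * R ^ 2 / 2)) < 1 →
      ∃ y' : Fin k → EucM m, (∀ g, y' g ∈ latDual (intLatS S K) ∧ ‖y' g‖ ≤ R) ∧
        ∀ w : Fin k → ℤ, w ≠ 0 → (∀ g, |w g| ≤ (M : ℤ)) →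
          ∏ i ∈ J, intPhiSq p (∑ g, (w g : ℝ) * ⟪y' g, S (EuclideanSpace.single i 1)⟫) ≤ θ

/-- **Leaf D7 (transfer `y = S y'`)**: (W1), (W2) and the coordinates of `y`. -/
def StIntTransfer : Prop :=
  ∀ (m : ℕ) (B : Matrix (Fin m) (Fin m) ℤ) (K : AddSubgroup (Fin m → ℤ)) (f : ℕ) (z : Fin f → Fin m → ℤ)
    (W0 U : Submodule ℝ (EucM m)), IntSetup B K z W0 → W0 ≤ U → ∀ a b R : ℝ, 0 < b → b ≤ a → 0 ≤ R →
    ∀ y' : EucM m, y' ∈ latDual (intLatS (intScale a b (intSpan z) W0) K) → ‖y'‖ ≤ R →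
      (∀ v, ∃ n : ℤ, ∑ i, (B v i : ℝ) * (intScale a b (intSpan z) W0 y') i = n) ∧
      ‖intScale a b (intSpan z) W0 y'‖ ≤ a * R ∧
      ‖perpProj U (intScale a b (intSpan z) W0 y')‖ ≤ b * R ∧
      ∀ i, (intScale a b (intSpan z) W0 y') i =
        ⟪y', intScale a b (intSpan z) W0 (EuclideanSpace.single i 1)⟫


/-! ## 4. Parameters and the asymptotic leaf -/

/-- `γ = α/40`. -/
noncomputable def intGam (α : ℝ) : ℝ := α / 40
/-- the exponent `C` (a natural number `≥ 11` with `17 α C / 60 > 8`). -/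
noncomputable def intC (α : ℝ) : ℕ := ⌈30 / α⌉₊ + 11
/-- `c₁ = 1/(2(C+9))`. -/
noncomputable def intC1 (α : ℝ) : ℝ := 1 / (2 * ((intC α : ℝ) + 9))
/-- `c₂ = γ c₁ / 4`. -/
noncomputable def intC2 (α : ℝ) : ℝ := intGam α * intC1 α / 4
/-- `c₃ = c₂ log(1/Q) / 2`. -/
noncomputable def intC3 (p α : ℝ) : ℝ := intC2 α * (-Real.log (cQ p)) / 2
/-- `c₅ = c₃ / 8`. -/
noncomputable def intC5 (p α : ℝ) : ℝ := intC3 p α / 8
/-- `κ = c₅ / (4 (C+2))`. -/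
noncomputable def intKap (p α : ℝ) : ℝ := intC5 p α / (4 * ((intC α : ℝ) + 2))
/-- `τ = ℓ^{-D}`. -/
noncomputable def intTau (D : ℝ) (N : ℕ) : ℝ := ell N ^ (-D)
/-- number of testers `k = ⌊κ τ N / log N⌋`. -/
noncomputable def intK (p D α : ℝ) (N : ℕ) : ℕ := ⌊intKap p α * intTau D N * N / Real.log N⌋₊
/-- frequency range `M = N^{C-2}`. -/
noncomputable def intM (α : ℝ) (N : ℕ) : ℕ := N ^ (intC α - 2)
/-- `R = 100 √N`. -/
noncomputable def intR (N : ℕ) : ℝ := 100 * Real.sqrt N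
/-- large scale `a = N²`. -/
noncomputable def intA (N : ℕ) : ℝ := (N : ℝ) ^ 2
/-- small scale `b = N^{-(C+5)}`. -/
noncomputable def intB (α : ℝ) (N : ℕ) : ℝ := ((N : ℝ) ^ (intC α + 5))⁻¹
/-- cell size `ε = N^{-C}`. -/
noncomputable def intEps (α : ℝ) (N : ℕ) : ℝ := ((N : ℝ) ^ intC α)⁻¹
/-- `θ = exp(-2 c₅ τ N)`. -/
noncomputable def intTheta (p D α : ℝ) (N : ℕ) : ℝ := Real.exp (-(2 * intC5 p α * intTau D N * N))
/-- generator bound `g = ⌊N^{3/5}⌋`. -/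
noncomputable def intG (N : ℕ) : ℕ := ⌊(N : ℝ) ^ ((3 : ℝ) / 5)⌋₊
/-- `n₀ = ⌈c₂ τ N⌉`. -/
noncomputable def intN0 (D α : ℝ) (N : ℕ) : ℕ := ⌈intC2 α * intTau D N * N⌉₊
/-- cover exponent `P = D + 6`. -/
def intP (D : ℝ) : ℝ := D + 6

/-- the bound of `StIntProb` at our parameters, for `dim U = d`, `|J| = j`. -/
noncomputable def intProbBound (p D α : ℝ) (N m d j : ℕ) : ℝ :=
  (2 * (intA N * intR N) * Real.sqrt d / intEps α N + 3) ^ (d * intK p D α N) *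
    ((2 : ℝ) ^ intK p D α N * ((intM α N : ℝ) ^ intK p D α N)⁻¹ *
      (1 + (2 * intM α N : ℝ) ^ intK p D α N * Real.sqrt (intTheta p D α N))) ^ (m - j)

/-- all numerical facts used by the deterministic assembly at a given `N`. -/
structure IntNumOK (p D α : ℝ) (N : ℕ) : Prop where
  /-- basic sizes -/
  one_le_A : 1 ≤ intA N
  B_pos : 0 < intB α N
  B_le_one : intB α N ≤ 1
  R_pos : 0 < intR N
  M_pos : 1 ≤ intM α N
  /-- (NumA) the two inequalities of `StIntSep` + the torsion bound force `|I| ≥ c₁ τ N`. -/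
  sep_size : ∀ (m j t r u : ℕ) (sG : ℝ), m ≤ N → sG ≤ Real.exp (N * ell N ^ 2) →
    (r : ℝ) ≤ N * ell N ^ (-(intP D)) → 1 ≤ u → u ≤ intM α N →
    intA N ^ t * (intB α N / intA N) ^ r ≤ sG * intR N ^ t →
    (N : ℝ) ^ (intTau D N * N) ≤
      (u : ℝ) ^ intG N * (sG * ((m : ℝ) * (Real.sqrt m + intR N / intB α N)) ^ (j + t)) →
    intC1 α * intTau D N * N ≤ j
  /-- (NumB) union bound in the choice of `J`. -/
  pick : (2 * intM α N : ℝ) * Real.exp (-(intGam α * (intC1 α * intTau D N * N) / 16)) < 1 / 2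
  /-- (NumC) union bound in the selection of the testers. -/
  select : ∀ e : ℕ, e ≤ N →
    (2 * intM α N + 1 : ℝ) ^ intK p D α N * (cQ p ^ intN0 D α N +
        (2 : ℝ) ^ ((e : ℝ) / 2) * Real.exp (-(Real.pi * intR N ^ 2 / 2))) / intTheta p D α N +
      (2 : ℝ) ^ ((e : ℝ) / 2) * Real.exp (-(Real.pi * intR N ^ 2 / 2)) < 1
  /-- (NumD) dimension of `U`. -/
  dimU : (N : ℝ) * ell N ^ (-(intP D)) ≤ α * N / 6
  /-- (NumE) precision of the row test. -/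
  prec : ∀ m : ℕ, m ≤ N →
    Real.sqrt m * (intEps α N + 2 * (intB α N * intR N)) * intM α N ≤ 1 / 8

/-- **Leaf N1**: the numerical facts hold eventually. -/
def StIntNumDet : Prop :=
  ∀ p : ℝ, 0 < p → p ≤ 1 / 2 → ∀ D : ℝ, 0 < D → ∀ α : ℝ, 0 < α → α < 1 → ∀ᶠ N : ℕ in atTop, IntNumOK p D α N

/-- **Leaf N2**: the final union bound beats every exponential. -/
def StIntNumTop : Prop :=
  ∀ p : ℝ, 0 < p → p ≤ 1 / 2 → ∀ D : ℝ, 0 < D → ∀ α : ℝ, 0 < α → α < 1 → ∀ A : ℝ,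
    ∀ᶠ N : ℕ in atTop, ∀ m : ℕ, InRange N m → ∀ d j : ℕ, (d : ℝ) ≤ (1 - α / 3) * N → (j : ℝ) ≤ intGam α * N →
      (2 : ℝ) ^ ((N : ℝ) ^ 2 * ell N ^ (-(intP D))) * (2 : ℝ) ^ m * intProbBound p D α N m d j
        ≤ (2 : ℝ) ^ (-(A * N))

/-- **D (assembly of the deterministic half).** -/
def StIntDet : Prop :=
  ∀ p : ℝ, 0 < p → p ≤ 1 / 2 → ∀ D : ℝ, 0 < D → ∀ α : ℝ, 0 < α → α < 1 →
    ∀ᶠ N : ℕ in atTop, ∀ m : ℕ, m ≤ N → ∀ 𝒞 : Finset (Submodule ℝ (EucM m)), IsIntCover (intP D) N m 𝒞 →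
      ∀ B : Matrix (Fin m) (Fin m) ℤ, (∀ i j, B i j = 0 ∨ B i j = 1) → B.IsSymm → B.det ≠ 0 →
        (∀ q : ℕ, q.Prime → (m : ℝ) - ((B.map (Int.cast : ℤ → ZMod q)).rank : ℝ) ≤ (N : ℝ) ^ ((3 : ℝ) / 5)) →
        ¬ SmallInt α (ell N ^ (-D)) N m B →
        ∃ V ∈ 𝒞, ∃ J : Finset (Fin m), (finrank ℝ (Vᗮ : Submodule ℝ (EucM m)) : ℝ) ≤ (1 - α / 3) * N ∧
          (J.card : ℝ) ≤ intGam α * N ∧
          IntWitness p (intA N * intR N) (intB α N * intR N) (intTheta p D α N) (intM α N) (intK p D α N)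
            (Vᗮ : Submodule ℝ (EucM m)) J B


/-! ## 5. Sub-leaves of D3 (`StIntSep`) -/

/-- representation data produced by a maximal separated set `I`:  `u e_i ≡ u c_i + ε_i (mod K)`, `c_i ∈ {-1,0,1}^I`, `‖S ε_i‖ ≤ R`. -/
structure IntRep {m : ℕ} (S : EucM m →ₗ[ℝ] EucM m) (K : AddSubgroup (Fin m → ℤ)) (u : ℤ) (R : ℝ)
    (I : Finset (Fin m)) (c ε : Fin m → Fin m → ℤ) : Prop where
  c_val : ∀ i h, c i h = 0 ∨ c i h = 1 ∨ c i h = -1
  c_supp : ∀ i h, h ∉ I → c i h = 0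
  err : ∀ i, ‖S (vecR (ε i))‖ ≤ R
  rel : ∀ i, u • (Pi.single i 1 : Fin m → ℤ) - u • c i - ε i ∈ K

/-- **Leaf D3-rep**: a maximal separated set exists and gives a representation (pure combinatorics, any linear `S`). -/
def StIntSepRep : Prop :=
  ∀ (m : ℕ) (S : EucM m →ₗ[ℝ] EucM m) (K : AddSubgroup (Fin m → ℤ)) (u : ℤ) (R : ℝ), 0 ≤ R →
    ∃ (I : Finset (Fin m)) (c ε : Fin m → Fin m → ℤ), IntSep S K u R I ∧ IntRep S K u R I c ε

/-- **Leaf D3-vol (volume expansion of `S` on `t`-dimensional subspaces of `E = Fᗮ`)**, pure linear algebra. -/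
def StIntVol : Prop :=
  ∀ (m : ℕ) (F W0 : Submodule ℝ (EucM m)), W0 ≤ Fᗮ → ∀ a b : ℝ, 0 < b → b ≤ a →
    ∀ (t : ℕ) (x : Fin t → EucM m), (∀ j, x j ∈ Fᗮ) →
      a ^ (2 * t) * (b / a) ^ (2 * (finrank ℝ (Fᗮ : Submodule ℝ (EucM m)) - finrank ℝ W0)) * gramDet x ≤
        gramDet fun j => intScale a b F W0 (x j)

/-- **Leaf D3-idx (integer lattices: index ≤ √Gram)**.  `X ≤ ℤ^n`, `l` independent vectors of `X` whose real span contains `X`;
every homomorphism killing the `l_a` has an image of `X` of size `≤ √(gramDet l)`. -/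
def StIntIdx : Prop :=
  ∀ (n q : ℕ) (X : AddSubgroup (Fin n → ℤ)) (l : Fin q → Fin n → ℤ), (∀ a, l a ∈ X) →
    (LinearIndependent ℝ fun a => vecR (l a)) → (∀ x ∈ X, vecR x ∈ intSpan l) →
    ∀ (A : Type) [AddCommGroup A] (ψ : (Fin n → ℤ) →+ A), (∀ a, ψ (l a) = 0) →
      Finite (X.map ψ) ∧ (Nat.card (X.map ψ) : ℝ) ≤ Real.sqrt (intGram l)

/-- rank `t` of the projected errors. -/
noncomputable def intErrRank {m f : ℕ} (z : Fin f → Fin m → ℤ) (ε : Fin m → Fin m → ℤ) : ℕ :=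
  finrank ℝ (span ℝ (Set.range fun i => perpProj (intSpan z) (vecR (ε i))))

/-- **Leaf D3-rank (B (4.11))**: few independent errors.  Uses D3-vol, LatGram (block formula, Hadamard), integrality of Gram determinants. -/
def StIntSepRank : Prop :=
  ∀ (m : ℕ) (B : Matrix (Fin m) (Fin m) ℤ) (K : AddSubgroup (Fin m → ℤ)) (f : ℕ) (z : Fin f → Fin m → ℤ)
    (W0 : Submodule ℝ (EucM m)), IntSetup B K z W0 →
    ∀ (a b R : ℝ), 1 ≤ a → 0 < b → b ≤ 1 → 0 < R → ∀ ε : Fin m → Fin m → ℤ,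
      (∀ i, ‖intScale a b (intSpan z) W0 (vecR (ε i))‖ ≤ R) →
      a ^ intErrRank z ε * (b / a) ^ (m - f - finrank ℝ W0) ≤ Real.sqrt (intGram z) * R ^ intErrRank z ε

/-- **Leaf D3-index (end of the proof of B Lemma 4.2)**.  Uses D3-idx, LatGram. -/
def StIntSepIndex : Prop :=
  ∀ (m : ℕ) (B : Matrix (Fin m) (Fin m) ℤ) (K : AddSubgroup (Fin m → ℤ)) (f : ℕ) (z : Fin f → Fin m → ℤ)
    (W0 : Submodule ℝ (EucM m)), IntSetup B K z W0 →
    ∀ (a b R : ℝ), 1 ≤ a → 0 < b → b ≤ 1 → 0 < R → ∀ (u : ℤ) (I : Finset (Fin m)) (c ε : Fin m → Fin m → ℤ),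
      IntRep (intScale a b (intSpan z) W0) K u R I c ε →
      ((intColon K u).index : ℝ) ≤
        Real.sqrt (intGram z) * ((m : ℝ) * (Real.sqrt m + R / b)) ^ (I.card + intErrRank z ε)

end Claimed.Agent.R293
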