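/-
R293 / IntIdx.lean  (INT leaf D3-idx, owner helper38).
Integer lattices: the index of the sublattice spanned by an independent family is at most the
square root of its Gram determinant.
-/
import Claimed.Agent.R293.IntDefs
import Claimed.Agent.R293.LatBasic

set_option autoImplicit false

namespace Claimed.Agent.R293

open Submodule Module Matrix
open scoped RealInnerProductSpace

section
variable {n : ℕ}

theorem intIdx_vecR_add (x y : Fin n → ℤ) : vecR (x + y) = vecR x + vecR y := by
  unfold vecR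
  rw [← WithLp.toLp_add]
  congr 1
  funext i
  simp

theorem intIdx_vecR_zsmul (c : ℤ) (x : Fin n → ℤ) : vecR (c • x) = (c : ℝ) • vecR x := by
  unfold vecR
  rw [← WithLp.toLp_smul]
  congr 1
  funext i
  simp

theorem intIdx_vecR_zero : vecR (0 : Fin n → ℤ) = 0 := by
  unfold vecR
  rw [← WithLp.toLp_zero]
  congr 1
  funext i
  simp

theorem intIdx_vecR_sum {ι : Type*} (s : Finset ι) (c : ι → ℤ) (x : ι → Fin n → ℤ) :
    vecR (∑ i ∈ s, c i • x i) = ∑ i ∈ s, (c i : ℝ) • vecR (x i) := by
  classical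
  induction s using Finset.induction_on with
  | empty => simp [intIdx_vecR_zero]
  | insert a s ha ih => rw [Finset.sum_insert ha, Finset.sum_insert ha, intIdx_vecR_add,
      intIdx_vecR_zsmul, ih]

theorem intIdx_inner_vecR (x y : Fin n → ℤ) : ⟪vecR x, vecR y⟫ = ((x ⬝ᵥ y : ℤ) : ℝ) := by
  unfold vecR
  rw [EuclideanSpace.inner_eq_star_dotProduct]
  simp [dotProduct, mul_comm]

/-- the Gram matrix of integer vectors is an integer matrix. -/
theorem intIdx_gram {r : ℕ} (v : Fin r → Fin n → ℤ) :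
    Matrix.gram ℝ (fun a => vecR (v a))
      = (Matrix.of fun a b => v a ⬝ᵥ v b).map (Int.cast : ℤ → ℝ) := by
  ext a b
  simp [Matrix.gram_apply, intIdx_inner_vecR]

theorem intIdx_gramDet {r : ℕ} (v : Fin r → Fin n → ℤ) :
    intGram v = (((Matrix.of fun a b => v a ⬝ᵥ v b).det : ℤ) : ℝ) := by
  unfold intGram gramDet
  rw [intIdx_gram]
  exact ((Int.castRingHom ℝ).map_det _).symm

/-- integrally independent integer vectors are independent over the reals. -/
theorem intIdx_indep {r : ℕ} {v : Fin r → Fin n → ℤ} (hv : LinearIndependent ℤ v) :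
    LinearIndependent ℝ fun a => vecR (v a) := by
  rw [← lat_gramDet_ne_zero_iff]
  have h := intIdx_gramDet v
  unfold intGram at h
  rw [h]
  intro h0
  have h1 : (Matrix.of fun a b => v a ⬝ᵥ v b).det = 0 := by exact_mod_cast h0
  obtain ⟨c, hc0, hc⟩ := Matrix.exists_mulVec_eq_zero_iff.mpr h1
  apply hc0
  have h2 : (∑ a, c a • v a) ⬝ᵥ (∑ a, c a • v a) = 0 := by
    have h3 : c ⬝ᵥ ((Matrix.of fun a b => v a ⬝ᵥ v b) *ᵥ c) = 0 := by rw [hc, dotProduct_zero]
    rw [← h3]
    have h5 : (∑ a, c a • v a) ⬝ᵥ (∑ a, c a • v a) = ∑ a, ∑ b, c a * (c b * (v a ⬝ᵥ v b)) := by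
      simp only [sum_dotProduct, dotProduct_sum, smul_dotProduct, dotProduct_smul, smul_eq_mul]
      refine Finset.sum_congr rfl fun a _ => ?_
      rw [Finset.mul_sum]
      exact Finset.sum_congr rfl fun b _ => by rw [dotProduct_comm (v b) (v a)]
    rw [h5]
    show _ = ∑ a, c a * (∑ b, (v a ⬝ᵥ v b) * c b)
    refine Finset.sum_congr rfl fun a _ => ?_
    rw [Finset.mul_sum]
    exact Finset.sum_congr rfl fun b _ => by ring
  have h4 : ∑ a, c a • v a = 0 := dotProduct_self_eq_zero.mp h2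
  funext a
  exact Fintype.linearIndependent_iff.mp hv c h4 a

end

/-- **Leaf D3-idx.** -/
theorem int_idx : StIntIdx := by
  intro n q X l hlX hl hXl A _ ψ hψ
  classical
  -- a basis of `X`
  obtain ⟨r, bX⟩ : ∃ r : ℕ, Nonempty (Basis (Fin r) ℤ X.toIntSubmodule) :=
    ⟨_, ⟨Module.finBasis ℤ X.toIntSubmodule⟩⟩
  obtain ⟨bX⟩ := bX
  set w : Fin r → Fin n → ℤ := fun j => (bX j : Fin n → ℤ) with hw
  have hwZ : LinearIndependent ℤ w :=
    bX.linearIndependent.map' X.toIntSubmodule.subtype (Submodule.ker_subtype _)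
  have hwR := intIdx_indep hwZ
  -- expansion of elements of `X`
  have hexp : ∀ x (hx : x ∈ X), x = ∑ j, bX.repr ⟨x, hx⟩ j • w j := by
    intro x hx
    have h1 := bX.sum_repr ⟨x, hx⟩
    have h2 := congrArg (fun y : X.toIntSubmodule => (y : Fin n → ℤ)) h1
    simp only [Submodule.coe_sum, Submodule.coe_smul] at h2
    exact h2.symm
  -- the ranks agree
  have hspan : span ℝ (Set.range fun j => vecR (w j)) = intSpan l := by
    apply le_antisymm
    · rw [span_le]
      rintro _ ⟨j, rfl⟩
      exact hXl _ (bX j).2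
    · unfold intSpan
      rw [span_le]
      rintro _ ⟨a, rfl⟩
      show vecR (l a) ∈ span ℝ (Set.range fun j => vecR (w j))
      rw [hexp (l a) (hlX a), intIdx_vecR_sum]
      exact Submodule.sum_mem _ fun j _ => Submodule.smul_mem _ _ (subset_span ⟨j, rfl⟩)
  obtain rfl : r = q := by
    have h1 := finrank_span_eq_card hwR
    have h2 := finrank_span_eq_card hl
    rw [hspan] at h1
    unfold intSpan at h1
    rw [h2] at h1
    simpa using h1.symm
  -- the sublattice
  have hlZ : LinearIndependent ℤ l := by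
    rw [Fintype.linearIndependent_iff]
    intro c hc a
    have h1 := Fintype.linearIndependent_iff.mp hl (fun a => (c a : ℝ))
      (by rw [← intIdx_vecR_sum, hc, intIdx_vecR_zero]) a
    exact_mod_cast h1
  set Λ : AddSubgroup (Fin n → ℤ) := (span ℤ (Set.range l)).toAddSubgroup with hΛ
  have hΛX : Λ ≤ X := by
    intro x hx
    have hx' : x ∈ span ℤ (Set.range l) := hx
    have : span ℤ (Set.range l) ≤ X.toIntSubmodule := by
      rw [span_le]
      rintro _ ⟨a, rfl⟩
      exact hlX a
    exact this hx'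
  let b₁ : Basis (Fin r) ℤ Λ.toIntSubmodule :=
    (Basis.span hlZ).map (LinearEquiv.ofEq _ _ (Submodule.toAddSubgroup_toIntSubmodule _).symm)
  have hb₁ : ∀ a, ((b₁ a : Λ.toIntSubmodule) : Fin n → ℤ) = l a := by
    intro a
    simp [b₁, Basis.span_apply]
  have hidx := AddSubgroup.relIndex_eq_natAbs_det Λ X hΛX b₁ bX
  set T : Matrix (Fin r) (Fin r) ℤ := bX.toMatrix (fun a => (⟨l a, hlX a⟩ : X.toIntSubmodule))
    with hT
  have hidx' : Λ.relIndex X = T.det.natAbs := by
    rw [hidx, Basis.det_apply]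
    congr 3
    funext a
    exact Subtype.ext (hb₁ a)
  -- Gram determinants
  have hgram : intGram l = (T.det : ℝ) ^ 2 * intGram w := by
    unfold intGram
    have h1 := lat_gramDet_combo ((T.map (Int.cast : ℤ → ℝ))ᵀ) (fun j => vecR (w j))
    rw [det_transpose] at h1
    have h2 : (T.map (Int.cast : ℤ → ℝ)).det = (T.det : ℝ) :=
      ((Int.castRingHom ℝ).map_det T).symm
    rw [h2] at h1
    rw [← h1]
    congr 1
    funext a
    conv_lhs => rw [hexp (l a) (hlX a), intIdx_vecR_sum]
    rfl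
  have hlpos : 0 < intGram l := lat_gramDet_pos hl
  have hwpos : 0 < intGram w := lat_gramDet_pos hwR
  have hw1 : (1 : ℝ) ≤ intGram w := by
    rw [intIdx_gramDet] at hwpos ⊢
    have : (0 : ℤ) < (Matrix.of fun a b => w a ⬝ᵥ w b).det := by exact_mod_cast hwpos
    exact_mod_cast this
  have hT0 : T.det ≠ 0 := by
    intro h0
    rw [hgram, h0] at hlpos
    simp at hlpos
  -- conclusion
  have hker : Λ ≤ ψ.ker := by
    intro x hx
    have hx' : x ∈ span ℤ (Set.range l) := hx
    have : span ℤ (Set.range l) ≤ (ψ.ker).toIntSubmodule := by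
      rw [span_le]
      rintro _ ⟨a, rfl⟩
      exact hψ a
    exact this hx'
  have hdvd := AddSubgroup.relIndex_dvd_of_le_left X hker
  rw [AddSubgroup.relIndex_ker, hidx'] at hdvd
  have hne : T.det.natAbs ≠ 0 := Int.natAbs_ne_zero.mpr hT0
  have hcard0 : Nat.card (X.map ψ) ≠ 0 := fun h0 => hne (by rw [h0] at hdvd; simpa using hdvd)
  refine ⟨Nat.finite_of_card_ne_zero hcard0, ?_⟩
  have hle : Nat.card (X.map ψ) ≤ T.det.natAbs := Nat.le_of_dvd (Nat.pos_of_ne_zero hne) hdvd
  calc (Nat.card (X.map ψ) : ℝ) ≤ (T.det.natAbs : ℝ) := by exact_mod_cast hle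
    _ = |(T.det : ℝ)| := by rw [Nat.cast_natAbs, Int.cast_abs]
    _ = Real.sqrt ((T.det : ℝ) ^ 2) := (Real.sqrt_sq_eq_abs _).symm
    _ ≤ Real.sqrt (intGram l) := by
        apply Real.sqrt_le_sqrt
        rw [hgram]
        nlinarith [sq_nonneg (T.det : ℝ)]

end Claimed.Agent.R293
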