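/-
R293 / DiscPairDetB.lean (owner: helper62).  Package DISC-PAIRDET, part B: Euclidean realisation `Φ` of a form `A ≥ 1`,
the homomorphism `ℤ^m → E`, Gram determinants of integer families.   Sorry-free.  Prefix `discpd`.
-/
import Claimed.Agent.R293.DiscPairDetA
import Claimed.Agent.R293.LatIndex
import Claimed.Agent.R293.LatDual
import Claimed.Agent.R293.IntIdx

set_option autoImplicit false

namespace Claimed.Agent.R293

open Matrix Submodule Module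
open scoped RealInnerProductSpace

variable {m : ℕ}

section Exists
open scoped MatrixOrder Matrix.Norms.L2Operator

lemma discpd_exists_sqrt (A : Matrix (Fin m) (Fin m) ℝ) (hA : A.PosSemidef) :
    ∃ C : Matrix (Fin m) (Fin m) ℝ, A = Cᵀ * C := by
  obtain ⟨a, rfl⟩ := CStarAlgebra.nonneg_iff_eq_star_mul_self.mp hA.nonneg
  exact ⟨a, by simp [star_eq_conjTranspose]⟩

end Exists

/-- a Euclidean realisation of a symmetric form `A ≥ 1`. -/
lemma discpd_exists_real (A : Matrix (Fin m) (Fin m) ℝ) (hs : A.IsSymm)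
    (hA : ∀ v : Fin m → ℝ, v ⬝ᵥ v ≤ v ⬝ᵥ A.mulVec v) :
    ∃ Φ : (Fin m → ℝ) →ₗ[ℝ] EucM m, ∀ a b, ⟪Φ a, Φ b⟫ = a ⬝ᵥ A.mulVec b := by
  have hpsd : A.PosSemidef := by
    refine Matrix.PosSemidef.of_dotProduct_mulVec_nonneg ?_ fun x => ?_
    · rw [Matrix.IsHermitian, Matrix.conjTranspose_eq_transpose_of_trivial]
      exact hs
    · have h1 : 0 ≤ x ⬝ᵥ x := Finset.sum_nonneg fun i _ => mul_self_nonneg (x i)
      simpa using h1.trans (hA x)
  obtain ⟨C, hC⟩ := discpd_exists_sqrt A hpsd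
  refine ⟨eucMap m ∘ₗ C.mulVecLin, fun a b => ?_⟩
  rw [hC, ← Matrix.mulVec_mulVec, Matrix.dotProduct_mulVec, Matrix.vecMul_transpose]
  simp only [LinearMap.comp_apply, eucMap, Matrix.mulVecLin_apply]
  rw [EuclideanSpace.inner_eq_star_dotProduct]
  simp [dotProduct_comm]

section Real
variable {E : Type*} [NormedAddCommGroup E] [InnerProductSpace ℝ E]
  {A : Matrix (Fin m) (Fin m) ℝ} {Φ : (Fin m → ℝ) →ₗ[ℝ] E}

lemma discpd_gram_eq (hΦ : ∀ a b, ⟪Φ a, Φ b⟫ = a ⬝ᵥ A.mulVec b) {n : ℕ} (y : Fin n → Fin m → ℝ) :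
    Matrix.gram ℝ (fun i => Φ (y i)) = discGram A y := by
  ext i j
  simp [Matrix.gram_apply, discGram, hΦ]

lemma discpd_gramDet_eq (hΦ : ∀ a b, ⟪Φ a, Φ b⟫ = a ⬝ᵥ A.mulVec b) {n : ℕ}
    (y : Fin n → Fin m → ℝ) : gramDet (fun i => Φ (y i)) = (discGram A y).det := by
  rw [gramDet, discpd_gram_eq hΦ]

lemma discpd_norm_le (hΦ : ∀ a b, ⟪Φ a, Φ b⟫ = a ⬝ᵥ A.mulVec b)
    (hA : ∀ v : Fin m → ℝ, v ⬝ᵥ v ≤ v ⬝ᵥ A.mulVec v) (a : Fin m → ℝ) : ‖eucMap m a‖ ≤ ‖Φ a‖ := by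
  have h1 : ‖eucMap m a‖ ^ 2 = a ⬝ᵥ a := by
    rw [← real_inner_self_eq_norm_sq, eucMap, EuclideanSpace.inner_eq_star_dotProduct]
    simp
  have h2 : ‖Φ a‖ ^ 2 = a ⬝ᵥ A.mulVec a := by
    rw [← real_inner_self_eq_norm_sq, hΦ]
  have h3 : ‖eucMap m a‖ ^ 2 ≤ ‖Φ a‖ ^ 2 := by rw [h1, h2]; exact hA a
  exact (sq_le_sq₀ (norm_nonneg _) (norm_nonneg _)).mp h3

lemma discpd_injective (hΦ : ∀ a b, ⟪Φ a, Φ b⟫ = a ⬝ᵥ A.mulVec b)
    (hA : ∀ v : Fin m → ℝ, v ⬝ᵥ v ≤ v ⬝ᵥ A.mulVec v) : Function.Injective Φ := by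
  rw [← LinearMap.ker_eq_bot, LinearMap.ker_eq_bot']
  intro a ha
  have h1 := discpd_norm_le hΦ hA a
  rw [ha, norm_zero] at h1
  have h2 : eucMap m a = 0 := norm_le_zero_iff.mp h1
  exact (WithLp.linearEquiv 2 ℝ (Fin m → ℝ)).symm.injective (by simpa [eucMap] using h2)

end Real

/-- a bijective Euclidean realisation. -/
lemma discpd_exists_real' (A : Matrix (Fin m) (Fin m) ℝ) (hs : A.IsSymm)
    (hA : ∀ v : Fin m → ℝ, v ⬝ᵥ v ≤ v ⬝ᵥ A.mulVec v) :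
    ∃ Φ : (Fin m → ℝ) →ₗ[ℝ] EucM m, (∀ a b, ⟪Φ a, Φ b⟫ = a ⬝ᵥ A.mulVec b) ∧
      Function.Bijective Φ := by
  obtain ⟨Φ, hΦ⟩ := discpd_exists_real A hs hA
  have hinj := discpd_injective hΦ hA
  refine ⟨Φ, hΦ, hinj, ?_⟩
  exact (LinearMap.injective_iff_surjective_of_finrank_eq_finrank (by simp)).mp hinj

section Hom
variable {E : Type*} [NormedAddCommGroup E] [InnerProductSpace ℝ E]

lemma discpd_zToR_add (x y : Fin m → ℤ) : zToR (x + y) = zToR x + zToR y := by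
  ext i; simp [zToR]

lemma discpd_zToR_zero : zToR (0 : Fin m → ℤ) = 0 := by
  ext i; simp [zToR]

lemma discpd_eucMap_zToR (x : Fin m → ℤ) : eucMap m (zToR x) = vecR x := rfl

/-- the homomorphism `ℤ^m → E`, `w ↦ Φ w`. -/
def discpdH (Φ : (Fin m → ℝ) →ₗ[ℝ] E) : (Fin m → ℤ) →+ E where
  toFun w := Φ (zToR w)
  map_zero' := by rw [discpd_zToR_zero, map_zero]
  map_add' x y := by rw [discpd_zToR_add, map_add]

lemma discpdH_apply (Φ : (Fin m → ℝ) →ₗ[ℝ] E) (w : Fin m → ℤ) : discpdH Φ w = Φ (zToR w) := rfl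

lemma discpdH_injective {Φ : (Fin m → ℝ) →ₗ[ℝ] E} (h : Function.Injective Φ) :
    Function.Injective (discpdH Φ) := by
  intro x y hxy
  have h1 : zToR x = zToR y := h hxy
  ext i
  exact Int.cast_injective (congrFun h1 i)

lemma discpdH_combo (Φ : (Fin m → ℝ) →ₗ[ℝ] E) {n : ℕ} (a : Fin n → ℤ) (w : Fin n → Fin m → ℤ) :
    ∑ j, (a j : ℝ) • discpdH Φ (w j) = discpdH Φ (∑ j, a j • w j) := by
  rw [map_sum]
  refine Finset.sum_congr rfl fun j _ => ?_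
  rw [map_zsmul, Int.cast_smul_eq_zsmul]

/-- the `ℤ`-submodule of `E` attached to a subgroup of `ℤ^m`. -/
def discpdL (Φ : (Fin m → ℝ) →ₗ[ℝ] E) (H : AddSubgroup (Fin m → ℤ)) : Submodule ℤ E :=
  AddSubgroup.toIntSubmodule (H.map (discpdH Φ))

lemma mem_discpdL {Φ : (Fin m → ℝ) →ₗ[ℝ] E} {H : AddSubgroup (Fin m → ℤ)} {e : E} :
    e ∈ discpdL Φ H ↔ ∃ w ∈ H, discpdH Φ w = e := Iff.rfl

lemma discpdL_mono (Φ : (Fin m → ℝ) →ₗ[ℝ] E) {H H' : AddSubgroup (Fin m → ℤ)} (h : H ≤ H') :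
    discpdL Φ H ≤ discpdL Φ H' := by
  rintro e ⟨w, hw, rfl⟩
  exact ⟨w, h hw, rfl⟩

lemma discpdL_closure (Φ : (Fin m → ℝ) →ₗ[ℝ] E) {n : ℕ} (w : Fin n → Fin m → ℤ) :
    discpdL Φ (AddSubgroup.closure (Set.range w)) =
      span ℤ (Set.range fun i => discpdH Φ (w i)) := by
  rw [discpdL, AddMonoidHom.map_closure, AddSubgroup.toIntSubmodule_closure, ← Set.range_comp]
  rfl

lemma discpdL_relIndex {Φ : (Fin m → ℝ) →ₗ[ℝ] E} (h : Function.Injective Φ)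
    (P Λ : AddSubgroup (Fin m → ℤ)) :
    (discpdL Φ P).toAddSubgroup.relIndex (discpdL Φ Λ).toAddSubgroup = P.relIndex Λ := by
  simp only [discpdL, AddSubgroup.toIntSubmodule_toAddSubgroup]
  exact AddSubgroup.relIndex_map_map_of_injective _ _ (discpdH_injective h)

lemma discpd_indep {Φ : (Fin m → ℝ) →ₗ[ℝ] E} (h : Function.Injective Φ) {n : ℕ}
    {w : Fin n → Fin m → ℤ} (hw : LinearIndependent ℤ w) :
    LinearIndependent ℝ fun i => discpdH Φ (w i) := by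
  have h1 : LinearIndependent ℝ fun a => vecR (w a) := intIdx_indep hw
  have h2 : LinearIndependent ℝ fun a => zToR (w a) :=
    LinearIndependent.of_comp (eucMap m) h1
  exact h2.map' Φ (LinearMap.ker_eq_bot.mpr h)

lemma discpd_isLatBasis {Φ : (Fin m → ℝ) →ₗ[ℝ] E} (h : Function.Injective Φ) {n : ℕ}
    {w : Fin n → Fin m → ℤ} (hw : LinearIndependent ℤ w) :
    IsLatBasis (fun i => discpdH Φ (w i)) (discpdL Φ (AddSubgroup.closure (Set.range w))) :=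
  ⟨discpd_indep h hw, (discpdL_closure Φ w).symm⟩

variable [FiniteDimensional ℝ E]

/-- integer families have Gram determinant `≥ 1` in every metric `A ≥ 1`. -/
lemma discpd_one_le_gramDet {A : Matrix (Fin m) (Fin m) ℝ} {Φ : (Fin m → ℝ) →ₗ[ℝ] E}
    (hΦ : ∀ a b, ⟪Φ a, Φ b⟫ = a ⬝ᵥ A.mulVec b)
    (hA : ∀ v : Fin m → ℝ, v ⬝ᵥ v ≤ v ⬝ᵥ A.mulVec v) (hbij : Function.Bijective Φ) {n : ℕ}
    {w : Fin n → Fin m → ℤ} (hw : LinearIndependent ℝ fun a => vecR (w a)) :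
    1 ≤ gramDet fun i => discpdH Φ (w i) := by
  set Φe := LinearEquiv.ofBijective Φ hbij with hΦe
  set P : E →ₗ[ℝ] EucM m := eucMap m ∘ₗ Φe.symm.toLinearMap with hP
  have hPc : ∀ e, ‖P e‖ ≤ ‖e‖ := by
    intro e
    have h1 := discpd_norm_le hΦ hA (Φe.symm e)
    have h2 : Φ (Φe.symm e) = e := Φe.apply_symm_apply e
    rw [h2] at h1
    exact h1
  have h1 := lat_gramDet_contraction P hPc (fun i => discpdH Φ (w i))
  have h2 : (P ∘ fun i => discpdH Φ (w i)) = fun a => vecR (w a) := by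
    funext i
    have : Φe.symm (Φ (zToR (w i))) = zToR (w i) := Φe.symm_apply_apply _
    simp only [Function.comp_apply, hP, LinearMap.comp_apply, discpdH_apply,
      LinearEquiv.coe_coe, this]
    rfl
  rw [h2] at h1
  refine le_trans ?_ h1
  have h3 := intIdx_gramDet w
  unfold intGram at h3
  have h4 := lat_gramDet_pos hw
  rw [h3] at h4 ⊢
  have h5 : (0 : ℤ) < (Matrix.of fun a b => w a ⬝ᵥ w b).det := by exact_mod_cast h4
  exact_mod_cast h5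

end Hom

end Claimed.Agent.R293
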