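/-
R293 / DiscPairDetC.lean (owner: helper62).  Package DISC-PAIRDET, part C: a basis of `Λ` adapted to the radical of the
inverse form.   Sorry-free.  Prefix `discpd`.
-/
import Claimed.Agent.R293.DiscPairDetB

set_option autoImplicit false

namespace Claimed.Agent.R293

open Matrix Submodule Module
open scoped RealInnerProductSpace

variable {m : ℕ}

/-- the real vectors orthogonal (for the inverse form) to all `x i`. -/
def discpdRad (B : Matrix (Fin m) (Fin m) ℤ) {r : ℕ} (x : Fin r → Fin m → ℤ) :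
    Submodule ℝ (Fin m → ℝ) where
  carrier := {a | ∀ i, a ⬝ᵥ (toR B)⁻¹.mulVec (zToR (x i)) = 0}
  add_mem' := by
    intro a b ha hb i
    rw [add_dotProduct, ha i, hb i, add_zero]
  zero_mem' := fun i => zero_dotProduct _
  smul_mem' := by
    intro c a ha i
    rw [smul_dotProduct, ha i, smul_zero]

lemma discpd_mem_rad {B : Matrix (Fin m) (Fin m) ℤ} {r : ℕ} {x : Fin r → Fin m → ℤ}
    {w : Fin m → ℤ} : zToR w ∈ discpdRad B x ↔ ∀ i, invForm B w (x i) = 0 := by
  constructor
  · intro h i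
    have h1 := h i
    rw [← pair_invForm_cast] at h1
    exact_mod_cast h1
  · intro h i
    rw [← pair_invForm_cast, h i]
    simp

section
variable {E : Type*} [NormedAddCommGroup E] [InnerProductSpace ℝ E] [FiniteDimensional ℝ E]

/-- **Adapted basis.** -/
theorem discpd_adapted (B : Matrix (Fin m) (Fin m) ℤ) {Φ : (Fin m → ℝ) →ₗ[ℝ] E}
    (hinj : Function.Injective Φ) {r : ℕ} {x : Fin r → Fin m → ℤ} (hx : LinearIndependent ℤ x) :
    ∃ (k l : ℕ) (u : Fin k → Fin m → ℤ) (v : Fin l → Fin m → ℤ),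
      (∀ i, u i ∈ AddSubgroup.closure (Set.range x)) ∧
      (∀ j, v j ∈ AddSubgroup.closure (Set.range x)) ∧
      (∀ i j, invForm B (u i) (x j) = 0) ∧
      IsLatBasis (Fin.append (fun i => discpdH Φ (u i)) (fun j => discpdH Φ (v j)))
        (discpdL Φ (AddSubgroup.closure (Set.range x))) ∧
      (∀ w ∈ AddSubgroup.closure (Set.range x), (∀ j, invForm B w (x j) = 0) →
        discpdH Φ w ∈ span ℤ (Set.range fun i => discpdH Φ (u i))) := by
  set Λ := AddSubgroup.closure (Set.range x) with hΛ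
  set L := discpdL Φ Λ with hL
  have hLb : IsLatBasis (fun i => discpdH Φ (x i)) L := discpd_isLatBasis hinj hx
  have hLat : IsLat L := ⟨r, _, hLb⟩
  set F : Submodule ℝ E := (discpdRad B x).map Φ with hF
  obtain ⟨k, l, b, c, hb, hbc, -⟩ := lat_exists_adapted_basis hLat (latDual_cut_prim L F)
  have hbK : ∀ i, b i ∈ latCut L F := lat_basis_mem hb
  have hcL : ∀ j, c j ∈ L := by
    intro j
    have := lat_basis_mem hbc (Fin.natAdd k j)
    rwa [Fin.append_right] at this
  choose u hu hub using fun i => mem_discpdL.mp (mem_latCut.mp (hbK i)).1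
  choose v hv hvc using fun j => mem_discpdL.mp (hcL j)
  have hb' : (fun i => discpdH Φ (u i)) = b := funext hub
  have hc' : (fun j => discpdH Φ (v j)) = c := funext hvc
  refine ⟨k, l, u, v, hu, hv, ?_, ?_, ?_⟩
  · intro i
    obtain ⟨a, ha, hab⟩ := (mem_latCut.mp (hbK i)).2
    have h1 : a = zToR (u i) := hinj (by rw [hab, ← hub i]; rfl)
    rw [h1] at ha
    exact discpd_mem_rad.mp ha
  · rw [hb', hc']
    exact hbc
  · intro w hw hrad
    rw [hb', hb.2]
    exact mem_latCut.mpr ⟨mem_discpdL.mpr ⟨w, hw, rfl⟩, ⟨zToR w, discpd_mem_rad.mpr hrad, rfl⟩⟩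

omit [FiniteDimensional ℝ E] in
/-- members of the closure are integer combinations. -/
lemma discpd_exists_combo {Φ : (Fin m → ℝ) →ₗ[ℝ] E} (hinj : Function.Injective Φ) {n n' : ℕ}
    {w : Fin n → Fin m → ℤ} {L : Submodule ℤ E} (hw : IsLatBasis (fun i => discpdH Φ (w i)) L)
    {w' : Fin n' → Fin m → ℤ} (hw' : ∀ i, discpdH Φ (w' i) ∈ L) :
    ∃ U : Matrix (Fin n') (Fin n) ℤ, w' = discpdCombo U w := by
  obtain ⟨U, hU⟩ := lat_exists_matrix hw hw'
  refine ⟨U, funext fun i => discpdH_injective hinj ?_⟩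
  have := congrFun hU i
  simp only [Matrix.map_apply] at this
  rw [this, discpdH_combo]
  rfl

end

end Claimed.Agent.R293
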