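/-
R293 / DiscPairDetD.lean (owner: helper62).  Package DISC-PAIRDET, part D: the form is nondegenerate on the complement
of the radical, and the size of the complement is the rank of the form.   Sorry-free.  Prefix `discpd`.
-/
import Claimed.Agent.R293.DiscPairDetC

set_option autoImplicit false

namespace Claimed.Agent.R293

open Matrix Submodule Module
open scoped RealInnerProductSpace

variable {m : ℕ}

lemma discpd_invForm_combo_right (B : Matrix (Fin m) (Fin m) ℤ) (w : Fin m → ℤ) {n : ℕ}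
    (a : Fin n → ℤ) (w' : Fin n → Fin m → ℤ) :
    invForm B w (∑ j, a j • w' j) = ∑ j, (a j : ℚ) * invForm B w (w' j) := by
  unfold invForm
  have h1 : (fun i => (((∑ j, a j • w' j : Fin m → ℤ) i : ℤ) : ℚ)) =
      ∑ j, (a j : ℚ) • (fun i => (w' j i : ℚ)) := by
    ext i
    simp [Finset.sum_apply]
  rw [h1, Matrix.mulVec_sum, dotProduct_sum]
  refine Finset.sum_congr rfl fun j _ => ?_
  rw [Matrix.mulVec_smul, dotProduct_smul, smul_eq_mul]

lemma discpd_mem_closure_iff {n : ℕ} {w : Fin n → Fin m → ℤ} {z : Fin m → ℤ} :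
    z ∈ AddSubgroup.closure (Set.range w) ↔ ∃ a : Fin n → ℤ, z = ∑ j, a j • w j := by
  have h1 : z ∈ AddSubgroup.closure (Set.range w) ↔ z ∈ span ℤ (Set.range w) := by
    rw [← AddSubgroup.toIntSubmodule_closure]
    rfl
  rw [h1, Submodule.mem_span_range_iff_exists_fun]
  exact ⟨fun ⟨a, ha⟩ => ⟨a, ha.symm⟩, fun ⟨a, ha⟩ => ⟨a, ha.symm⟩⟩

lemma discpdQ_add {n : ℕ} (w w' : Fin n → Fin m → ℤ) :
    discpdQ (w + w') = discpdQ w + discpdQ w' := by
  ext i a
  simp [discpdQ]

lemma discpdF_add_left (B : Matrix (Fin m) (Fin m) ℤ) {n n' : ℕ} (w w' : Fin n → Fin m → ℤ)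
    (w'' : Fin n' → Fin m → ℤ) : discpdF B (w + w') w'' = discpdF B w w'' + discpdF B w' w'' := by
  simp only [discpdF_eq, discpdQ_add, Matrix.add_mul]

lemma discpd_append_comp {α β : Type*} (f : α → β) {k l : ℕ} (u : Fin k → α) (v : Fin l → α) :
    Fin.append (fun i => f (u i)) (fun j => f (v j)) = fun a => f (Fin.append u v a) := by
  funext a
  refine Fin.addCases (fun i => ?_) (fun j => ?_) a
  · simp
  · simp

lemma discpdCombo_append {n k l : ℕ} (W : Matrix (Fin n) (Fin (k + l)) ℤ) (u : Fin k → Fin m → ℤ)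
    (v : Fin l → Fin m → ℤ) :
    discpdCombo W (Fin.append u v) =
      discpdCombo (W.submatrix id (Fin.castAdd l)) u + discpdCombo (W.submatrix id (Fin.natAdd k)) v := by
  funext i
  simp [discpdCombo, Fin.sum_univ_add]

/-- clearing denominators of a rational vector. -/
lemma discpd_clear_denom {l : ℕ} (a : Fin l → ℚ) (ha : a ≠ 0) :
    ∃ (D : ℤ) (z : Fin l → ℤ), D ≠ 0 ∧ z ≠ 0 ∧ ∀ j, (z j : ℚ) = D * a j := by
  obtain ⟨D, hD⟩ := IsLocalization.exist_integer_multiples (nonZeroDivisors ℤ) Finset.univ a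
  choose z hz using fun j => hD j (Finset.mem_univ j)
  have hD0 : (D : ℤ) ≠ 0 := nonZeroDivisors.coe_ne_zero D
  refine ⟨D, z, hD0, ?_, fun j => ?_⟩
  · intro h0
    apply ha
    funext j
    have h1 := hz j
    rw [h0] at h1
    simp only [Pi.zero_apply, map_zero, zsmul_eq_mul] at h1
    have hDq : ((D : ℤ) : ℚ) ≠ 0 := by exact_mod_cast hD0
    rcases mul_eq_zero.mp h1.symm with h | h
    · exact absurd h hDq
    · exact h
  · have h1 := hz j
    simpa using h1


section
variable {E : Type*} [NormedAddCommGroup E] [InnerProductSpace ℝ E]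

/-- the output of `discpd_adapted`. -/
structure DiscpdData (B : Matrix (Fin m) (Fin m) ℤ) (Φ : (Fin m → ℝ) →ₗ[ℝ] E) {r : ℕ}
    (x : Fin r → Fin m → ℤ) {k l : ℕ} (u : Fin k → Fin m → ℤ) (v : Fin l → Fin m → ℤ) : Prop where
  hu : ∀ i, u i ∈ AddSubgroup.closure (Set.range x)
  hv : ∀ j, v j ∈ AddSubgroup.closure (Set.range x)
  rad : ∀ i j, invForm B (u i) (x j) = 0
  basis : IsLatBasis (Fin.append (fun i => discpdH Φ (u i)) (fun j => discpdH Φ (v j)))
    (discpdL Φ (AddSubgroup.closure (Set.range x)))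
  sat : ∀ w ∈ AddSubgroup.closure (Set.range x), (∀ j, invForm B w (x j) = 0) →
    discpdH Φ w ∈ span ℤ (Set.range fun i => discpdH Φ (u i))

variable {B : Matrix (Fin m) (Fin m) ℤ} {Φ : (Fin m → ℝ) →ₗ[ℝ] E} {r k l : ℕ}
  {x : Fin r → Fin m → ℤ} {u : Fin k → Fin m → ℤ} {v : Fin l → Fin m → ℤ}

lemma DiscpdData.rad' (h : DiscpdData B Φ x u v) (i : Fin k) {w : Fin m → ℤ}
    (hw : w ∈ AddSubgroup.closure (Set.range x)) : invForm B (u i) w = 0 := by
  obtain ⟨a, rfl⟩ := discpd_mem_closure_iff.mp hw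
  rw [discpd_invForm_combo_right]
  exact Finset.sum_eq_zero fun j _ => by rw [h.rad i j, mul_zero]

/-- `x` in terms of the adapted basis. -/
lemma DiscpdData.exists_expand (h : DiscpdData B Φ x u v) (hinj : Function.Injective Φ) :
    ∃ (N : Matrix (Fin r) (Fin k) ℤ) (V : Matrix (Fin r) (Fin l) ℤ),
      x = discpdCombo N u + discpdCombo V v := by
  have hb := h.basis
  rw [discpd_append_comp (discpdH Φ)] at hb
  obtain ⟨W, hW⟩ := discpd_exists_combo hinj hb (w' := x)
    (fun i => mem_discpdL.mpr ⟨x i, AddSubgroup.subset_closure ⟨i, rfl⟩, rfl⟩)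
  exact ⟨_, _, hW.trans (discpdCombo_append W u v)⟩

/-- the form is nondegenerate on the complement. -/
theorem DiscpdData.det_ne (h : DiscpdData B Φ x u v) (hinj : Function.Injective Φ)
    (hBs : B.IsSymm) : (discpdF B v v).det ≠ 0 := by
  intro hdet
  obtain ⟨a, ha0, ha⟩ := Matrix.exists_mulVec_eq_zero_iff.mpr hdet
  obtain ⟨D, z, hD, hz0, hz⟩ := discpd_clear_denom a ha0
  set w : Fin m → ℤ := ∑ j, z j • v j with hw
  have hwΛ : w ∈ AddSubgroup.closure (Set.range x) :=
    AddSubgroup.sum_mem _ fun j _ => AddSubgroup.zsmul_mem _ (h.hv j) _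
  -- `w` is orthogonal to the `v j`
  have hvw : ∀ j, invForm B (v j) w = 0 := by
    intro j
    rw [hw, discpd_invForm_combo_right]
    have h1 := congrFun ha j
    simp only [Matrix.mulVec, dotProduct, discpdF, Matrix.of_apply, Pi.zero_apply] at h1
    calc ∑ j', (z j' : ℚ) * invForm B (v j) (v j')
        = D * ∑ j', invForm B (v j) (v j') * a j' := by
          rw [Finset.mul_sum]
          refine Finset.sum_congr rfl fun j' _ => ?_
          rw [hz j']
          ring
      _ = 0 := by rw [h1, mul_zero]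
  -- hence to all of `x`
  obtain ⟨N, V, hNV⟩ := h.exists_expand hinj
  have hwx : ∀ i, invForm B w (x i) = 0 := by
    intro i
    have hxi : x i = ∑ j, N i j • u j + ∑ j, V i j • v j := congrFun hNV i
    rw [hxi, invForm_add_right, discpd_invForm_combo_right, discpd_invForm_combo_right]
    have e1 : ∀ j, invForm B w (u j) = 0 := fun j => by
      rw [discpd_invForm_symm hBs, h.rad' j hwΛ]
    have e2 : ∀ j, invForm B w (v j) = 0 := fun j => by
      rw [discpd_invForm_symm hBs, hvw j]
    simp [e1, e2]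
  -- so `w` is an integer combination of the `u i`
  have hsat := h.sat w hwΛ hwx
  obtain ⟨n, hn⟩ := (Submodule.mem_span_range_iff_exists_fun ℤ).mp hsat
  have hli := h.basis.1
  rw [Fintype.linearIndependent_iff] at hli
  have h0 := hli (Fin.append (fun i => -(n i : ℝ)) (fun j => (z j : ℝ))) (by
    rw [Fin.sum_univ_add]
    simp only [Fin.append_left, Fin.append_right, neg_smul, Finset.sum_neg_distrib]
    rw [discpdH_combo Φ z v, ← hw, ← hn]
    simp [Int.cast_smul_eq_zsmul])
  apply hz0
  funext j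
  have := h0 (Fin.natAdd k j)
  rw [Fin.append_right] at this
  exact_mod_cast this

/-- the size of the complement is the rank of the form. -/
theorem DiscpdData.rank_eq (h : DiscpdData B Φ x u v) (hinj : Function.Injective Φ)
    (hx : LinearIndependent ℤ x) (hBs : B.IsSymm) : (discpdF B x x).rank = l := by
  apply le_antisymm
  · obtain ⟨N, V, hNV⟩ := h.exists_expand hinj
    have h1 : discpdF B x x = V.map (Int.cast : ℤ → ℚ) * discpdF B v x := by
      conv_lhs => rw [hNV]
      rw [discpdF_add_left, discpdF_combo_left, discpdF_combo_left]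
      have : discpdF B u (discpdCombo N u + discpdCombo V v) = 0 := by
        rw [← hNV]
        ext i j
        exact h.rad i j
      rw [this, Matrix.mul_zero, zero_add, ← hNV]
    rw [h1]
    exact (Matrix.rank_mul_le_left _ _).trans (Matrix.rank_le_width _)
  · obtain ⟨U, hU⟩ := discpd_exists_combo hinj (discpd_isLatBasis hinj hx) (w' := v)
      (fun j => mem_discpdL.mpr ⟨v j, h.hv j, rfl⟩)
    have h1 : discpdF B v v =
        U.map (Int.cast : ℤ → ℚ) * discpdF B x x * (U.map (Int.cast : ℤ → ℚ))ᵀ := by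
      conv_lhs => rw [hU]
      rw [discpdF_combo_left, discpdF_combo_right, Matrix.mul_assoc]
    have h2 : (discpdF B v v).rank = l := by
      have hunit : IsUnit (discpdF B v v) :=
        (Matrix.isUnit_iff_isUnit_det _).mpr (isUnit_iff_ne_zero.mpr (h.det_ne hinj hBs))
      rw [Matrix.rank_of_isUnit _ hunit, Fintype.card_fin]
    rw [← h2, h1]
    exact (Matrix.rank_mul_le_left _ _).trans (Matrix.rank_mul_le_right _ _)

end

end Claimed.Agent.R293
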