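/-
R293 / DiscPairDetE.lean (owner: helper62).  Package DISC-PAIRDET, part E: the index of the kernel of the pairing.
Sorry-free.  Prefix `discpd`.
-/
import Claimed.Agent.R293.DiscPairDetD

set_option autoImplicit false

namespace Claimed.Agent.R293

open Matrix Submodule Module
open scoped RealInnerProductSpace

variable {m : ℕ}

section
variable {E : Type*} [NormedAddCommGroup E] [InnerProductSpace ℝ E]

lemma discpd_rank_eq_of_smul {L M : Submodule ℤ E} (hM : M ≤ L) {d : ℤ} (hd : d ≠ 0)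
    (h : ∀ x ∈ L, d • x ∈ M) : latRank M = latRank L := by
  have : rspan M = rspan L := by
    apply le_antisymm (lat_rspan_mono hM)
    unfold rspan
    rw [Submodule.span_le]
    intro x hx
    have h1 : (d : ℝ) • x ∈ span ℝ (M : Set E) := by
      rw [Int.cast_smul_eq_zsmul]
      exact Submodule.subset_span (h x hx)
    have hd' : (d : ℝ) ≠ 0 := by exact_mod_cast hd
    have := (span ℝ (M : Set E)).smul_mem (d : ℝ)⁻¹ h1
    rwa [smul_smul, inv_mul_cancel₀ hd', one_smul] at this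
  rw [latRank, latRank, this]

lemma discpd_pairKer_le (B : Matrix (Fin m) (Fin m) ℤ) (Λ : AddSubgroup (Fin m → ℤ)) :
    pairKer B Λ ≤ Λ := fun _ h => h.1

lemma discpd_det_smul_mem {B : Matrix (Fin m) (Fin m) ℤ} (hB : B.det ≠ 0)
    {Λ : AddSubgroup (Fin m → ℤ)} {w : Fin m → ℤ} (hw : w ∈ Λ) : B.det • w ∈ pairKer B Λ :=
  ⟨Λ.zsmul_mem hw _, fun w' _ => discpd_isInt_det_smul hB w w'⟩

variable [FiniteDimensional ℝ E]

/-- the kernel of the pairing has finite index. -/
theorem discpd_relIndex_ne_zero {B : Matrix (Fin m) (Fin m) ℤ} (hB : B.det ≠ 0)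
    {Φ : (Fin m → ℝ) →ₗ[ℝ] E} (hinj : Function.Injective Φ) {r : ℕ} {x : Fin r → Fin m → ℤ}
    (hx : LinearIndependent ℤ x) :
    (pairKer B (AddSubgroup.closure (Set.range x))).relIndex
      (AddSubgroup.closure (Set.range x)) ≠ 0 := by
  set Λ := AddSubgroup.closure (Set.range x) with hΛ
  have hLat : IsLat (discpdL Φ Λ) := ⟨r, _, discpd_isLatBasis hinj hx⟩
  have hle : discpdL Φ (pairKer B Λ) ≤ discpdL Φ Λ := discpdL_mono Φ (discpd_pairKer_le B Λ)
  have hr : latRank (discpdL Φ (pairKer B Λ)) = latRank (discpdL Φ Λ) := by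
    refine discpd_rank_eq_of_smul hle hB ?_
    rintro e ⟨w, hw, rfl⟩
    exact ⟨B.det • w, discpd_det_smul_mem hB hw, map_zsmul _ _ _⟩
  have := latIdx_ne_zero hLat hle hr
  rwa [discpdL_relIndex hinj] at this

variable {B : Matrix (Fin m) (Fin m) ℤ} {Φ : (Fin m → ℝ) →ₗ[ℝ] E} {r k l : ℕ}
  {x : Fin r → Fin m → ℤ} {u : Fin k → Fin m → ℤ} {v : Fin l → Fin m → ℤ}

omit [FiniteDimensional ℝ E] in
lemma DiscpdData.indep_v (h : DiscpdData B Φ x u v) :
    LinearIndependent ℝ fun j => discpdH Φ (v j) := by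
  have h1 := h.basis.1.comp (Fin.natAdd k) (Fin.natAdd_injective l k)
  have h2 : (Fin.append (fun i => discpdH Φ (u i)) (fun j => discpdH Φ (v j))) ∘ Fin.natAdd k =
      fun j => discpdH Φ (v j) := by
    funext j
    simp
  rwa [h2] at h1

omit [FiniteDimensional ℝ E] in
lemma DiscpdData.indep_u (h : DiscpdData B Φ x u v) :
    LinearIndependent ℝ fun i => discpdH Φ (u i) := by
  have h1 := h.basis.1.comp (Fin.castAdd l) (Fin.castAdd_injective k l)
  have h2 : (Fin.append (fun i => discpdH Φ (u i)) (fun j => discpdH Φ (v j))) ∘ Fin.castAdd l =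
      fun i => discpdH Φ (u i) := by
    funext j
    simp
  rwa [h2] at h1

/-- **the index bound** `t · |det M| ≥ 1`. -/
theorem DiscpdData.index_bound (h : DiscpdData B Φ x u v) (hinj : Function.Injective Φ)
    (hx : LinearIndependent ℤ x) (hBs : B.IsSymm) (hB : B.det ≠ 0) :
    (1 : ℚ) ≤ ((pairKer B (AddSubgroup.closure (Set.range x))).relIndex
      (AddSubgroup.closure (Set.range x)) : ℚ) * |(discpdF B v v).det| := by
  set Λ := AddSubgroup.closure (Set.range x) with hΛ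
  set P := pairKer B Λ with hP
  set Λv := AddSubgroup.closure (Set.range v) with hΛv
  have hΛvΛ : Λv ≤ Λ := by
    rw [hΛv, AddSubgroup.closure_le]
    rintro _ ⟨j, rfl⟩
    exact h.hv j
  have hc : IsLatBasis (fun j => discpdH Φ (v j)) (discpdL Φ Λv) :=
    ⟨h.indep_v, (discpdL_closure Φ v).symm⟩
  have hle : discpdL Φ (P ⊓ Λv) ≤ discpdL Φ Λv := discpdL_mono Φ inf_le_right
  have hr : latRank (discpdL Φ (P ⊓ Λv)) = latRank (discpdL Φ Λv) := by
    refine discpd_rank_eq_of_smul hle hB ?_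
    rintro e ⟨w, hw, rfl⟩
    exact ⟨B.det • w, ⟨discpd_det_smul_mem hB (hΛvΛ hw), Λv.zsmul_mem hw _⟩, map_zsmul _ _ _⟩
  obtain ⟨l', p, hp⟩ := lat_of_le ⟨l, _, hc⟩ hle
  obtain rfl : l' = l := by rw [← lat_rank_eq hp, hr, lat_rank_eq hc]
  obtain ⟨hidx0, hidx⟩ := latIdx_of_bases hc hp hle
  rw [discpdL_relIndex hinj] at hidx0 hidx
  rw [AddSubgroup.inf_relIndex_right] at hidx0 hidx
  choose q hq hqp using fun i => mem_discpdL.mp (lat_basis_mem hp i)
  obtain ⟨A', hA'⟩ := discpd_exists_combo hinj hc (w' := q)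
    (fun i => by rw [hqp i]; exact hle (lat_basis_mem hp i))
  -- Gram determinants
  have hpA : p = fun i => ∑ j, (A'.map (Int.cast : ℤ → ℝ)) i j • discpdH Φ (v j) := by
    funext i
    rw [← hqp i, hA']
    simp only [Matrix.map_apply]
    rw [discpdH_combo]
    rfl
  have hg : gramDet p = ((A'.det : ℤ) : ℝ) ^ 2 * gramDet fun j => discpdH Φ (v j) := by
    rw [hpA, lat_gramDet_combo]
    congr 2
    exact (Int.cast_det (R := ℝ) A').symm
  have hgpos := lat_gramDet_pos hc.1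
  have hsq : ((P.relIndex Λv : ℕ) : ℝ) ^ 2 = ((A'.det : ℤ) : ℝ) ^ 2 := by
    have := hidx.symm.trans hg
    exact mul_right_cancel₀ hgpos.ne' this
  have habs : ((P.relIndex Λv : ℕ) : ℚ) = |((A'.det : ℤ) : ℚ)| := by
    have h1 : ((P.relIndex Λv : ℕ) : ℝ) = |((A'.det : ℤ) : ℝ)| := by
      rw [← abs_of_nonneg (Nat.cast_nonneg (α := ℝ) (P.relIndex Λv))]
      exact (sq_eq_sq_iff_abs_eq_abs _ _).mp hsq
    have h2 : ((P.relIndex Λv : ℕ) : ℤ) = |A'.det| := by exact_mod_cast h1
    exact_mod_cast h2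
  -- the integer matrix
  choose n hn using fun i j => (hq i).1.2 (v j) (h.hv j)
  have hN : discpdF B q v = (Matrix.of n).map (Int.cast : ℤ → ℚ) := by
    ext i j
    exact hn i j
  have hN2 : discpdF B q v = A'.map (Int.cast : ℤ → ℚ) * discpdF B v v := by
    conv_lhs => rw [hA']
    rw [discpdF_combo_left]
  have hdet : (((Matrix.of n).det : ℤ) : ℚ) = ((A'.det : ℤ) : ℚ) * (discpdF B v v).det := by
    have h1 := congrArg Matrix.det (hN.symm.trans hN2)
    rw [Matrix.det_mul] at h1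
    rw [Int.cast_det, Int.cast_det]
    exact h1
  have hA0 : A'.det ≠ 0 := by
    intro h0
    apply hidx0
    have : ((P.relIndex Λv : ℕ) : ℚ) = 0 := by rw [habs, h0]; simp
    exact_mod_cast this
  have hn0 : (Matrix.of n).det ≠ 0 := by
    intro h0
    rw [h0] at hdet
    have hA0' : ((A'.det : ℤ) : ℚ) ≠ 0 := by exact_mod_cast hA0
    rcases mul_eq_zero.mp hdet.symm with h1 | h1
    · exact hA0' h1
    · exact h.det_ne hinj hBs h1
  have h1le : (1 : ℚ) ≤ |(((Matrix.of n).det : ℤ) : ℚ)| := by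
    have : (1 : ℤ) ≤ |(Matrix.of n).det| := Int.one_le_abs hn0
    exact_mod_cast this
  rw [hdet, abs_mul, ← habs] at h1le
  refine h1le.trans (mul_le_mul_of_nonneg_right ?_ (abs_nonneg _))
  have ht0 : P.relIndex Λ ≠ 0 := discpd_relIndex_ne_zero hB hinj hx
  exact_mod_cast AddSubgroup.relIndex_le_of_le_right hΛvΛ ht0

end

end Claimed.Agent.R293
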