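/-
R293 / DiscPairDet.lean (owner: helper62).  Package DISC-PAIRDET, final part: `disc_pairDet : StPairDet`
(paper A, Lemma 6.4 together with `det K ≥ 1`, Gram form).   Sorry-free.  Prefix `discpd`.
-/
import Claimed.Agent.R293.DiscPairDetE

set_option autoImplicit false

namespace Claimed.Agent.R293

open Matrix Submodule Module
open scoped RealInnerProductSpace

variable {m : ℕ}

section
variable {E : Type*} [NormedAddCommGroup E] [InnerProductSpace ℝ E] [FiniteDimensional ℝ E]
  {B : Matrix (Fin m) (Fin m) ℤ} {Φ : (Fin m → ℝ) →ₗ[ℝ] E} {r k l : ℕ}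
  {x : Fin r → Fin m → ℤ} {u : Fin k → Fin m → ℤ} {v : Fin l → Fin m → ℤ}

/-- the complement vectors, projected off the radical. -/
theorem DiscpdData.exists_y (_h : DiscpdData B Φ x u v) :
    ∃ α : Fin l → Fin k → ℝ, ∀ j,
      Φ (zToR (v j) - ∑ i, α j i • zToR (u i)) =
        perpProj (span ℝ (Set.range fun i => discpdH Φ (u i))) (discpdH Φ (v j)) := by
  set F := span ℝ (Set.range fun i => discpdH Φ (u i)) with hF
  choose α hα using fun j =>
    (Submodule.mem_span_range_iff_exists_fun ℝ).mp (lat_sub_perpProj_mem F (discpdH Φ (v j)))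
  refine ⟨α, fun j => ?_⟩
  rw [map_sub, map_sum]
  simp only [map_smul]
  have := hα j
  simp only [discpdH_apply] at this ⊢
  rw [this]
  abel

omit [FiniteDimensional ℝ E] in
/-- the inverse form on the projected vectors. -/
theorem DiscpdData.gram_y (h : DiscpdData B Φ x u v) (hBs : B.IsSymm) (α : Fin l → Fin k → ℝ) :
    discGram (toR B)⁻¹ (fun j => zToR (v j) - ∑ i, α j i • zToR (u i)) =
      (discpdF B v v).map (Rat.cast : ℚ → ℝ) := by
  have huw : ∀ i, ∀ w ∈ AddSubgroup.closure (Set.range x),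
      zToR (u i) ⬝ᵥ (toR B)⁻¹.mulVec (zToR w) = 0 := by
    intro i w hw
    rw [← pair_invForm_cast, h.rad' i hw]
    simp
  have hwu : ∀ i, ∀ w ∈ AddSubgroup.closure (Set.range x),
      zToR w ⬝ᵥ (toR B)⁻¹.mulVec (zToR (u i)) = 0 := by
    intro i w hw
    rw [← pair_invForm_cast, discpd_invForm_symm hBs, h.rad' i hw]
    simp
  ext j j'
  simp only [discGram, Matrix.of_apply, Matrix.map_apply, discpdF]
  rw [pair_invForm_cast]
  simp only [Matrix.mulVec_sub, Matrix.mulVec_sum, Matrix.mulVec_smul, sub_dotProduct,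
    dotProduct_sub, sum_dotProduct, dotProduct_sum, smul_dotProduct, dotProduct_smul,
    huw _ _ (h.hv _), huw _ _ (h.hu _), hwu _ _ (h.hv _)]
  simp

end

/-- **PAIRDET** (A Lemma 6.4 together with `det K ≥ 1`), Gram form. -/
theorem disc_pairDet : StPairDet := by
  intro m B hBs hBd A hAs hA r x hx s hs
  obtain ⟨Φ, hΦ, hbij⟩ := discpd_exists_real' A hAs hA
  have hinj := hbij.1
  obtain ⟨k, l, u, v, h1, h2, h3, h4, h5⟩ := discpd_adapted B hinj hx
  have hdata : DiscpdData B Φ x u v := ⟨h1, h2, h3, h4, h5⟩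
  have hl : s = l := hs.trans (hdata.rank_eq hinj hx hBs)
  subst hl
  refine ⟨discpd_relIndex_ne_zero hBd hinj hx, ?_⟩
  obtain ⟨α, hα⟩ := hdata.exists_y
  refine ⟨fun j => zToR (v j) - ∑ i, α j i • zToR (u i), ?_, ?_⟩
  · rw [hdata.gram_y hBs α]
    have hdet : ((discpdF B v v).map (Rat.cast : ℚ → ℝ)).det = (((discpdF B v v).det : ℚ) : ℝ) := by
      have : (discpdF B v v).map (Rat.cast : ℚ → ℝ) = (Rat.castHom ℝ).mapMatrix (discpdF B v v) := rfl
      rw [this, ← RingHom.map_det]
      rfl
    rw [hdet]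
    have := hdata.index_bound hinj hx hBs hBd
    exact_mod_cast this
  · rw [← discpd_gramDet_eq hΦ, ← discpd_gramDet_eq hΦ]
    have e1 : (fun j => Φ (zToR (v j) - ∑ i, α j i • zToR (u i))) =
        perpProj (span ℝ (Set.range fun i => discpdH Φ (u i))) ∘ fun j => discpdH Φ (v j) :=
      funext hα
    rw [e1]
    have e2 : gramDet (fun i => Φ (zToR (x i))) =
        gramDet (fun i => discpdH Φ (u i)) *
          gramDet (perpProj (span ℝ (Set.range fun i => discpdH Φ (u i))) ∘
            fun j => discpdH Φ (v j)) := by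
      rw [← lat_gramDet_append]
      exact lat_gramDet_eq_of_bases (discpd_isLatBasis hinj hx) hdata.basis
    rw [e2]
    have hu1 : LinearIndependent ℝ fun a => vecR (u a) := by
      have i1 : LinearIndependent ℝ fun a => zToR (u a) :=
        LinearIndependent.of_comp Φ hdata.indep_u
      exact i1.map' (eucMap m)
        (LinearMap.ker_eq_bot.mpr (WithLp.linearEquiv 2 ℝ (Fin m → ℝ)).symm.injective)
    have h1le := discpd_one_le_gramDet hΦ hA hbij hu1
    exact le_mul_of_one_le_left (lat_gramDet_nonneg _) h1le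

end Claimed.Agent.R293
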