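/-
R293 / EndMarg.lean (owner: helper26, package END).
Marginals of the product Bernoulli law along injections of index sets, cylinders, atoms,
iterated conditional moment bound.  On top of Model / ProbBasic / ProbMix.  No sorry.
-/
import Claimed.Agent.R293.ProbMix

set_option autoImplicit false

namespace Claimed.Agent.R293

open scoped BigOperators
open Classical

section Marginal
variable {ι κ : Type*} [Fintype ι] [DecidableEq ι] [Fintype κ] [DecidableEq κ]

lemma end_prb_eq_exq_one (q : ι → ℝ) (E : Set (ι → Bool)) : prb q E = exq q (E.indicator 1) :=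
  pb_prb_eq_exq q E

omit [DecidableEq κ] in
/-- Probability of a cylinder. -/
theorem end_prb_comp_eq (q : ι → ℝ) {e : κ → ι} (he : Function.Injective e) (y : κ → Bool) :
    prb q {x | x ∘ e = y} = bern (q ∘ e) y := by
  set h : ι → Bool → ℝ := fun i b =>
    if hi : ∃ k, e k = i then (if b = y hi.choose then 1 else 0) else 1 with hh
  have hch : ∀ k, ∀ hi : ∃ k', e k' = e k, hi.choose = k := fun k hi => he hi.choose_spec
  have hek : ∀ k b, h (e k) b = if b = y k then 1 else 0 := by
    intro k b
    have hi : ∃ k', e k' = e k := ⟨k, rfl⟩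
    simp only [hh, hi, dif_pos, hch k hi]
  have h1 : ({x | x ∘ e = y} : Set (ι → Bool)).indicator (1 : (ι → Bool) → ℝ)
      = fun x => ∏ i, h i (x i) := by
    funext x
    by_cases hx : x ∘ e = y
    · rw [Set.indicator_of_mem (by exact hx)]
      symm
      refine Finset.prod_eq_one fun i _ => ?_
      by_cases hi : ∃ k, e k = i
      · obtain ⟨k, rfl⟩ := hi
        rw [hek]
        simp [← hx]
      · simp [hh, hi]
    · rw [Set.indicator_of_notMem (by exact hx)]
      symm
      have : ∃ k, x (e k) ≠ y k := by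
        by_contra hcon
        push Not at hcon
        exact hx (funext hcon)
      obtain ⟨k, hk⟩ := this
      refine Finset.prod_eq_zero (Finset.mem_univ (e k)) ?_
      rw [hek]; simp [hk]
  rw [end_prb_eq_exq_one, h1, pb_exq_prod]
  unfold bern
  symm
  refine Fintype.prod_of_injective e he _ _ ?_ ?_
  · intro i hi
    have : ¬ ∃ k, e k = i := fun ⟨k, hk⟩ => hi ⟨k, hk⟩
    simp [hh, this]
  · intro k
    rw [hek, hek]
    cases y k <;> simp

/-- Marginals: the law of the restriction to an injectively embedded index set. -/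
theorem end_exq_comp (q : ι → ℝ) {e : κ → ι} (he : Function.Injective e) (f : (κ → Bool) → ℝ) :
    exq q (fun x => f (x ∘ e)) = exq (q ∘ e) f := by
  have h1 : ∀ x : ι → Bool, f (x ∘ e)
      = ∑ y : κ → Bool, f y * ({x | x ∘ e = y} : Set (ι → Bool)).indicator (1 : (ι → Bool) → ℝ) x := by
    intro x
    rw [Finset.sum_eq_single (x ∘ e)]
    · simp
    · intro y _ hy
      rw [Set.indicator_of_notMem (by exact fun h => hy h.symm)]; simp
    · simp
  simp_rw [h1]
  rw [pb_exq_sum]
  unfold exq at *
  refine Finset.sum_congr rfl fun y _ => ?_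
  have := end_prb_comp_eq q he y
  rw [end_prb_eq_exq_one] at this
  unfold exq at this
  rw [← this, Finset.sum_mul]
  refine Finset.sum_congr rfl fun x _ => by ring

theorem end_prb_comp (q : ι → ℝ) {e : κ → ι} (he : Function.Injective e) (E : Set (κ → Bool)) :
    prb q {x | x ∘ e ∈ E} = prb (q ∘ e) E := by
  rw [end_prb_eq_exq_one, end_prb_eq_exq_one, ← end_exq_comp q he]
  rfl

/-- Reindexing along an equivalence. -/
theorem end_prb_equiv (q : ι → ℝ) (e : κ ≃ ι) (E : Set (ι → Bool)) :
    prb q E = prb (q ∘ e) {y | y ∘ e.symm ∈ E} := by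
  rw [← end_prb_comp q e.injective]
  congr 1
  ext x
  simp [Function.comp_assoc]

end Marginal

section Atoms
variable {ι : Type*} [Fintype ι] [DecidableEq ι]

/-- Probability that the coordinates in `T` take prescribed values. -/
theorem end_prb_cyl (q : ι → ℝ) (T : Finset ι) (c : ι → Bool) :
    prb q {x | ∀ i ∈ T, x i = c i} = ∏ i ∈ T, (if c i then q i else 1 - q i) := by
  have h := end_prb_comp_eq q (e := fun k : T => (k : ι)) Subtype.val_injective (fun k : T => c k)
  have h2 : ({x | ∀ i ∈ T, x i = c i} : Set (ι → Bool))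
      = {x | x ∘ (fun k : T => (k : ι)) = fun k : T => c k} := by
    ext x
    simp only [Set.mem_ofPred_eq, funext_iff, Function.comp, Subtype.forall]
  rw [h2, h]
  unfold bern
  exact Finset.prod_coe_sort T (fun i => (if c i then q i else 1 - q i))

theorem end_prb_cyl_le {q : ι → ℝ} (hq : IsProbArray q) {b : ℝ} (hb : ∀ i, q i ≤ b ∧ 1 - q i ≤ b)
    (T : Finset ι) (c : ι → Bool) : prb q {x | ∀ i ∈ T, x i = c i} ≤ b ^ T.card := by
  rw [end_prb_cyl, ← Finset.prod_const]
  refine Finset.prod_le_prod (fun i _ => ?_) fun i _ => ?_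
  · cases c i
    · simpa using (hq i).2
    · simpa using (hq i).1
  · cases c i
    · simpa using (hb i).2
    · simpa using (hb i).1

/-- If, whatever the other coordinates are, at most one pattern on `T` realises `E`,
then `P(E) ≤ b^|T|`. -/
theorem end_prb_le_pow_of_unique {q : ι → ℝ} (hq : IsProbArray q) {b : ℝ}
    (hb : ∀ i, q i ≤ b ∧ 1 - q i ≤ b) (T : Finset ι) {E : Set (ι → Bool)}
    (hE : ∀ s x x' : ι → Bool, pbMix (T : Set ι) x s ∈ E → pbMix (T : Set ι) x' s ∈ E →
      ∀ i ∈ T, x i = x' i) : prb q E ≤ b ^ T.card := by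
  refine pb_prb_le_of_cond hq (T : Set ι) E fun s => ?_
  by_cases hne : ∃ c, pbMix (T : Set ι) c s ∈ E
  · obtain ⟨c, hc⟩ := hne
    refine le_trans (pb_prb_mono hq ?_) (end_prb_cyl_le hq hb T c)
    intro x hx
    exact hE s x c hx hc
  · have : ({x | pbMix (T : Set ι) x s ∈ E} : Set (ι → Bool)) = ∅ := by
      ext x; simp only [Set.mem_ofPred_eq, Set.mem_empty_iff_false, iff_false]
      exact fun h => hne ⟨x, h⟩
    rw [this, pb_prb_empty]
    rcases T.eq_empty_or_nonempty with rfl | ⟨i, _⟩
    · simp
    · exact pow_nonneg (le_trans (hq i).1 (hb i).1) _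

end Atoms

section Products
variable {ι : Type*} [Fintype ι] [DecidableEq ι]

/-- Successive conditioning.  `Y a ≥ 0` is revealed at step `a` (it does not depend on the entries
`A a'` revealed at later steps `a' > a`) and its conditional expectation given everything outside
`A a` is at most `c`.  Then `E ∏_{a<d} Y a ≤ c^d`. -/
theorem end_exq_prod_range_le {q : ι → ℝ} (hq : IsProbArray q) (A : ℕ → Set ι)
    (Y : ℕ → (ι → Bool) → ℝ) (hY0 : ∀ a x, 0 ≤ Y a x)
    (hind : ∀ a a', a < a' → pbFree (A a') (Y a)) {c : ℝ} (d : ℕ)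
    (hc : ∀ a, a < d → ∀ s, exq q (fun x => Y a (pbMix (A a) x s)) ≤ c) :
    exq q (fun x => ∏ a ∈ Finset.range d, Y a x) ≤ c ^ d := by
  induction d with
  | zero => simp [pb_exq_const]
  | succ d ih =>
    simp_rw [Finset.prod_range_succ]
    have h1 : pbFree (A d) (fun x => ∏ a ∈ Finset.range d, Y a x) := by
      intro x s
      exact Finset.prod_congr rfl fun a ha => hind a d (Finset.mem_range.1 ha) x s
    have hc0 : 0 ≤ c := le_trans (pb_exq_nonneg hq fun x => hY0 d _)
      (hc d (Nat.lt_succ_self d) (fun _ => false))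
    calc exq q (fun x => (∏ a ∈ Finset.range d, Y a x) * Y d x)
        ≤ c * exq q (fun x => ∏ a ∈ Finset.range d, Y a x) :=
          pb_exq_mul_le_of_cond hq (A d) h1 (fun x => Finset.prod_nonneg fun a _ => hY0 a x) (Y d)
            (hc d (Nat.lt_succ_self d))
      _ ≤ c * c ^ d := mul_le_mul_of_nonneg_left
            (ih fun a ha => hc a (Nat.lt_succ_of_lt ha)) hc0
      _ = c ^ (d + 1) := by ring

end Products

end Claimed.Agent.R293
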