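/-
R293 / EndFrozen.lean (owner: helper26, package END).
`StSymm` (p ↔ 1-p) and `StFrozenEq` (the frozen probability = the `Sym2` form).  No sorry.
-/
import Claimed.Agent.R293.Iface
import Claimed.Agent.R293.EndMarg

set_option autoImplicit false

namespace Claimed.Agent.R293

open scoped BigOperators

/-- flipping all bits -/
def endNot {κ : Type*} : (κ → Bool) ≃ (κ → Bool) :=
  Equiv.piCongrRight fun _ => Equiv.boolNot

@[simp] lemma endNot_apply {κ : Type*} (s : κ → Bool) (k : κ) : endNot s k = !(s k) := rfl

lemma end_bern_not {κ : Type*} [Fintype κ] (p : ℝ) (s : κ → Bool) :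
    bern (fun _ => p) (endNot s) = bern (fun _ => 1 - p) s := by
  unfold bern
  refine Finset.prod_congr rfl fun k _ => ?_
  cases h : s k <;> simp [h]

lemma end_sgnMat_not {ι : Type*} (s : Sym2 ι → Bool) : sgnMat (endNot s) = - sgnMat s := by
  ext i j
  simp only [sgnMat, endNot_apply, Matrix.neg_apply]
  by_cases h : s s(i, j) = true <;> simp [h]

theorem end_symm : StSymm := by
  intro p n
  unfold sgnProb prb
  refine Fintype.sum_equiv endNot _ _ fun s => ?_
  have hdet : (sgnMat (endNot s)).det = 0 ↔ (sgnMat s).det = 0 := by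
    rw [end_sgnMat_not, Matrix.det_neg]
    simp
  by_cases h : (sgnMat s).det = 0
  · rw [Set.indicator_of_mem (by exact h), Set.indicator_of_mem (by exact hdet.2 h), end_bern_not]
  · rw [Set.indicator_of_notMem (by exact h),
      Set.indicator_of_notMem (by exact fun h' => h (hdet.1 h'))]

/-- the position of an unordered pair in the upper triangle -/
def endPos {n : ℕ} (z : Sym2 (Fin n)) : Fin n × Fin n := (z.inf, z.sup)

lemma endPos_injective {n : ℕ} : Function.Injective (endPos (n := n)) := by
  intro z w h
  induction z using Sym2.inductionOn with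
  | _ a b =>
    induction w using Sym2.inductionOn with
    | _ c d =>
      simp only [endPos, Sym2.inf_mk, Sym2.sup_mk, Prod.mk.injEq] at h
      obtain ⟨h1, h2⟩ := h
      rw [Sym2.eq_iff]
      rcases le_total a b with hab | hab <;> rcases le_total c d with hcd | hcd
      · left; simp only [inf_eq_left.2 hab, inf_eq_left.2 hcd, sup_eq_right.2 hab,
          sup_eq_right.2 hcd] at h1 h2; exact ⟨h1, h2⟩
      · right; simp only [inf_eq_left.2 hab, inf_eq_right.2 hcd, sup_eq_right.2 hab,
          sup_eq_left.2 hcd] at h1 h2; exact ⟨h1, h2⟩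
      · right; simp only [inf_eq_right.2 hab, inf_eq_left.2 hcd, sup_eq_left.2 hab,
          sup_eq_right.2 hcd] at h1 h2; exact ⟨h2, h1⟩
      · left; simp only [inf_eq_right.2 hab, inf_eq_right.2 hcd, sup_eq_left.2 hab,
          sup_eq_left.2 hcd] at h1 h2; exact ⟨h2, h1⟩

lemma end_symSign_eq {n : ℕ} (t : Fin n × Fin n → Bool) :
    Claims.C0469.symSignMatrix (Function.curry t) = sgnMat (t ∘ endPos) := by
  ext i j
  rfl

theorem end_frozenEq : StFrozenEq := by
  intro p n
  have h1 : Claims.C0469.symSignSingularProb p n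
      = prb (fun _ : Fin n × Fin n => p) {t | t ∘ endPos ∈ {s | (sgnMat s).det = 0}} := by
    unfold Claims.C0469.symSignSingularProb prb
    refine Fintype.sum_equiv (Equiv.curry (Fin n) (Fin n) Bool).symm _ _ fun s => ?_
    have hs : Function.curry ((Equiv.curry (Fin n) (Fin n) Bool).symm s) = s := rfl
    have hmem : ((Equiv.curry (Fin n) (Fin n) Bool).symm s ∘ endPos ∈ {s | (sgnMat s).det = 0})
        ↔ (Claims.C0469.symSignMatrix s).det = 0 := by
      rw [Set.mem_ofPred_eq, ← end_symSign_eq, hs]
    by_cases h : (Claims.C0469.symSignMatrix s).det = 0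
    · rw [if_pos h, Set.indicator_of_mem (by exact hmem.2 h)]
      unfold bern
      rw [Fintype.prod_prod_type]
      rfl
    · rw [if_neg h, Set.indicator_of_notMem (by exact fun h' => h (hmem.1 h'))]
  rw [h1, end_prb_comp _ endPos_injective]
  rfl

end Claimed.Agent.R293
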