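/-
R293 / EndLimit.lean (owner: helper26, package END).
The frozen statement S0541 from the four interface statements
`StFrozenEq`, `StSymm`, `StLower`, `StUpper` of Iface.lean.  No sorry.
-/
import Claimed.Agent.R293.Iface
import Claimed.Agent.R293.ProbBasic

set_option autoImplicit false

namespace Claimed.Agent.R293

open Filter Topology

lemma end_cQ_pos (p : ℝ) : 0 < cQ p := by
  unfold cQ
  nlinarith [sq_nonneg p, sq_nonneg (1 - p), sq_nonneg (2 * p - 1)]

lemma end_cQ_symm (p : ℝ) : cQ (1 - p) = cQ p := by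
  unfold cQ; ring

lemma end_two_rpow_neg_cD (p : ℝ) : (2 : ℝ) ^ (-(cD p)) = cQ p := by
  unfold cD
  rw [neg_neg]
  exact Real.rpow_logb (by norm_num) (by norm_num) (end_cQ_pos p)

lemma end_sgnProb_nonneg {p : ℝ} (h0 : 0 ≤ p) (h1 : p ≤ 1) (n : ℕ) : 0 ≤ sgnProb p n :=
  pb_prb_nonneg (fun _ => ⟨h0, h1⟩) _

/-- the abstract squeeze -/
lemma end_tendsto_root {f : ℕ → ℝ} {Q c : ℝ} (hQ : 0 < Q) (hc : 0 < c)
    (hlow : ∀ n : ℕ, 2 ≤ n → c * Q ^ (n - 2) ≤ f n)
    (hup : ∀ ε : ℝ, 0 < ε → ∀ᶠ n : ℕ in atTop, f n ≤ (Q * (2 : ℝ) ^ ε) ^ n) :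
    Tendsto (fun n : ℕ => f n ^ ((1 : ℝ) / n)) atTop (𝓝 Q) := by
  have hinv : Tendsto (fun n : ℕ => (1 : ℝ) / n) atTop (𝓝 0) := tendsto_one_div_atTop_nhds_zero_nat
  -- lower comparison sequence
  have hg : Tendsto (fun n : ℕ => (c / Q ^ 2) ^ ((1 : ℝ) / n) * Q) atTop (𝓝 Q) := by
    have h1 : Tendsto (fun n : ℕ => (c / Q ^ 2) ^ ((1 : ℝ) / n)) atTop (𝓝 ((c / Q ^ 2) ^ (0 : ℝ))) :=
      (Real.continuousAt_const_rpow (ne_of_gt (by positivity))).tendsto.comp hinv
    rw [Real.rpow_zero] at h1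
    simpa using h1.mul_const Q
  have hlow' : ∀ᶠ n : ℕ in atTop, (c / Q ^ 2) ^ ((1 : ℝ) / n) * Q ≤ f n ^ ((1 : ℝ) / n) := by
    filter_upwards [eventually_ge_atTop 2] with n hn
    have hn0 : (n : ℝ) ≠ 0 := by
      have : 0 < n := by omega
      exact_mod_cast this.ne'
    have e1 : c * Q ^ (n - 2) = (c / Q ^ 2) * Q ^ n := by
      have : Q ^ n = Q ^ (n - 2) * Q ^ 2 := by rw [← pow_add]; congr 1; omega
      rw [this]; field_simp
    have e2 : ((c / Q ^ 2) * Q ^ n) ^ ((1 : ℝ) / n) = (c / Q ^ 2) ^ ((1 : ℝ) / n) * Q := by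
      rw [Real.mul_rpow (by positivity) (by positivity)]
      congr 1
      rw [← Real.rpow_natCast, ← Real.rpow_mul hQ.le]
      rw [mul_one_div, div_self hn0, Real.rpow_one]
    rw [← e2, ← e1]
    exact Real.rpow_le_rpow (by positivity) (hlow n hn) (by positivity)
  rw [tendsto_order]
  constructor
  · intro a ha
    have h2 := (tendsto_order.1 hg).1 a ha
    filter_upwards [h2, hlow'] with n h3 h4
    exact lt_of_lt_of_le h3 h4
  · intro a ha
    -- choose ε
    have hr : 1 < a / Q := by rw [lt_div_iff₀ hQ]; simpa using ha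
    obtain ⟨ε, hε0, hε⟩ : ∃ ε : ℝ, 0 < ε ∧ (2 : ℝ) ^ ε < a / Q := by
      have hcont : Tendsto (fun ε : ℝ => (2 : ℝ) ^ ε) (𝓝[>] 0) (𝓝 ((2 : ℝ) ^ (0 : ℝ))) :=
        ((Real.continuousAt_const_rpow (by norm_num : (2 : ℝ) ≠ 0)).tendsto).mono_left
          nhdsWithin_le_nhds
      rw [Real.rpow_zero] at hcont
      have h5 := (tendsto_order.1 hcont).2 (a / Q) hr
      have h6 : ∀ᶠ ε : ℝ in 𝓝[>] 0, 0 < ε := eventually_mem_nhdsWithin
      obtain ⟨ε, h7, h8⟩ := (h5.and h6).exists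
      exact ⟨ε, h8, h7⟩
    filter_upwards [hup ε hε0, eventually_ge_atTop 2] with n hn hn2
    have hn0 : (n : ℝ) ≠ 0 := by
      have : 0 < n := by omega
      exact_mod_cast this.ne'
    have hf0 : 0 ≤ f n := le_trans (by positivity) (hlow n hn2)
    have hpos : 0 < Q * (2 : ℝ) ^ ε := by positivity
    calc f n ^ ((1 : ℝ) / n) ≤ ((Q * (2 : ℝ) ^ ε) ^ n) ^ ((1 : ℝ) / n) :=
          Real.rpow_le_rpow hf0 hn (by positivity)
      _ = Q * (2 : ℝ) ^ ε := by
          rw [← Real.rpow_natCast, ← Real.rpow_mul hpos.le, mul_one_div, div_self hn0,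
            Real.rpow_one]
      _ < a := by
          have := mul_lt_mul_of_pos_left hε hQ
          rwa [mul_div_cancel₀ _ hQ.ne'] at this

/-- **END glue**: the frozen statement from the four interface statements. -/
theorem end_frozen (hF : StFrozenEq) (hS : StSymm) (hL : StLower) (hU : StUpper) : StFrozen := by
  intro p hp0 hp1
  have hfun : (fun n : ℕ => Claims.C0469.symSignSingularProb p n ^ ((1 : ℝ) / n))
      = fun n : ℕ => sgnProb p n ^ ((1 : ℝ) / n) := by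
    funext n; rw [hF p n]
  rw [hfun]
  have hc : 0 < p ^ 3 + (1 - p) ^ 3 := by
    have : 0 < 1 - p := by linarith
    positivity
  refine end_tendsto_root (Q := p ^ 2 + (1 - p) ^ 2) (c := p ^ 3 + (1 - p) ^ 3)
    (end_cQ_pos p) hc (hL p hp0 hp1) ?_
  intro ε hε
  -- reduce to p ≤ 1/2
  have key : ∀ r : ℝ, 0 < r → r ≤ 1 / 2 → ∀ᶠ n : ℕ in atTop, sgnProb r n ≤ (cQ r * (2 : ℝ) ^ ε) ^ n := by
    intro r hr0 hr1
    filter_upwards [hU r hr0 hr1 ε hε] with n hn
    refine le_trans hn (le_of_eq ?_)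
    rw [← end_two_rpow_neg_cD r, ← Real.rpow_add (by norm_num), ← Real.rpow_natCast,
      ← Real.rpow_mul (by norm_num)]
    congr 1; ring
  rcases le_total p (1 / 2) with h | h
  · exact key p hp0 h
  · have h2 := key (1 - p) (by linarith) (by linarith)
    filter_upwards [h2] with n hn
    rw [hS p n, end_cQ_symm] at hn
    exact hn

end Claimed.Agent.R293
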