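/-
R293 / EndLower.lean (owner: helper26, package END).
`StLower`: the first two rows agree with probability `(p³+(1-p)³) Q^{n-2}`.  No sorry.
-/
import Claimed.Agent.R293.Iface
import Claimed.Agent.R293.EndMarg

set_option autoImplicit false

namespace Claimed.Agent.R293

open scoped BigOperators

section Blocks
variable {ι : Type*} [Fintype ι] [DecidableEq ι]

/-- all coordinates in `T` are equal -/
def endBlock (T : Finset ι) : Set (ι → Bool) := {x | ∃ c : Bool, ∀ i ∈ T, x i = c}

omit [Fintype ι] [DecidableEq ι] in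
lemma endBlock_free {T : Finset ι} {A : Set ι} (h : ∀ i ∈ T, i ∉ A) : pbFreeSet A (endBlock T) := by
  refine pbFreeSet_of_agree fun s t hst => ?_
  unfold endBlock
  simp only [Set.mem_ofPred_eq]
  refine exists_congr fun c => forall₂_congr fun i hi => ?_
  rw [hst i (h i hi)]

lemma end_prb_block (p : ℝ) {T : Finset ι} (hT : T.Nonempty) :
    prb (fun _ : ι => p) (endBlock T) = p ^ T.card + (1 - p) ^ T.card := by
  have h1 : endBlock T = {x | ∀ i ∈ T, x i = (fun _ => true) i} ∪
      {x | ∀ i ∈ T, x i = (fun _ => false) i} := by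
    ext x
    simp only [endBlock, Set.mem_ofPred_eq, Set.mem_union, Bool.exists_bool]
    tauto
  have hd : Disjoint ({x | ∀ i ∈ T, x i = (fun _ => true) i} : Set (ι → Bool))
      {x | ∀ i ∈ T, x i = (fun _ => false) i} := by
    rw [Set.disjoint_left]
    intro x hx hx'
    obtain ⟨i, hi⟩ := hT
    have e1 := hx i hi
    have e2 := hx' i hi
    simp only at e1 e2
    rw [e1] at e2
    exact Bool.noConfusion e2
  rw [h1, pb_prb_union_of_disjoint _ hd, end_prb_cyl, end_prb_cyl]
  simp

/-- independent blocks -/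
lemma end_prb_blocks {K : Type*} [DecidableEq K] (p : ℝ) (S : Finset K) (T : K → Finset ι)
    (hne : ∀ k ∈ S, (T k).Nonempty)
    (hd : ∀ k ∈ S, ∀ k' ∈ S, k ≠ k' → Disjoint (T k) (T k')) :
    prb (fun _ : ι => p) (⋂ k ∈ S, endBlock (T k))
      = ∏ k ∈ S, (p ^ (T k).card + (1 - p) ^ (T k).card) := by
  induction S using Finset.induction_on with
  | empty => simp
  | insert k S hk ih =>
    rw [Finset.prod_insert hk, Finset.set_biInter_insert]
    have hE : pbFreeSet ((T k : Set ι)ᶜ) (endBlock (T k)) :=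
      endBlock_free fun i hi h => h hi
    have hF : pbFreeSet (T k : Set ι) (⋂ k' ∈ S, endBlock (T k')) := by
      refine pbFreeSet.biInter fun k' hk' => endBlock_free fun i hi h => ?_
      have hne' : k ≠ k' := fun h' => hk (h' ▸ hk')
      exact Finset.disjoint_left.1 (hd k (Finset.mem_insert_self k S) k'
        (Finset.mem_insert_of_mem hk') hne') h hi
    rw [pb_prb_inter_of_indep _ (T k : Set ι) hE hF, end_prb_block p (hne k (Finset.mem_insert_self k S)),
      ih (fun a ha => hne a (Finset.mem_insert_of_mem ha))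
        (fun a ha a' ha' => hd a (Finset.mem_insert_of_mem ha) a' (Finset.mem_insert_of_mem ha'))]

end Blocks

section Lower
variable {n : ℕ}

/-- the blocks of entries that have to agree -/
def endT (a0 a1 : Fin n) (k : Fin n) : Finset (Sym2 (Fin n)) :=
  if k = a0 then {s(a0, a0), s(a0, a1), s(a1, a1)} else {s(a0, k), s(a1, k)}

lemma end_lower_aux (p : ℝ) (hp0 : 0 ≤ p) (hp1 : p ≤ 1) (hn : 2 ≤ n) :
    (p ^ 3 + (1 - p) ^ 3) * cQ p ^ (n - 2) ≤ sgnProb p n := by
  set a0 : Fin n := ⟨0, by omega⟩ with ha0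
  set a1 : Fin n := ⟨1, by omega⟩ with ha1
  have h01 : a0 ≠ a1 := by simp [ha0, ha1, Fin.ext_iff]
  set S : Finset (Fin n) := Finset.univ.erase a1 with hS
  have hmemS : ∀ k, k ∈ S ↔ k ≠ a1 := by intro k; simp [hS]
  -- label of a pair
  let lab : Sym2 (Fin n) → Fin n := fun z => if z.sup ≤ a1 then a0 else z.sup
  have hlab : ∀ k ∈ S, ∀ z ∈ endT a0 a1 k, lab z = k := by
    intro k hk z hz
    have hk1 : k ≠ a1 := (hmemS k).1 hk
    by_cases hk0 : k = a0
    · subst hk0
      simp only [endT, if_true, Finset.mem_insert, Finset.mem_singleton] at hz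
      have ale : a0 ≤ a1 := by simp [ha0, ha1, Fin.le_def]
      rcases hz with rfl | rfl | rfl <;> simp [lab, ale]
    · simp only [endT, if_neg hk0, Finset.mem_insert, Finset.mem_singleton] at hz
      have hk2 : 2 ≤ k.val := by
        have e0 : k.val ≠ 0 := fun h => hk0 (Fin.ext h)
        have e1 : k.val ≠ 1 := fun h => hk1 (Fin.ext h)
        omega
      have l0 : a0 ≤ k := by simp [ha0, Fin.le_def]
      have l1 : a1 ≤ k := by simp only [ha1, Fin.le_def]; omega
      have l2 : ¬ k ≤ a1 := by simp only [ha1, Fin.le_def]; omega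
      rcases hz with rfl | rfl
      · simp [lab, sup_eq_right.2 l0, l2]
      · simp [lab, sup_eq_right.2 l1, l2]
  have hd : ∀ k ∈ S, ∀ k' ∈ S, k ≠ k' → Disjoint (endT a0 a1 k) (endT a0 a1 k') := by
    intro k hk k' hk' hne
    rw [Finset.disjoint_left]
    intro z hz hz'
    exact hne ((hlab k hk z hz).symm.trans (hlab k' hk' z hz'))
  have hne : ∀ k ∈ S, (endT a0 a1 k).Nonempty := by
    intro k _
    by_cases hk0 : k = a0
    · exact ⟨s(a0, a0), by simp [endT, hk0]⟩
    · exact ⟨s(a0, k), by simp [endT, hk0]⟩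
  have hcard0 : (endT a0 a1 a0).card = 3 := by
    simp only [endT, if_true]
    rw [Finset.card_eq_three]
    refine ⟨_, _, _, ?_, ?_, ?_, rfl⟩
    · simp [h01]
    · simp [h01]
    · simp [h01]
  have hcard : ∀ k ∈ S.erase a0, (endT a0 a1 k).card = 2 := by
    intro k hk
    have hk0 : k ≠ a0 := (Finset.mem_erase.1 hk).1
    simp only [endT, if_neg hk0]
    rw [Finset.card_eq_two]
    refine ⟨_, _, ?_, rfl⟩
    simp only [ne_eq, Sym2.eq_iff, and_true, not_or, not_and]
    exact ⟨h01, fun h _ => hk0 h.symm⟩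
  have hprob := end_prb_blocks p S (endT a0 a1) hne hd
  have ha0S : a0 ∈ S := (hmemS a0).2 h01
  have hprod : ∏ k ∈ S, (p ^ (endT a0 a1 k).card + (1 - p) ^ (endT a0 a1 k).card)
      = (p ^ 3 + (1 - p) ^ 3) * cQ p ^ (n - 2) := by
    rw [← Finset.mul_prod_erase S _ ha0S, hcard0]
    congr 1
    rw [Finset.prod_congr rfl (fun k hk => by rw [hcard k hk]), Finset.prod_const]
    congr 1
    rw [Finset.card_erase_of_mem ha0S, hS, Finset.card_erase_of_mem (Finset.mem_univ _)]
    simp
    omega
  rw [← hprod, ← hprob]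
  unfold sgnProb
  refine pb_prb_mono (fun _ => ⟨hp0, hp1⟩) ?_
  intro s hs
  simp only [Set.mem_iInter] at hs
  show (sgnMat s).det = 0
  refine Matrix.det_zero_of_row_eq h01 ?_
  funext j
  have key : s s(a0, j) = s s(a1, j) := by
    obtain ⟨c, hc⟩ := hs a0 ha0S
    by_cases hj0 : j = a0
    · subst hj0
      rw [hc s(a0, a0) (by simp [endT]), Sym2.eq_swap, hc s(a0, a1) (by simp [endT])]
    · by_cases hj1 : j = a1
      · subst hj1
        rw [hc s(a0, a1) (by simp [endT]), hc s(a1, a1) (by simp [endT])]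
      · obtain ⟨c', hc'⟩ := hs j ((hmemS j).2 hj1)
        rw [hc' s(a0, j) (by simp [endT, hj0]), hc' s(a1, j) (by simp [endT, hj0])]
  simp only [sgnMat, key]

theorem end_lower : StLower := fun p hp0 hp1 _ hn => end_lower_aux p hp0.le hp1.le hn

end Lower

end Claimed.Agent.R293
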