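/-
R293 / EndMain.lean (owner: helper26, package END).
`StUpper → StFrozen`: everything of the endgame except the upper bound is proved.  No sorry.
-/
import Claimed.Agent.R293.EndLimit
import Claimed.Agent.R293.EndFrozen
import Claimed.Agent.R293.EndLower

set_option autoImplicit false

namespace Claimed.Agent.R293

/-- **END**: the frozen statement S0541 follows from the upper bound `StUpper`. -/
theorem end_main (hU : StUpper) : StFrozen :=
  end_frozen end_frozenEq end_symm end_lower hU

end Claimed.Agent.R293
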