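/-
R293 / IntCover.lean (owner: helper103).  `StCover` (COV, A Theorem 4.1) ⟹ `StIntCover` (tuple form consumed by INT).
-/
import Claimed.Agent.R293.IntDefs
import Claimed.Agent.R293.CovIface
import Claimed.Agent.R293.LatInt
import Claimed.Agent.R293.LatBasic

set_option autoImplicit false

namespace Claimed.Agent.R293

open Filter Submodule Module

theorem int_cover (h : StCover) : StIntCover := by
  intro P hP
  filter_upwards [h 2 P (by norm_num) hP] with N hN
  intro m hm
  obtain ⟨C, hC1, hC2⟩ := hN m hm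
  refine ⟨C, hC1, ?_⟩
  intro f z hz hG
  -- the ℤ-span of the `z a`
  have hb : IsLatBasis (fun a => vecR (z a)) (span ℤ (Set.range fun a => vecR (z a))) := ⟨hz, rfl⟩
  have hle : span ℤ (Set.range fun a => vecR (z a)) ≤ intLat m := by
    rw [span_le]
    rintro _ ⟨a, rfl⟩
    exact latInt_vecR_mem (z a)
  have hspan : rspan (span ℤ (Set.range fun a => vecR (z a))) = intSpan z := lat_rspan_eq hb
  have hrat : IsRat (intSpan z) := hspan ▸ latInt_isRat_rspan hle
  have hht : height (intSpan z) ≤ Real.exp (N * ell N ^ (2 : ℝ)) := by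
    have h1 : height (intSpan z) ≤ latDet (span ℤ (Set.range fun a => vecR (z a))) :=
      hspan ▸ latInt_height_le hle
    refine h1.trans ?_
    rw [lat_det_eq hb]
    have : Real.exp (2 * N * ell N ^ 2) = Real.exp (N * ell N ^ (2 : ℝ)) ^ 2 := by
      rw [← Real.exp_nat_mul, Real.rpow_two]; congr 1; push_cast; ring
    have hG' : gramDet (fun a => vecR (z a)) ≤ Real.exp (N * ell N ^ (2 : ℝ)) ^ 2 := this ▸ hG
    exact Real.sqrt_le_iff.mpr ⟨(Real.exp_pos _).le, hG'⟩
  exact hC2 (intSpan z) hrat hht

end Claimed.Agent.R293
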