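/-
R293 / IntDet.lean  (owner: helper103).  Assembly of the deterministic half of INT (paper B, Section 4):
a violating lattice produces a witness.  `StIntDet` from the D-leaves and the numerical leaf N1.
-/
import Claimed.Agent.R293.IntDefs

set_option autoImplicit false

namespace Claimed.Agent.R293

open Filter Submodule Module
open scoped RealInnerProductSpace

/-- `StIntSep` from its three sub-leaves. -/
theorem int_sep (h1 : StIntSepRep) (h2 : StIntSepRank) (h3 : StIntSepIndex) : StIntSep := by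
  intro m B K f z W0 hS a b R ha hb hb1 hR u _hu
  obtain ⟨I, c, ε, hsep, hrep⟩ := h1 m (intScale a b (intSpan z) W0) K u R hR.le
  exact ⟨I, intErrRank z ε, hsep, h2 m B K f z W0 hS a b R ha hb hb1 hR ε hrep.err,
    h3 m B K f z W0 hS a b R ha hb hb1 hR u I c ε hrep⟩

theorem IntSep.mono {m : ℕ} {S : EucM m →ₗ[ℝ] EucM m} {K : AddSubgroup (Fin m → ℤ)} {u : ℤ} {R : ℝ}
    {I I' : Finset (Fin m)} (h : IntSep S K u R I) (hI : I' ⊆ I) : IntSep S K u R I' :=
  fun A hA A' hA' hne v hv => h A (hA.trans hI) A' (hA'.trans hI) hne v hv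

theorem intScale_mem_orth {m : ℕ} (a b : ℝ) {F W0 : Submodule ℝ (EucM m)} (h : W0 ≤ Fᗮ) (x : EucM m) :
    intScale a b F W0 x ∈ Fᗮ := by
  unfold intScale
  simp only [LinearMap.add_apply, LinearMap.smul_apply, ContinuousLinearMap.coe_coe]
  refine Submodule.add_mem _ (Submodule.smul_mem _ _ (h ?_)) (Submodule.smul_mem _ _ ?_)
  · exact Submodule.starProjection_apply_mem _ _
  · exact (inf_le_left : Fᗮ ⊓ W0ᗮ ≤ Fᗮ) (Submodule.starProjection_apply_mem _ _)

theorem int_det (hStruct : StIntStruct) (hDims : StIntDims) (hTors : StIntTors) (hSep : StIntSep)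
    (hPick : StIntPickJ) (hLat : StIntLat) (hSel : StIntSelect) (hTr : StIntTransfer)
    (hNum : StIntNumDet) : StIntDet := by
  intro p hp0 hp12 D hD α hα0 hα1
  filter_upwards [hStruct α hα0, hNum p hp0 hp12 D hD α hα0 hα1] with N hS hN
  intro m hmN 𝒞 h𝒞 B hbit hsymm hdet hcor hviol
  have hp1 : p < 1 := by linarith
  unfold SmallInt at hviol
  push Not at hviol
  obtain ⟨K, hK, hidx, x, hx⟩ := hviol
  obtain ⟨f, z, hzK, hzind, hzG, hf⟩ := hS m hmN K x hx
  obtain ⟨V, hV, hrk⟩ := h𝒞.2 f z hzind hzG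
  have hsetup : IntSetup B K z ((intSpan z)ᗮ ⊓ Vᗮ) :=
    ⟨hbit, hsymm, hdet, hK, hzK, hzind, inf_le_left⟩
  have hfinF : finrank ℝ (intSpan z) = f := by
    unfold intSpan
    rw [finrank_span_eq_card hzind, Fintype.card_fin]
  obtain ⟨hd1, hd2⟩ := hDims m (intSpan z) V
  rw [hfinF] at hd1 hd2
  have hmNr : (m : ℝ) ≤ N := by exact_mod_cast hmN
  -- abbreviations
  obtain ⟨S, hSdef⟩ : ∃ S, S = intScale (intA N) (intB α N) (intSpan z) ((intSpan z)ᗮ ⊓ Vᗮ) := ⟨_, rfl⟩
  have hApos : 0 < intA N := lt_of_lt_of_le one_pos hN.one_le_A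
  -- corank in natural form
  have hcor' : ∀ q : ℕ, q.Prime → m ≤ (B.map (Int.cast : ℤ → ZMod q)).rank + intG N := by
    intro q hq
    have h := hcor q hq
    by_cases hle : m ≤ (B.map (Int.cast : ℤ → ZMod q)).rank
    · omega
    · push Not at hle
      have h2 : ((m - (B.map (Int.cast : ℤ → ZMod q)).rank : ℕ) : ℝ) ≤ (N : ℝ) ^ ((3 : ℝ) / 5) := by
        rw [Nat.cast_sub hle.le]; exact h
      have h3 : m - (B.map (Int.cast : ℤ → ZMod q)).rank ≤ intG N := Nat.le_floor h2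
      omega
  have hsG : Real.sqrt (intGram z) ≤ Real.exp (N * ell N ^ 2) := by
    have : Real.exp (2 * N * ell N ^ 2) = Real.exp (N * ell N ^ 2) ^ 2 := by
      rw [← Real.exp_nat_mul]; congr 1; push_cast; ring
    rw [this] at hzG
    exact Real.sqrt_le_iff.mpr ⟨(Real.exp_pos _).le, hzG⟩
  have hr : ((m - f - finrank ℝ ((intSpan z)ᗮ ⊓ Vᗮ : Submodule ℝ (EucM m)) : ℕ) : ℝ) ≤
      N * ell N ^ (-(intP D)) := by
    refine le_trans ?_ hrk
    exact_mod_cast (by omega :
      m - f - finrank ℝ ((intSpan z)ᗮ ⊓ Vᗮ : Submodule ℝ (EucM m)) ≤ rkDist (intSpan z) V)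
  -- separated sets for every u
  have key : ∀ u : ℤ, u ≠ 0 → |u| ≤ (intM α N : ℤ) →
      ∃ I : Finset (Fin m), IntSep S K u (intR N) I ∧ intC1 α * intTau D N * N ≤ (I.card : ℝ) := by
    intro u hu huM
    obtain ⟨I, t, h1, h2, h3⟩ := hSep m B K f z _ hsetup (intA N) (intB α N) (intR N) hN.one_le_A
      hN.B_pos hN.B_le_one hN.R_pos u hu
    refine ⟨I, hSdef ▸ h1, ?_⟩
    have ht := hTors m (intG N) B K hK hcor' u hu
    have hu1 : 1 ≤ u.natAbs := Int.natAbs_pos.mpr hu
    have hu2 : u.natAbs ≤ intM α N := by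
      have : (u.natAbs : ℤ) ≤ intM α N := by rw [Int.natCast_natAbs]; exact huM
      exact_mod_cast this
    refine hN.sep_size m I.card t _ u.natAbs (Real.sqrt (intGram z)) hmN hsG hr hu1 hu2 h2 ?_
    calc (N : ℝ) ^ (intTau D N * N) ≤ (K.index : ℝ) := hidx
      _ ≤ ((u.natAbs ^ intG N * (intColon K u).index : ℕ) : ℝ) := by exact_mod_cast ht
      _ = (u.natAbs : ℝ) ^ intG N * ((intColon K u).index : ℝ) := by push_cast; ring
      _ ≤ _ := mul_le_mul_of_nonneg_left h3 (by positivity)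
  -- the index type of all u
  let ι : Type := ↥((Finset.Icc (-(intM α N : ℤ)) (intM α N)).erase 0)
  have hι : ∀ u : ι, (u : ℤ) ≠ 0 ∧ |(u : ℤ)| ≤ (intM α N : ℤ) := by
    intro u
    have h := u.2
    rw [Finset.mem_erase, Finset.mem_Icc] at h
    exact ⟨h.1, abs_le.mpr h.2⟩
  choose Iu hIu1 hIu2 using fun u : ι => key u (hι u).1 (hι u).2
  have hcard : (Fintype.card ι : ℝ) = 2 * intM α N := by
    have h0 : (0 : ℤ) ∈ Finset.Icc (-(intM α N : ℤ)) (intM α N) := by
      rw [Finset.mem_Icc]; constructor <;> omega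
    have : Fintype.card ι = 2 * intM α N := by
      rw [Fintype.card_coe, Finset.card_erase_of_mem h0, Int.card_Icc]
      omega
    rw [this]; push_cast; ring
  have hγ0 : 0 < intGam α := by unfold intGam; positivity
  have hγ1 : intGam α ≤ 1 := by unfold intGam; linarith
  obtain ⟨J, hJ1, hJ2⟩ := hPick m (intGam α) hγ0 hγ1 ι Iu (intC1 α * intTau D N * N) hIu2
    (by rw [hcard]; exact hN.pick)
  -- the lattice
  obtain ⟨hL1, hL2⟩ := hLat m B K f z _ hsetup (intA N) (intB α N) hApos hN.B_pos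
  rw [← hSdef] at hL1 hL2
  have hspan : ∀ x, S x ∈ rspan (intLatS S K) := by
    intro x
    rw [hL2, hSdef]
    exact intScale_mem_orth _ _ inf_le_left x
  have hrank : latRank (intLatS S K) ≤ N := by
    unfold latRank
    rw [hL2]
    refine le_trans (Submodule.finrank_le _) ?_
    simpa using hmN
  have hsel := hSel p hp0 hp1 m S K hL1 hspan (intK p D α N) (intM α N) (intN0 D α N) (intR N)
    (intTheta p D α N) J hN.R_pos.le (Real.exp_pos _) ?_ (hN.select _ hrank)
  · obtain ⟨y', hy1, hy2⟩ := hsel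
    refine ⟨V, hV, J, ?_, ?_, fun g => S (y' g), ?_, ?_, ?_⟩
    · have h1 : ((finrank ℝ (Vᗮ : Submodule ℝ (EucM m)) + f : ℕ) : ℝ) ≤ ((m + rkDist (intSpan z) V : ℕ) : ℝ) := by
        exact_mod_cast hd1
      push_cast at h1
      have := hN.dimU
      nlinarith
    · exact hJ1.trans (mul_le_mul_of_nonneg_left hmNr hγ0.le)
    · intro g v
      have := (hTr m B K f z _ Vᗮ hsetup inf_le_right (intA N) (intB α N) (intR N) hN.B_pos
        (hN.B_le_one.trans hN.one_le_A) hN.R_pos.le (y' g) (hSdef ▸ (hy1 g).1) (hy1 g).2).1 v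
      rw [hSdef]; exact this
    · intro g
      have := (hTr m B K f z _ Vᗮ hsetup inf_le_right (intA N) (intB α N) (intR N) hN.B_pos
        (hN.B_le_one.trans hN.one_le_A) hN.R_pos.le (y' g) (hSdef ▸ (hy1 g).1) (hy1 g).2).2
      rw [hSdef]; exact ⟨this.1, this.2.1⟩
    · intro w hw hwM
      have h := hy2 w hw hwM
      refine le_of_eq_of_le ?_ h
      refine Finset.prod_congr rfl fun i _ => ?_
      congr 1
      refine Finset.sum_congr rfl fun g _ => ?_
      have := (hTr m B K f z _ Vᗮ hsetup inf_le_right (intA N) (intB α N) (intR N) hN.B_pos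
        (hN.B_le_one.trans hN.one_le_A) hN.R_pos.le (y' g) (hSdef ▸ (hy1 g).1) (hy1 g).2).2.2.2 i
      rw [hSdef, this]
  · intro u hu huM
    have hmem : u ∈ (Finset.Icc (-(intM α N : ℤ)) (intM α N)).erase 0 := by
      rw [Finset.mem_erase, Finset.mem_Icc]
      exact ⟨hu, abs_le.mp huM⟩
    refine ⟨J ∩ Iu ⟨u, hmem⟩, Finset.inter_subset_left, ?_, (hIu1 ⟨u, hmem⟩).mono Finset.inter_subset_right⟩
    refine Nat.ceil_le.mpr (le_trans (le_of_eq ?_) (hJ2 ⟨u, hmem⟩))
    unfold intC2; ring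

end Claimed.Agent.R293
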