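/-
R293 / IntFourierAvg.lean (helper296).  INT leaf D5: the Fourier average (paper B, Lemma 4.3, simplified).
`intPhiSq p t = Q + 2p(1-p) cos(2 pi t)`; expand the product over `I'` into cosines of signed subset sums; the empty
subset gives `Q^|I'|`, every other term is a character of the discrete Gaussian at a point far from the lattice (GP1).
-/
import Claimed.Agent.R293.IntDefs

set_option autoImplicit false

namespace Claimed.Agent.R293

open Filter Submodule Module
open scoped RealInnerProductSpace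

theorem intFA_phiSq (p t : ℝ) :
    intPhiSq p t = 2 * p * (1 - p) * Real.cos (2 * Real.pi * t) + cQ p := by
  have h : Real.cos (2 * Real.pi * t) = 1 - 2 * Real.sin (Real.pi * t) ^ 2 := by
    rw [show 2 * Real.pi * t = 2 * (Real.pi * t) by ring, Real.cos_two_mul, Real.cos_sq']
    ring
  rw [h]
  unfold intPhiSq cQ
  ring

theorem intFA_prod_cos {ι : Type*} [DecidableEq ι] (T : Finset ι) (θ : ι → ℝ) :
    ∏ i ∈ T, Real.cos (θ i) =
      (1 / 2 : ℝ) ^ T.card *
        ∑ A ∈ T.powerset, Real.cos (∑ i ∈ A, θ i - ∑ i ∈ T \ A, θ i) := by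
  induction T using Finset.induction_on with
  | empty => simp
  | insert a T ha ih =>
    have key : ∀ A ∈ T.powerset,
        Real.cos (∑ i ∈ A, θ i - ∑ i ∈ insert a T \ A, θ i) +
          Real.cos (∑ i ∈ insert a A, θ i - ∑ i ∈ insert a T \ insert a A, θ i) =
        2 * Real.cos (θ a) * Real.cos (∑ i ∈ A, θ i - ∑ i ∈ T \ A, θ i) := by
      intro A hA
      have hAT := Finset.mem_powerset.1 hA
      have haA : a ∉ A := fun h => ha (hAT h)
      have e1 : insert a T \ A = insert a (T \ A) := Finset.insert_sdiff_of_notMem _ haA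
      have e2 : insert a T \ insert a A = T \ A := by
        ext x
        simp only [Finset.mem_sdiff, Finset.mem_insert, not_or]
        constructor
        · rintro ⟨h1 | h1, h2, h3⟩
          · exact absurd h1 h2
          · exact ⟨h1, h3⟩
        · rintro ⟨h1, h2⟩
          exact ⟨Or.inr h1, fun h => ha (h ▸ h1), h2⟩
      rw [e1, e2, Finset.sum_insert (by simp [ha]), Finset.sum_insert haA]
      set α := ∑ i ∈ A, θ i
      set β := ∑ i ∈ T \ A, θ i
      rw [show α - (θ a + β) = (α - β) - θ a by ring, show θ a + α - β = (α - β) + θ a by ring,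
        Real.cos_sub, Real.cos_add]
      ring
    rw [Finset.prod_insert ha, ih, Finset.sum_powerset_insert ha, Finset.card_insert_of_notMem ha,
      ← Finset.sum_add_distrib, Finset.sum_congr rfl key, ← Finset.mul_sum, pow_succ]
    ring

section Abstract
variable {Y : Type*} {w : Y → ℝ}

theorem intFA_summable_mul (hw : Summable w) (hw0 : ∀ y, 0 ≤ w y) {f : Y → ℝ}
    (hf : ∀ y, |f y| ≤ 1) : Summable fun y => w y * f y := by
  refine Summable.of_norm_bounded hw fun y => ?_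
  rw [Real.norm_eq_abs, abs_mul, abs_of_nonneg (hw0 y)]
  exact mul_le_of_le_one_right (hw0 y) (hf y)

theorem intFA_abs_prod_cos_le {ι : Type*} (T : Finset ι) (θ : ι → ℝ) :
    |∏ i ∈ T, Real.cos (θ i)| ≤ 1 := by
  rw [Finset.abs_prod]
  exact Finset.prod_le_one (fun _ _ => abs_nonneg _) fun _ _ => Real.abs_cos_le_one _

theorem intFA_tsum_prod_cos {ι : Type*} [DecidableEq ι] (hw : Summable w) (hw0 : ∀ y, 0 ≤ w y)
    (T : Finset ι) (θ : Y → ι → ℝ) (E : ℝ)
    (h : ∀ A ⊆ T, ∑' y, w y * Real.cos (∑ i ∈ A, θ y i - ∑ i ∈ T \ A, θ y i) ≤ E) :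
    ∑' y, w y * ∏ i ∈ T, Real.cos (θ y i) ≤ E := by
  have e1 : ∀ y, w y * ∏ i ∈ T, Real.cos (θ y i) =
      ∑ A ∈ T.powerset, (1 / 2 : ℝ) ^ T.card *
        (w y * Real.cos (∑ i ∈ A, θ y i - ∑ i ∈ T \ A, θ y i)) := by
    intro y
    rw [intFA_prod_cos, ← Finset.mul_sum, ← Finset.mul_sum]
    ring
  simp_rw [e1]
  rw [Summable.tsum_finsetSum fun A _ =>
    (intFA_summable_mul hw hw0 fun y => Real.abs_cos_le_one _).mul_left _]
  simp_rw [tsum_mul_left]
  calc ∑ A ∈ T.powerset, (1 / 2 : ℝ) ^ T.card *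
        ∑' y, w y * Real.cos (∑ i ∈ A, θ y i - ∑ i ∈ T \ A, θ y i)
      ≤ ∑ A ∈ T.powerset, (1 / 2 : ℝ) ^ T.card * E :=
        Finset.sum_le_sum fun A hA =>
          mul_le_mul_of_nonneg_left (h A (Finset.mem_powerset.1 hA)) (by positivity)
    _ = E := by
        rw [Finset.sum_const, Finset.card_powerset, nsmul_eq_mul, ← mul_assoc]
        push_cast
        rw [← mul_pow]
        norm_num

theorem intFA_tsum_prod {ι : Type*} [DecidableEq ι] (hw : Summable w) (hw0 : ∀ y, 0 ≤ w y)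
    (I : Finset ι) (θ : Y → ι → ℝ) (b Q ε : ℝ) (hb : 0 ≤ b) (hQ : 0 ≤ Q) (hbQ : b + Q = 1)
    (hε : 0 ≤ ε)
    (h : ∀ T ⊆ I, T.Nonempty → ∑' y, w y * ∏ i ∈ T, Real.cos (θ y i) ≤ ε * ∑' y, w y) :
    ∑' y, w y * ∏ i ∈ I, (b * Real.cos (θ y i) + Q) ≤ (Q ^ I.card + ε) * ∑' y, w y := by
  set G := ∑' y, w y with hG
  have hG0 : 0 ≤ G := tsum_nonneg hw0
  have e1 : ∀ y, w y * ∏ i ∈ I, (b * Real.cos (θ y i) + Q) =
      ∑ T ∈ I.powerset, (b ^ T.card * Q ^ (I \ T).card) * (w y * ∏ i ∈ T, Real.cos (θ y i)) := by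
    intro y
    rw [Finset.prod_add, Finset.mul_sum]
    refine Finset.sum_congr rfl fun T _ => ?_
    rw [Finset.prod_mul_distrib, Finset.prod_const, Finset.prod_const]
    ring
  simp_rw [e1]
  rw [Summable.tsum_finsetSum fun T _ =>
    (intFA_summable_mul hw hw0 fun y => intFA_abs_prod_cos_le _ _).mul_left _]
  simp_rw [tsum_mul_left]
  have e2 : ∑ T ∈ I.powerset, b ^ T.card * Q ^ (I \ T).card = 1 := by
    have := Finset.prod_add (fun _ : ι => b) (fun _ => Q) I
    simp only [Finset.prod_const, hbQ, one_pow] at this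
    exact this.symm
  have e3 : ∑ T ∈ I.powerset, b ^ T.card * Q ^ (I \ T).card * (if T = ∅ then 1 else 0) =
      Q ^ I.card := by
    rw [Finset.sum_eq_single ∅]
    · simp
    · intro T _ hT
      simp [hT]
    · intro h
      exact absurd (Finset.empty_mem_powerset I) h
  calc ∑ T ∈ I.powerset, b ^ T.card * Q ^ (I \ T).card *
        ∑' y, w y * ∏ i ∈ T, Real.cos (θ y i)
      ≤ ∑ T ∈ I.powerset, b ^ T.card * Q ^ (I \ T).card *
          (((if T = ∅ then 1 else 0) + ε) * G) := by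
        refine Finset.sum_le_sum fun T hT => mul_le_mul_of_nonneg_left ?_ (by positivity)
        rcases T.eq_empty_or_nonempty with rfl | hne
        · simp only [Finset.prod_empty, mul_one, if_true]
          nlinarith
        · rw [if_neg hne.ne_empty, zero_add]
          exact h T (Finset.mem_powerset.1 hT) hne
    _ = (Q ^ I.card + ε) * G := by
        rw [← e3]
        have : ∀ T ∈ I.powerset, b ^ T.card * Q ^ (I \ T).card *
            (((if T = ∅ then 1 else 0) + ε) * G) =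
            (b ^ T.card * Q ^ (I \ T).card * (if T = ∅ then 1 else 0)) * G +
              (b ^ T.card * Q ^ (I \ T).card) * (ε * G) := fun T _ => by ring
        rw [Finset.sum_congr rfl this, Finset.sum_add_distrib, ← Finset.sum_mul, ← Finset.sum_mul, e2]
        ring

end Abstract

section Concrete
variable {m : ℕ}

theorem intFA_vecR_eq_sum (z : Fin m → ℤ) :
    vecR z = ∑ i, (z i : ℝ) • (EuclideanSpace.single i (1 : ℝ) : EucM m) := by
  ext j
  simp [vecR, Pi.single_apply]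

theorem intFA_vecR_sub (a b : Fin m → ℤ) : vecR (a - b) = vecR a - vecR b := by
  ext j
  simp [vecR]

theorem intFA_inner_S_vecR (S : EucM m →ₗ[ℝ] EucM m) (y : EucM m) (z : Fin m → ℤ) :
    ⟪y, S (vecR z)⟫ = ∑ i, (z i : ℝ) * ⟪y, S (EuclideanSpace.single i 1)⟫ := by
  rw [intFA_vecR_eq_sum, map_sum, inner_sum]
  refine Finset.sum_congr rfl fun i _ => ?_
  rw [map_smul, inner_smul_right]

theorem intFA_inner_ind (S : EucM m →ₗ[ℝ] EucM m) (y : EucM m) (u : ℤ) (A A' : Finset (Fin m)) :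
    ⟪y, S (vecR (u • (indZ A - indZ A')))⟫ =
      (u : ℝ) * (∑ i ∈ A, ⟪y, S (EuclideanSpace.single i 1)⟫ -
        ∑ i ∈ A', ⟪y, S (EuclideanSpace.single i 1)⟫) := by
  rw [intFA_inner_S_vecR]
  have e : ∀ i : Fin m, ((u • (indZ A - indZ A')) i : ℝ) * ⟪y, S (EuclideanSpace.single i 1)⟫ =
      (u : ℝ) * ((if i ∈ A then ⟪y, S (EuclideanSpace.single i 1)⟫ else 0) -
        (if i ∈ A' then ⟪y, S (EuclideanSpace.single i 1)⟫ else 0)) := by
    intro i
    simp only [Pi.smul_apply, Pi.sub_apply, indZ, smul_eq_mul]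
    by_cases h1 : i ∈ A <;> by_cases h2 : i ∈ A' <;> simp [h1, h2]
  simp_rw [e]
  rw [← Finset.mul_sum, Finset.sum_sub_distrib, Finset.sum_ite_mem, Finset.sum_ite_mem,
    Finset.univ_inter, Finset.univ_inter]

theorem intFA_tsum_sin (L : Submodule ℤ (EucM m)) (x : EucM m) :
    ∑' y : L, intGw (y : EucM m) * Real.sin (2 * Real.pi * ⟪(y : EucM m), x⟫) = 0 := by
  have h := (Equiv.neg L).tsum_eq fun y : L =>
    intGw (y : EucM m) * Real.sin (2 * Real.pi * ⟪(y : EucM m), x⟫)
  have h2 : ∀ y : L, intGw ((Equiv.neg L y : L) : EucM m) *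
      Real.sin (2 * Real.pi * ⟪((Equiv.neg L y : L) : EucM m), x⟫) =
      -(intGw (y : EucM m) * Real.sin (2 * Real.pi * ⟪(y : EucM m), x⟫)) := by
    intro y
    simp [intGw, inner_neg_left, Real.sin_neg]
  simp_rw [h2] at h
  rw [tsum_neg] at h
  linarith

theorem intFA_shift (L : Submodule ℤ (EucM m)) (hsum : Summable fun y : L => intGw (y : EucM m))
    (x : EucM m) (c : ℝ) :
    ∑' y : L, intGw (y : EucM m) * Real.cos (2 * Real.pi * ⟪(y : EucM m), x⟫ + c) =
      Real.cos c * ∑' y : L, intGw (y : EucM m) * Real.cos (2 * Real.pi * ⟪(y : EucM m), x⟫) := by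
  have hw0 : ∀ y : L, 0 ≤ intGw (y : EucM m) := fun y => (Real.exp_pos _).le
  have e : ∀ y : L, intGw (y : EucM m) * Real.cos (2 * Real.pi * ⟪(y : EucM m), x⟫ + c) =
      Real.cos c * (intGw (y : EucM m) * Real.cos (2 * Real.pi * ⟪(y : EucM m), x⟫)) -
        Real.sin c * (intGw (y : EucM m) * Real.sin (2 * Real.pi * ⟪(y : EucM m), x⟫)) := by
    intro y
    rw [Real.cos_add]
    ring
  simp_rw [e]
  rw [Summable.tsum_sub
    ((intFA_summable_mul hsum hw0 fun y => Real.abs_cos_le_one _).mul_left _)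
    ((intFA_summable_mul hsum hw0 fun y => Real.abs_sin_le_one _).mul_left _),
    tsum_mul_left, tsum_mul_left, intFA_tsum_sin, mul_zero, sub_zero]

theorem intFA_mem_latS {S : EucM m →ₗ[ℝ] EucM m} {K : AddSubgroup (Fin m → ℤ)} {v : EucM m}
    (hv : v ∈ intLatS S K) : ∃ k ∈ K, v = S (vecR k) := by
  obtain ⟨w, ⟨k, hk, hwk⟩, rfl⟩ := Submodule.mem_map.1 hv
  refine ⟨k, hk, ?_⟩
  have : w = vecR k := by
    ext i
    simpa [vecR] using hwk i
  rw [this]
  rfl

end Concrete

/-- **Leaf D5 (Fourier average, B Lemma 4.3).** -/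
theorem int_fourierAvg (h0 : StGpSummable) (h1 : StGpDualLat) (h2 : StGpFourier) :
    StIntFourierAvg := by
  intro p hp0 hp1 m S K hL hS u R hR I' hsep s
  set L := intLatS S K with hLdef
  have hLd : IsLat (latDual L) := (h1 m L hL).1
  have hsum : Summable fun y : latDual L => intGw (y : EucM m) := h0 m _ hLd
  have hw0 : ∀ y : latDual L, 0 ≤ intGw (y : EucM m) := fun y => (Real.exp_pos _).le
  set ε := (2 : ℝ) ^ ((latRank L : ℝ) / 2) * Real.exp (-(Real.pi * R ^ 2 / 2)) with hε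
  have hε0 : 0 ≤ ε := by positivity
  let θ : latDual L → Fin m → ℝ := fun y i =>
    2 * Real.pi * ((u : ℝ) * ⟪(y : EucM m), S (EuclideanSpace.single i 1)⟫ + s i)
  have e : ∀ y : latDual L,
      ∏ i ∈ I', intPhiSq p ((u : ℝ) * ⟪(y : EucM m), S (EuclideanSpace.single i 1)⟫ + s i) =
      ∏ i ∈ I', (2 * p * (1 - p) * Real.cos (θ y i) + cQ p) :=
    fun y => Finset.prod_congr rfl fun i _ => intFA_phiSq _ _
  simp_rw [e]
  have hq : 0 ≤ 1 - p := by linarith
  refine intFA_tsum_prod hsum hw0 I' θ (2 * p * (1 - p)) (cQ p) ε (by positivity)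
    (by unfold cQ; positivity) (by unfold cQ; ring) hε0 ?_
  intro T hT hne
  refine intFA_tsum_prod_cos hsum hw0 T θ _ ?_
  intro A hA
  have hne' : A ≠ T \ A := by
    intro h
    obtain ⟨i, hi⟩ := hne
    by_cases hiA : i ∈ A
    · have h3 : i ∈ T \ A := h ▸ hiA
      exact (Finset.mem_sdiff.1 h3).2 hiA
    · exact hiA (h ▸ Finset.mem_sdiff.2 ⟨hi, hiA⟩)
  set x := S (vecR (u • (indZ A - indZ (T \ A)))) with hx
  set c := 2 * Real.pi * (∑ i ∈ A, s i - ∑ i ∈ T \ A, s i) with hc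
  have e2 : ∀ y : latDual L, ∑ i ∈ A, θ y i - ∑ i ∈ T \ A, θ y i =
      2 * Real.pi * ⟪(y : EucM m), x⟫ + c := by
    intro y
    rw [hx, intFA_inner_ind, hc]
    simp only [θ]
    rw [← Finset.mul_sum, ← Finset.mul_sum, Finset.sum_add_distrib, Finset.sum_add_distrib,
      ← Finset.mul_sum, ← Finset.mul_sum]
    ring
  simp_rw [e2]
  rw [intFA_shift _ hsum]
  have hgp := h2 m L hL x (hS _) R hR (by
    intro v hv
    obtain ⟨k, hk, rfl⟩ := intFA_mem_latS hv
    rw [hx, ← map_sub, ← intFA_vecR_sub]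
    exact (hsep A (hA.trans hT) (T \ A) (Finset.sdiff_subset.trans hT) hne' k hk).le)
  calc Real.cos c * ∑' y : latDual L, intGw (y : EucM m) *
        Real.cos (2 * Real.pi * ⟪(y : EucM m), x⟫)
      ≤ |Real.cos c * ∑' y : latDual L, intGw (y : EucM m) *
        Real.cos (2 * Real.pi * ⟪(y : EucM m), x⟫)| := le_abs_self _
    _ = |Real.cos c| * |∑' y : latDual L, intGw (y : EucM m) *
        Real.cos (2 * Real.pi * ⟪(y : EucM m), x⟫)| := abs_mul _ _
    _ ≤ 1 * (ε * ∑' y : latDual L, intGw (y : EucM m)) :=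
        mul_le_mul (Real.abs_cos_le_one _) hgp (abs_nonneg _) zero_le_one
    _ = ε * ∑' y : latDual L, intGw (y : EucM m) := one_mul _

end Claimed.Agent.R293
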