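/-
R293 / IntGeom.lean (owner: helper175).  Four leaves of the INT package in ONE file (file budget):
  INT-D2  `int_dims : StIntDims`          dimension bookkeeping
  INT-P1  `int_cells : StIntCells`        grid cells along an orthonormal basis of `U`
  INT-D7  `int_transfer : StIntTransfer`  transfer `y = S y'`
  INT-D3 rep `int_sepRep : StIntSepRep`   maximal separated set and its representation (prefix `intr_`)
plus an API for `intScale` (prefix `intg_`): symmetry, orthogonality of the two pieces, Bessel, norm bounds.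
-/
import Claimed.Agent.R293.IntDefs

set_option autoImplicit false

namespace Claimed.Agent.R293

open Filter Submodule Module
open scoped RealInnerProductSpace

/-! ### INT-D2 -/

theorem int_dims : StIntDims := by
  intro m F V
  have hm : finrank ℝ (EucM m) = m := finrank_euclideanSpace_fin
  have h1 := Submodule.finrank_add_finrank_orthogonal V
  have h2 := Submodule.finrank_add_finrank_orthogonal (F ⊔ V)
  have h3 := Submodule.finrank_sup_add_finrank_inf_eq F V
  have h4 : finrank ℝ (F ⊓ V : Submodule ℝ (EucM m)) ≤ finrank ℝ F :=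
    Submodule.finrank_mono inf_le_left
  have h5 : finrank ℝ (F ⊓ V : Submodule ℝ (EucM m)) ≤ finrank ℝ V :=
    Submodule.finrank_mono inf_le_right
  rw [Submodule.inf_orthogonal]
  unfold rkDist
  rw [hm] at h1 h2
  constructor <;> omega

/-! ### INT-P1 -/

/-- norm of the projection onto `U` through an orthonormal basis of `U` -/
theorem intg_norm_starProjection_sq {m : ℕ} (U : Submodule ℝ (EucM m))
    (u : OrthonormalBasis (Fin (finrank ℝ U)) ℝ U) (w : EucM m) :
    ‖U.starProjection w‖ ^ 2 = ∑ j, ⟪(u j : EucM m), w⟫ ^ 2 := by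
  rw [Submodule.starProjection_apply, ← Submodule.coe_norm, ← u.sum_sq_inner_right]
  refine Finset.sum_congr rfl fun j _ => ?_
  rw [Submodule.inner_orthogonalProjectionOnto_eq_of_mem_left]

theorem int_cells : StIntCells := by
  intro m U ρ ε hρ hε
  set d := finrank ℝ U with hd
  let u : OrthonormalBasis (Fin d) ℝ U := stdOrthonormalBasis ℝ U
  set A : ℝ := ρ * Real.sqrt d / ε with hA
  have hA0 : 0 ≤ A := by positivity
  refine ⟨Fintype.piFinset fun _ => Finset.Icc ⌊-A⌋ ⌊A⌋,
    fun y j => ⌊⟪(u j : EucM m), y⟫ * Real.sqrt d / ε⌋, ?_, ?_, ?_⟩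
  · rw [Fintype.card_piFinset]
    simp only [Finset.prod_const, Finset.card_univ, Fintype.card_fin, Int.card_Icc]
    push_cast
    refine pow_le_pow_left₀ (by positivity) ?_ d
    have h1 : ((⌊A⌋ + 1 - ⌊-A⌋).toNat : ℝ) = ((⌊A⌋ + 1 - ⌊-A⌋ : ℤ) : ℝ) := by
      have h0 : 0 ≤ ⌊A⌋ + 1 - ⌊-A⌋ := by
        have : ⌊-A⌋ ≤ ⌊A⌋ := Int.floor_le_floor (by linarith)
        omega
      exact_mod_cast Int.toNat_of_nonneg h0
    rw [h1]
    push_cast
    have h2 : (⌊A⌋ : ℝ) ≤ A := Int.floor_le A
    have h3 : -A < (⌊-A⌋ : ℝ) + 1 := Int.lt_floor_add_one (-A)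
    have e : 2 * ρ * Real.sqrt d / ε = 2 * A := by rw [hA]; ring
    rw [e]
    linarith
  · intro y hy
    rw [Fintype.mem_piFinset]
    intro j
    rw [Finset.mem_Icc]
    have h1 : |⟪(u j : EucM m), y⟫| ≤ ρ := by
      have := abs_real_inner_le_norm (u j : EucM m) y
      have hu : ‖(u j : EucM m)‖ = 1 := by
        rw [← Submodule.coe_norm]; exact u.orthonormal.1 j
      rw [hu, one_mul] at this
      exact this.trans hy
    have h2 := abs_le.1 h1
    have hs : 0 ≤ Real.sqrt d / ε := by positivity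
    constructor
    · apply Int.floor_le_floor
      rw [hA, mul_div_assoc, mul_div_assoc, ← neg_mul]
      exact mul_le_mul_of_nonneg_right h2.1 hs
    · apply Int.floor_le_floor
      rw [hA, mul_div_assoc, mul_div_assoc]
      exact mul_le_mul_of_nonneg_right h2.2 hs
  · intro y y' hc
    have hsplit : y - y' = U.starProjection (y - y') + (perpProj U y - perpProj U y') := by
      have h := Submodule.starProjection_add_starProjection_orthogonal (K := U) (y - y')
      rw [map_sub Uᗮ.starProjection] at h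
      exact h.symm
    have hP : ‖U.starProjection (y - y')‖ ≤ ε := by
      have hsq : ‖U.starProjection (y - y')‖ ^ 2 ≤ ε ^ 2 := by
        rw [intg_norm_starProjection_sq U u]
        have hj : ∀ j : Fin d, ⟪(u j : EucM m), y - y'⟫ ^ 2 ≤ ε ^ 2 / d := by
          intro j
          have hd1 : (0 : ℝ) < d := by
            have : 0 < d := Fin.pos j
            exact_mod_cast this
          have hs : 0 < Real.sqrt d / ε := by positivity
          have h1 := congrFun hc j
          simp only at h1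
          have h2 := Int.abs_sub_lt_one_of_floor_eq_floor h1
          rw [inner_sub_right]
          have h3 : |(⟪(u j : EucM m), y⟫ - ⟪(u j : EucM m), y'⟫) * (Real.sqrt d / ε)| < 1 := by
            have e : (⟪(u j : EucM m), y⟫ - ⟪(u j : EucM m), y'⟫) * (Real.sqrt d / ε)
                = ⟪(u j : EucM m), y⟫ * Real.sqrt d / ε - ⟪(u j : EucM m), y'⟫ * Real.sqrt d / ε := by
              ring
            rw [e]; exact h2
          have h4 : ((⟪(u j : EucM m), y⟫ - ⟪(u j : EucM m), y'⟫) * (Real.sqrt d / ε)) ^ 2 ≤ 1 := by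
            rw [← sq_abs]
            have := abs_nonneg ((⟪(u j : EucM m), y⟫ - ⟪(u j : EucM m), y'⟫) * (Real.sqrt d / ε))
            nlinarith
          rw [mul_pow, div_pow, Real.sq_sqrt hd1.le] at h4
          rw [le_div_iff₀ hd1]
          have hε2 : 0 < ε ^ 2 := by positivity
          have h5 := mul_le_mul_of_nonneg_right h4 hε2.le
          have e2 : (⟪(u j : EucM m), y⟫ - ⟪(u j : EucM m), y'⟫) ^ 2 * ((d : ℝ) / ε ^ 2) * ε ^ 2
              = (⟪(u j : EucM m), y⟫ - ⟪(u j : EucM m), y'⟫) ^ 2 * d := by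
            field_simp
          rw [e2] at h5
          linarith
        calc ∑ j, ⟪(u j : EucM m), y - y'⟫ ^ 2 ≤ ∑ _j : Fin d, ε ^ 2 / d :=
              Finset.sum_le_sum fun j _ => hj j
          _ ≤ ε ^ 2 := by
              rw [Finset.sum_const, Finset.card_univ, Fintype.card_fin, nsmul_eq_mul]
              rcases Nat.eq_zero_or_pos d with h0 | h0
              · rw [h0]; simp; positivity
              · have : (0 : ℝ) < d := by exact_mod_cast h0
                apply le_of_eq
                field_simp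
      exact abs_le_of_sq_le_sq' hsq hε.le |>.2 |> fun h => by
        simpa using h
    calc ‖y - y'‖ = ‖U.starProjection (y - y') + (perpProj U y - perpProj U y')‖ := by
          rw [← hsplit]
      _ ≤ ‖U.starProjection (y - y')‖ + ‖perpProj U y - perpProj U y'‖ := norm_add_le _ _
      _ ≤ ε + (‖perpProj U y‖ + ‖perpProj U y'‖) := add_le_add hP (norm_sub_le _ _)
      _ = ε + ‖perpProj U y‖ + ‖perpProj U y'‖ := by ring

/-! ### INT-D7 -/

variable {m : ℕ}

theorem intg_scale_apply (a b : ℝ) (F W0 : Submodule ℝ (EucM m)) (x : EucM m) :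
    intScale a b F W0 x = a • W0.starProjection x + b • (Fᗮ ⊓ W0ᗮ).starProjection x := rfl

/-- `S` is symmetric -/
theorem intg_scale_symm (a b : ℝ) (F W0 : Submodule ℝ (EucM m)) (x y : EucM m) :
    ⟪intScale a b F W0 x, y⟫ = ⟪x, intScale a b F W0 y⟫ := by
  rw [intg_scale_apply, intg_scale_apply, inner_add_left, inner_add_right, inner_smul_left,
    inner_smul_left, inner_smul_right, inner_smul_right,
    Submodule.inner_starProjection_left_eq_right, Submodule.inner_starProjection_left_eq_right]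
  simp

theorem intg_inner_proj_zero (F W0 : Submodule ℝ (EucM m)) (x y : EucM m) :
    ⟪W0.starProjection x, (Fᗮ ⊓ W0ᗮ).starProjection y⟫ = 0 := by
  have h1 : W0.starProjection x ∈ W0 := Submodule.starProjection_apply_mem _ _
  have h2 : (Fᗮ ⊓ W0ᗮ).starProjection y ∈ Fᗮ ⊓ W0ᗮ := Submodule.starProjection_apply_mem _ _
  exact (Submodule.mem_orthogonal _ _).1 h2.2 _ h1

theorem intg_bessel (F W0 : Submodule ℝ (EucM m)) (y : EucM m) :
    ‖W0.starProjection y‖ ^ 2 + ‖(Fᗮ ⊓ W0ᗮ).starProjection y‖ ^ 2 ≤ ‖y‖ ^ 2 := by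
  set p := W0.starProjection y
  set g := (Fᗮ ⊓ W0ᗮ).starProjection y
  -- `‖p + g‖² = ⟪y, p + g⟫ ≤ ‖y‖ ‖p + g‖`
  have hpg : ⟪p, g⟫ = 0 := intg_inner_proj_zero F W0 y y
  have h1 : ‖p + g‖ ^ 2 = ‖p‖ ^ 2 + ‖g‖ ^ 2 := by
    rw [norm_add_sq_real, hpg]; ring
  have hp : ⟪y, p⟫ = ‖p‖ ^ 2 := by
    rw [← real_inner_self_eq_norm_sq]
    change ⟪y, W0.starProjection y⟫ = ⟪W0.starProjection y, W0.starProjection y⟫
    rw [Submodule.inner_starProjection_left_eq_right,
      Submodule.starProjection_eq_self_iff.2 (Submodule.starProjection_apply_mem _ _)]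
  have hg : ⟪y, g⟫ = ‖g‖ ^ 2 := by
    rw [← real_inner_self_eq_norm_sq]
    change ⟪y, (Fᗮ ⊓ W0ᗮ).starProjection y⟫
      = ⟪(Fᗮ ⊓ W0ᗮ).starProjection y, (Fᗮ ⊓ W0ᗮ).starProjection y⟫
    rw [Submodule.inner_starProjection_left_eq_right,
      Submodule.starProjection_eq_self_iff.2 (Submodule.starProjection_apply_mem _ _)]
  have h2 : ‖p + g‖ ^ 2 = ⟪y, p + g⟫ := by rw [inner_add_right, hp, hg, h1]
  have h3 : ⟪y, p + g⟫ ≤ ‖y‖ * ‖p + g‖ := real_inner_le_norm _ _
  have h4 : ‖p + g‖ ≤ ‖y‖ := by
    by_contra hlt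
    have hlt' := not_le.1 hlt
    have hpos : 0 < ‖p + g‖ := lt_of_le_of_lt (norm_nonneg _) hlt'
    nlinarith
  rw [← h1]
  exact pow_le_pow_left₀ (norm_nonneg _) h4 2

theorem intg_scale_norm_le {a b : ℝ} (hb : 0 < b) (hba : b ≤ a) (F W0 : Submodule ℝ (EucM m))
    (y : EucM m) : ‖intScale a b F W0 y‖ ≤ a * ‖y‖ := by
  have ha : 0 < a := lt_of_lt_of_le hb hba
  have h1 : ‖intScale a b F W0 y‖ ^ 2
      = a ^ 2 * ‖W0.starProjection y‖ ^ 2 + b ^ 2 * ‖(Fᗮ ⊓ W0ᗮ).starProjection y‖ ^ 2 := by
    rw [intg_scale_apply, norm_add_sq_real, inner_smul_left, inner_smul_right,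
      intg_inner_proj_zero, norm_smul, norm_smul, mul_pow, mul_pow]
    simp
  have h2 := intg_bessel F W0 y
  have h3 : b ^ 2 ≤ a ^ 2 := pow_le_pow_left₀ hb.le hba 2
  have h4 : ‖intScale a b F W0 y‖ ^ 2 ≤ (a * ‖y‖) ^ 2 := by
    rw [h1, mul_pow]
    have := sq_nonneg ‖(Fᗮ ⊓ W0ᗮ).starProjection y‖
    have := sq_nonneg ‖W0.starProjection y‖
    nlinarith
  exact (abs_le_of_sq_le_sq' h4 (by positivity)).2

theorem intg_perp_scale_norm_le {a b : ℝ} (hb : 0 < b) (F W0 U : Submodule ℝ (EucM m))
    (hWU : W0 ≤ U) (y : EucM m) : ‖perpProj U (intScale a b F W0 y)‖ ≤ b * ‖y‖ := by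
  have h0 : perpProj U (W0.starProjection y) = 0 :=
    Submodule.starProjection_orthogonal_apply_eq_zero
      (hWU (Submodule.starProjection_apply_mem _ _))
  rw [intg_scale_apply, map_add, map_smul, map_smul, h0, smul_zero, zero_add, norm_smul,
    Real.norm_of_nonneg hb.le]
  refine mul_le_mul_of_nonneg_left ?_ hb.le
  have h1 : ‖perpProj U ((Fᗮ ⊓ W0ᗮ).starProjection y)‖ ≤ ‖(Fᗮ ⊓ W0ᗮ).starProjection y‖ :=
    Submodule.norm_starProjection_apply_le _ _
  exact h1.trans (Submodule.norm_starProjection_apply_le _ _)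

theorem int_transfer : StIntTransfer := by
  intro m B K f z W0 U hset hWU a b R hb hba hR y' hy' hyR
  set S := intScale a b (intSpan z) W0 with hS
  have ha : 0 < a := lt_of_lt_of_le hb hba
  have hcoord : ∀ i, (S y') i = ⟪y', S (EuclideanSpace.single i 1)⟫ := by
    intro i
    rw [hS, ← intg_scale_symm, EuclideanSpace.inner_single_right]
    simp
  refine ⟨fun v => ?_, ?_, ?_, hcoord⟩
  · -- the row `v` of `B` is in `K`
    have hrow : (fun i => B v i) ∈ K := by
      have h1 := hset.range_le (Pi.single v 1)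
      have h2 : B.mulVec (Pi.single v 1) = fun i => B v i := by
        ext i
        rw [Matrix.mulVec_single_one]
        exact congrFun (congrFun hset.symm v) i
      rwa [h2] at h1
    have hmem : S (vecR fun i => B v i) ∈ intLatS S K := by
      refine Submodule.mem_map.2 ⟨vecR fun i => B v i, ⟨_, hrow, fun i => rfl⟩, rfl⟩
    obtain ⟨n, hn⟩ := hy'.2 _ hmem
    refine ⟨n, ?_⟩
    rw [← hn, hS, ← intg_scale_symm]
    simp only [vecR, PiLp.inner_apply, RCLike.inner_apply, conj_trivial]
  · exact (intg_scale_norm_le hb hba _ _ _).trans (mul_le_mul_of_nonneg_left hyR ha.le)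
  · exact (intg_perp_scale_norm_le hb _ _ _ hWU _).trans (mul_le_mul_of_nonneg_left hyR hb.le)

/-! ### INT-D3 rep -/

theorem intr_vecR_neg (x : Fin m → ℤ) : vecR (-x) = -vecR x := by
  ext i; simp [vecR]

theorem intr_vecR_zero : vecR (0 : Fin m → ℤ) = 0 := by
  ext i; simp [vecR]

theorem intr_indZ_erase {A : Finset (Fin m)} {i : Fin m} (hi : i ∈ A) :
    indZ A = Pi.single i 1 + indZ (A.erase i) := by
  ext h
  simp only [indZ, Pi.add_apply, Finset.mem_erase, Pi.single_apply]
  by_cases hh : h = i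
  · subst hh; simp [hi]
  · simp [hh]

theorem intr_sep_empty (S : EucM m →ₗ[ℝ] EucM m) (K : AddSubgroup (Fin m → ℤ)) (u : ℤ) (R : ℝ) :
    IntSep S K u R ∅ := by
  intro A hA A' hA' hne
  exact absurd ((Finset.subset_empty.1 hA).trans (Finset.subset_empty.1 hA').symm) hne

theorem intr_subset_of_not_mem {A I : Finset (Fin m)} {i : Fin m} (hA : A ⊆ insert i I)
    (hi : i ∉ A) : A ⊆ I := fun x hx => by
  rcases Finset.mem_insert.1 (hA hx) with h | h
  · exact absurd (h ▸ hx) hi
  · exact h

theorem intr_erase_subset {A I : Finset (Fin m)} {i : Fin m} (hA : A ⊆ insert i I) :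
    A.erase i ⊆ I := fun x hx => by
  rcases Finset.mem_insert.1 (hA (Finset.mem_of_mem_erase hx)) with h | h
  · exact absurd h (Finset.ne_of_mem_erase hx)
  · exact h

/-- adding `i` to a separated set `I` breaks the separation: `i` occurs in exactly one of the sets -/
theorem intr_key {S : EucM m →ₗ[ℝ] EucM m} {K : AddSubgroup (Fin m → ℤ)} {u : ℤ} {R : ℝ}
    {I : Finset (Fin m)} {i : Fin m} (hsep : IntSep S K u R I)
    (hnot : ¬ IntSep S K u R (insert i I)) :
    ∃ A ⊆ I, ∃ A' ⊆ I, ∃ v ∈ K,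
      ‖S (vecR (u • (Pi.single i 1 + indZ A - indZ A') - v))‖ ≤ R := by
  unfold IntSep at hnot
  simp only [not_forall, not_lt] at hnot
  obtain ⟨A, hA, A', hA', hne, v, hv, hle⟩ := hnot
  by_cases h1 : i ∈ A
  · by_cases h2 : i ∈ A'
    · -- both contain `i`: remove it
      exfalso
      have hne' : A.erase i ≠ A'.erase i := by
        intro h
        apply hne
        rw [← Finset.insert_erase h1, ← Finset.insert_erase h2, h]
      have := hsep _ (intr_erase_subset hA) _ (intr_erase_subset hA') hne' v hv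
      have e : indZ A - indZ A' = indZ (A.erase i) - indZ (A'.erase i) := by
        rw [intr_indZ_erase h1, intr_indZ_erase h2]; abel
      rw [e] at hle
      exact absurd hle (not_le.2 this)
    · refine ⟨A.erase i, intr_erase_subset hA, A', intr_subset_of_not_mem hA' h2, v, hv, ?_⟩
      rw [← intr_indZ_erase h1]
      exact hle
  · by_cases h2 : i ∈ A'
    · refine ⟨A'.erase i, intr_erase_subset hA', A, intr_subset_of_not_mem hA h1, -v,
        K.neg_mem hv, ?_⟩
      rw [← intr_indZ_erase h2]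
      have e : u • (indZ A' - indZ A) - -v = -(u • (indZ A - indZ A') - v) := by
        rw [← neg_sub (indZ A) (indZ A'), smul_neg]; abel
      rw [e, intr_vecR_neg, map_neg, norm_neg]
      exact hle
    · exfalso
      have := hsep _ (intr_subset_of_not_mem hA h1) _ (intr_subset_of_not_mem hA' h2) hne v hv
      exact absurd hle (not_le.2 this)

theorem int_sepRep : StIntSepRep := by
  classical
  intro m S K u R hR
  -- a separated set of maximal cardinality
  obtain ⟨I, hI, hmax⟩ := Finset.exists_max_image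
    (Finset.univ.filter fun I : Finset (Fin m) => IntSep S K u R I) Finset.card
    ⟨∅, by simp [intr_sep_empty]⟩
  have hsep : IntSep S K u R I := (Finset.mem_filter.1 hI).2
  have hnot : ∀ i, i ∉ I → ¬ IntSep S K u R (insert i I) := by
    intro i hi h
    have := hmax (insert i I) (Finset.mem_filter.2 ⟨Finset.mem_univ _, h⟩)
    rw [Finset.card_insert_of_notMem hi] at this
    omega
  have hex : ∀ i, ∃ c ε : Fin m → ℤ, (∀ h, c h = 0 ∨ c h = 1 ∨ c h = -1) ∧ (∀ h, h ∉ I → c h = 0) ∧
      ‖S (vecR ε)‖ ≤ R ∧ u • (Pi.single i 1 : Fin m → ℤ) - u • c - ε ∈ K := by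
    intro i
    by_cases hi : i ∈ I
    · refine ⟨Pi.single i 1, 0, fun h => ?_, fun h hh => ?_, ?_, ?_⟩
      · by_cases hh : h = i
        · subst hh; simp
        · simp [hh]
      · have : h ≠ i := fun e => hh (e ▸ hi)
        simp [this]
      · rw [intr_vecR_zero, map_zero, norm_zero]; exact hR
      · simp [K.zero_mem]
    · obtain ⟨A, hA, A', hA', v, hv, hle⟩ := intr_key hsep (hnot i hi)
      refine ⟨indZ A' - indZ A, u • (Pi.single i 1 + indZ A - indZ A') - v, fun h => ?_,
        fun h hh => ?_, hle, ?_⟩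
      · simp only [indZ, Pi.sub_apply]
        split_ifs <;> simp
      · have h1 : h ∉ A := fun e => hh (hA e)
        have h2 : h ∉ A' := fun e => hh (hA' e)
        simp [indZ, h1, h2]
      · have e : u • (Pi.single i 1 : Fin m → ℤ) - u • (indZ A' - indZ A)
            - (u • (Pi.single i 1 + indZ A - indZ A') - v) = v := by
          simp only [smul_sub, smul_add]; abel
        rw [e]; exact hv
  choose c ε h1 h2 h3 h4 using hex
  exact ⟨I, c, ε, hsep, ⟨h1, h2, h3, h4⟩⟩

end Claimed.Agent.R293
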