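/-
R293 / GPoisInt.lean (owner: helper62).  Package GPOIS: the exports wished by INT (helper103):
gp_GP0, gp_GP1, gp_GP2, gp_sin_sum_zero, plus gp_far_shift, gp_mass_sqrt_two.
Sorry-free.  Prefix gp.
-/
import Claimed.Agent.R293.GPoisMass

set_option autoImplicit false

namespace Claimed.Agent.R293

open Matrix Submodule Module
open scoped Real RealInnerProductSpace

section
variable {E : Type*} [NormedAddCommGroup E] [InnerProductSpace ℝ E]

omit [InnerProductSpace ℝ E] in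
lemma gp_gaussMass_one (L : Submodule ℤ E) :
    gaussMass 1 L = ∑' y : L, Real.exp (-(π * ‖(y : E)‖ ^ 2)) := by
  simp [gaussMass]

/-- (GP0) -/
theorem gp_GP0 {L : Submodule ℤ E} (h : IsLat L) :
    Summable fun y : L => Real.exp (-(π * ‖(y : E)‖ ^ 2)) := by
  simpa using gp_summable_gaussMass h one_pos

lemma gp_sqrt_two_pow (r : ℕ) : (Real.sqrt 2 / 1) ^ r = (2 : ℝ) ^ ((r : ℝ) / 2) := by
  rw [div_one, Real.sqrt_eq_rpow, ← Real.rpow_natCast, ← Real.rpow_mul (by norm_num)]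
  congr 1
  ring

/-- the mass at scale `√2` is at most `2^{rank/2}` times the mass at scale `1`. -/
lemma gp_mass_sqrt_two {L : Submodule ℤ E} (h : IsLat L) :
    gaussMass (Real.sqrt 2) L ≤ (2 : ℝ) ^ ((latRank L : ℝ) / 2) * gaussMass 1 L := by
  have := gp_scale_le h one_pos (Real.one_le_sqrt.mpr (by norm_num : (1 : ℝ) ≤ 2))
  rwa [gp_sqrt_two_pow] at this

/-- a shifted Gaussian sum far from the lattice is small. -/
theorem gp_far_shift {L : Submodule ℤ E} (h : IsLat L) (x : E) {d : ℝ}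
    (hx : ∀ v ∈ L, d ^ 2 ≤ ‖x - v‖ ^ 2) :
    ∑' v : L, Real.exp (-(π * ‖(v : E) - x‖ ^ 2)) ≤
      (2 : ℝ) ^ ((latRank L : ℝ) / 2) * Real.exp (-(π * d ^ 2 / 2)) * gaussMass 1 L := by
  have hs2 : (0 : ℝ) < Real.sqrt 2 := by positivity
  have h1 : ∑' v : L, Real.exp (-(π * ‖(v : E) - x‖ ^ 2)) ≤
      ∑' v : L, Real.exp (-(π * d ^ 2 / 2)) *
        Real.exp (-(π * ‖(v : E) - x‖ ^ 2 / Real.sqrt 2 ^ 2)) := by
    refine Summable.tsum_le_tsum (fun v => ?_) (by simpa using gp_summable_lat h one_pos x)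
      ((gp_summable_lat h hs2 x).mul_left _)
    rw [← Real.exp_add, Real.sq_sqrt (by norm_num)]
    apply Real.exp_le_exp.mpr
    have := hx v v.2
    rw [norm_sub_rev] at this
    nlinarith [Real.pi_pos]
  refine h1.trans ?_
  rw [tsum_mul_left]
  calc Real.exp (-(π * d ^ 2 / 2)) * ∑' v : L, Real.exp (-(π * ‖(v : E) - x‖ ^ 2 / Real.sqrt 2 ^ 2))
      ≤ Real.exp (-(π * d ^ 2 / 2)) * ((2 : ℝ) ^ ((latRank L : ℝ) / 2) * gaussMass 1 L) :=
        mul_le_mul_of_nonneg_left ((gp_shift_le h hs2 x).trans (gp_mass_sqrt_two h))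
          (Real.exp_pos _).le
    _ = _ := by ring

/-- (GP1) = Poisson + shift + scale `√2`. -/
theorem gp_GP1 {L : Submodule ℤ E} (h : IsLat L) {x : E} (hx : x ∈ rspan L) {d : ℝ} (hd : 0 ≤ d)
    (hdist : ∀ v ∈ L, d ≤ ‖x - v‖) :
    |∑' y : latDual L, Real.exp (-(π * ‖(y : E)‖ ^ 2)) * Real.cos (2 * π * ⟪(y : E), x⟫)| ≤
      (2 : ℝ) ^ ((latRank L : ℝ) / 2) * Real.exp (-(π * d ^ 2 / 2)) *
        ∑' y : latDual L, Real.exp (-(π * ‖(y : E)‖ ^ 2)) := by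
  have hD := gp_latDet_pos h
  have p1 := gp_poisson_lat h one_pos hx
  have p0 := gp_gaussMass_dual h one_pos
  simp only [one_pow, div_one, gp_gaussMass_one] at p1 p0
  have e1 : ∑' y : latDual L, Real.exp (-(π * ‖(y : E)‖ ^ 2)) * Real.cos (2 * π * ⟪(y : E), x⟫) =
      latDet L * ∑' v : L, Real.exp (-(π * ‖(v : E) - x‖ ^ 2)) := by
    rw [p1]; field_simp
  have e0 : ∑' y : latDual L, Real.exp (-(π * ‖(y : E)‖ ^ 2)) =
      latDet L * ∑' v : L, Real.exp (-(π * ‖(v : E)‖ ^ 2)) := by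
    rw [p0]; field_simp
  rw [e1, e0, abs_of_nonneg (mul_nonneg hD.le (tsum_nonneg fun _ => (Real.exp_pos _).le))]
  have := gp_far_shift h x (d := d) (fun v hv => by gcongr; exact hdist v hv)
  rw [gp_gaussMass_one] at this
  calc latDet L * ∑' v : L, Real.exp (-(π * ‖(v : E) - x‖ ^ 2))
      ≤ latDet L * ((2 : ℝ) ^ ((latRank L : ℝ) / 2) * Real.exp (-(π * d ^ 2 / 2)) *
          ∑' v : L, Real.exp (-(π * ‖(v : E)‖ ^ 2))) := mul_le_mul_of_nonneg_left this hD.le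
    _ = _ := by ring

/-- (GP2) Gaussian tail of a lattice (scale `√2` only). -/
theorem gp_GP2 {L : Submodule ℤ E} (h : IsLat L) {R : ℝ} (hR : 0 ≤ R) :
    ∑' y : L, (if R < ‖(y : E)‖ then Real.exp (-(π * ‖(y : E)‖ ^ 2)) else 0) ≤
      (2 : ℝ) ^ ((latRank L : ℝ) / 2) * Real.exp (-(π * R ^ 2 / 2)) *
        ∑' y : L, Real.exp (-(π * ‖(y : E)‖ ^ 2)) := by
  have hs2 : (0 : ℝ) < Real.sqrt 2 := by positivity
  have hle : ∀ y : L, (if R < ‖(y : E)‖ then Real.exp (-(π * ‖(y : E)‖ ^ 2)) else 0) ≤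
      Real.exp (-(π * R ^ 2 / 2)) * Real.exp (-(π * ‖(y : E)‖ ^ 2 / Real.sqrt 2 ^ 2)) := by
    intro y
    split_ifs with hy
    · rw [← Real.exp_add, Real.sq_sqrt (by norm_num)]
      apply Real.exp_le_exp.mpr
      have : R ^ 2 ≤ ‖(y : E)‖ ^ 2 := by gcongr
      nlinarith [Real.pi_pos]
    · positivity
  have hsum := (gp_summable_gaussMass h hs2).mul_left (Real.exp (-(π * R ^ 2 / 2)))
  have h1 := Summable.tsum_le_tsum hle
    (Summable.of_nonneg_of_le (fun y => by split_ifs <;> positivity) hle hsum) hsum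
  refine h1.trans ?_
  rw [tsum_mul_left, ← gp_gaussMass_one]
  calc Real.exp (-(π * R ^ 2 / 2)) * ∑' y : L, Real.exp (-(π * ‖(y : E)‖ ^ 2 / Real.sqrt 2 ^ 2))
      ≤ Real.exp (-(π * R ^ 2 / 2)) * ((2 : ℝ) ^ ((latRank L : ℝ) / 2) * gaussMass 1 L) :=
        mul_le_mul_of_nonneg_left (gp_mass_sqrt_two h) (Real.exp_pos _).le
    _ = _ := by ring

/-- the odd part vanishes. -/
theorem gp_sin_sum_zero (L : Submodule ℤ E) (x : E) :
    ∑' y : L, Real.exp (-(π * ‖(y : E)‖ ^ 2)) * Real.sin (2 * π * ⟪(y : E), x⟫) = 0 := by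
  have h := (Equiv.neg L).tsum_eq
    (fun y : L => Real.exp (-(π * ‖(y : E)‖ ^ 2)) * Real.sin (2 * π * ⟪(y : E), x⟫))
  simp only [Equiv.neg_apply, Submodule.coe_neg, norm_neg, inner_neg_left, mul_neg, Real.sin_neg,
    tsum_neg] at h
  linarith

end

end Claimed.Agent.R293
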