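/-
R293 / IntGp.lean (owner: helper103).  The Gaussian inputs of INT (`StGp…` of IntDefs.lean) from GPOIS (helper62) and LatDual.
-/
import Claimed.Agent.R293.IntDefs
import Claimed.Agent.R293.GPoisInt
import Claimed.Agent.R293.LatDual

set_option autoImplicit false

namespace Claimed.Agent.R293

theorem int_gpSummable : StGpSummable := fun _ _ hL => gp_GP0 hL

theorem int_gpDualLat : StGpDualLat := fun _ _ hL => ⟨latDual_isLat hL, latDual_rspan hL⟩

theorem int_gpFourier : StGpFourier := fun _ _ hL _ hx _ hd h => gp_GP1 hL hx hd h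

theorem int_gpTail : StGpTail := fun _ _ hL _ hR => gp_GP2 hL hR

end Claimed.Agent.R293
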