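/-
R293 / IntScale.lean (owner: helper103).  Basic API of the change of scale `intScale a b F W0 = a·P_{W0} + b·P_{Fᗮ ⊓ W0ᗮ}`
(IntDefs.lean), for all INT leaves (D3 rank, D3 index, D3 vol, D-lat, D7).  Sorry-free.
-/
import Claimed.Agent.R293.IntDefs
import Claimed.Agent.R293.LatGram

set_option autoImplicit false

namespace Claimed.Agent.R293

open Submodule Module
open scoped RealInnerProductSpace

variable {m : ℕ} (a b : ℝ) {F W0 : Submodule ℝ (EucM m)}

theorem intScale_apply (F W0 : Submodule ℝ (EucM m)) (x : EucM m) :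
    intScale a b F W0 x = a • W0.starProjection x + b • (Fᗮ ⊓ W0ᗮ).starProjection x := by
  simp [intScale]

theorem intScale_P0_of_mem (hW : W0 ≤ Fᗮ) {x : EucM m} (hx : x ∈ F) : W0.starProjection x = 0 := by
  rw [Submodule.starProjection_apply_eq_zero_iff]
  exact Submodule.le_orthogonal_iff_le_orthogonal.mp hW hx

theorem intScale_P1_of_mem {x : EucM m} (hx : x ∈ F) : (Fᗮ ⊓ W0ᗮ).starProjection x = 0 := by
  rw [Submodule.starProjection_apply_eq_zero_iff]
  have h : Fᗮ ⊓ W0ᗮ ≤ Fᗮ := inf_le_left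
  exact Submodule.le_orthogonal_iff_le_orthogonal.mp h hx

/-- `S` kills `F`. -/
theorem intScale_of_mem (hW : W0 ≤ Fᗮ) {x : EucM m} (hx : x ∈ F) : intScale a b F W0 x = 0 := by
  rw [intScale_apply, intScale_P0_of_mem hW hx, intScale_P1_of_mem hx]; simp

/-- `S = S ∘ π_{Fᗮ}`. -/
theorem intScale_perpProj (hW : W0 ≤ Fᗮ) (x : EucM m) :
    intScale a b F W0 (perpProj F x) = intScale a b F W0 x := by
  have h := intScale_of_mem a b hW (lat_sub_perpProj_mem F x)
  rw [map_sub, sub_eq_zero] at h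
  exact h.symm

/-- on `Fᗮ` the two projections add up to the identity. -/
theorem intScale_decomp (hW : W0 ≤ Fᗮ) {x : EucM m} (hx : x ∈ Fᗮ) :
    W0.starProjection x + (Fᗮ ⊓ W0ᗮ).starProjection x = x := by
  have h0 : W0.starProjection x ∈ W0 := Submodule.starProjection_apply_mem _ _
  have h1 : x - W0.starProjection x ∈ Fᗮ ⊓ W0ᗮ :=
    ⟨Submodule.sub_mem _ hx (hW h0), Submodule.sub_starProjection_mem_orthogonal x⟩
  have h2 : (Fᗮ ⊓ W0ᗮ).starProjection (x - W0.starProjection x) = x - W0.starProjection x :=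
    Submodule.starProjection_eq_self_iff.mpr h1
  have h3 : (Fᗮ ⊓ W0ᗮ).starProjection (W0.starProjection x) = 0 := by
    rw [Submodule.starProjection_apply_eq_zero_iff]
    have h : Fᗮ ⊓ W0ᗮ ≤ W0ᗮ := inf_le_right
    exact Submodule.le_orthogonal_iff_le_orthogonal.mp h h0
  rw [map_sub, h3, sub_zero] at h2
  rw [h2]; abel

theorem intScale_inner_proj (F W0 : Submodule ℝ (EucM m)) (x y : EucM m) :
    ⟪W0.starProjection x, (Fᗮ ⊓ W0ᗮ).starProjection y⟫ = 0 := by
  have h0 : W0.starProjection x ∈ W0 := Submodule.starProjection_apply_mem _ _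
  have h1 : (Fᗮ ⊓ W0ᗮ).starProjection y ∈ W0ᗮ :=
    (inf_le_right : Fᗮ ⊓ W0ᗮ ≤ W0ᗮ) (Submodule.starProjection_apply_mem _ _)
  exact Submodule.inner_right_of_mem_orthogonal h0 h1

theorem intScale_norm_sq (F W0 : Submodule ℝ (EucM m)) (x : EucM m) :
    ‖intScale a b F W0 x‖ ^ 2 =
      a ^ 2 * ‖W0.starProjection x‖ ^ 2 + b ^ 2 * ‖(Fᗮ ⊓ W0ᗮ).starProjection x‖ ^ 2 := by
  rw [intScale_apply, @norm_add_sq_real, real_inner_smul_left, real_inner_smul_right,
    intScale_inner_proj, norm_smul, norm_smul, mul_pow, mul_pow, Real.norm_eq_abs, Real.norm_eq_abs,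
    sq_abs, sq_abs]
  ring

theorem intScale_norm_sq_orth (hW : W0 ≤ Fᗮ) {x : EucM m} (hx : x ∈ Fᗮ) :
    ‖x‖ ^ 2 = ‖W0.starProjection x‖ ^ 2 + ‖(Fᗮ ⊓ W0ᗮ).starProjection x‖ ^ 2 := by
  conv_lhs => rw [← intScale_decomp hW hx]
  rw [@norm_add_sq_real, intScale_inner_proj]
  ring

/-- lower bound on `Fᗮ`. -/
theorem intScale_le_norm (hW : W0 ≤ Fᗮ) (hb : 0 ≤ b) (hab : b ≤ a) {x : EucM m} (hx : x ∈ Fᗮ) :
    b * ‖x‖ ≤ ‖intScale a b F W0 x‖ := by
  refine abs_le_of_sq_le_sq' ?_ (norm_nonneg _) |>.2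
  rw [mul_pow, intScale_norm_sq, intScale_norm_sq_orth hW hx]
  have : b ^ 2 ≤ a ^ 2 := by gcongr
  nlinarith [sq_nonneg ‖W0.starProjection x‖]

/-- upper bound. -/
theorem intScale_norm_le (hW : W0 ≤ Fᗮ) (hb : 0 ≤ b) (hab : b ≤ a) (x : EucM m) :
    ‖intScale a b F W0 x‖ ≤ a * ‖x‖ := by
  have ha : 0 ≤ a := hb.trans hab
  rw [← intScale_perpProj a b hW x]
  have hx : perpProj F x ∈ Fᗮ := lat_perpProj_apply_mem F x
  have h1 : ‖intScale a b F W0 (perpProj F x)‖ ≤ a * ‖perpProj F x‖ := by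
    refine abs_le_of_sq_le_sq' ?_ (by positivity) |>.2
    rw [mul_pow, intScale_norm_sq, intScale_norm_sq_orth hW hx]
    have : b ^ 2 ≤ a ^ 2 := by gcongr
    nlinarith [sq_nonneg ‖(Fᗮ ⊓ W0ᗮ).starProjection (perpProj F x)‖]
  exact h1.trans (mul_le_mul_of_nonneg_left (lat_norm_perpProj_le F x) ha)

/-- `S` is self-adjoint. -/
theorem intScale_symm (F W0 : Submodule ℝ (EucM m)) (x y : EucM m) :
    ⟪intScale a b F W0 x, y⟫ = ⟪x, intScale a b F W0 y⟫ := by
  rw [intScale_apply, intScale_apply, inner_add_left, inner_add_right, real_inner_smul_left,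
    real_inner_smul_left, real_inner_smul_right, real_inner_smul_right,
    Submodule.inner_starProjection_left_eq_right, Submodule.inner_starProjection_left_eq_right]

/-- kernel of `S`. -/
theorem intScale_eq_zero_iff (hW : W0 ≤ Fᗮ) (hb : 0 < b) (hab : b ≤ a) {x : EucM m} :
    intScale a b F W0 x = 0 ↔ x ∈ F := by
  refine ⟨fun h => ?_, intScale_of_mem a b hW⟩
  rw [← intScale_perpProj a b hW x] at h
  have h1 := intScale_le_norm a b hW hb.le hab (lat_perpProj_apply_mem F x)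
  rw [h, norm_zero] at h1
  have h2 : ‖perpProj F x‖ = 0 := by
    have := norm_nonneg (perpProj F x)
    nlinarith
  exact lat_perpProj_eq_zero_iff.mp (norm_eq_zero.mp h2)

/-- the norm of the projected vector is controlled by `‖S x‖`. -/
theorem intScale_perpProj_norm_le (hW : W0 ≤ Fᗮ) (hb : 0 < b) (hab : b ≤ a) (x : EucM m) :
    ‖perpProj F x‖ ≤ ‖intScale a b F W0 x‖ / b := by
  rw [le_div_iff₀ hb, mul_comm, ← intScale_perpProj a b hW x]
  exact intScale_le_norm a b hW hb.le hab (lat_perpProj_apply_mem F x)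

end Claimed.Agent.R293
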