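/-
R293 / IntLat.lean  (owner: helper16).  Leaf INT-Dlat: `S(K)` is a lattice spanning `E = Fᗮ`.
Algebraic proof (no topology): `L0 = latOfSubgroup K`, `K0 = L0 ∩ F` is primitive in `L0`, so
`Q = π_{Fᗮ}(L0) = latQuot L0 K0` is a lattice (LatQuot); `S = S ∘ π_{Fᗮ}` and `S` is injective on `Fᗮ`,
so `S` maps a basis of `Q` to a basis of `S(K)`.  The rank is `m - f` since `K ⊇ B ℤ^m`, `det B ≠ 0`.
-/
import Claimed.Agent.R293.IntScale
import Claimed.Agent.R293.LatInt
import Claimed.Agent.R293.LatQuot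

set_option autoImplicit false

namespace Claimed.Agent.R293

open Submodule Module
open scoped RealInnerProductSpace

variable {m : ℕ}

/-- `S` maps into `Fᗮ`. -/
theorem int_lat_scale_mem (a b : ℝ) {F W0 : Submodule ℝ (EucM m)} (h : W0 ≤ Fᗮ) (x : EucM m) :
    intScale a b F W0 x ∈ Fᗮ := by
  rw [intScale_apply]
  refine Submodule.add_mem _ (Submodule.smul_mem _ _ (h ?_)) (Submodule.smul_mem _ _ ?_)
  · exact Submodule.starProjection_apply_mem _ _
  · exact (inf_le_left : Fᗮ ⊓ W0ᗮ ≤ Fᗮ) (Submodule.starProjection_apply_mem _ _)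

/-- `S` is injective on `Fᗮ` (any positive scales). -/
theorem int_lat_scale_inj {a b : ℝ} (ha : 0 < a) (hb : 0 < b) {F W0 : Submodule ℝ (EucM m)}
    (h : W0 ≤ Fᗮ) {x : EucM m} (hx : x ∈ Fᗮ) (h0 : intScale a b F W0 x = 0) : x = 0 := by
  have h1 := intScale_norm_sq a b F W0 x
  rw [h0, norm_zero] at h1
  have hA : 0 ≤ a ^ 2 * ‖W0.starProjection x‖ ^ 2 := by positivity
  have hB : 0 ≤ b ^ 2 * ‖(Fᗮ ⊓ W0ᗮ).starProjection x‖ ^ 2 := by positivity
  have hA0 : a ^ 2 * ‖W0.starProjection x‖ ^ 2 = 0 := by nlinarith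
  have hB0 : b ^ 2 * ‖(Fᗮ ⊓ W0ᗮ).starProjection x‖ ^ 2 = 0 := by nlinarith
  have e1 : ‖W0.starProjection x‖ ^ 2 = 0 := by
    rcases mul_eq_zero.1 hA0 with h | h
    · exact absurd h (by positivity)
    · exact h
  have e2 : ‖(Fᗮ ⊓ W0ᗮ).starProjection x‖ ^ 2 = 0 := by
    rcases mul_eq_zero.1 hB0 with h | h
    · exact absurd h (by positivity)
    · exact h
  have h2 := intScale_norm_sq_orth h hx
  rw [e1, e2, add_zero] at h2
  exact norm_eq_zero.1 ((pow_eq_zero_iff two_ne_zero).1 h2)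

/-- a subgroup containing `B ℤ^m`, `det B ≠ 0`, spans `ℝ^m`. -/
theorem int_lat_rspan_top {B : Matrix (Fin m) (Fin m) ℤ} {K : AddSubgroup (Fin m → ℤ)}
    (hdet : B.det ≠ 0) (hK : ∀ y, B.mulVec y ∈ K) : rspan (latOfSubgroup K) = ⊤ := by
  classical
  rcases Nat.eq_zero_or_pos m with rfl | hm
  · exact Subsingleton.elim _ _
  have : Nonempty (Fin m) := ⟨⟨0, hm⟩⟩
  have hdetR : (B.map (fun x : ℤ => (x : ℝ))).det ≠ 0 := by
    rw [← Int.cast_det]
    exact_mod_cast hdet
  have hli : LinearIndependent ℝ (B.map (fun x : ℤ => (x : ℝ))).col :=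
    Matrix.linearIndependent_cols_of_det_ne_zero hdetR
  have hli2 : LinearIndependent ℝ
      (⇑(WithLp.linearEquiv 2 ℝ (Fin m → ℝ)).symm.toLinearMap ∘ (B.map (fun x : ℤ => (x : ℝ))).col) :=
    hli.map' _ (LinearEquiv.ker _)
  have htop := hli2.span_eq_top_of_card_eq_finrank (by simp)
  rw [eq_top_iff, ← htop]
  unfold rspan
  refine span_mono ?_
  rintro _ ⟨j, rfl⟩
  have hmem : vecR (B.mulVec (Pi.single j 1)) ∈ latOfSubgroup K :=
    latInt_vecR_mem_ofSubgroup.2 (hK _)
  have e : (⇑(WithLp.linearEquiv 2 ℝ (Fin m → ℝ)).symm.toLinearMap ∘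
      (B.map (fun x : ℤ => (x : ℝ))).col) j = vecR (B.mulVec (Pi.single j 1)) := by
    ext i
    have h1 : (vecR (B.mulVec (Pi.single j 1))) i = (B i j : ℝ) := by simp [vecR]
    rw [h1]
    rfl
  rw [e]
  exact hmem

/-- the image of a lattice under a linear map that is injective on its span is a lattice. -/
theorem int_lat_map_basis {E : Type*} [NormedAddCommGroup E] [InnerProductSpace ℝ E] {l : ℕ}
    {c : Fin l → E} {Q : Submodule ℤ E} (hc : IsLatBasis c Q) (S : E →ₗ[ℝ] E)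
    (hinj : ∀ x ∈ rspan Q, S x = 0 → x = 0) :
    IsLatBasis (S ∘ c) (Q.map (S.restrictScalars ℤ)) := by
  refine ⟨hc.1.map ?_, ?_⟩
  · rw [← lat_rspan_eq hc, Submodule.disjoint_def]
    intro x hx hker
    exact hinj x hx (LinearMap.mem_ker.1 hker)
  · rw [← hc.2, Submodule.map_span, ← Set.range_comp]
    rfl

/-- **Leaf INT-Dlat.** -/
theorem int_lat : StIntLat := by
  intro m B K f z W0 hS a b ha hb
  set F : Submodule ℝ (EucM m) := intSpan z with hF
  set S : EucM m →ₗ[ℝ] EucM m := intScale a b F W0 with hSdef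
  set L0 : Submodule ℤ (EucM m) := latOfSubgroup K with hL0
  have hL0l : IsLat L0 := latInt_sub_isLat (latInt_ofSubgroup_le K)
  set M : Submodule ℤ (EucM m) := span ℤ (Set.range fun i => vecR (z i)) with hM
  have hMb : IsLatBasis (fun i => vecR (z i)) M := lat_isLatBasis_span hS.z_ind
  have hML : M ≤ L0 := by
    rw [hM, span_le]
    rintro _ ⟨i, rfl⟩
    exact latInt_vecR_mem_ofSubgroup.2 (hS.z_mem i)
  set K0 : Submodule ℤ (EucM m) := latSat L0 M with hK0
  have hK0p : IsPrim L0 K0 := lat_sat_isPrim hML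
  have hK0s : rspan K0 = F := (lat_rspan_sat hML).trans (lat_rspan_eq hMb)
  have hK0r : latRank K0 = f := (lat_rank_sat hML).trans (lat_rank_eq hMb)
  obtain ⟨l, c, hc⟩ := lat_quot_isLat hL0l hK0p
  have hQorth : rspan (latQuot L0 K0) ≤ Fᗮ := by
    have := lat_rspan_quot_le_orth L0 K0
    rwa [hK0s] at this
  have hbasis := int_lat_map_basis hc S fun x hx h0 => int_lat_scale_inj ha hb hS.W0_le (hQorth hx) h0
  have hmap : (latQuot L0 K0).map (S.restrictScalars ℤ) = intLatS S K := by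
    unfold latQuot latProj intLatS
    rw [hK0s, ← Submodule.map_comp]
    congr 1
    refine LinearMap.ext fun x => ?_
    exact intScale_perpProj a b hS.W0_le x
  rw [hmap] at hbasis
  refine ⟨⟨l, _, hbasis⟩, ?_⟩
  have hle : rspan (intLatS S K) ≤ Fᗮ := by
    unfold rspan
    rw [span_le]
    rintro _ ⟨x, -, rfl⟩
    exact int_lat_scale_mem a b hS.W0_le x
  refine Submodule.eq_of_le_of_finrank_eq hle ?_
  have h1 : finrank ℝ (rspan (intLatS S K)) = l := lat_rank_eq hbasis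
  have h2 : latRank L0 = m := by
    unfold latRank
    rw [int_lat_rspan_top hS.det_ne hS.range_le, finrank_top]
    simp
  have h3 := lat_rank_quot hL0l hK0p
  rw [h2, hK0r, lat_rank_eq hc] at h3
  have h4 := Submodule.finrank_add_finrank_orthogonal F
  have h5 : finrank ℝ F = f := by
    rw [← hK0s]
    exact hK0r
  have h6 : finrank ℝ (EucM m) = m := by simp
  rw [h5, h6] at h4
  rw [h1]
  omega

end Claimed.Agent.R293
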