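/-
R293 / IntNumDet.lean  (owner: helper117).  Leaf INT-N1: the numerical facts `IntNumOK` hold eventually.
Part 1: a small library of "eventually" facts on `ell N = log log N`, `intTau D N = ell N ^ (-D)`.
-/
import Claimed.Agent.R293.IntDefs

set_option autoImplicit false

namespace Claimed.Agent.R293

open Filter Asymptotics

/-! ## 1. the library of eventual facts -/

theorem intn_tendsto_cast : Tendsto (fun N : ℕ => (N : ℝ)) atTop atTop :=
  tendsto_natCast_atTop_atTop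

theorem intn_tendsto_log : Tendsto (fun N : ℕ => Real.log N) atTop atTop :=
  Real.tendsto_log_atTop.comp intn_tendsto_cast

theorem intn_tendsto_ell : Tendsto ell atTop atTop :=
  Real.tendsto_log_atTop.comp intn_tendsto_log

theorem intn_cast_ge (c : ℝ) : ∀ᶠ N : ℕ in atTop, c ≤ (N : ℝ) :=
  intn_tendsto_cast.eventually_ge_atTop c

theorem intn_log_ge (c : ℝ) : ∀ᶠ N : ℕ in atTop, c ≤ Real.log N :=
  intn_tendsto_log.eventually_ge_atTop c

theorem intn_ell_ge (c : ℝ) : ∀ᶠ N : ℕ in atTop, c ≤ ell N :=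
  intn_tendsto_ell.eventually_ge_atTop c

/-- `(log y)^s ≤ c y^r` eventually -/
theorem intn_aux_log_rpow (s r c : ℝ) (hr : 0 < r) (hc : 0 < c) :
    ∀ᶠ y : ℝ in atTop, Real.log y ^ s ≤ c * y ^ r := by
  have h := (isLittleO_log_rpow_rpow_atTop s hr).bound hc
  filter_upwards [h, eventually_ge_atTop (0 : ℝ)] with y hy hy0
  have h1 : Real.log y ^ s ≤ ‖Real.log y ^ s‖ := le_abs_self _
  have h2 : ‖y ^ r‖ = y ^ r := abs_of_nonneg (Real.rpow_nonneg hy0 r)
  rw [h2] at hy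
  exact h1.trans hy

theorem intn_log_rpow_le (s r c : ℝ) (hr : 0 < r) (hc : 0 < c) :
    ∀ᶠ N : ℕ in atTop, Real.log N ^ s ≤ c * (N : ℝ) ^ r :=
  intn_tendsto_cast.eventually (intn_aux_log_rpow s r c hr hc)

theorem intn_ell_rpow_le (s c : ℝ) (hc : 0 < c) :
    ∀ᶠ N : ℕ in atTop, ell N ^ s ≤ c * Real.log N := by
  have h := intn_tendsto_log.eventually (intn_aux_log_rpow s 1 c one_pos hc)
  filter_upwards [h] with N hN
  simpa [ell] using hN

theorem intn_tau_eq {D : ℝ} {N : ℕ} (h : 0 < ell N) : intTau D N = (ell N ^ D)⁻¹ := by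
  unfold intTau
  rw [Real.rpow_neg h.le]

theorem intn_tau_pos (D : ℝ) : ∀ᶠ N : ℕ in atTop, 0 < intTau D N := by
  filter_upwards [intn_ell_ge 1] with N hN
  exact Real.rpow_pos_of_pos (by linarith) _

theorem intn_tau_le {D : ℝ} (hD : 0 < D) (c : ℝ) (hc : 0 < c) :
    ∀ᶠ N : ℕ in atTop, intTau D N ≤ c := by
  have h := (tendsto_rpow_neg_atTop hD).comp intn_tendsto_ell
  exact h.eventually_le_const hc

/-- (d) `c log N ≤ τ N` -/
theorem intn_log_le_tau (D c : ℝ) : ∀ᶠ N : ℕ in atTop, c * Real.log N ≤ intTau D N * N := by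
  have hc' : 0 < (|c| + 1)⁻¹ := by positivity
  filter_upwards [intn_ell_ge 1, intn_ell_rpow_le D 1 one_pos,
    intn_log_rpow_le 2 1 (|c| + 1)⁻¹ one_pos hc', intn_log_ge 0, intn_cast_ge 0]
    with N h1 h2 h3 h4 h5
  have hl : 0 < ell N := by linarith
  have hp : 0 < ell N ^ D := Real.rpow_pos_of_pos hl D
  rw [intn_tau_eq hl, inv_mul_eq_div, le_div_iff₀ hp]
  rw [Real.rpow_one, Real.rpow_two] at h3
  rw [one_mul] at h2
  have h6 : (|c| + 1) * Real.log N ^ 2 ≤ N := by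
    rw [inv_mul_eq_div, le_div_iff₀ (by positivity)] at h3
    linarith
  calc c * Real.log N * ell N ^ D ≤ (|c| + 1) * Real.log N * Real.log N := by
        have : c ≤ |c| + 1 := by linarith [le_abs_self c]
        gcongr
    _ = (|c| + 1) * Real.log N ^ 2 := by ring
    _ ≤ N := h6

/-- (a) `c N^{3/5} ≤ τ N` -/
theorem intn_pow35_le_tau (D c : ℝ) :
    ∀ᶠ N : ℕ in atTop, c * (N : ℝ) ^ ((3 : ℝ) / 5) ≤ intTau D N * N := by
  have hc' : 0 < (|c| + 1)⁻¹ := by positivity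
  filter_upwards [intn_ell_ge 1, intn_ell_rpow_le D 1 one_pos,
    intn_log_rpow_le 1 (2 / 5) (|c| + 1)⁻¹ (by norm_num) hc', intn_log_ge 0, intn_cast_ge 1]
    with N h1 h2 h3 h4 h5
  have hl : 0 < ell N := by linarith
  have hp : 0 < ell N ^ D := Real.rpow_pos_of_pos hl D
  have hx : (0 : ℝ) < N := by linarith
  rw [intn_tau_eq hl, inv_mul_eq_div, le_div_iff₀ hp]
  rw [Real.rpow_one] at h3
  rw [one_mul] at h2
  have h6 : (|c| + 1) * Real.log N ≤ (N : ℝ) ^ ((2 : ℝ) / 5) := by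
    rw [inv_mul_eq_div, le_div_iff₀ (by positivity)] at h3
    linarith
  have h7 : (N : ℝ) ^ ((3 : ℝ) / 5) * (N : ℝ) ^ ((2 : ℝ) / 5) = N := by
    rw [← Real.rpow_add hx]
    norm_num
  have h8 : 0 ≤ (N : ℝ) ^ ((3 : ℝ) / 5) := Real.rpow_nonneg hx.le _
  calc c * (N : ℝ) ^ ((3 : ℝ) / 5) * ell N ^ D
      ≤ (|c| + 1) * (N : ℝ) ^ ((3 : ℝ) / 5) * Real.log N := by
        have : c ≤ |c| + 1 := by linarith [le_abs_self c]
        gcongr
    _ = (N : ℝ) ^ ((3 : ℝ) / 5) * ((|c| + 1) * Real.log N) := by ring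
    _ ≤ (N : ℝ) ^ ((3 : ℝ) / 5) * (N : ℝ) ^ ((2 : ℝ) / 5) := by gcongr
    _ = N := h7

/-- (b) `c ℓ² ≤ τ log N` -/
theorem intn_ellsq_le_tau (D c : ℝ) :
    ∀ᶠ N : ℕ in atTop, c * ell N ^ 2 ≤ intTau D N * Real.log N := by
  have hc' : 0 < (|c| + 1)⁻¹ := by positivity
  filter_upwards [intn_ell_ge 1, intn_ell_rpow_le (2 + D) (|c| + 1)⁻¹ hc'] with N h1 h2
  have hl : 0 < ell N := by linarith
  have hp : 0 < ell N ^ D := Real.rpow_pos_of_pos hl D
  rw [intn_tau_eq hl, inv_mul_eq_div, le_div_iff₀ hp]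
  rw [Real.rpow_add hl, Real.rpow_two, inv_mul_eq_div, le_div_iff₀ (by positivity)] at h2
  have : c ≤ |c| + 1 := by linarith [le_abs_self c]
  have h3 : 0 ≤ ell N ^ 2 * ell N ^ D := by positivity
  nlinarith

/-- (c) `c ℓ^{-P} ≤ τ` -/
theorem intn_ellP_le_tau (D c : ℝ) :
    ∀ᶠ N : ℕ in atTop, c * ell N ^ (-(intP D)) ≤ intTau D N := by
  filter_upwards [intn_ell_ge (|c| + 1)] with N h1
  have hc0 : 0 ≤ |c| := abs_nonneg c
  have hl : 0 < ell N := by linarith
  have hl1 : 1 ≤ ell N := by linarith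
  have e : ell N ^ (-(intP D)) = intTau D N * (ell N ^ (6 : ℕ))⁻¹ := by
    unfold intTau intP
    rw [show -(D + 6) = -D + -(6 : ℝ) by ring, Real.rpow_add hl, Real.rpow_neg hl.le 6]
    norm_cast
  have ht : 0 < intTau D N := Real.rpow_pos_of_pos hl _
  have h6 : |c| + 1 ≤ ell N ^ (6 : ℕ) := by
    calc |c| + 1 ≤ ell N := h1
      _ = ell N ^ (1 : ℕ) := (pow_one _).symm
      _ ≤ ell N ^ (6 : ℕ) := pow_le_pow_right₀ hl1 (by norm_num)
  rw [e]
  have h7 : c * (ell N ^ (6 : ℕ))⁻¹ ≤ 1 := by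
    rw [← div_eq_mul_inv, div_le_one (by positivity)]
    linarith [le_abs_self c]
  calc c * (intTau D N * (ell N ^ (6 : ℕ))⁻¹) = intTau D N * (c * (ell N ^ (6 : ℕ))⁻¹) := by ring
    _ ≤ intTau D N * 1 := by gcongr
    _ = intTau D N := mul_one _

/-! ## 2. constants -/

theorem intn_C_ge (α : ℝ) : 11 ≤ intC α := Nat.le_add_left _ _

theorem intn_C1_pos (α : ℝ) : 0 < intC1 α := by
  unfold intC1
  positivity

theorem intn_cQ_lt_one {p : ℝ} (hp : 0 < p) (hp2 : p ≤ 1 / 2) : cQ p < 1 := by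
  unfold cQ
  nlinarith

theorem intn_cQ_pos (p : ℝ) : 0 < cQ p := by
  unfold cQ
  nlinarith [sq_nonneg p, sq_nonneg (1 - p), sq_nonneg (2 * p - 1)]

theorem intn_C2_pos {α : ℝ} (hα : 0 < α) : 0 < intC2 α := by
  have := intn_C1_pos α
  unfold intC2 intGam
  positivity

theorem intn_C5_pos {p α : ℝ} (hp : 0 < p) (hp2 : p ≤ 1 / 2) (hα : 0 < α) : 0 < intC5 p α := by
  have h1 := intn_C2_pos hα
  have h2 : 0 < -Real.log (cQ p) := by
    have := Real.log_neg (intn_cQ_pos p) (intn_cQ_lt_one hp hp2)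
    linarith
  unfold intC5 intC3
  positivity

/-! ## 3. logarithms of the parameters -/

theorem intn_log_A (N : ℕ) : Real.log (intA N) = 2 * Real.log N := by
  unfold intA
  rw [Real.log_pow]
  norm_num

theorem intn_log_B (α : ℝ) (N : ℕ) :
    Real.log (intB α N) = -(((intC α : ℝ) + 5) * Real.log N) := by
  unfold intB
  rw [Real.log_inv, Real.log_pow]
  push_cast
  ring

theorem intn_log_R {N : ℕ} (hx : (0 : ℝ) < N) :
    Real.log (intR N) = Real.log 100 + Real.log N / 2 := by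
  unfold intR
  rw [Real.log_mul (by norm_num) (Real.sqrt_ne_zero'.2 hx), Real.log_sqrt hx.le]

theorem intn_A_pos {N : ℕ} (hx : (0 : ℝ) < N) : 0 < intA N := by
  unfold intA
  positivity

theorem intn_B_pos (α : ℝ) {N : ℕ} (hx : (0 : ℝ) < N) : 0 < intB α N := by
  unfold intB
  positivity

theorem intn_R_pos {N : ℕ} (hx : (0 : ℝ) < N) : 0 < intR N := by
  unfold intR
  positivity

theorem intn_M_cast (α : ℝ) (N : ℕ) : (intM α N : ℝ) = (N : ℝ) ^ (intC α - 2) := by
  unfold intM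
  push_cast
  rfl

/-! ## 4. (NumA) -/

/-- the base of the index bound -/
theorem intn_base_le (α : ℝ) {N m : ℕ} (hx : (100000 : ℝ) ≤ N) (hm : m ≤ N) :
    (m : ℝ) * (Real.sqrt m + intR N / intB α N) ≤ (N : ℝ) ^ (intC α + 7) := by
  have hx0 : (0 : ℝ) < N := by linarith
  have hmx : (m : ℝ) ≤ N := by exact_mod_cast hm
  set s := Real.sqrt (N : ℝ) with hs
  have hs2 : s ^ 2 = N := Real.sq_sqrt hx0.le
  have hs0 : 0 < s := Real.sqrt_pos.2 hx0
  have hs101 : 101 ≤ s := by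
    by_contra hcon
    rw [not_le] at hcon
    nlinarith
  have hsm : Real.sqrt m ≤ s := Real.sqrt_le_sqrt hmx
  have hP : 1 ≤ (N : ℝ) ^ (intC α + 5) := one_le_pow₀ (by linarith)
  have e : intR N / intB α N = 100 * s * (N : ℝ) ^ (intC α + 5) := by
    unfold intR intB
    rw [div_inv_eq_mul]
  rw [e]
  have h1 : Real.sqrt m + 100 * s * (N : ℝ) ^ (intC α + 5) ≤ 101 * s * (N : ℝ) ^ (intC α + 5) := by
    nlinarith
  have h2 : 101 * s ≤ N := by nlinarith
  calc (m : ℝ) * (Real.sqrt m + 100 * s * (N : ℝ) ^ (intC α + 5))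
      ≤ (N : ℝ) * (101 * s * (N : ℝ) ^ (intC α + 5)) := by
        have : 0 ≤ Real.sqrt m + 100 * s * (N : ℝ) ^ (intC α + 5) := by positivity
        gcongr
    _ ≤ (N : ℝ) * ((N : ℝ) * (N : ℝ) ^ (intC α + 5)) := by gcongr
    _ = (N : ℝ) ^ (intC α + 7) := by ring

/-- the linear combination at the end of (NumA), in plain real variables -/
theorem intn_sep_comb {τ x Lg C X e2 eP S t r j : ℝ} (hLg : 0 < Lg) (hC : 11 ≤ C) (hx : 0 < x)
    (ha : 6 * C * X ≤ τ * x) (hb : 6 * (C + 8) * e2 ≤ τ * Lg) (hc : 6 * (C + 7) ^ 2 * eP ≤ τ)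
    (hS : S ≤ x * e2) (hr : r ≤ x * eP) (T1 : t * Lg ≤ S + r * ((C + 7) * Lg))
    (L2 : τ * x * Lg ≤ X * (C * Lg) + S + (j + t) * ((C + 7) * Lg)) :
    τ * x ≤ 2 * (j * (C + 7)) := by
  have a1 := mul_le_mul_of_nonneg_right ha hLg.le
  have a2 := mul_le_mul_of_nonneg_left hS (by linarith : (0 : ℝ) ≤ C + 8)
  have a2' := mul_le_mul_of_nonneg_right hb hx.le
  have a3 := mul_le_mul_of_nonneg_left hr (by positivity : (0 : ℝ) ≤ (C + 7) ^ 2 * Lg)
  have a3' := mul_le_mul_of_nonneg_right hc (mul_pos hx hLg).le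
  have a4 := mul_le_mul_of_nonneg_left T1 (by linarith : (0 : ℝ) ≤ C + 7)
  have key : τ * x * Lg ≤ (2 * (j * (C + 7))) * Lg := by linarith
  exact le_of_mul_le_mul_right key hLg

theorem intn_sep_size {D α : ℝ} {N : ℕ} (hx : (100000 : ℝ) ≤ N)
    (ha : 6 * (intC α : ℝ) * (N : ℝ) ^ ((3 : ℝ) / 5) ≤ intTau D N * N)
    (hb : 6 * ((intC α : ℝ) + 8) * ell N ^ 2 ≤ intTau D N * Real.log N)
    (hc : 6 * ((intC α : ℝ) + 7) ^ 2 * ell N ^ (-(intP D)) ≤ intTau D N)
    (m j t r u : ℕ) (sG : ℝ) (hm : m ≤ N) (hsG : sG ≤ Real.exp (N * ell N ^ 2))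
    (hr : (r : ℝ) ≤ N * ell N ^ (-(intP D))) (hu1 : 1 ≤ u) (hu : u ≤ intM α N)
    (H1 : intA N ^ t * (intB α N / intA N) ^ r ≤ sG * intR N ^ t)
    (H2 : (N : ℝ) ^ (intTau D N * N) ≤
      (u : ℝ) ^ intG N * (sG * ((m : ℝ) * (Real.sqrt m + intR N / intB α N)) ^ (j + t))) :
    intC1 α * intTau D N * N ≤ j := by
  have hx0 : (0 : ℝ) < N := by linarith
  have hA := intn_A_pos hx0
  have hB := intn_B_pos α hx0
  have hR := intn_R_pos hx0
  set Lg := Real.log (N : ℝ) with hLg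
  set C : ℝ := (intC α : ℝ) with hC
  have hC11 : (11 : ℝ) ≤ C := by
    have := intn_C_ge α
    rw [hC]
    exact_mod_cast this
  -- `log N ≥ 2 log 100`
  have hLg100 : 2 * Real.log 100 ≤ Lg := by
    have : Real.log ((100 : ℝ) ^ 2) ≤ Lg := Real.log_le_log (by norm_num) (by linarith)
    rw [Real.log_pow] at this
    simpa using this
  have hlog100 : 0 < Real.log 100 := Real.log_pos (by norm_num)
  have hLg0 : 0 < Lg := by linarith
  -- positivity of `sG`
  have hsG0 : 0 < sG := by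
    by_contra hcon
    rw [not_lt] at hcon
    have h1 : 0 < intA N ^ t * (intB α N / intA N) ^ r := by positivity
    have h2 : sG * intR N ^ t ≤ 0 := mul_nonpos_of_nonpos_of_nonneg hcon (by positivity)
    linarith
  set S := Real.log sG with hS
  have hS1 : S ≤ N * ell N ^ 2 := by
    have := Real.log_le_log hsG0 hsG
    rwa [Real.log_exp] at this
  -- logarithm of `H1`
  have L1 : (t : ℝ) * (2 * Lg) + r * (-((C + 5) * Lg) - 2 * Lg) ≤
      S + t * (Real.log 100 + Lg / 2) := by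
    have h := Real.log_le_log (by positivity) H1
    rw [Real.log_mul (by positivity) (by positivity), Real.log_pow, Real.log_pow,
      Real.log_div hB.ne' hA.ne', Real.log_mul hsG0.ne' (by positivity), Real.log_pow,
      intn_log_A, intn_log_B, intn_log_R hx0] at h
    exact h
  have T1 : (t : ℝ) * Lg ≤ S + r * ((C + 7) * Lg) := by
    have ht : (0 : ℝ) ≤ t := Nat.cast_nonneg t
    have h5 := mul_le_mul_of_nonneg_left hLg100 ht
    linarith
  -- logarithm of `H2`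
  have hu0 : (0 : ℝ) < u := by exact_mod_cast hu1
  have hlogu : Real.log u ≤ C * Lg := by
    have h1 : (u : ℝ) ≤ (N : ℝ) ^ (intC α - 2) := by
      rw [← intn_M_cast]
      exact_mod_cast hu
    have h2 := Real.log_le_log hu0 h1
    rw [Real.log_pow] at h2
    refine h2.trans ?_
    have h3 : ((intC α - 2 : ℕ) : ℝ) ≤ C := by
      rw [hC]
      exact_mod_cast Nat.sub_le _ _
    gcongr
  have hlogu0 : 0 ≤ Real.log u := Real.log_nonneg (by exact_mod_cast hu1)
  have hg : (intG N : ℝ) ≤ (N : ℝ) ^ ((3 : ℝ) / 5) := Nat.floor_le (by positivity)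
  have H2' : (N : ℝ) ^ (intTau D N * N) ≤
      (u : ℝ) ^ intG N * (sG * ((N : ℝ) ^ (intC α + 7)) ^ (j + t)) := by
    refine H2.trans ?_
    have := intn_base_le α hx hm
    gcongr
  have L2 : intTau D N * N * Lg ≤
      (N : ℝ) ^ ((3 : ℝ) / 5) * (C * Lg) + S + ((j : ℝ) + t) * ((C + 7) * Lg) := by
    have h := Real.log_le_log (by positivity) H2'
    rw [Real.log_rpow hx0, Real.log_mul (by positivity) (by positivity), Real.log_pow,
      Real.log_mul hsG0.ne' (by positivity), Real.log_pow, Real.log_pow] at h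
    push_cast at h
    have h4 : (intG N : ℝ) * Real.log u ≤ (N : ℝ) ^ ((3 : ℝ) / 5) * (C * Lg) := by
      gcongr
    linarith
  -- combination
  have hfin : intTau D N * N ≤ 2 * ((j : ℝ) * (C + 7)) :=
    intn_sep_comb hLg0 hC11 hx0 ha hb hc hS1 hr T1 L2
  unfold intC1
  rw [← hC]
  have hj : (0 : ℝ) ≤ j := Nat.cast_nonneg j
  rw [mul_assoc, div_mul_eq_mul_div, one_mul, div_le_iff₀ (by positivity)]
  linarith

/-! ## 5. (NumB) -/

theorem intn_pow_eq_exp {N : ℕ} (hx : (0 : ℝ) < N) (n : ℕ) :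
    (N : ℝ) ^ n = Real.exp (n * Real.log N) := by
  rw [← Real.log_pow, Real.exp_log (pow_pos hx n)]

theorem intn_M_mul_sq (α : ℝ) (N : ℕ) : (intM α N : ℝ) * (N : ℝ) ^ 2 = (N : ℝ) ^ intC α := by
  have h := intn_C_ge α
  rw [intn_M_cast, ← pow_add, Nat.sub_add_cancel (by omega)]

theorem intn_M_pos (α : ℝ) {N : ℕ} (hx : (0 : ℝ) < N) : (0 : ℝ) < intM α N := by
  rw [intn_M_cast]
  positivity

theorem intn_pick {D α : ℝ} {N : ℕ} (hx : (3 : ℝ) ≤ N)
    (h : (intC α : ℝ) * Real.log N ≤ intGam α * (intC1 α * intTau D N * N) / 16) :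
    (2 * intM α N : ℝ) * Real.exp (-(intGam α * (intC1 α * intTau D N * N) / 16)) < 1 / 2 := by
  have hx0 : (0 : ℝ) < N := by linarith
  set Z := intGam α * (intC1 α * intTau D N * N) / 16 with hZ
  have hM := intn_M_pos α hx0
  have h1 : (N : ℝ) ^ intC α ≤ Real.exp Z := by
    rw [intn_pow_eq_exp hx0]
    exact Real.exp_le_exp.2 h
  have h2 : (intM α N : ℝ) * 9 ≤ Real.exp Z := by
    rw [← intn_M_mul_sq] at h1
    refine le_trans ?_ h1
    have : (9 : ℝ) ≤ (N : ℝ) ^ 2 := by nlinarith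
    gcongr
  rw [Real.exp_neg, ← div_eq_mul_inv, div_lt_iff₀ (Real.exp_pos Z)]
  linarith

/-! ## 6. (NumC) -/

theorem intn_select {p D α : ℝ} {N : ℕ} (hp : 0 < p) (hp2 : p ≤ 1 / 2) (hα : 0 < α)
    (hx : (3 : ℝ) ≤ N) (hτ : 0 < intTau D N)
    (hE3 : 3 ≤ intC5 p α * intTau D N * N) (hE16 : 16 * (intC5 p α * intTau D N * N) ≤ N)
    (e : ℕ) (he : e ≤ N) :
    (2 * intM α N + 1 : ℝ) ^ intK p D α N * (cQ p ^ intN0 D α N +
        (2 : ℝ) ^ ((e : ℝ) / 2) * Real.exp (-(Real.pi * intR N ^ 2 / 2))) / intTheta p D α N +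
      (2 : ℝ) ^ ((e : ℝ) / 2) * Real.exp (-(Real.pi * intR N ^ 2 / 2)) < 1 := by
  have hx0 : (0 : ℝ) < N := by linarith
  have hLg0 : 0 < Real.log N := Real.log_pos (by linarith)
  have hc5 := intn_C5_pos hp hp2 hα
  set E := intC5 p α * intTau D N * N with hE
  have hC := intn_C_ge α
  -- (i)
  have h1 : (2 * intM α N + 1 : ℝ) ^ intK p D α N ≤ Real.exp (E / 4) := by
    have hM1 : (1 : ℝ) ≤ intM α N := by
      rw [intn_M_cast]
      exact one_le_pow₀ (by linarith)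
    have hb : (2 * intM α N + 1 : ℝ) ≤ (N : ℝ) ^ (intC α - 1) := by
      have e1 : (N : ℝ) ^ (intC α - 1) = intM α N * N := by
        rw [intn_M_cast, ← pow_succ, show intC α - 2 + 1 = intC α - 1 by omega]
      rw [e1]
      nlinarith
    have hk : (intK p D α N : ℝ) * Real.log N ≤ intKap p α * intTau D N * N := by
      have hk0 : (intK p D α N : ℝ) ≤ intKap p α * intTau D N * N / Real.log N := by
        refine Nat.floor_le ?_
        have : 0 < intKap p α := by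
          unfold intKap
          positivity
        positivity
      rwa [le_div_iff₀ hLg0] at hk0
    calc (2 * intM α N + 1 : ℝ) ^ intK p D α N
        ≤ ((N : ℝ) ^ (intC α - 1)) ^ intK p D α N := by gcongr
      _ = Real.exp (((intC α - 1 : ℕ) : ℝ) * ((intK p D α N : ℝ) * Real.log N)) := by
          rw [← pow_mul, intn_pow_eq_exp hx0]
          push_cast
          ring_nf
      _ ≤ Real.exp (E / 4) := by
          refine Real.exp_le_exp.2 ?_
          have hc1 : ((intC α - 1 : ℕ) : ℝ) ≤ (intC α : ℝ) + 2 := by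
            have : ((intC α - 1 : ℕ) : ℝ) ≤ (intC α : ℝ) := by exact_mod_cast Nat.sub_le _ _
            linarith
          have hkap : ((intC α : ℝ) + 2) * (intKap p α * intTau D N * N) = E / 4 := by
            rw [hE]
            unfold intKap
            field_simp
          rw [← hkap]
          have : 0 ≤ (intK p D α N : ℝ) * Real.log N := by positivity
          gcongr
  -- (ii)
  have hQ0 := intn_cQ_pos p
  have hlogQ : Real.log (cQ p) < 0 := Real.log_neg hQ0 (intn_cQ_lt_one hp hp2)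
  have h2 : cQ p ^ intN0 D α N ≤ Real.exp (-(16 * E)) := by
    rw [← Real.exp_log (pow_pos hQ0 _), Real.log_pow]
    refine Real.exp_le_exp.2 ?_
    have hn : intC2 α * intTau D N * N ≤ (intN0 D α N : ℝ) := Nat.le_ceil _
    have e1 : -(16 * E) = (intC2 α * intTau D N * N) * Real.log (cQ p) := by
      rw [hE]
      unfold intC5 intC3
      ring
    rw [e1]
    exact mul_le_mul_of_nonpos_right hn hlogQ.le
  -- (iii)
  have h3 : (2 : ℝ) ^ ((e : ℝ) / 2) * Real.exp (-(Real.pi * intR N ^ 2 / 2)) ≤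
      Real.exp (-(16 * E)) := by
    have hex : (e : ℝ) ≤ N := by exact_mod_cast he
    have hR2 : intR N ^ 2 = 10000 * N := by
      unfold intR
      rw [mul_pow, Real.sq_sqrt hx0.le]
      norm_num
    have hlog2 : Real.log 2 ≤ 1 := by
      have := Real.log_two_lt_d9
      linarith
    have hlog2' : 0 ≤ Real.log 2 := Real.log_nonneg (by norm_num)
    rw [Real.rpow_def_of_pos (by norm_num), ← Real.exp_add, hR2]
    refine Real.exp_le_exp.2 ?_
    have hpi := Real.pi_gt_three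
    have h5 : Real.log 2 * ((e : ℝ) / 2) ≤ 1 * ((N : ℝ) / 2) := by
      have : (0 : ℝ) ≤ e := Nat.cast_nonneg e
      gcongr
    nlinarith
  -- (iv)
  have h4 : intTheta p D α N = Real.exp (-(2 * E)) := by
    unfold intTheta
    rw [hE]
    congr 1
    ring
  set W := (2 : ℝ) ^ ((e : ℝ) / 2) * Real.exp (-(Real.pi * intR N ^ 2 / 2)) with hW
  have hW0 : 0 ≤ W := by positivity
  have hQn0 : 0 ≤ cQ p ^ intN0 D α N := by positivity
  have h5 : (2 * intM α N + 1 : ℝ) ^ intK p D α N * (cQ p ^ intN0 D α N + W) / intTheta p D α N ≤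
      2 * Real.exp (-E) := by
    rw [h4, Real.exp_neg (2 * E), div_inv_eq_mul]
    calc (2 * intM α N + 1 : ℝ) ^ intK p D α N * (cQ p ^ intN0 D α N + W) * Real.exp (2 * E)
        ≤ Real.exp (E / 4) * (Real.exp (-(16 * E)) + Real.exp (-(16 * E))) * Real.exp (2 * E) := by
          gcongr
      _ = 2 * Real.exp (E / 4 + -(16 * E) + 2 * E) := by
          rw [Real.exp_add, Real.exp_add]
          ring
      _ ≤ 2 * Real.exp (-E) := by
          have : E / 4 + -(16 * E) + 2 * E ≤ -E := by linarith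
          have := Real.exp_le_exp.2 this
          linarith
  have h6 : W ≤ Real.exp (-E) := h3.trans (Real.exp_le_exp.2 (by linarith))
  have h7 : Real.exp (-E) ≤ 1 / 4 := by
    rw [Real.exp_neg, ← one_div]
    refine one_div_le_one_div_of_le (by norm_num) ?_
    have := Real.add_one_le_exp E
    linarith
  linarith

/-! ## 7. (NumE) -/

theorem intn_prec (α : ℝ) {N : ℕ} (hx : (16 : ℝ) ≤ N) (m : ℕ) (hm : m ≤ N) :
    Real.sqrt m * (intEps α N + 2 * (intB α N * intR N)) * intM α N ≤ 1 / 8 := by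
  have hx0 : (0 : ℝ) < N := by linarith
  have hmx : (m : ℝ) ≤ N := by exact_mod_cast hm
  obtain ⟨C', hC'⟩ : ∃ C', intC α = C' + 2 := ⟨intC α - 2, by have := intn_C_ge α; omega⟩
  set s := Real.sqrt (N : ℝ) with hs
  have hs2 : s ^ 2 = N := Real.sq_sqrt hx0.le
  have hs0 : 0 < s := Real.sqrt_pos.2 hx0
  have hsx : s ≤ N := by nlinarith
  have hsm : Real.sqrt m ≤ s := Real.sqrt_le_sqrt hmx
  have e : (intEps α N + 2 * (intB α N * intR N)) * intM α N =
      1 / (N : ℝ) ^ 2 + 200 * s / (N : ℝ) ^ 7 := by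
    rw [intn_M_cast]
    unfold intEps intB intR
    rw [hC', Nat.add_sub_cancel]
    have hP : (N : ℝ) ^ C' ≠ 0 := (pow_pos hx0 _).ne'
    have e1 : (N : ℝ) ^ (C' + 2) = (N : ℝ) ^ C' * (N : ℝ) ^ 2 := pow_add _ _ _
    have e2 : (N : ℝ) ^ (C' + 2 + 5) = (N : ℝ) ^ C' * (N : ℝ) ^ 7 := by
      rw [show C' + 2 + 5 = C' + 7 by ring, pow_add]
    rw [e1, e2]
    field_simp
    ring
  rw [mul_assoc, e]
  have h1 : 1 / (N : ℝ) ^ 2 + 200 * s / (N : ℝ) ^ 7 ≤ 1 / (N : ℝ) ^ 2 + 200 * N / (N : ℝ) ^ 7 := by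
    gcongr
  have h2 : (N : ℝ) * (1 / (N : ℝ) ^ 2 + 200 * N / (N : ℝ) ^ 7) = 1 / N + 200 / (N : ℝ) ^ 5 := by
    field_simp
  have h3 : 1 / (N : ℝ) ≤ 1 / 16 := one_div_le_one_div_of_le (by norm_num) hx
  have h4 : 200 / (N : ℝ) ^ 5 ≤ 1 / 16 := by
    rw [div_le_div_iff₀ (by positivity) (by norm_num)]
    have : (16 : ℝ) ^ 5 ≤ (N : ℝ) ^ 5 := by gcongr
    linarith
  calc Real.sqrt m * (1 / (N : ℝ) ^ 2 + 200 * s / (N : ℝ) ^ 7)
      ≤ (N : ℝ) * (1 / (N : ℝ) ^ 2 + 200 * N / (N : ℝ) ^ 7) := by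
        have : 0 ≤ 1 / (N : ℝ) ^ 2 + 200 * s / (N : ℝ) ^ 7 := by positivity
        have hsm' : Real.sqrt m ≤ N := hsm.trans hsx
        gcongr
    _ = 1 / N + 200 / (N : ℝ) ^ 5 := h2
    _ ≤ 1 / 8 := by linarith

/-! ## 8. the leaf -/

theorem int_numDet : StIntNumDet := by
  intro p hp hp2 D hD α hα hα1
  have hc5 := intn_C5_pos hp hp2 hα
  have hc1 := intn_C1_pos α
  have hgam : 0 < intGam α := by unfold intGam; positivity
  filter_upwards [intn_cast_ge 100000, intn_tau_pos D,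
    intn_pow35_le_tau D (6 * (intC α : ℝ)), intn_ellsq_le_tau D (6 * ((intC α : ℝ) + 8)),
    intn_ellP_le_tau D (6 * ((intC α : ℝ) + 7) ^ 2),
    intn_log_le_tau D (16 * (intC α : ℝ) / (intGam α * intC1 α)),
    intn_log_le_tau D (3 / intC5 p α), intn_tau_le hD (1 / (16 * intC5 p α)) (by positivity),
    intn_ellP_le_tau D 1, intn_tau_le hD (α / 6) (by positivity), intn_log_ge 1]
    with N hx hτ ha hb hc hd1 hd2 ht1 hc' ht2 hLg1
  have hx0 : (0 : ℝ) < N := by linarith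
  refine
    { one_le_A := ?_
      B_pos := intn_B_pos α hx0
      B_le_one := ?_
      R_pos := intn_R_pos hx0
      M_pos := ?_
      sep_size := fun m j t r u sG hm hsG hr hu1 hu H1 H2 =>
        intn_sep_size hx ha hb hc m j t r u sG hm hsG hr hu1 hu H1 H2
      pick := ?_
      select := ?_
      dimU := ?_
      prec := fun m hm => intn_prec α (by linarith) m hm }
  · unfold intA
    exact one_le_pow₀ (by linarith)
  · unfold intB
    exact inv_le_one_of_one_le₀ (one_le_pow₀ (by linarith))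
  · have : (1 : ℝ) ≤ intM α N := by
      rw [intn_M_cast]
      exact one_le_pow₀ (by linarith)
    exact_mod_cast this
  · refine intn_pick (by linarith) ?_
    rw [div_mul_eq_mul_div, div_le_iff₀ (by positivity)] at hd1
    rw [le_div_iff₀ (by norm_num)]
    linarith
  · intro e he
    refine intn_select hp hp2 hα (by linarith) hτ ?_ ?_ e he
    · rw [div_mul_eq_mul_div, div_le_iff₀ hc5] at hd2
      nlinarith
    · rw [le_div_iff₀ (by positivity)] at ht1
      nlinarith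
  · rw [one_mul] at hc'
    have : ell N ^ (-(intP D)) ≤ α / 6 := hc'.trans ht2
    calc (N : ℝ) * ell N ^ (-(intP D)) ≤ N * (α / 6) := by gcongr
      _ = α * N / 6 := by ring

end Claimed.Agent.R293
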