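/-
R293 / IntNumTop.lean  (owner: helper117).  Leaf INT-N2: the final union bound beats every exponential.
-/
import Claimed.Agent.R293.IntNumDet

set_option autoImplicit false

namespace Claimed.Agent.R293

open Filter Asymptotics

/-! ## 1. more eventual facts -/

/-- `c N^{7/10} ≤ N` -/
theorem intt_pow710_le (c : ℝ) : ∀ᶠ N : ℕ in atTop, c * (N : ℝ) ^ ((7 : ℝ) / 10) ≤ N := by
  have h := ((tendsto_rpow_atTop (by norm_num : (0 : ℝ) < 3 / 10)).comp
    intn_tendsto_cast).eventually_ge_atTop c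
  filter_upwards [h, intn_cast_ge 1] with N hN hx
  have hx0 : (0 : ℝ) < N := by linarith
  have e : (N : ℝ) ^ ((3 : ℝ) / 10) * (N : ℝ) ^ ((7 : ℝ) / 10) = N := by
    rw [← Real.rpow_add hx0]
    norm_num
  have h7 : 0 ≤ (N : ℝ) ^ ((7 : ℝ) / 10) := Real.rpow_nonneg hx0.le _
  calc c * (N : ℝ) ^ ((7 : ℝ) / 10) ≤ (N : ℝ) ^ ((3 : ℝ) / 10) * (N : ℝ) ^ ((7 : ℝ) / 10) :=
        mul_le_mul_of_nonneg_right hN h7
    _ = N := e

theorem intt_kap_pos {p α : ℝ} (hp : 0 < p) (hp2 : p ≤ 1 / 2) (hα : 0 < α) : 0 < intKap p α := by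
  have := intn_C5_pos hp hp2 hα
  unfold intKap
  positivity

/-! ## 2. the two factors -/

/-- `k log N ≤ κ τ N` -/
theorem intt_k_log_le {p D α : ℝ} {N : ℕ} (hκ : 0 < intKap p α) (hτ : 0 < intTau D N)
    (hx : (3 : ℝ) ≤ N) : (intK p D α N : ℝ) * Real.log N ≤ intKap p α * intTau D N * N := by
  have hx0 : (0 : ℝ) < N := by linarith
  have hLg0 : 0 < Real.log N := Real.log_pos (by linarith)
  have hk0 : (intK p D α N : ℝ) ≤ intKap p α * intTau D N * N / Real.log N :=
    Nat.floor_le (by positivity)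
  rwa [le_div_iff₀ hLg0] at hk0

/-- `κ τ N - log N ≤ k log N` -/
theorem intt_le_k_log {p D α : ℝ} {N : ℕ} (hx : (3 : ℝ) ≤ N) :
    intKap p α * intTau D N * N - Real.log N ≤ (intK p D α N : ℝ) * Real.log N := by
  have hLg0 : 0 < Real.log N := Real.log_pos (by linarith)
  have h := Nat.lt_floor_add_one (intKap p α * intTau D N * N / Real.log N)
  rw [div_lt_iff₀ hLg0] at h
  unfold intK
  linarith

/-- `(2M)^k ≤ exp (c₅ τ N / 4)` -/
theorem intt_pow_k_le {p D α : ℝ} {N : ℕ} (hκ : 0 < intKap p α) (hτ : 0 < intTau D N)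
    (hx : (3 : ℝ) ≤ N) :
    (2 * intM α N : ℝ) ^ intK p D α N ≤ Real.exp (intC5 p α * intTau D N * N / 4) := by
  have hx0 : (0 : ℝ) < N := by linarith
  have hLg0 : 0 < Real.log N := Real.log_pos (by linarith)
  have hC := intn_C_ge α
  have hM := intn_M_pos α hx0
  have hb : (2 * intM α N : ℝ) ≤ (N : ℝ) ^ (intC α - 1) := by
    have e1 : (N : ℝ) ^ (intC α - 1) = intM α N * N := by
      rw [intn_M_cast, ← pow_succ, show intC α - 2 + 1 = intC α - 1 by omega]
    rw [e1]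
    nlinarith
  have hk := intt_k_log_le (p := p) (D := D) (α := α) hκ hτ hx
  calc (2 * intM α N : ℝ) ^ intK p D α N
      ≤ ((N : ℝ) ^ (intC α - 1)) ^ intK p D α N := by gcongr
    _ = Real.exp (((intC α - 1 : ℕ) : ℝ) * ((intK p D α N : ℝ) * Real.log N)) := by
        rw [← pow_mul, intn_pow_eq_exp hx0]
        push_cast
        ring_nf
    _ ≤ Real.exp (intC5 p α * intTau D N * N / 4) := by
        refine Real.exp_le_exp.2 ?_
        have hc1 : ((intC α - 1 : ℕ) : ℝ) ≤ (intC α : ℝ) + 2 := by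
          have : ((intC α - 1 : ℕ) : ℝ) ≤ (intC α : ℝ) := by exact_mod_cast Nat.sub_le _ _
          linarith
        have hkap : ((intC α : ℝ) + 2) * (intKap p α * intTau D N * N) =
            intC5 p α * intTau D N * N / 4 := by
          unfold intKap
          field_simp
        rw [← hkap]
        have : 0 ≤ (intK p D α N : ℝ) * Real.log N := by positivity
        gcongr

/-- the base of the cell count -/
theorem intt_cells_le (α : ℝ) {N d : ℕ} (hx : (203 : ℝ) ≤ N) (hd : (d : ℝ) ≤ N) :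
    2 * (intA N * intR N) * Real.sqrt d / intEps α N + 3 ≤ (N : ℝ) ^ (intC α + 4) := by
  have hx0 : (0 : ℝ) < N := by linarith
  set s := Real.sqrt (N : ℝ) with hs
  have hs2 : s * s = N := Real.mul_self_sqrt hx0.le
  have hs0 : 0 < s := Real.sqrt_pos.2 hx0
  have hsd : Real.sqrt d ≤ s := Real.sqrt_le_sqrt hd
  have hP : 1 ≤ (N : ℝ) ^ (intC α + 3) := one_le_pow₀ (by linarith)
  have e : 2 * (intA N * intR N) * Real.sqrt d / intEps α N =
      200 * (s * Real.sqrt d) * (N : ℝ) ^ (intC α + 2) := by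
    unfold intA intR intEps
    rw [div_inv_eq_mul, pow_add]
    ring
  have h1 : s * Real.sqrt d ≤ N := by
    calc s * Real.sqrt d ≤ s * s := by gcongr
      _ = N := hs2
  rw [e]
  calc 200 * (s * Real.sqrt d) * (N : ℝ) ^ (intC α + 2) + 3
      ≤ 200 * (N : ℝ) * (N : ℝ) ^ (intC α + 2) + 3 * (N : ℝ) ^ (intC α + 3) := by
        have : 3 ≤ 3 * (N : ℝ) ^ (intC α + 3) := by linarith
        gcongr
    _ = 203 * (N : ℝ) ^ (intC α + 3) := by ring
    _ ≤ (N : ℝ) * (N : ℝ) ^ (intC α + 3) := by gcongr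
    _ = (N : ℝ) ^ (intC α + 4) := by ring

/-- the row factor -/
theorem intt_row_le {p D α : ℝ} {N : ℕ} (hκ : 0 < intKap p α) (hc5 : 0 < intC5 p α)
    (hτ : 0 < intTau D N) (hx : (4 : ℝ) ≤ N) (hk : 1 ≤ intK p D α N) :
    (2 : ℝ) ^ intK p D α N * ((intM α N : ℝ) ^ intK p D α N)⁻¹ *
      (1 + (2 * intM α N : ℝ) ^ intK p D α N * Real.sqrt (intTheta p D α N)) ≤
    (((N : ℝ) ^ (intC α - 3)) ^ intK p D α N)⁻¹ := by
  have hx0 : (0 : ℝ) < N := by linarith
  have hC := intn_C_ge α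
  set k := intK p D α N with hkdef
  set E := intC5 p α * intTau D N * N with hE
  have hE0 : 0 < E := by positivity
  have h1 : (2 * intM α N : ℝ) ^ k ≤ Real.exp (E / 4) := intt_pow_k_le hκ hτ (by linarith)
  have h2 : Real.sqrt (intTheta p D α N) = Real.exp (-E) := by
    unfold intTheta
    rw [← Real.exp_half]
    congr 1
    rw [hE]
    ring
  have h3 : (2 * intM α N : ℝ) ^ k * Real.sqrt (intTheta p D α N) ≤ 1 := by
    rw [h2]
    calc (2 * intM α N : ℝ) ^ k * Real.exp (-E) ≤ Real.exp (E / 4) * Real.exp (-E) := by gcongr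
      _ = Real.exp (E / 4 + -E) := (Real.exp_add _ _).symm
      _ ≤ 1 := Real.exp_le_one_iff.2 (by linarith)
  have hMk : (intM α N : ℝ) ^ k = ((N : ℝ) ^ (intC α - 3)) ^ k * (N : ℝ) ^ k := by
    rw [intn_M_cast, ← mul_pow, ← pow_succ, show intC α - 3 + 1 = intC α - 2 by omega]
  have hP : 0 < ((N : ℝ) ^ (intC α - 3)) ^ k := by positivity
  have hNk : 0 < (N : ℝ) ^ k := by positivity
  have h4 : (2 : ℝ) ^ k * 2 ≤ (N : ℝ) ^ k := by
    calc (2 : ℝ) ^ k * 2 ≤ (2 : ℝ) ^ k * (2 : ℝ) ^ k := by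
          have : (2 : ℝ) ≤ (2 : ℝ) ^ k := by
            calc (2 : ℝ) = (2 : ℝ) ^ 1 := (pow_one _).symm
              _ ≤ (2 : ℝ) ^ k := pow_le_pow_right₀ (by norm_num) hk
          gcongr
      _ = (4 : ℝ) ^ k := by rw [← mul_pow]; norm_num
      _ ≤ (N : ℝ) ^ k := by gcongr
  have h0 : 0 ≤ (2 * intM α N : ℝ) ^ k * Real.sqrt (intTheta p D α N) := by positivity
  calc (2 : ℝ) ^ k * ((intM α N : ℝ) ^ k)⁻¹ *
        (1 + (2 * intM α N : ℝ) ^ k * Real.sqrt (intTheta p D α N))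
      ≤ (2 : ℝ) ^ k * ((intM α N : ℝ) ^ k)⁻¹ * 2 := by
        have : 1 + (2 * intM α N : ℝ) ^ k * Real.sqrt (intTheta p D α N) ≤ 2 := by linarith
        gcongr
    _ = ((2 : ℝ) ^ k * 2) * ((N : ℝ) ^ k)⁻¹ * (((N : ℝ) ^ (intC α - 3)) ^ k)⁻¹ := by
        rw [hMk, mul_inv]
        ring
    _ ≤ 1 * (((N : ℝ) ^ (intC α - 3)) ^ k)⁻¹ := by
        have : ((2 : ℝ) ^ k * 2) * ((N : ℝ) ^ k)⁻¹ ≤ 1 := by
          rw [← div_eq_mul_inv, div_le_one hNk]
          exact h4
        gcongr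
    _ = _ := one_mul _

/-! ## 3. the linear combination, in plain real variables -/

theorem intt_comb {x Lg τ eP κ C α A kk dd mj X7 l2 : ℝ}
    (hx : 0 < x) (hLg1 : 1 ≤ Lg) (hl2 : 0 ≤ l2) (hl2' : l2 ≤ 1) (heP : 0 ≤ eP)
    (hα : 0 < α) (hC11 : 11 ≤ C) (hCα : 30 ≤ α * (C - 11))
    (hd : dd ≤ (1 - α / 3) * x) (hmj : x - X7 - α / 40 * x ≤ mj)
    (hX7 : (C - 3) * X7 ≤ 3 / 4 * x)
    (hk0 : 0 ≤ kk) (hk : κ * τ * x - Lg ≤ kk * Lg)
    (hP : 2 * eP ≤ κ * τ) (hA : (|A| + 3) * Lg ≤ κ * τ * x) :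
    l2 * (x ^ 2 * eP) + x * l2 + ((C + 4) * dd * (kk * Lg) - (C - 3) * mj * (kk * Lg)) ≤
      l2 * (-(A * x)) := by
  have hA0 : 0 ≤ |A| := abs_nonneg A
  have hU : (C + 4) * dd - (C - 3) * mj ≤ -(3 / 2) * x := by
    have u1 := mul_le_mul_of_nonneg_left hd (by linarith : (0 : ℝ) ≤ C + 4)
    have u2 := mul_le_mul_of_nonneg_left hmj (by linarith : (0 : ℝ) ≤ C - 3)
    have u3 := mul_le_mul_of_nonneg_right hCα hx.le
    have u4 := mul_pos hα hx
    linarith
  have hV : 0 ≤ kk * Lg := by positivity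
  have v1 := mul_le_mul_of_nonneg_right hU hV
  have v2 := mul_le_mul_of_nonneg_left hk hx.le
  have v3 := mul_le_mul_of_nonneg_right hl2' (by positivity : (0 : ℝ) ≤ x ^ 2 * eP)
  have v4 := mul_le_mul_of_nonneg_left hP (by positivity : (0 : ℝ) ≤ x ^ 2)
  have v5 := mul_le_mul_of_nonneg_right (by linarith [le_abs_self A] : 1 + A ≤ 1 + |A|)
    (by positivity : (0 : ℝ) ≤ x * l2)
  have v6 := mul_le_mul_of_nonneg_left hl2' (by positivity : (0 : ℝ) ≤ (1 + |A|) * x)
  have v7 := mul_le_mul_of_nonneg_left hA hx.le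
  have v8 := mul_le_mul_of_nonneg_left hLg1 (by positivity : (0 : ℝ) ≤ x * (1 + |A|))
  have v9 : 0 ≤ x * Lg := by positivity
  linarith

/-! ## 4. the leaf -/

theorem intt_two_pow (m : ℕ) : (2 : ℝ) ^ m = Real.exp (m * Real.log 2) := by
  rw [← Real.log_pow, Real.exp_log (by positivity)]

theorem int_numTop : StIntNumTop := by
  intro p hp hp2 D hD α hα hα1 A
  have hc5 := intn_C5_pos hp hp2 hα
  have hκ := intt_kap_pos hp hp2 hα
  filter_upwards [intn_cast_ge 203, intn_tau_pos D, intn_log_ge 1, intn_ell_ge 1,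
    intt_pow710_le (4 / 3 * ((intC α : ℝ) - 3)), intn_ellP_le_tau D (2 / intKap p α),
    intn_log_le_tau D ((|A| + 3) / intKap p α), intn_log_le_tau D (1 / intKap p α)]
    with N hx hτ hLg1 hell h7 hP hA hk1 m hm d j hd hj
  have hx0 : (0 : ℝ) < N := by linarith
  have hLg0 : 0 < Real.log N := by linarith
  have hC := intn_C_ge α
  have hC11 : (11 : ℝ) ≤ (intC α : ℝ) := by exact_mod_cast hC
  obtain ⟨hm1, hm2⟩ := hm
  have hmx : (m : ℝ) ≤ N := by exact_mod_cast hm2
  set X7 := (N : ℝ) ^ ((7 : ℝ) / 10) with hX7def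
  have hX70 : 0 ≤ X7 := Real.rpow_nonneg hx0.le _
  have hX7 : ((intC α : ℝ) - 3) * X7 ≤ 3 / 4 * N := by linarith
  have hdx : (d : ℝ) ≤ N := by
    have : (1 - α / 3) * (N : ℝ) ≤ 1 * N := by
      have : 1 - α / 3 ≤ 1 := by linarith
      gcongr
    linarith
  -- `j ≤ m`
  have hjm : j ≤ m := by
    have h1 : (j : ℝ) ≤ m := by
      have a1 : 8 * X7 ≤ ((intC α : ℝ) - 3) * X7 := by
        have : (8 : ℝ) ≤ (intC α : ℝ) - 3 := by linarith
        gcongr
      have a2 : intGam α * (N : ℝ) ≤ 1 / 40 * N := by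
        unfold intGam
        have : α / 40 ≤ 1 / 40 := by linarith
        gcongr
      linarith
    exact_mod_cast h1
  have hmj : (N : ℝ) - X7 - α / 40 * N ≤ ((m - j : ℕ) : ℝ) := by
    rw [Nat.cast_sub hjm]
    unfold intGam at hj
    linarith
  -- `1 ≤ k`
  have hk : 1 ≤ intK p D α N := by
    unfold intK
    refine Nat.le_floor ?_
    rw [Nat.cast_one, le_div_iff₀ hLg0]
    rw [div_mul_eq_mul_div, div_le_iff₀ hκ] at hk1
    linarith
  set k := intK p D α N with hkdef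
  -- the two factors
  have hcells := intt_cells_le α hx hdx
  have hrow := intt_row_le (D := D) (N := N) hκ hc5 hτ (by linarith) hk
  rw [← hkdef] at hrow
  have hF1 : (2 * (intA N * intR N) * Real.sqrt d / intEps α N + 3) ^ (d * k) ≤
      Real.exp (((intC α : ℝ) + 4) * d * (k * Real.log N)) := by
    have hpos : 0 ≤ 2 * (intA N * intR N) * Real.sqrt d / intEps α N + 3 := by
      have := intn_A_pos hx0
      have := intn_R_pos hx0
      have : 0 < intEps α N := by unfold intEps; positivity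
      positivity
    calc (2 * (intA N * intR N) * Real.sqrt d / intEps α N + 3) ^ (d * k)
        ≤ ((N : ℝ) ^ (intC α + 4)) ^ (d * k) := by gcongr
      _ = Real.exp (((intC α : ℝ) + 4) * d * (k * Real.log N)) := by
          rw [← pow_mul, intn_pow_eq_exp hx0]
          push_cast
          ring_nf
  have hF2 : ((2 : ℝ) ^ k * ((intM α N : ℝ) ^ k)⁻¹ *
      (1 + (2 * intM α N : ℝ) ^ k * Real.sqrt (intTheta p D α N))) ^ (m - j) ≤
      Real.exp (-(((intC α : ℝ) - 3) * ((m - j : ℕ) : ℝ) * (k * Real.log N))) := by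
    have hM := intn_M_pos α hx0
    have hpos : 0 ≤ (2 : ℝ) ^ k * ((intM α N : ℝ) ^ k)⁻¹ *
      (1 + (2 * intM α N : ℝ) ^ k * Real.sqrt (intTheta p D α N)) := by positivity
    calc ((2 : ℝ) ^ k * ((intM α N : ℝ) ^ k)⁻¹ *
        (1 + (2 * intM α N : ℝ) ^ k * Real.sqrt (intTheta p D α N))) ^ (m - j)
        ≤ ((((N : ℝ) ^ (intC α - 3)) ^ k)⁻¹) ^ (m - j) := by gcongr
      _ = Real.exp (-(((intC α : ℝ) - 3) * ((m - j : ℕ) : ℝ) * (k * Real.log N))) := by
          rw [inv_pow, ← pow_mul, ← pow_mul, intn_pow_eq_exp hx0, Real.exp_neg]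
          congr 2
          push_cast [Nat.cast_sub (show 3 ≤ intC α by omega)]
          ring
  have hF0 : (2 : ℝ) ^ m ≤ Real.exp ((N : ℝ) * Real.log 2) := by
    rw [intt_two_pow]
    refine Real.exp_le_exp.2 ?_
    have : 0 ≤ Real.log 2 := Real.log_nonneg (by norm_num)
    gcongr
  unfold intProbBound
  rw [← hkdef, Real.rpow_def_of_pos (by norm_num : (0 : ℝ) < 2),
    Real.rpow_def_of_pos (by norm_num : (0 : ℝ) < 2)]
  calc Real.exp (Real.log 2 * ((N : ℝ) ^ 2 * ell N ^ (-(intP D)))) * (2 : ℝ) ^ m *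
        ((2 * (intA N * intR N) * Real.sqrt d / intEps α N + 3) ^ (d * k) *
          ((2 : ℝ) ^ k * ((intM α N : ℝ) ^ k)⁻¹ *
            (1 + (2 * intM α N : ℝ) ^ k * Real.sqrt (intTheta p D α N))) ^ (m - j))
      ≤ Real.exp (Real.log 2 * ((N : ℝ) ^ 2 * ell N ^ (-(intP D)))) *
          Real.exp ((N : ℝ) * Real.log 2) *
        (Real.exp (((intC α : ℝ) + 4) * d * (k * Real.log N)) *
          Real.exp (-(((intC α : ℝ) - 3) * ((m - j : ℕ) : ℝ) * (k * Real.log N)))) := by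
        have hM := intn_M_pos α hx0
        have hpos : 0 ≤ (2 : ℝ) ^ k * ((intM α N : ℝ) ^ k)⁻¹ *
          (1 + (2 * intM α N : ℝ) ^ k * Real.sqrt (intTheta p D α N)) := by positivity
        have hpos1 : 0 ≤ 2 * (intA N * intR N) * Real.sqrt d / intEps α N + 3 := by
          have := intn_A_pos hx0
          have := intn_R_pos hx0
          have : 0 < intEps α N := by unfold intEps; positivity
          positivity
        have hpos2 : 0 ≤ (2 * (intA N * intR N) * Real.sqrt d / intEps α N + 3) ^ (d * k) *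
            ((2 : ℝ) ^ k * ((intM α N : ℝ) ^ k)⁻¹ *
              (1 + (2 * intM α N : ℝ) ^ k * Real.sqrt (intTheta p D α N))) ^ (m - j) :=
          mul_nonneg (pow_nonneg hpos1 _) (pow_nonneg hpos _)
        gcongr
    _ = Real.exp (Real.log 2 * ((N : ℝ) ^ 2 * ell N ^ (-(intP D))) + (N : ℝ) * Real.log 2 +
          (((intC α : ℝ) + 4) * d * (k * Real.log N) -
            ((intC α : ℝ) - 3) * ((m - j : ℕ) : ℝ) * (k * Real.log N))) := by
        rw [← Real.exp_add, ← Real.exp_add, ← Real.exp_add]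
        congr 1
    _ ≤ Real.exp (Real.log 2 * (-(A * N))) := by
        refine Real.exp_le_exp.2 ?_
        have hCα : 30 ≤ α * ((intC α : ℝ) - 11) := by
          have h1 : 30 / α ≤ (⌈30 / α⌉₊ : ℝ) := Nat.le_ceil _
          have h2 : (intC α : ℝ) - 11 = (⌈30 / α⌉₊ : ℝ) := by
            unfold intC
            push_cast
            ring
          rw [h2]
          rw [div_le_iff₀ hα] at h1
          linarith
        have hlog2 : Real.log 2 ≤ 1 := by
          have := Real.log_two_lt_d9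
          linarith
        refine intt_comb (τ := intTau D N) (κ := intKap p α) (X7 := X7) hx0 hLg1
          (Real.log_nonneg (by norm_num)) hlog2
          (Real.rpow_nonneg (by linarith) _) hα hC11 hCα hd hmj hX7 (Nat.cast_nonneg k)
          (intt_le_k_log (by linarith)) ?_ ?_
        · rw [div_mul_eq_mul_div, div_le_iff₀ hκ] at hP
          linarith
        · rw [div_mul_eq_mul_div, div_le_iff₀ hκ] at hA
          linarith

end Claimed.Agent.R293
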