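/-
R293 / IntProb.lean  (owner: helper211).  INT package, leaf P3: assembly of the probabilistic half,
`int_prob : StIntCells → StIntRow → StIntProb`.  Prefix `intprob`.
-/
import Claimed.Agent.R293.IntDefs
import Claimed.Agent.R293.ProbMarg

set_option autoImplicit false

namespace Claimed.Agent.R293

open Finset Module

variable {m k : ℕ}

/-! ### perturbation of a row test -/

/-- Cauchy–Schwarz for a `0/1` row. -/
theorem intprob_row_cs (b : Fin m → ℝ) (hb : ∀ i, b i = 0 ∨ b i = 1) (z : EucM m) :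
    |∑ i, b i * z i| ≤ Real.sqrt m * ‖z‖ := by
  have h1 : (∑ i, b i * z i) ^ 2 ≤ (m : ℝ) * ‖z‖ ^ 2 := by
    have hcs := Finset.sum_mul_sq_le_sq_mul_sq (Finset.univ : Finset (Fin m)) b (fun i => z i)
    have hb2 : ∑ i, b i ^ 2 ≤ (m : ℝ) := by
      have : ∑ i : Fin m, b i ^ 2 ≤ ∑ _i : Fin m, (1 : ℝ) :=
        Finset.sum_le_sum fun i _ => by rcases hb i with h | h <;> rw [h] <;> norm_num
      simpa using this
    have hz : ∑ i, z i ^ 2 = ‖z‖ ^ 2 := by
      rw [EuclideanSpace.norm_sq_eq]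
      exact Finset.sum_congr rfl fun i _ => by rw [Real.norm_eq_abs, sq_abs]
    rw [hz] at hcs
    exact hcs.trans (mul_le_mul_of_nonneg_right hb2 (sq_nonneg _))
  have h2 := Real.abs_le_sqrt h1
  rwa [Real.sqrt_mul (Nat.cast_nonneg m), Real.sqrt_sq (norm_nonneg z)] at h2

theorem intprob_bit_cast (s : Sym2 (Fin m) → Bool) (v i : Fin m) :
    ((bitMat s v i : ℤ) : ℝ) = 0 ∨ ((bitMat s v i : ℤ) : ℝ) = 1 := by
  unfold bitMat
  by_cases h : s s(v, i) <;> simp [h]

/-! ### the row events -/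

/-- the row test for the representative `yh`. -/
def intprobRow (yh : Fin k → EucM m) (δ : ℝ) (v : Fin m) : Set (Sym2 (Fin m) → Bool) :=
  {s | ∀ g, ∃ n : ℤ, |∑ i, ((bitMat s v i : ℤ) : ℝ) * yh g i - n| ≤ δ}

/-- the entries `(v, i)`, `i ∈ J`. -/
def intprobA (J : Finset (Fin m)) (v : Fin m) : Set (Sym2 (Fin m)) := {z | ∃ i ∈ J, z = s(v, i)}

theorem intprobA_mem_iff {J : Finset (Fin m)} {v : Fin m} (i : Fin m) :
    s(v, i) ∈ intprobA J v ↔ i ∈ J := by
  constructor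
  · rintro ⟨j, hj, h⟩
    rw [Sym2.congr_right] at h
    exact h ▸ hj
  · intro hi
    exact ⟨i, hi, rfl⟩

theorem intprobA_notMem {J : Finset (Fin m)} {v v' : Fin m} (hvv : v ≠ v') (hv' : v' ∉ J)
    (i : Fin m) : s(v', i) ∉ intprobA J v := by
  rintro ⟨j, hj, h⟩
  rw [Sym2.eq_iff] at h
  rcases h with ⟨h1, _⟩ | ⟨h1, _⟩
  · exact hvv h1.symm
  · exact hv' (h1 ▸ hj)

theorem intprob_free (yh : Fin k → EucM m) (δ : ℝ) {J : Finset (Fin m)} {v v' : Fin m}
    (hvv : v ≠ v') (hv' : v' ∉ J) : pbFreeSet (intprobA J v) (intprobRow yh δ v') := by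
  refine pbFreeSet_of_agree fun s t hst => ?_
  have h : ∀ i, bitMat s v' i = bitMat t v' i := by
    intro i
    unfold bitMat
    rw [hst _ (intprobA_notMem hvv hv' i)]
  simp only [intprobRow, Set.mem_ofPred_eq, h]

/-- a witness in the same cells as `yh` passes all the row tests of `yh`. -/
theorem intprob_transfer (s : Sym2 (Fin m) → Bool) (y yh : Fin k → EucM m) (r : ℝ)
    (hy1 : IntW1 (bitMat s) y) (hclose : ∀ g, ‖y g - yh g‖ ≤ r) (v : Fin m) :
    s ∈ intprobRow yh (Real.sqrt m * r) v := by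
  intro g
  obtain ⟨n, hn⟩ := hy1 g v
  refine ⟨n, ?_⟩
  have h1 := intprob_row_cs (fun i => ((bitMat s v i : ℤ) : ℝ)) (intprob_bit_cast s v) (y g - yh g)
  have h2 : ∑ i, ((bitMat s v i : ℤ) : ℝ) * yh g i - n
      = -∑ i, ((bitMat s v i : ℤ) : ℝ) * (y g - yh g) i := by
    rw [← hn, ← Finset.sum_sub_distrib, ← Finset.sum_neg_distrib]
    refine Finset.sum_congr rfl fun i _ => ?_
    simp only [PiLp.sub_apply]
    ring
  rw [h2, abs_neg]
  exact h1.trans (mul_le_mul_of_nonneg_left (hclose g) (Real.sqrt_nonneg _))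

/-- conditional probability of one row test. -/
theorem intprob_row_bound (h2 : StIntRow) (p : ℝ) (hp0 : 0 < p) (hp1 : p < 1) (M : ℕ) (hM : 1 ≤ M)
    (δ θ : ℝ) (hδ : 0 ≤ δ) (hδM : δ * M ≤ 1 / 8) (hθ : 0 ≤ θ) (J : Finset (Fin m))
    (π : Sym2 (Fin m) → ℝ) (hπ : ∀ e, π e = p ∨ π e = 1 - p) (yh : Fin k → EucM m)
    (hW3 : IntW3 p θ M J yh) (v : Fin m) (s : Sym2 (Fin m) → Bool) :
    prb π {x | pbMix (intprobA J v) x s ∈ intprobRow yh δ v} ≤
      (2 : ℝ) ^ k * ((M : ℝ) ^ k)⁻¹ * (1 + (2 * M : ℝ) ^ k * Real.sqrt θ) := by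
  classical
  set e : {i // i ∈ J} → Sym2 (Fin m) := fun i => s(v, (i : Fin m)) with he
  have hinj : Function.Injective e := by
    intro i j hij
    exact Subtype.ext (Sym2.congr_right.1 hij)
  set a : Fin k → {i // i ∈ J} → ℝ := fun g i => yh g (i : Fin m) with ha
  set c : Fin k → ℝ := fun g => ∑ i ∈ Jᶜ, ((bitMat s v i : ℤ) : ℝ) * yh g i with hc
  have hset : {x | pbMix (intprobA J v) x s ∈ intprobRow yh δ v}
      = {x | x ∘ e ∈ {ξ : {i // i ∈ J} → Bool |
          ∀ g, ∃ n : ℤ, |∑ i, (if ξ i then a g i else 0) + c g - n| ≤ δ}} := by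
    ext x
    have hsum : ∀ g, ∑ i, ((bitMat (pbMix (intprobA J v) x s) v i : ℤ) : ℝ) * yh g i
        = ∑ i, (if (x ∘ e) i then a g i else 0) + c g := by
      intro g
      rw [← Finset.sum_add_sum_compl J, ← Finset.sum_coe_sort J]
      congr 1
      · refine Finset.sum_congr rfl fun i _ => ?_
        have : pbMix (intprobA J v) x s s(v, (i : Fin m)) = x s(v, (i : Fin m)) :=
          pbMix_of_mem ((intprobA_mem_iff _).2 i.2) x s
        simp only [bitMat, this, he, ha, Function.comp]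
        by_cases hx : x s(v, (i : Fin m)) <;> simp [hx]
      · refine Finset.sum_congr rfl fun i hi => ?_
        have hi' : i ∉ J := Finset.mem_compl.1 hi
        have : pbMix (intprobA J v) x s s(v, i) = s s(v, i) :=
          pbMix_of_notMem (fun h => hi' ((intprobA_mem_iff _).1 h)) x s
        simp only [bitMat, this]
    simp only [intprobRow, Set.mem_ofPred_eq, hsum]
  rw [hset, pb_prb_comp π hinj]
  refine h2 p hp0 hp1 {i // i ∈ J} k M hM δ θ hδ hδM hθ (π ∘ e) (fun i => hπ _) a c ?_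
  intro w hw hwM
  have := hW3 w hw hwM
  rwa [← Finset.prod_coe_sort J] at this

/-- all the row tests `v ∉ J` of a fixed representative. -/
theorem intprob_fixed (h2 : StIntRow) (p : ℝ) (hp0 : 0 < p) (hp1 : p < 1) (M : ℕ) (hM : 1 ≤ M)
    (δ θ : ℝ) (hδ : 0 ≤ δ) (hδM : δ * M ≤ 1 / 8) (hθ : 0 ≤ θ) (J : Finset (Fin m))
    (π : Sym2 (Fin m) → ℝ) (hπ : ∀ e, π e = p ∨ π e = 1 - p) (yh : Fin k → EucM m)
    (hW3 : IntW3 p θ M J yh) :
    prb π (⋂ v ∈ Jᶜ, intprobRow yh δ v) ≤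
      ((2 : ℝ) ^ k * ((M : ℝ) ^ k)⁻¹ * (1 + (2 * M : ℝ) ^ k * Real.sqrt θ)) ^ (m - J.card) := by
  have hprob : IsProbArray π := by
    intro e
    rcases hπ e with h | h <;> rw [h] <;> constructor <;> linarith
  have h := pb_prb_biInter_le_prod hprob Jᶜ (intprobA J) (intprobRow yh δ)
    (fun _ => (2 : ℝ) ^ k * ((M : ℝ) ^ k)⁻¹ * (1 + (2 * M : ℝ) ^ k * Real.sqrt θ))
    (fun v _ v' hv' hvv => intprob_free yh δ hvv (Finset.mem_compl.1 hv'))
    (fun v _ s => intprob_row_bound h2 p hp0 hp1 M hM δ θ hδ hδM hθ J π hπ yh hW3 v s)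
  rwa [Finset.prod_const, Finset.card_compl, Fintype.card_fin] at h

/-- **P (assembly of the probabilistic half).** -/
theorem int_prob (h1 : StIntCells) (h2 : StIntRow) : StIntProb := by
  intro p hp0 hp1 m k M hM ρ η ε θ hρ hη hε hθ hprec U J π hπ
  classical
  obtain ⟨T, cell, hT, hcellT, hcell⟩ := h1 m U ρ ε hρ hε
  have hprob : IsProbArray π := by
    intro e
    rcases hπ e with h | h <;> rw [h] <;> constructor <;> linarith
  have hMpos : (0 : ℝ) < M := by exact_mod_cast hM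
  set cc : ℝ := (2 : ℝ) ^ k * ((M : ℝ) ^ k)⁻¹ * (1 + (2 * M : ℝ) ^ k * Real.sqrt θ) with hcc
  have hcc0 : 0 ≤ cc := by positivity
  have hδ : 0 ≤ Real.sqrt m * (ε + 2 * η) := by positivity
  -- the events indexed by the cells
  set Eτ : (Fin k → Fin (finrank ℝ U) → ℤ) → Set (Sym2 (Fin m) → Bool) := fun τ =>
    {s | ∃ y : Fin k → EucM m, IntW1 (bitMat s) y ∧ IntW2 ρ η U y ∧ IntW3 p θ M J y ∧
      ∀ g, cell (y g) = τ g} with hEτ
  have hcover : {s | IntWitness p ρ η θ M k U J (bitMat s)}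
      ⊆ ⋃ τ ∈ Fintype.piFinset (fun _ : Fin k => T), Eτ τ := by
    rintro s ⟨y, hy1, hy2, hy3⟩
    simp only [Set.mem_iUnion]
    exact ⟨fun g => cell (y g), Fintype.mem_piFinset.2 fun g => hcellT _ (hy2 g).1,
      y, hy1, hy2, hy3, fun g => rfl⟩
  have hone : ∀ τ, prb π (Eτ τ) ≤ cc ^ (m - J.card) := by
    intro τ
    by_cases hex : ∃ yh : Fin k → EucM m, IntW2 ρ η U yh ∧ IntW3 p θ M J yh ∧
        ∀ g, cell (yh g) = τ g
    · obtain ⟨yh, hh2, hh3, hhc⟩ := hex
      refine (pb_prb_mono hprob ?_).trans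
        (intprob_fixed h2 p hp0 hp1 M hM _ θ hδ hprec hθ J π hπ yh hh3)
      rintro s ⟨y, hy1, hy2, _, hyc⟩
      simp only [Set.mem_iInter]
      intro v _
      refine intprob_transfer s y yh _ hy1 (fun g => ?_) v
      have := hcell (y g) (yh g) ((hyc g).trans (hhc g).symm)
      linarith [(hy2 g).2, (hh2 g).2]
    · have : Eτ τ = ∅ := by
        ext s
        simp only [hEτ, Set.mem_ofPred_eq, Set.mem_empty_iff_false, iff_false]
        rintro ⟨y, _, hy2, hy3, hyc⟩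
        exact hex ⟨y, hy2, hy3, hyc⟩
      rw [this, pb_prb_empty]
      positivity
  calc prb π {s | IntWitness p ρ η θ M k U J (bitMat s)}
      ≤ prb π (⋃ τ ∈ Fintype.piFinset (fun _ : Fin k => T), Eτ τ) := pb_prb_mono hprob hcover
    _ ≤ ((Fintype.piFinset (fun _ : Fin k => T)).card : ℝ) * cc ^ (m - J.card) :=
        pb_prb_biUnion_le_card_mul hprob _ _ (fun τ _ => hone τ)
    _ ≤ (2 * ρ * Real.sqrt (finrank ℝ U) / ε + 3) ^ (finrank ℝ U * k) * cc ^ (m - J.card) := by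
        refine mul_le_mul_of_nonneg_right ?_ (by positivity)
        rw [Fintype.card_piFinset_const, Nat.cast_pow, pow_mul]
        exact pow_le_pow_left₀ (Nat.cast_nonneg _) hT k

end Claimed.Agent.R293
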