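/-
R293 / IntRow.lean  (owner: helper211).  INT package, leaf P2: the row test (Fejér kernel), `int_row : StIntRow`.
Prefix `introw`.
-/
import Claimed.Agent.R293.IntDefs
import Claimed.Agent.R293.ProbBasic

set_option autoImplicit false

namespace Claimed.Agent.R293

open Finset

/-! ### the character `e(x) = exp(2π i x)` -/

/-- `e(x) = exp(2π i x)`. -/
noncomputable def introwE (x : ℝ) : ℂ := Complex.exp (((2 * Real.pi * x : ℝ) : ℂ) * Complex.I)

theorem introwE_add (x y : ℝ) : introwE (x + y) = introwE x * introwE y := by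
  unfold introwE
  rw [← Complex.exp_add]
  congr 1
  push_cast
  ring

theorem introwE_zero : introwE 0 = 1 := by
  simp [introwE]

theorem introwE_norm (x : ℝ) : ‖introwE x‖ = 1 := Complex.norm_exp_ofReal_mul_I _

theorem introwE_re (x : ℝ) : (introwE x).re = Real.cos (2 * Real.pi * x) :=
  Complex.exp_ofReal_mul_I_re _

theorem introwE_im (x : ℝ) : (introwE x).im = Real.sin (2 * Real.pi * x) :=
  Complex.exp_ofReal_mul_I_im _

theorem introwE_conj (x : ℝ) : (starRingEnd ℂ) (introwE x) = introwE (-x) := by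
  apply Complex.ext
  · rw [Complex.conj_re, introwE_re, introwE_re, mul_neg, Real.cos_neg]
  · rw [Complex.conj_im, introwE_im, introwE_im, mul_neg, Real.sin_neg]

theorem introwE_sum {ι : Type*} (s : Finset ι) (f : ι → ℝ) :
    introwE (∑ i ∈ s, f i) = ∏ i ∈ s, introwE (f i) := by
  classical
  induction s using Finset.induction_on with
  | empty => simp [introwE_zero]
  | insert a s ha ih => rw [Finset.sum_insert ha, Finset.prod_insert ha, introwE_add, ih]

/-! ### the kernel -/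

/-- `Z_M(t) = ∑_{h<M} e(h t)`. -/
noncomputable def introwZ (M : ℕ) (t : ℝ) : ℂ := ∑ h : Fin M, introwE ((h : ℕ) * t)

/-- one term of the kernel close to an integer. -/
theorem introw_cos_lb (M : ℕ) (δ t : ℝ) (n : ℤ) (hδ : δ * M ≤ 1 / 8) (ht : |t - n| ≤ δ)
    (h : ℕ) (hh : h ≤ M) : Real.sqrt 2 / 2 ≤ Real.cos (2 * Real.pi * (h * t)) := by
  have hpi := Real.pi_pos
  have e1 : 2 * Real.pi * (h * t) = 2 * Real.pi * (h * (t - n)) + ((h * n : ℤ) : ℝ) * (2 * Real.pi) := by
    push_cast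
    ring
  rw [e1, Real.cos_add_int_mul_two_pi, ← Real.cos_abs, ← Real.cos_pi_div_four]
  have hδ0 : 0 ≤ δ := le_trans (abs_nonneg _) ht
  have h1 : |(h : ℝ) * (t - n)| ≤ 1 / 8 := by
    rw [abs_mul, Nat.abs_cast]
    calc (h : ℝ) * |t - n| ≤ M * δ :=
          mul_le_mul (by exact_mod_cast hh) ht (abs_nonneg _) (Nat.cast_nonneg _)
      _ ≤ 1 / 8 := by linarith
  have h2 : |2 * Real.pi * (h * (t - n))| ≤ Real.pi / 4 := by
    rw [abs_mul, abs_of_pos (by positivity : (0 : ℝ) < 2 * Real.pi)]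
    nlinarith
  exact Real.cos_le_cos_of_nonneg_of_le_pi (abs_nonneg _) (by linarith) h2

theorem introw_kernel_lb (M : ℕ) (δ t : ℝ) (n : ℤ) (hδ : δ * M ≤ 1 / 8) (ht : |t - n| ≤ δ) :
    (M : ℝ) ^ 2 / 2 ≤ Complex.normSq (introwZ M t) := by
  have hre : (M : ℝ) * (Real.sqrt 2 / 2) ≤ (introwZ M t).re := by
    rw [introwZ, Complex.re_sum]
    have := Finset.card_nsmul_le_sum (Finset.univ : Finset (Fin M))
      (fun h => (introwE ((h : ℕ) * t)).re) (Real.sqrt 2 / 2) (fun h _ => by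
        rw [introwE_re]
        exact introw_cos_lb M δ t n hδ ht h h.2.le)
    simpa using this
  have hs : Real.sqrt 2 * Real.sqrt 2 = 2 := Real.mul_self_sqrt (by norm_num)
  have h0 : 0 ≤ (M : ℝ) * (Real.sqrt 2 / 2) := by positivity
  rw [Complex.normSq_apply]
  have h1 : ((M : ℝ) * (Real.sqrt 2 / 2)) * ((M : ℝ) * (Real.sqrt 2 / 2))
      ≤ (introwZ M t).re * (introwZ M t).re := mul_self_le_mul_self h0 hre
  have h2 : ((M : ℝ) * (Real.sqrt 2 / 2)) * ((M : ℝ) * (Real.sqrt 2 / 2)) = (M : ℝ) ^ 2 / 2 := by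
    calc ((M : ℝ) * (Real.sqrt 2 / 2)) * ((M : ℝ) * (Real.sqrt 2 / 2))
        = (M : ℝ) ^ 2 * (Real.sqrt 2 * Real.sqrt 2) / 4 := by ring
      _ = (M : ℝ) ^ 2 / 2 := by rw [hs]; ring
  nlinarith [mul_self_nonneg (introwZ M t).im]

/-- the frequency attached to a pair of indices. -/
def introwD {M : ℕ} (q : Fin M × Fin M) : ℤ := ((q.1 : ℕ) : ℤ) - ((q.2 : ℕ) : ℤ)

theorem introwD_abs_le {M : ℕ} (q : Fin M × Fin M) : |introwD q| ≤ (M : ℤ) := by
  have h1 := q.1.2
  have h2 := q.2.2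
  unfold introwD
  rw [abs_le]
  constructor <;> omega

theorem introwD_eq_zero {M : ℕ} (q : Fin M × Fin M) : introwD q = 0 ↔ q.1 = q.2 := by
  unfold introwD
  rw [sub_eq_zero, Nat.cast_inj, Fin.val_inj]

theorem introw_normSq_expand (M : ℕ) (t : ℝ) :
    ((Complex.normSq (introwZ M t) : ℝ) : ℂ) = ∑ q : Fin M × Fin M, introwE ((introwD q : ℝ) * t) := by
  rw [← Complex.mul_conj, introwZ, map_sum, Finset.sum_mul_sum, Fintype.sum_prod_type]
  refine Finset.sum_congr rfl fun h _ => Finset.sum_congr rfl fun h' _ => ?_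
  rw [introwE_conj, ← introwE_add]
  congr 1
  simp only [introwD]
  push_cast
  ring

theorem introw_prod_expand (k M : ℕ) (t : Fin k → ℝ) :
    ((∏ g, Complex.normSq (introwZ M (t g)) : ℝ) : ℂ)
      = ∑ f : Fin k → Fin M × Fin M, introwE (∑ g, (introwD (f g) : ℝ) * t g) := by
  rw [Complex.ofReal_prod]
  simp only [introw_normSq_expand]
  rw [Fintype.prod_sum]
  exact Finset.sum_congr rfl fun f _ => (introwE_sum _ _).symm

/-! ### the characteristic function of the product Bernoulli law -/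

section Char
variable {κ : Type*} [Fintype κ] [DecidableEq κ]

theorem introw_char (π x : κ → ℝ) (c : ℝ) :
    ∑ ξ : κ → Bool, (bern π ξ : ℂ) * introwE (∑ i, (if ξ i then x i else 0) + c)
      = introwE c * ∏ i, ((π i : ℂ) * introwE (x i) + ((1 - π i : ℝ) : ℂ)) := by
  have h := Fintype.prod_sum (fun (i : κ) (b : Bool) =>
    (((if b then π i else 1 - π i : ℝ)) : ℂ) * introwE (if b then x i else 0))
  simp only [Fintype.sum_bool, if_true, Bool.false_eq_true, if_false, introwE_zero, mul_one] at h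
  rw [h, Finset.mul_sum]
  refine Finset.sum_congr rfl fun ξ _ => ?_
  rw [introwE_add, introwE_sum, bern, Complex.ofReal_prod, Finset.prod_mul_distrib]
  ring

theorem introw_phi_normSq (p π x : ℝ) (hπ : π = p ∨ π = 1 - p) :
    Complex.normSq ((π : ℂ) * introwE x + ((1 - π : ℝ) : ℂ)) = intPhiSq p x := by
  have hre : ((π : ℂ) * introwE x + ((1 - π : ℝ) : ℂ)).re
      = π * Real.cos (2 * Real.pi * x) + (1 - π) := by
    rw [Complex.add_re, Complex.re_ofReal_mul, introwE_re, Complex.ofReal_re]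
  have him : ((π : ℂ) * introwE x + ((1 - π : ℝ) : ℂ)).im = π * Real.sin (2 * Real.pi * x) := by
    rw [Complex.add_im, Complex.im_ofReal_mul, introwE_im, Complex.ofReal_im, add_zero]
  rw [Complex.normSq_apply, hre, him, intPhiSq]
  have h1 := Real.sin_sq_add_cos_sq (2 * Real.pi * x)
  have h2 : Real.cos (2 * Real.pi * x) = 1 - 2 * Real.sin (Real.pi * x) ^ 2 := by
    rw [mul_assoc, Real.cos_two_mul]
    have := Real.sin_sq_add_cos_sq (Real.pi * x)
    linarith
  have h3 : π * (1 - π) = p * (1 - p) := by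
    rcases hπ with h | h
    · rw [h]
    · rw [h]; ring
  have h4 : (π * Real.cos (2 * Real.pi * x) + (1 - π)) * (π * Real.cos (2 * Real.pi * x) + (1 - π))
      + π * Real.sin (2 * Real.pi * x) * (π * Real.sin (2 * Real.pi * x))
      = π ^ 2 * (Real.sin (2 * Real.pi * x) ^ 2 + Real.cos (2 * Real.pi * x) ^ 2)
        + 2 * (π * (1 - π)) * Real.cos (2 * Real.pi * x) + (1 - π) ^ 2 := by ring
  rw [h4, h1, h2]
  have h5 : π ^ 2 * 1 + 2 * (π * (1 - π)) * (1 - 2 * Real.sin (Real.pi * x) ^ 2) + (1 - π) ^ 2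
      = 1 - 4 * (π * (1 - π)) * Real.sin (Real.pi * x) ^ 2 := by ring
  rw [h5, h3]
  ring

theorem introw_phiSq_le_one (p x : ℝ) (hp0 : 0 < p) (hp1 : p < 1) : intPhiSq p x ≤ 1 := by
  unfold intPhiSq
  have : 0 ≤ 4 * p * (1 - p) * Real.sin (Real.pi * x) ^ 2 := by
    have : 0 < 1 - p := by linarith
    positivity
  linarith

/-- `|E e(∑ ξ_i x_i + c)|² = ∏ |φ(x_i)|²`. -/
theorem introw_char_norm_sq (p : ℝ) (π x : κ → ℝ) (hπ : ∀ e, π e = p ∨ π e = 1 - p) (c : ℝ) :
    ‖∑ ξ : κ → Bool, (bern π ξ : ℂ) * introwE (∑ i, (if ξ i then x i else 0) + c)‖ ^ 2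
      = ∏ i, intPhiSq p (x i) := by
  rw [introw_char, norm_mul, introwE_norm, one_mul, norm_prod, ← Finset.prod_pow]
  refine Finset.prod_congr rfl fun i _ => ?_
  rw [← Complex.normSq_eq_norm_sq, introw_phi_normSq p (π i) (x i) (hπ i)]

end Char

/-! ### counting the diagonal -/

theorem introw_diag_count (k M : ℕ) :
    ∑ f : Fin k → Fin M × Fin M, (if (fun g => introwD (f g)) = 0 then (1 : ℝ) else 0)
      = (M : ℝ) ^ k := by
  have h := Fintype.prod_sum (fun (_ : Fin k) (q : Fin M × Fin M) =>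
    (if q.1 = q.2 then (1 : ℝ) else 0))
  have h1 : ∑ q : Fin M × Fin M, (if q.1 = q.2 then (1 : ℝ) else 0) = M := by
    rw [Fintype.sum_prod_type]
    simp
  rw [h1, Finset.prod_const, Finset.card_univ, Fintype.card_fin] at h
  rw [h]
  refine Finset.sum_congr rfl fun f _ => ?_
  by_cases hf : (fun g => introwD (f g)) = 0
  · rw [if_pos hf]
    symm
    refine Finset.prod_eq_one fun g _ => ?_
    rw [if_pos ((introwD_eq_zero _).1 (congrFun hf g))]
  · rw [if_neg hf]
    symm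
    have : ∃ g, introwD (f g) ≠ 0 := by
      by_contra hcon
      exact hf (funext fun g => by
        by_contra hg
        exact hcon ⟨g, hg⟩)
    obtain ⟨g, hg⟩ := this
    refine Finset.prod_eq_zero (Finset.mem_univ g) ?_
    rw [if_neg fun h => hg ((introwD_eq_zero _).2 h)]

/-! ### the second moment of the kernel -/

section Main
variable {κ : Type*} [Fintype κ] [DecidableEq κ]

theorem introw_moment (p : ℝ) (hp0 : 0 < p) (hp1 : p < 1) (k M : ℕ) (θ : ℝ)
    (π : κ → ℝ) (hπ : ∀ e, π e = p ∨ π e = 1 - p) (a : Fin k → κ → ℝ) (c : Fin k → ℝ)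
    (hW : ∀ w : Fin k → ℤ, w ≠ 0 → (∀ g, |w g| ≤ (M : ℤ)) →
      ∏ i, intPhiSq p (∑ g, (w g : ℝ) * a g i) ≤ θ) :
    exq π (fun ξ => ∏ g, Complex.normSq (introwZ M (∑ i, (if ξ i then a g i else 0) + c g)))
      ≤ (M : ℝ) ^ k + (M : ℝ) ^ (2 * k) * Real.sqrt θ := by
  set R : ℝ :=
    exq π (fun ξ => ∏ g, Complex.normSq (introwZ M (∑ i, (if ξ i then a g i else 0) + c g)))
    with hR
  -- the Fourier expansion
  have hexp : (R : ℂ) = ∑ f : Fin k → Fin M × Fin M, ∑ ξ : κ → Bool, (bern π ξ : ℂ) *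
      introwE (∑ i, (if ξ i then ∑ g, (introwD (f g) : ℝ) * a g i else 0)
        + ∑ g, (introwD (f g) : ℝ) * c g) := by
    rw [hR, exq, Complex.ofReal_sum, Finset.sum_comm]
    refine Finset.sum_congr rfl fun ξ _ => ?_
    rw [Complex.ofReal_mul, introw_prod_expand, Finset.mul_sum]
    refine Finset.sum_congr rfl fun f _ => ?_
    congr 2
    simp only [mul_add, Finset.sum_add_distrib, Finset.mul_sum]
    congr 1
    rw [Finset.sum_comm]
    refine Finset.sum_congr rfl fun i _ => ?_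
    by_cases hξ : ξ i <;> simp [hξ]
  -- each Fourier coefficient
  have hcoef : ∀ f : Fin k → Fin M × Fin M, ‖∑ ξ : κ → Bool, (bern π ξ : ℂ) *
      introwE (∑ i, (if ξ i then ∑ g, (introwD (f g) : ℝ) * a g i else 0)
        + ∑ g, (introwD (f g) : ℝ) * c g)‖
      ≤ (if (fun g => introwD (f g)) = 0 then (1 : ℝ) else 0) + Real.sqrt θ := by
    intro f
    have hsq := introw_char_norm_sq p π (fun i => ∑ g, (introwD (f g) : ℝ) * a g i) hπ
      (∑ g, (introwD (f g) : ℝ) * c g)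
    by_cases hf : (fun g => introwD (f g)) = 0
    · rw [if_pos hf]
      have h1 : ∏ i, intPhiSq p (∑ g, (introwD (f g) : ℝ) * a g i) ≤ 1 := by
        refine Finset.prod_le_one (fun i _ => ?_) (fun i _ => introw_phiSq_le_one p _ hp0 hp1)
        rw [← introw_phi_normSq p p _ (Or.inl rfl)]
        exact Complex.normSq_nonneg _
      rw [← hsq] at h1
      have h2 := (sq_le_one_iff₀ (norm_nonneg _)).1 h1
      linarith [Real.sqrt_nonneg θ]
    · rw [if_neg hf, zero_add]
      apply Real.le_sqrt_of_sq_le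
      rw [hsq]
      exact hW (fun g => introwD (f g)) hf (fun g => introwD_abs_le _)
  calc R ≤ ‖(R : ℂ)‖ := by rw [Complex.norm_real]; exact le_abs_self R
    _ ≤ ∑ f : Fin k → Fin M × Fin M,
        ((if (fun g => introwD (f g)) = 0 then (1 : ℝ) else 0) + Real.sqrt θ) := by
        rw [hexp]
        exact (norm_sum_le _ _).trans (Finset.sum_le_sum fun f _ => hcoef f)
    _ = (M : ℝ) ^ k + (M : ℝ) ^ (2 * k) * Real.sqrt θ := by
        rw [Finset.sum_add_distrib, introw_diag_count, Finset.sum_const, Finset.card_univ,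
          Fintype.card_fun, Fintype.card_prod, Fintype.card_fin, Fintype.card_fin, nsmul_eq_mul]
        congr 2
        push_cast
        rw [pow_mul, sq]

end Main

/-- **Leaf P2 (row test, Fejér kernel).** -/
theorem int_row : StIntRow := by
  intro p hp0 hp1 κ _ _ k M hM δ θ _hδ hδM _hθ π hπ a c hW
  have hprob : IsProbArray π := by
    intro e
    rcases hπ e with h | h <;> rw [h] <;> constructor <;> linarith
  have hMpos : (0 : ℝ) < M := by exact_mod_cast hM
  have h1 : prb π {ξ | ∀ g, ∃ n : ℤ, |∑ i, (if ξ i then a g i else 0) + c g - n| ≤ δ}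
      ≤ exq π (fun ξ => ((2 : ℝ) ^ k * ((M : ℝ) ^ (2 * k))⁻¹) *
        ∏ g, Complex.normSq (introwZ M (∑ i, (if ξ i then a g i else 0) + c g))) := by
    rw [pb_prb_eq_exq]
    refine pb_exq_mono hprob fun ξ => ?_
    by_cases hξ : ξ ∈ {ξ | ∀ g, ∃ n : ℤ, |∑ i, (if ξ i then a g i else 0) + c g - n| ≤ δ}
    · rw [Set.indicator_of_mem hξ]
      have h2 : ∏ _g : Fin k, ((M : ℝ) ^ 2 / 2)
          ≤ ∏ g, Complex.normSq (introwZ M (∑ i, (if ξ i then a g i else 0) + c g)) := by
        refine Finset.prod_le_prod (fun _ _ => by positivity) (fun g _ => ?_)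
        obtain ⟨n, hn⟩ := hξ g
        exact introw_kernel_lb M δ _ n hδM hn
      rw [Finset.prod_const, Finset.card_univ, Fintype.card_fin, div_pow, ← pow_mul] at h2
      calc (1 : ℝ) = ((2 : ℝ) ^ k * ((M : ℝ) ^ (2 * k))⁻¹) * ((M : ℝ) ^ (2 * k) / 2 ^ k) := by
            field_simp
        _ ≤ _ := mul_le_mul_of_nonneg_left h2 (by positivity)
    · rw [Set.indicator_of_notMem hξ]
      exact mul_nonneg (by positivity) (Finset.prod_nonneg fun g _ => Complex.normSq_nonneg _)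
  rw [pb_exq_const_mul] at h1
  have h2 := introw_moment p hp0 hp1 k M θ π hπ a c hW
  have hs := Real.sqrt_nonneg θ
  calc prb π {ξ | ∀ g, ∃ n : ℤ, |∑ i, (if ξ i then a g i else 0) + c g - n| ≤ δ}
      ≤ ((2 : ℝ) ^ k * ((M : ℝ) ^ (2 * k))⁻¹) * ((M : ℝ) ^ k + (M : ℝ) ^ (2 * k) * Real.sqrt θ) :=
        h1.trans (mul_le_mul_of_nonneg_left h2 (by positivity))
    _ = (2 : ℝ) ^ k * ((M : ℝ) ^ k)⁻¹ * (1 + (M : ℝ) ^ k * Real.sqrt θ) := by
        rw [two_mul, pow_add]
        field_simp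
    _ ≤ (2 : ℝ) ^ k * ((M : ℝ) ^ k)⁻¹ * (1 + (2 * M : ℝ) ^ k * Real.sqrt θ) := by
        refine mul_le_mul_of_nonneg_left ?_ (by positivity)
        have : (M : ℝ) ^ k ≤ (2 * M : ℝ) ^ k := pow_le_pow_left₀ hMpos.le (by linarith) k
        nlinarith

end Claimed.Agent.R293
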