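/-
R293 / IntSelect.lean (owner: helper62).  INT leaf D6: sequential selection of the testers (paper B (4.13)-(4.14)).
`int_select : StGpSummable → StGpDualLat → StGpTail → StIntFourierAvg → StIntSelect`.   Sorry-free.  Prefix `intsel_`.
-/
import Claimed.Agent.R293.IntDefs

set_option autoImplicit false

namespace Claimed.Agent.R293

open Filter Submodule Module
open scoped RealInnerProductSpace

/-! ### A union bound for weighted sums -/

section Union
variable {X : Type*}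

lemma intsel_summable_ite {g : X → ℝ} (hg : ∀ x, 0 ≤ g x) (hs : Summable g) (P : X → Prop)
    [DecidablePred P] : Summable fun x => if P x then g x else 0 :=
  Summable.of_nonneg_of_le (fun x => by split_ifs <;> simp [hg x])
    (fun x => by split_ifs <;> simp [hg x]) hs

open Classical in
/-- if the total weight of finitely many bad events is smaller than the total weight, a good point exists. -/
lemma intsel_exists_good {g : X → ℝ} (hg : ∀ x, 0 ≤ g x) (hs : Summable g) (hZ : 0 < ∑' x, g x)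
    {A : Type*} (T : Finset A) (P : A → X → Prop) (P0 : X → Prop) (c : A → ℝ) (c0 : ℝ)
    (hP : ∀ a ∈ T, ∑' x, (if P a x then g x else 0) ≤ c a * ∑' x, g x)
    (hP0 : ∑' x, (if P0 x then g x else 0) ≤ c0 * ∑' x, g x)
    (hc : ∑ a ∈ T, c a + c0 < 1) : ∃ x, ¬ P0 x ∧ ∀ a ∈ T, ¬ P a x := by
  by_contra hcon
  push Not at hcon
  have hle : ∀ x, g x ≤ (if P0 x then g x else 0) + ∑ a ∈ T, (if P a x then g x else 0) := by
    intro x
    by_cases h0 : P0 x
    · simp only [h0, if_true]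
      have : 0 ≤ ∑ a ∈ T, (if P a x then g x else 0) :=
        Finset.sum_nonneg fun a _ => by split_ifs <;> simp [hg x]
      linarith
    · obtain ⟨a, ha, hPa⟩ := hcon x h0
      simp only [h0, if_false, zero_add]
      have h1 : (if P a x then g x else 0) ≤ ∑ a ∈ T, (if P a x then g x else 0) :=
        Finset.single_le_sum (f := fun a => if P a x then g x else 0)
          (fun a _ => by split_ifs <;> simp [hg x]) ha
      simpa [hPa] using h1
  have hs0 := intsel_summable_ite hg hs P0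
  have hsa : ∀ a ∈ T, Summable fun x => if P a x then g x else 0 :=
    fun a _ => intsel_summable_ite hg hs (P a)
  have hsT : Summable fun x => ∑ a ∈ T, (if P a x then g x else 0) := summable_sum hsa
  have h1 := hs.tsum_le_tsum hle (hs0.add hsT)
  rw [hs0.tsum_add hsT, Summable.tsum_finsetSum hsa] at h1
  have h2 : ∑ a ∈ T, ∑' x, (if P a x then g x else 0) ≤ ∑ a ∈ T, c a * ∑' x, g x :=
    Finset.sum_le_sum hP
  rw [← Finset.sum_mul] at h2
  nlinarith

open Classical in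
/-- Markov's inequality for weighted sums. -/
lemma intsel_markov {g F : X → ℝ} (hg : ∀ x, 0 ≤ g x) (hF : ∀ x, 0 ≤ F x)
    (hs : Summable fun x => g x * F x) {θ : ℝ} (hθ : 0 < θ) :
    ∑' x, (if θ < F x then g x else 0) ≤ (∑' x, g x * F x) / θ := by
  rw [← tsum_div_const]
  have hle : ∀ x, (if θ < F x then g x else 0) ≤ g x * F x / θ := by
    intro x
    split_ifs with h
    · rw [le_div_iff₀ hθ]
      exact mul_le_mul_of_nonneg_left h.le (hg x)
    · exact div_nonneg (mul_nonneg (hg x) (hF x)) hθ.le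
  exact Summable.tsum_le_tsum hle
    (Summable.of_nonneg_of_le (fun x => by split_ifs <;> simp [hg x]) hle (hs.div_const θ))
    (hs.div_const θ)

end Union

/-! ### Elementary facts on `intPhiSq` and `cQ` -/

lemma intsel_phi_nonneg {p : ℝ} (hp0 : 0 < p) (hp1 : p < 1) (t : ℝ) : 0 ≤ intPhiSq p t := by
  unfold intPhiSq
  have h1 : Real.sin (Real.pi * t) ^ 2 ≤ 1 := Real.sin_sq_le_one _
  have h2 : 0 ≤ Real.sin (Real.pi * t) ^ 2 := sq_nonneg _
  have h3 : 0 < p * (1 - p) := mul_pos hp0 (by linarith)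
  nlinarith [sq_nonneg (1 - 2 * p)]

lemma intsel_phi_le_one {p : ℝ} (hp0 : 0 < p) (hp1 : p < 1) (t : ℝ) : intPhiSq p t ≤ 1 := by
  unfold intPhiSq
  have h2 : 0 ≤ Real.sin (Real.pi * t) ^ 2 := sq_nonneg _
  have h3 : 0 < p * (1 - p) := mul_pos hp0 (by linarith)
  nlinarith

lemma intsel_cQ_nonneg (p : ℝ) : 0 ≤ cQ p := by
  unfold cQ
  positivity

lemma intsel_cQ_le_one {p : ℝ} (hp0 : 0 < p) (hp1 : p < 1) : cQ p ≤ 1 := by
  unfold cQ
  nlinarith


lemma intsel_prod_le_of_subset {ι : Type*} {I J : Finset ι} (hIJ : I ⊆ J) (f : ι → ℝ)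
    (h0 : ∀ i, 0 ≤ f i) (h1 : ∀ i, f i ≤ 1) : ∏ i ∈ J, f i ≤ ∏ i ∈ I, f i := by
  classical
  rw [← Finset.prod_sdiff hIJ]
  exact mul_le_of_le_one_left (Finset.prod_nonneg fun i _ => h0 i)
    (Finset.prod_le_one (fun i _ => h0 i) fun i _ => h1 i)

/-! ### Choice of one tester -/

section One
variable {m : ℕ}

/-- one more tester: it avoids finitely many bad events. -/
lemma intsel_one (h0 : StGpSummable) (h1 : StGpDualLat) (h2 : StGpTail) (h3 : StIntFourierAvg)
    {p : ℝ} (hp0 : 0 < p) (hp1 : p < 1) (S : EucM m →ₗ[ℝ] EucM m) (K : AddSubgroup (Fin m → ℤ))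
    (hL : IsLat (intLatS S K)) (hS : ∀ x, S x ∈ rspan (intLatS S K))
    (M n0 : ℕ) (R θ : ℝ) (J : Finset (Fin m)) (hR : 0 ≤ R) (hθ : 0 < θ)
    (hsep : ∀ u : ℤ, u ≠ 0 → |u| ≤ (M : ℤ) → ∃ I' ⊆ J, n0 ≤ I'.card ∧ IntSep S K u R I')
    {A : Type*} (T : Finset A) (u : A → ℤ) (s : A → Fin m → ℝ)
    (hT : ∀ a ∈ T, u a ≠ 0 ∧ |u a| ≤ (M : ℤ))
    (hc : (T.card : ℝ) * ((cQ p ^ n0 +
            (2 : ℝ) ^ ((latRank (intLatS S K) : ℝ) / 2) * Real.exp (-(Real.pi * R ^ 2 / 2))) / θ) +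
          (2 : ℝ) ^ ((latRank (intLatS S K) : ℝ) / 2) * Real.exp (-(Real.pi * R ^ 2 / 2)) < 1) :
    ∃ y : EucM m, y ∈ latDual (intLatS S K) ∧ ‖y‖ ≤ R ∧ ∀ a ∈ T,
      ∏ i ∈ J, intPhiSq p ((u a : ℝ) * ⟪y, S (EuclideanSpace.single i 1)⟫ + s a i) ≤ θ := by
  classical
  set L := intLatS S K with hLdef
  obtain ⟨hD, hDspan⟩ := h1 m L hL
  have hrank : latRank (latDual L) = latRank L := by rw [latRank, latRank, hDspan]
  set c0 : ℝ := (2 : ℝ) ^ ((latRank L : ℝ) / 2) * Real.exp (-(Real.pi * R ^ 2 / 2)) with hc0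
  have hc0nn : 0 ≤ c0 := by positivity
  set g : latDual L → ℝ := fun y => intGw (y : EucM m) with hg
  have hgpos : ∀ y, 0 < g y := fun y => Real.exp_pos _
  have hgnn : ∀ y, 0 ≤ g y := fun y => (hgpos y).le
  have hsum : Summable g := h0 m (latDual L) hD
  have hZ : 0 < ∑' y, g y := hsum.tsum_pos hgnn 0 (hgpos 0)
  set F : A → latDual L → ℝ := fun a y =>
    ∏ i ∈ J, intPhiSq p ((u a : ℝ) * ⟪(y : EucM m), S (EuclideanSpace.single i 1)⟫ + s a i) with hF
  have hFnn : ∀ a y, 0 ≤ F a y := fun a y =>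
    Finset.prod_nonneg fun i _ => intsel_phi_nonneg hp0 hp1 _
  have hFle : ∀ a y, F a y ≤ 1 := fun a y =>
    Finset.prod_le_one (fun i _ => intsel_phi_nonneg hp0 hp1 _) fun i _ => intsel_phi_le_one hp0 hp1 _
  have hsF : ∀ a, Summable fun y => g y * F a y := fun a =>
    Summable.of_nonneg_of_le (fun y => mul_nonneg (hgnn y) (hFnn a y))
      (fun y => mul_le_of_le_one_right (hgnn y) (hFle a y)) hsum
  have hbad : ∀ a ∈ T, ∑' y, (if θ < F a y then g y else 0) ≤
      ((cQ p ^ n0 + c0) / θ) * ∑' y, g y := by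
    intro a ha
    obtain ⟨hu0, huM⟩ := hT a ha
    obtain ⟨I', hI'J, hn0, hI'⟩ := hsep (u a) hu0 huM
    have hav := h3 p hp0 hp1 m S K hL hS (u a) R hR I' hI' (s a)
    have hF' : ∀ y : latDual L, g y * F a y ≤ g y *
        ∏ i ∈ I', intPhiSq p ((u a : ℝ) * ⟪(y : EucM m), S (EuclideanSpace.single i 1)⟫ + s a i) :=
      fun y => mul_le_mul_of_nonneg_left
        (intsel_prod_le_of_subset hI'J _ (fun i => intsel_phi_nonneg hp0 hp1 _)
          (fun i => intsel_phi_le_one hp0 hp1 _)) (hgnn y)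
    have hsF' : Summable fun y : latDual L => g y *
        ∏ i ∈ I', intPhiSq p ((u a : ℝ) * ⟪(y : EucM m), S (EuclideanSpace.single i 1)⟫ + s a i) :=
      Summable.of_nonneg_of_le
        (fun y => mul_nonneg (hgnn y) (Finset.prod_nonneg fun i _ => intsel_phi_nonneg hp0 hp1 _))
        (fun y => mul_le_of_le_one_right (hgnn y)
          (Finset.prod_le_one (fun i _ => intsel_phi_nonneg hp0 hp1 _)
            fun i _ => intsel_phi_le_one hp0 hp1 _)) hsum
    have hQ : cQ p ^ I'.card ≤ cQ p ^ n0 :=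
      pow_le_pow_of_le_one (intsel_cQ_nonneg p) (intsel_cQ_le_one hp0 hp1) hn0
    calc ∑' y, (if θ < F a y then g y else 0) ≤ (∑' y, g y * F a y) / θ :=
          intsel_markov hgnn (hFnn a) (hsF a) hθ
      _ ≤ ((cQ p ^ I'.card + c0) * ∑' y, g y) / θ := by
          gcongr
          exact ((hsF a).tsum_le_tsum hF' hsF').trans hav
      _ ≤ ((cQ p ^ n0 + c0) * ∑' y, g y) / θ := by gcongr
      _ = _ := by ring
  have htail : ∑' y : latDual L, (if R < ‖(y : EucM m)‖ then g y else 0) ≤ c0 * ∑' y, g y := by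
    have := h2 m (latDual L) hD R hR
    rwa [hrank] at this
  obtain ⟨y, hy0, hyT⟩ := intsel_exists_good hgnn hsum hZ T (fun a y => θ < F a y)
    (fun y => R < ‖(y : EucM m)‖) (fun _ => (cQ p ^ n0 + c0) / θ) c0 hbad htail
    (by simpa [Finset.sum_const, nsmul_eq_mul] using hc)
  exact ⟨y, y.2, not_lt.mp hy0, fun a ha => not_lt.mp (hyT a ha)⟩

end One

lemma intsel_card_box (j M : ℕ) :
    (((Fintype.piFinset fun _ : Fin j => Finset.Icc (-(M : ℤ)) M) ×ˢ
      ((Finset.Icc (-(M : ℤ)) M).filter (· ≠ 0))).card : ℝ) ≤ (2 * M + 1 : ℝ) ^ (j + 1) := by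
  have hI : (Finset.Icc (-(M : ℤ)) M).card = 2 * M + 1 := by
    rw [Int.card_Icc]
    omega
  rw [Finset.card_product, Fintype.card_piFinset, Finset.prod_const, Finset.card_univ,
    Fintype.card_fin, hI, pow_succ]
  have h2 : ((Finset.Icc (-(M : ℤ)) M).filter (· ≠ 0)).card ≤ 2 * M + 1 :=
    (Finset.card_filter_le _ _).trans hI.le
  push_cast
  gcongr
  exact_mod_cast h2

/-- **Leaf D6 (sequential selection of the testers, B (4.13)-(4.14)).** -/
theorem int_select (h0 : StGpSummable) (h1 : StGpDualLat) (h2 : StGpTail) (h3 : StIntFourierAvg) :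
    StIntSelect := by
  intro p hp0 hp1 m S K hL hS k M n0 R θ J hR hθ hsep hnum
  set c0 : ℝ := (2 : ℝ) ^ ((latRank (intLatS S K) : ℝ) / 2) * Real.exp (-(Real.pi * R ^ 2 / 2))
    with hc0
  have hc0nn : 0 ≤ c0 := by positivity
  have hc1nn : 0 ≤ (cQ p ^ n0 + c0) / θ :=
    div_nonneg (add_nonneg (pow_nonneg (intsel_cQ_nonneg p) _) hc0nn) hθ.le
  induction k with
  | zero =>
    refine ⟨fun g => g.elim0, fun g => g.elim0, fun w hw => ?_⟩
    exact absurd (Subsingleton.elim w 0) hw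
  | succ j ih =>
    have hM1 : (1 : ℝ) ≤ 2 * M + 1 := by
      have : (0 : ℝ) ≤ M := Nat.cast_nonneg M
      linarith
    have hnum' : (2 * M + 1 : ℝ) ^ j * (cQ p ^ n0 + c0) / θ + c0 < 1 := by
      refine lt_of_le_of_lt ?_ hnum
      have : (2 * M + 1 : ℝ) ^ j ≤ (2 * M + 1 : ℝ) ^ (j + 1) := pow_le_pow_right₀ hM1 (Nat.le_succ j)
      rw [mul_div_assoc, mul_div_assoc]
      gcongr
    obtain ⟨y', hy', hw'⟩ := ih hnum'
    set T := (Fintype.piFinset fun _ : Fin j => Finset.Icc (-(M : ℤ)) M) ×ˢ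
      ((Finset.Icc (-(M : ℤ)) M).filter (· ≠ 0)) with hT
    obtain ⟨y, hyD, hyR, hyT⟩ := intsel_one h0 h1 h2 h3 hp0 hp1 S K hL hS M n0 R θ J hR hθ hsep T
      (fun a => a.2) (fun a i => ∑ g, (a.1 g : ℝ) * ⟪y' g, S (EuclideanSpace.single i 1)⟫)
      (by
        intro a ha
        rw [hT, Finset.mem_product, Finset.mem_filter, Finset.mem_Icc] at ha
        exact ⟨ha.2.2, abs_le.mpr ha.2.1⟩)
      (by
        show (T.card : ℝ) * ((cQ p ^ n0 + c0) / θ) + c0 < 1
        have hcard : (T.card : ℝ) ≤ (2 * M + 1 : ℝ) ^ (j + 1) := intsel_card_box j M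
        have h5 : (T.card : ℝ) * ((cQ p ^ n0 + c0) / θ) ≤
            (2 * M + 1 : ℝ) ^ (j + 1) * ((cQ p ^ n0 + c0) / θ) :=
          mul_le_mul_of_nonneg_right hcard hc1nn
        have h6 : (2 * M + 1 : ℝ) ^ (j + 1) * (cQ p ^ n0 + c0) / θ =
            (2 * M + 1 : ℝ) ^ (j + 1) * ((cQ p ^ n0 + c0) / θ) := mul_div_assoc _ _ _
        rw [h6] at hnum
        linarith)
    refine ⟨Fin.snoc (α := fun _ => EucM m) y' y, fun g => ?_, fun w hw hwM => ?_⟩
    · refine Fin.lastCases ?_ (fun g' => ?_) g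
      · simpa using ⟨hyD, hyR⟩
      · simpa using hy' g'
    · have hsumeq : ∀ i, ∑ g, (w g : ℝ) *
          ⟪Fin.snoc (α := fun _ => EucM m) y' y g, S (EuclideanSpace.single i 1)⟫ =
          (w (Fin.last j) : ℝ) * ⟪y, S (EuclideanSpace.single i 1)⟫ +
            ∑ g : Fin j, (w g.castSucc : ℝ) * ⟪y' g, S (EuclideanSpace.single i 1)⟫ := by
        intro i
        rw [Fin.sum_univ_castSucc, add_comm]
        simp
      simp_rw [hsumeq]
      by_cases hu : w (Fin.last j) = 0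
      · have hw0 : (fun g : Fin j => w g.castSucc) ≠ 0 := by
          intro h
          apply hw
          ext g
          refine Fin.lastCases ?_ (fun g' => ?_) g
          · simpa using hu
          · simpa using congrFun h g'
        have := hw' (fun g => w g.castSucc) hw0 (fun g => hwM _)
        simpa [hu] using this
      · refine hyT (fun g => w g.castSucc, w (Fin.last j)) ?_
        rw [hT, Finset.mem_product, Finset.mem_filter, Finset.mem_Icc, Fintype.mem_piFinset]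
        exact ⟨fun g => Finset.mem_Icc.mpr (abs_le.mp (hwM _)), abs_le.mp (hwM _), hu⟩

end Claimed.Agent.R293
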