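/-
R293 / IntSepIndex.lean (owner: helper103).  Leaf INT-D3 index: end of the proof of B Lemma 4.2.
-/
import Claimed.Agent.R293.IntDefs
import Claimed.Agent.R293.IntScale
import Claimed.Agent.R293.LatGram

set_option autoImplicit false

namespace Claimed.Agent.R293

open Submodule Module
open scoped RealInnerProductSpace

section Emb
variable {k m : ℕ}

/-- left embedding `x ↦ (x, 0)`. -/
noncomputable def isxL (k m : ℕ) : EucM k →ₗ[ℝ] EucM (k + m) where
  toFun x := WithLp.toLp 2 (Fin.append (fun i => x i) (fun _ => 0))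
  map_add' x y := by
    ext i
    refine Fin.addCases (fun j => ?_) (fun j => ?_) i <;> simp
  map_smul' c x := by
    ext i
    refine Fin.addCases (fun j => ?_) (fun j => ?_) i <;> simp

/-- right embedding `y ↦ (0, y)`. -/
noncomputable def isxR (k m : ℕ) : EucM m →ₗ[ℝ] EucM (k + m) where
  toFun x := WithLp.toLp 2 (Fin.append (fun _ => 0) (fun i => x i))
  map_add' x y := by
    ext i
    refine Fin.addCases (fun j => ?_) (fun j => ?_) i <;> simp
  map_smul' c x := by
    ext i
    refine Fin.addCases (fun j => ?_) (fun j => ?_) i <;> simp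

@[simp] theorem isxL_left (x : EucM k) (i : Fin k) : isxL k m x (Fin.castAdd m i) = x i := by
  simp [isxL]
@[simp] theorem isxL_right (x : EucM k) (i : Fin m) : isxL k m x (Fin.natAdd k i) = 0 := by
  simp [isxL]
@[simp] theorem isxR_left (x : EucM m) (i : Fin k) : isxR k m x (Fin.castAdd m i) = 0 := by
  simp [isxR]
@[simp] theorem isxR_right (x : EucM m) (i : Fin m) : isxR k m x (Fin.natAdd k i) = x i := by
  simp [isxR]

theorem isx_inner_LL (x y : EucM k) : ⟪isxL k m x, isxL k m y⟫ = ⟪x, y⟫ := by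
  simp [PiLp.inner_apply, Fin.sum_univ_add]
theorem isx_inner_RR (x y : EucM m) : ⟪isxR k m x, isxR k m y⟫ = ⟪x, y⟫ := by
  simp [PiLp.inner_apply, Fin.sum_univ_add]
theorem isx_inner_LR (x : EucM k) (y : EucM m) : ⟪isxL k m x, isxR k m y⟫ = 0 := by
  simp [PiLp.inner_apply, Fin.sum_univ_add]
theorem isx_inner_RL (x : EucM m) (y : EucM k) : ⟪isxR k m x, isxL k m y⟫ = 0 := by
  simp [PiLp.inner_apply, Fin.sum_univ_add]

theorem isx_norm_L (x : EucM k) : ‖isxL k m x‖ = ‖x‖ := by
  rw [← sq_eq_sq₀ (norm_nonneg _) (norm_nonneg _), ← real_inner_self_eq_norm_sq,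
    ← real_inner_self_eq_norm_sq, isx_inner_LL]
theorem isx_norm_R (x : EucM m) : ‖isxR k m x‖ = ‖x‖ := by
  rw [← sq_eq_sq₀ (norm_nonneg _) (norm_nonneg _), ← real_inner_self_eq_norm_sq,
    ← real_inner_self_eq_norm_sq, isx_inner_RR]

theorem isx_vecR_append (c : Fin k → ℤ) (e : Fin m → ℤ) :
    vecR (Fin.append c e) = isxL k m (vecR c) + isxR k m (vecR e) := by
  ext i
  refine Fin.addCases (fun j => ?_) (fun j => ?_) i <;> simp [vecR]

/-- projection off `0 ⊕ F`. -/
theorem isx_perpProj (F : Submodule ℝ (EucM m)) (x : EucM k) (y : EucM m) :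
    perpProj (F.map (isxR k m)) (isxL k m x + isxR k m y) = isxL k m x + isxR k m (perpProj F y) := by
  have h1 : isxL k m x + isxR k m (perpProj F y) ∈ (F.map (isxR k m))ᗮ := by
    rw [Submodule.mem_orthogonal]
    rintro _ ⟨w, hw, rfl⟩
    rw [inner_add_right, isx_inner_RL, isx_inner_RR, zero_add]
    exact Submodule.inner_right_of_mem_orthogonal hw (lat_perpProj_apply_mem F y)
  have h2 : isxR k m (y - perpProj F y) ∈ F.map (isxR k m) :=
    Submodule.mem_map_of_mem (lat_sub_perpProj_mem F y)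
  have h3 : isxL k m x + isxR k m y =
      (isxL k m x + isxR k m (perpProj F y)) + isxR k m (y - perpProj F y) := by
    rw [map_sub]; abel
  rw [h3, map_add, lat_perpProj_eq_self h1, lat_perpProj_eq_zero h2, add_zero]

end Emb

section VecR
variable {n : ℕ}

theorem isx_vecR_add (x y : Fin n → ℤ) : vecR (x + y) = vecR x + vecR y := by
  ext i; simp [vecR]

theorem isx_vecR_zero : vecR (0 : Fin n → ℤ) = 0 := by
  ext i; simp [vecR]

theorem isx_vecR_neg (x : Fin n → ℤ) : vecR (-x) = -vecR x := by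
  ext i; simp [vecR]

theorem isx_vecR_zsmul (a : ℤ) (x : Fin n → ℤ) : vecR (a • x) = (a : ℝ) • vecR x := by
  ext i; simp [vecR]

theorem isx_vecR_sum {ι : Type*} (t : Finset ι) (x : ι → Fin n → ℤ) :
    vecR (∑ i ∈ t, x i) = ∑ i ∈ t, vecR (x i) := by
  classical
  induction t using Finset.induction_on with
  | empty => simp [isx_vecR_zero]
  | insert a t ha ih => rw [Finset.sum_insert ha, Finset.sum_insert ha, isx_vecR_add, ih]

theorem isx_vecR_eq_sum (x : Fin n → ℤ) :
    vecR x = ∑ h, (x h : ℝ) • (EuclideanSpace.single h (1 : ℝ) : EucM n) := by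
  ext i
  simp [vecR, Finset.sum_apply, Pi.single_apply]

theorem isx_norm_vecR_le (x : Fin n → ℤ) (hx : ∀ h, x h = 0 ∨ x h = 1 ∨ x h = -1) :
    ‖vecR x‖ ≤ Real.sqrt n := by
  rw [EuclideanSpace.norm_eq]
  apply Real.sqrt_le_sqrt
  calc ∑ i, ‖vecR x i‖ ^ 2 ≤ ∑ _i : Fin n, (1 : ℝ) := by
        refine Finset.sum_le_sum fun i _ => ?_
        rcases hx i with h | h | h <;> simp [vecR, h]
    _ = n := by simp

end VecR

section Data
variable {m f : ℕ}

/-- `(c_i, ε_i) ∈ ℤ^{m+m}`. -/
def isxM (c ε : Fin m → Fin m → ℤ) (i : Fin m) : Fin (m + m) → ℤ := Fin.append (c i) (ε i)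
/-- `(0, z_a)`. -/
def isxZ (z : Fin f → Fin m → ℤ) (a : Fin f) : Fin (m + m) → ℤ := Fin.append 0 (z a)
/-- columns of `M B`. -/
def isxCol (B : Matrix (Fin m) (Fin m) ℤ) (c ε : Fin m → Fin m → ℤ) (v : Fin m) : Fin (m + m) → ℤ :=
  ∑ i, B i v • isxM c ε i
/-- `0 ⊕ F`. -/
noncomputable def isxFt (z : Fin f → Fin m → ℤ) : Submodule ℝ (EucM (m + m)) :=
  (intSpan z).map (isxR m m)
/-- projection of `(c_i, ε_i)` off `0 ⊕ F`. -/
noncomputable def isxP (z : Fin f → Fin m → ℤ) (c ε : Fin m → Fin m → ℤ) (i : Fin m) : EucM (m + m) :=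
  isxL m m (vecR (c i)) + isxR m m (perpProj (intSpan z) (vecR (ε i)))
/-- projection of the columns of `M B`. -/
noncomputable def isxW (B : Matrix (Fin m) (Fin m) ℤ) (z : Fin f → Fin m → ℤ) (c ε : Fin m → Fin m → ℤ)
    (v : Fin m) : EucM (m + m) :=
  ∑ i, (B i v : ℝ) • isxP z c ε i

theorem isx_proj_M (z : Fin f → Fin m → ℤ) (c ε : Fin m → Fin m → ℤ) (i : Fin m) :
    perpProj (isxFt z) (vecR (isxM c ε i)) = isxP z c ε i := by
  unfold isxM isxFt isxP
  rw [isx_vecR_append, isx_perpProj]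

theorem isx_proj_Col (B : Matrix (Fin m) (Fin m) ℤ) (z : Fin f → Fin m → ℤ) (c ε : Fin m → Fin m → ℤ)
    (v : Fin m) : perpProj (isxFt z) (vecR (isxCol B c ε v)) = isxW B z c ε v := by
  unfold isxCol isxW
  rw [isx_vecR_sum, map_sum]
  refine Finset.sum_congr rfl fun i _ => ?_
  rw [isx_vecR_zsmul, map_smul, isx_proj_M]

theorem isx_vecR_Z (z : Fin f → Fin m → ℤ) (a : Fin f) : vecR (isxZ z a) = isxR m m (vecR (z a)) := by
  unfold isxZ
  rw [isx_vecR_append, isx_vecR_zero, map_zero, zero_add]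

theorem isx_span_Z (z : Fin f → Fin m → ℤ) : intSpan (isxZ z) = isxFt z := by
  unfold intSpan isxFt intSpan
  rw [Submodule.map_span, ← Set.range_comp]
  congr 2
  funext a
  exact isx_vecR_Z z a

theorem isx_gram_Z (z : Fin f → Fin m → ℤ) : intGram (isxZ z) = intGram z := by
  unfold intGram gramDet
  congr 1
  ext a a'
  rw [Matrix.gram_apply, Matrix.gram_apply, isx_vecR_Z, isx_vecR_Z, isx_inner_RR]


/-- norm of the projected generators. -/
theorem isx_norm_P {z : Fin f → Fin m → ℤ} {W0 : Submodule ℝ (EucM m)} (hW : W0 ≤ (intSpan z)ᗮ)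
    {a b R : ℝ} (hb : 0 < b) (hab : b ≤ a) {c ε : Fin m → Fin m → ℤ}
    (hc : ∀ i h, c i h = 0 ∨ c i h = 1 ∨ c i h = -1)
    (he : ∀ i, ‖intScale a b (intSpan z) W0 (vecR (ε i))‖ ≤ R) (i : Fin m) :
    ‖isxP z c ε i‖ ≤ Real.sqrt m + R / b := by
  unfold isxP
  refine (norm_add_le _ _).trans ?_
  rw [isx_norm_L, isx_norm_R]
  refine add_le_add (isx_norm_vecR_le _ (hc i)) ?_
  refine (intScale_perpProj_norm_le a b hW hb hab _).trans ?_
  exact div_le_div_of_nonneg_right (he i) hb.le

/-- norm of the projected columns. -/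
theorem isx_norm_W {B : Matrix (Fin m) (Fin m) ℤ} (hB : ∀ i j, B i j = 0 ∨ B i j = 1)
    {z : Fin f → Fin m → ℤ} {c ε : Fin m → Fin m → ℤ} {ρ : ℝ} (hρ : ∀ i, ‖isxP z c ε i‖ ≤ ρ)
    (v : Fin m) : ‖isxW B z c ε v‖ ≤ (m : ℝ) * ρ := by
  unfold isxW
  refine (norm_sum_le _ _).trans ?_
  calc ∑ i, ‖(B i v : ℝ) • isxP z c ε i‖ ≤ ∑ _i : Fin m, ρ := by
        refine Finset.sum_le_sum fun i _ => ?_
        rw [norm_smul]
        have h0 : 0 ≤ ρ := (norm_nonneg _).trans (hρ i)
        rcases hB i v with h | h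
        · simp [h, h0]
        · simpa [h] using hρ i
    _ = (m : ℝ) * ρ := by simp

/-- the projected columns span a space of dimension at most `|I| + t`. -/
theorem isx_finrank_W (B : Matrix (Fin m) (Fin m) ℤ) (z : Fin f → Fin m → ℤ) {c ε : Fin m → Fin m → ℤ}
    {I : Finset (Fin m)} (hc : ∀ i h, h ∉ I → c i h = 0) :
    finrank ℝ (span ℝ (Set.range (isxW B z c ε))) ≤ I.card + intErrRank z ε := by
  classical
  set U1 : Submodule ℝ (EucM m) :=
    span ℝ ((I.image fun h => (EuclideanSpace.single h (1 : ℝ) : EucM m) : Finset (EucM m)) : Set (EucM m))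
    with hU1
  set U2 : Submodule ℝ (EucM m) := span ℝ (Set.range fun i => perpProj (intSpan z) (vecR (ε i))) with hU2
  have hP : ∀ i, isxP z c ε i ∈ U1.map (isxL m m) ⊔ U2.map (isxR m m) := by
    intro i
    unfold isxP
    refine Submodule.add_mem_sup (Submodule.mem_map_of_mem ?_) (Submodule.mem_map_of_mem ?_)
    · rw [isx_vecR_eq_sum]
      refine Submodule.sum_mem _ fun h _ => ?_
      by_cases hh : h ∈ I
      · refine Submodule.smul_mem _ _ (Submodule.subset_span ?_)
        rw [Finset.coe_image]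
        exact ⟨h, hh, rfl⟩
      · rw [hc i h hh]
        simp
    · exact Submodule.subset_span ⟨i, rfl⟩
  have hle : span ℝ (Set.range (isxW B z c ε)) ≤ U1.map (isxL m m) ⊔ U2.map (isxR m m) := by
    rw [Submodule.span_le]
    rintro _ ⟨v, rfl⟩
    exact Submodule.sum_mem _ fun i _ => Submodule.smul_mem _ _ (hP i)
  have h1 : finrank ℝ U1 ≤ I.card :=
    (finrank_span_finset_le_card _).trans Finset.card_image_le
  calc finrank ℝ (span ℝ (Set.range (isxW B z c ε)))
      ≤ finrank ℝ (U1.map (isxL m m) ⊔ U2.map (isxR m m) : Submodule ℝ (EucM (m + m))) :=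
        Submodule.finrank_mono hle
    _ ≤ finrank ℝ (U1.map (isxL m m)) + finrank ℝ (U2.map (isxR m m)) :=
        Submodule.finrank_add_le_finrank_add_finrank _ _
    _ ≤ finrank ℝ U1 + finrank ℝ U2 :=
        add_le_add (Submodule.finrank_map_le _ _) (Submodule.finrank_map_le _ _)
    _ ≤ I.card + intErrRank z ε := add_le_add h1 le_rfl

/-- `det B • (c_j, ε_j)` is an integer combination of the columns of `M B`. -/
theorem isx_det_smul_M (B : Matrix (Fin m) (Fin m) ℤ) (c ε : Fin m → Fin m → ℤ) (j : Fin m) :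
    B.det • isxM c ε j = ∑ v, B.adjugate v j • isxCol B c ε v := by
  classical
  unfold isxCol
  simp_rw [Finset.smul_sum, smul_smul]
  rw [Finset.sum_comm]
  have h : ∀ i, ∑ v, (B.adjugate v j * B i v) • isxM c ε i = ((B.det • (1 : Matrix (Fin m) (Fin m) ℤ)) i j) • isxM c ε i := by
    intro i
    rw [← Matrix.mul_adjugate, Matrix.mul_apply, Finset.sum_smul]
    refine Finset.sum_congr rfl fun v _ => ?_
    rw [mul_comm]
  simp_rw [h]
  simp [Matrix.one_apply, Finset.sum_ite_eq']

/-- the map `(x, y) ↦ u x + y`. -/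
def isxPsi (m : ℕ) (u : ℤ) : (Fin (m + m) → ℤ) →+ (Fin m → ℤ) where
  toFun x := fun i => u * x (Fin.castAdd m i) + x (Fin.natAdd m i)
  map_zero' := by funext i; simp
  map_add' x y := by funext i; simp only [Pi.add_apply]; ring

theorem isxPsi_append (u : ℤ) (c e : Fin m → ℤ) : isxPsi m u (Fin.append c e) = u • c + e := by
  funext i
  show u * Fin.append c e (Fin.castAdd m i) + Fin.append c e (Fin.natAdd m i) = _
  rw [Fin.append_left, Fin.append_right]
  simp

end Data

/-- **Leaf D3-index.** -/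
theorem int_sepIndex (h : StIntIdx) : StIntSepIndex := by
  classical
  intro m B K f z W0 hS a b R ha hb hb1 hR u I c ε hrep
  set ρ : ℝ := Real.sqrt m + R / b with hρ
  set β : ℝ := (m : ℝ) * ρ with hβ
  have hρ0 : 0 ≤ ρ := by positivity
  have hβ0 : 0 ≤ β := by positivity
  have hP : ∀ i, ‖isxP z c ε i‖ ≤ ρ :=
    isx_norm_P hS.W0_le hb (hb1.trans ha) hrep.c_val hrep.err
  have hW : ∀ v, ‖isxW B z c ε v‖ ≤ β := isx_norm_W hS.bit hP
  -- selection of a basis among the projected columns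
  obtain ⟨s, g, hs_le, hg1, hg2, hg3⟩ : ∃ (s : ℕ) (g : Fin s → EucM (m + m)),
      s ≤ I.card + intErrRank z ε ∧ (∀ j, g j ∈ Set.range (isxW B z c ε)) ∧
      span ℝ (Set.range g) = span ℝ (Set.range (isxW B z c ε)) ∧ LinearIndependent ℝ g := by
    obtain ⟨g, hg1, hg2, hg3⟩ :=
      Submodule.exists_fun_fin_finrank_span_eq ℝ (Set.range (isxW B z c ε))
    exact ⟨_, g, isx_finrank_W B z hrep.c_supp, hg1, hg2, hg3⟩
  choose sel hsel using hg1
  have hgsel : g = isxW B z c ε ∘ sel := by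
    funext j; exact (hsel j).symm
  set l : Fin (f + s) → Fin (m + m) → ℤ := Fin.append (isxZ z) (isxCol B c ε ∘ sel) with hl
  have hlR : (fun a => vecR (l a)) =
      Fin.append (fun a => vecR (isxZ z a)) (fun j => vecR (isxCol B c ε (sel j))) := by
    funext a
    refine Fin.addCases (fun j => ?_) (fun j => ?_) a
    · rw [hl, Fin.append_left, Fin.append_left]
    · rw [hl, Fin.append_right, Fin.append_right]; rfl
  have hgram : intGram l = intGram z * gramDet g := by
    have h1 : intGram l = gramDet (fun a => vecR (l a)) := rfl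
    rw [h1, hlR, lat_gramDet_append]
    congr 1
    · exact isx_gram_Z z
    · congr 1
      funext j
      have h2 : span ℝ (Set.range fun a => vecR (isxZ z a)) = isxFt z := isx_span_Z z
      rw [h2, hgsel]
      exact isx_proj_Col B z c ε (sel j)
  have hz0 : 0 < intGram z := lat_gramDet_pos hS.z_ind
  have hg0 : 0 < gramDet g := lat_gramDet_pos hg3
  have hlind : LinearIndependent ℝ fun a => vecR (l a) := by
    rw [← lat_gramDet_ne_zero_iff]
    have : gramDet (fun a => vecR (l a)) = intGram z * gramDet g := hgram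
    rw [this]
    positivity
  have hgle : gramDet g ≤ (β ^ s) ^ 2 := by
    refine (lat_gramDet_le_prod g).trans ?_
    calc ∏ j, ‖g j‖ ^ 2 ≤ ∏ _j : Fin s, β ^ 2 := by
          refine Finset.prod_le_prod (fun j _ => by positivity) fun j _ => ?_
          rw [← hsel j]
          exact pow_le_pow_left₀ (norm_nonneg _) (hW _) 2
      _ = (β ^ s) ^ 2 := by
          rw [Finset.prod_const, Finset.card_univ, Fintype.card_fin, ← pow_mul, ← pow_mul, mul_comm]
  have hsqrt : Real.sqrt (intGram l) ≤ Real.sqrt (intGram z) * β ^ s := by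
    rw [hgram, Real.sqrt_mul hz0.le]
    refine mul_le_mul_of_nonneg_left ?_ (Real.sqrt_nonneg _)
    calc Real.sqrt (gramDet g) ≤ Real.sqrt ((β ^ s) ^ 2) := Real.sqrt_le_sqrt hgle
      _ = β ^ s := Real.sqrt_sq (by positivity)
  -- the group `X`
  set X : AddSubgroup (Fin (m + m) → ℤ) :=
    AddSubgroup.closure (Set.range (isxM c ε) ∪ Set.range (isxZ z)) with hX
  have hMX : ∀ i, isxM c ε i ∈ X := fun i => AddSubgroup.subset_closure (Or.inl ⟨i, rfl⟩)
  have hZX : ∀ a, isxZ z a ∈ X := fun a => AddSubgroup.subset_closure (Or.inr ⟨a, rfl⟩)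
  have hColX : ∀ v, isxCol B c ε v ∈ X := fun v =>
    AddSubgroup.sum_mem _ fun i _ => AddSubgroup.zsmul_mem _ (hMX i) _
  have hlX : ∀ a, l a ∈ X := by
    intro a
    refine Fin.addCases (fun j => ?_) (fun j => ?_) a
    · rw [hl, Fin.append_left]; exact hZX j
    · rw [hl, Fin.append_right]; exact hColX _
  -- the span condition
  have hlZ : ∀ a, vecR (isxZ z a) ∈ intSpan l := by
    intro a
    refine Submodule.subset_span ⟨Fin.castAdd s a, ?_⟩
    show vecR (l (Fin.castAdd s a)) = _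
    rw [hl, Fin.append_left]
  have hFt : isxFt z ≤ intSpan l := by
    rw [← isx_span_Z]
    unfold intSpan
    rw [Submodule.span_le]
    rintro _ ⟨a, rfl⟩
    exact hlZ a
  have hback : ∀ x : EucM (m + m), perpProj (isxFt z) x ∈ intSpan l → x ∈ intSpan l := by
    intro x hx
    have := Submodule.add_mem _ hx (hFt (lat_sub_perpProj_mem (isxFt z) x))
    simpa using this
  have hforw : ∀ x : EucM (m + m), x ∈ intSpan l → perpProj (isxFt z) x ∈ intSpan l := by
    intro x hx
    have := Submodule.sub_mem _ hx (hFt (lat_sub_perpProj_mem (isxFt z) x))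
    simpa using this
  have hgl : ∀ j, g j ∈ intSpan l := by
    intro j
    rw [← hsel j, ← isx_proj_Col]
    refine hforw _ (Submodule.subset_span ⟨Fin.natAdd f j, ?_⟩)
    show vecR (l (Fin.natAdd f j)) = _
    rw [hl, Fin.append_right]; rfl
  have hColl : ∀ v, vecR (isxCol B c ε v) ∈ intSpan l := by
    intro v
    refine hback _ ?_
    rw [isx_proj_Col]
    have h1 : isxW B z c ε v ∈ span ℝ (Set.range g) := by
      rw [hg2]; exact Submodule.subset_span ⟨v, rfl⟩
    have h2 : span ℝ (Set.range g) ≤ intSpan l := by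
      rw [Submodule.span_le]
      rintro _ ⟨j, rfl⟩
      exact hgl j
    exact h2 h1
  have hMl : ∀ i, vecR (isxM c ε i) ∈ intSpan l := by
    intro i
    have hdet : ((B.det : ℤ) : ℝ) ≠ 0 := by exact_mod_cast hS.det_ne
    rw [← Submodule.smul_mem_iff _ hdet, ← isx_vecR_zsmul, isx_det_smul_M, isx_vecR_sum]
    refine Submodule.sum_mem _ fun v _ => ?_
    rw [isx_vecR_zsmul]
    exact Submodule.smul_mem _ _ (hColl v)
  have hspan : ∀ x ∈ X, vecR x ∈ intSpan l := by
    intro x hx
    induction hx using AddSubgroup.closure_induction with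
    | mem x hx =>
      rcases hx with ⟨i, rfl⟩ | ⟨a, rfl⟩
      · exact hMl i
      · exact hlZ a
    | zero => rw [isx_vecR_zero]; exact Submodule.zero_mem _
    | add x y _ _ hx hy => rw [isx_vecR_add]; exact Submodule.add_mem _ hx hy
    | neg x _ hx => rw [isx_vecR_neg]; exact Submodule.neg_mem _ hx
  -- the homomorphism
  set ψ : (Fin (m + m) → ℤ) →+ (Fin m → ℤ) ⧸ K := (QuotientAddGroup.mk' K).comp (isxPsi m u) with hψ
  set φ : (Fin m → ℤ) →+ (Fin m → ℤ) ⧸ K := (QuotientAddGroup.mk' K).comp (zsmulAddGroupHom u) with hφ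
  have hψM : ∀ i, ψ (isxM c ε i) = φ (Pi.single i 1) := by
    intro i
    show QuotientAddGroup.mk' K (isxPsi m u (isxM c ε i)) = QuotientAddGroup.mk' K (u • Pi.single i 1)
    unfold isxM
    rw [isxPsi_append]
    show ((u • c i + ε i : Fin m → ℤ) : (Fin m → ℤ) ⧸ K) = ((u • Pi.single i 1 : Fin m → ℤ) : (Fin m → ℤ) ⧸ K)
    rw [QuotientAddGroup.eq]
    have := hrep.rel i
    have h2 : -(u • c i + ε i) + u • (Pi.single i 1 : Fin m → ℤ) =
        u • (Pi.single i 1 : Fin m → ℤ) - u • c i - ε i := by abel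
    rw [h2]; exact this
  have hψZ : ∀ a, ψ (isxZ z a) = 0 := by
    intro a
    show QuotientAddGroup.mk' K (isxPsi m u (isxZ z a)) = 0
    unfold isxZ
    rw [isxPsi_append]
    show ((u • (0 : Fin m → ℤ) + z a : Fin m → ℤ) : (Fin m → ℤ) ⧸ K) = 0
    rw [QuotientAddGroup.eq_zero_iff, smul_zero, zero_add]
    exact hS.z_mem a
  have hψCol : ∀ v, ψ (isxCol B c ε v) = 0 := by
    intro v
    unfold isxCol
    rw [map_sum]
    simp_rw [map_zsmul, hψM, ← map_zsmul, ← map_sum]
    have h1 : ∑ i, B i v • (Pi.single i 1 : Fin m → ℤ) = B.mulVec (Pi.single v 1) := by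
      rw [Matrix.mulVec_single_one]
      funext i
      simp [Finset.sum_apply, Pi.single_apply, Matrix.col_apply]
    rw [h1]
    show ((u • B.mulVec (Pi.single v 1) : Fin m → ℤ) : (Fin m → ℤ) ⧸ K) = 0
    rw [QuotientAddGroup.eq_zero_iff]
    exact AddSubgroup.zsmul_mem _ (hS.range_le _) _
  have hψl : ∀ a, ψ (l a) = 0 := by
    intro a
    refine Fin.addCases (fun j => ?_) (fun j => ?_) a
    · rw [hl, Fin.append_left]; exact hψZ j
    · rw [hl, Fin.append_right]; exact hψCol _
  obtain ⟨hfin, hcard⟩ := h (m + m) (f + s) X l hlX hlind hspan ((Fin m → ℤ) ⧸ K) ψ hψl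
  -- the index
  have hker : intColon K u = φ.ker := by
    unfold intColon
    rw [hφ, ← AddMonoidHom.comap_ker, QuotientAddGroup.ker_mk']
  have hrange : φ.range ≤ X.map ψ := by
    rintro _ ⟨x, rfl⟩
    have hx : x = ∑ i, x i • (Pi.single i 1 : Fin m → ℤ) := by
      funext j
      simp [Finset.sum_apply, Pi.single_apply]
    rw [hx, map_sum]
    refine AddSubgroup.sum_mem _ fun i _ => ?_
    rw [map_zsmul]
    refine AddSubgroup.zsmul_mem _ ?_ _
    rw [← hψM i]
    exact AddSubgroup.mem_map_of_mem _ (hMX i)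
  have hidx : (intColon K u).index ≤ Nat.card (X.map ψ) := by
    rw [hker, AddSubgroup.index_ker]
    exact AddSubgroup.card_le_of_le hrange
  have hpow : β ^ s ≤ β ^ (I.card + intErrRank z ε) := by
    rcases Nat.eq_zero_or_pos m with hm | hm
    · subst hm
      have h1 : I.card = 0 := by
        rw [Finset.card_eq_zero]; exact Finset.eq_empty_of_isEmpty I
      have h2 : intErrRank z ε = 0 := by
        unfold intErrRank
        rw [Set.range_eq_empty, Submodule.span_empty, finrank_bot]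
      have h3 : s = 0 := by omega
      rw [h1, h2, h3]
    · refine pow_le_pow_right₀ ?_ hs_le
      have h1 : (1 : ℝ) ≤ m := by exact_mod_cast hm
      have h2 : (1 : ℝ) ≤ Real.sqrt m := by
        rw [Real.one_le_sqrt]; exact h1
      have h3 : 0 ≤ R / b := by positivity
      have h4 : (1 : ℝ) ≤ ρ := by rw [hρ]; linarith
      calc (1 : ℝ) = 1 * 1 := by ring
        _ ≤ (m : ℝ) * ρ := mul_le_mul h1 h4 zero_le_one (by positivity)
  calc ((intColon K u).index : ℝ) ≤ (Nat.card (X.map ψ) : ℝ) := by exact_mod_cast hidx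
    _ ≤ Real.sqrt (intGram l) := hcard
    _ ≤ Real.sqrt (intGram z) * β ^ s := hsqrt
    _ ≤ Real.sqrt (intGram z) * β ^ (I.card + intErrRank z ε) :=
        mul_le_mul_of_nonneg_left hpow (Real.sqrt_nonneg _)

end Claimed.Agent.R293
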