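/-
R293 / IntSepRank.lean  (owner: helper16).  Leaf INT-D3 rank (B (4.11)): few independent errors.
Pick `t` errors whose projections to `Fᗮ` are independent; `gramDet (z ++ ε) = intGram z * gramDet (π ε) ≥ 1`
(positive integer); `StIntVol` bounds `gramDet (S ε)` from below and Hadamard from above.
-/
import Claimed.Agent.R293.IntScale
import Claimed.Agent.R293.LatInt
import Claimed.Agent.R293.LatEnum

set_option autoImplicit false

namespace Claimed.Agent.R293

open Submodule Module
open scoped RealInnerProductSpace

/-- Gram determinants of independent integer vectors are `≥ 1`. -/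
theorem int_sepRank_one_le {m r : ℕ} (c : Fin r → EucM m) (hc : ∀ i, c i ∈ intLat m)
    (hli : LinearIndependent ℝ c) : 1 ≤ gramDet c := by
  have hb : IsLatBasis c (span ℤ (Set.range c)) := lat_isLatBasis_span hli
  have hle : span ℤ (Set.range c) ≤ intLat m := by
    rw [span_le]
    rintro _ ⟨i, rfl⟩
    exact hc i
  have h1 := latInt_sub_one_le_det hle
  rw [← lat_det_sq hb]
  nlinarith

theorem int_sepRank (h : StIntVol) : StIntSepRank := by
  intro m B K f z W0 hS a b R ha hb hb1 hR ε hε
  set F : Submodule ℝ (EucM m) := intSpan z with hF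
  set t : ℕ := intErrRank z ε with ht
  have hab : b ≤ a := hb1.trans ha
  have ha0 : 0 < a := lt_of_lt_of_le one_pos ha
  -- independent projected errors
  obtain ⟨w, hw, hwS⟩ := lat_enum_exists_family
    (Set.range fun i => perpProj F (vecR (ε i))) (n := t) rfl
  choose σ hσ using hwS
  set e : Fin t → EucM m := fun j => vecR (ε (σ j)) with he
  have hwe : w = perpProj F ∘ e := by
    funext j
    exact (hσ j).symm
  -- the Gram determinant of `z ++ e`
  have hG : intGram z * gramDet w = gramDet (Fin.append (fun i => vecR (z i)) e) := by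
    rw [lat_gramDet_append, hwe]
    rfl
  have hGz : 0 < intGram z := lat_gramDet_pos hS.z_ind
  have hGw : 0 < gramDet w := lat_gramDet_pos hw
  have hli : LinearIndependent ℝ (Fin.append (fun i => vecR (z i)) e) := by
    rw [← lat_gramDet_ne_zero_iff, ← hG]
    positivity
  have hone : 1 ≤ intGram z * gramDet w := by
    rw [hG]
    refine int_sepRank_one_le _ (fun i => ?_) hli
    refine Fin.addCases (fun j => ?_) (fun j => ?_) i
    · rw [Fin.append_left]; exact latInt_vecR_mem _
    · rw [Fin.append_right]; exact latInt_vecR_mem _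
  -- volume expansion and Hadamard
  have hvol := h m F W0 hS.W0_le a b hb hab t w (fun j => by
    rw [hwe]; exact lat_perpProj_apply_mem F _)
  have hSw : (fun j => intScale a b F W0 (w j)) = fun j => intScale a b F W0 (e j) := by
    funext j
    rw [hwe]
    exact intScale_perpProj a b hS.W0_le _
  rw [hSw] at hvol
  have hhad : gramDet (fun j => intScale a b F W0 (e j)) ≤ R ^ (2 * t) := by
    refine (lat_gramDet_le_prod _).trans ?_
    calc ∏ j : Fin t, ‖intScale a b F W0 (e j)‖ ^ 2 ≤ ∏ _j : Fin t, R ^ 2 :=
          Finset.prod_le_prod (fun j _ => by positivity)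
            fun j _ => pow_le_pow_left₀ (norm_nonneg _) (hε (σ j)) 2
      _ = R ^ (2 * t) := by simp [pow_mul]
  -- dimension of `Fᗮ`
  have hdim : finrank ℝ (Fᗮ : Submodule ℝ (EucM m)) = m - f := by
    have h4 := Submodule.finrank_add_finrank_orthogonal F
    have h5 : finrank ℝ F = f := by
      rw [hF]
      unfold intSpan
      rw [finrank_span_eq_card hS.z_ind, Fintype.card_fin]
    have h6 : finrank ℝ (EucM m) = m := by simp
    rw [h5, h6] at h4
    omega
  rw [hdim] at hvol
  set X : ℝ := a ^ t * (b / a) ^ (m - f - finrank ℝ W0) with hX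
  have hX0 : 0 ≤ X := by positivity
  have hXsq : X ^ 2 = a ^ (2 * t) * (b / a) ^ (2 * (m - f - finrank ℝ W0)) := by
    rw [hX, mul_pow, ← pow_mul, ← pow_mul, mul_comm t 2, mul_comm (m - f - finrank ℝ W0) 2]
  have hmain : X ^ 2 ≤ intGram z * R ^ (2 * t) := by
    have h1 : X ^ 2 * gramDet w ≤ R ^ (2 * t) := by
      rw [hXsq]
      exact hvol.trans hhad
    calc X ^ 2 ≤ X ^ 2 * (intGram z * gramDet w) := le_mul_of_one_le_right (by positivity) hone
      _ = intGram z * (X ^ 2 * gramDet w) := by ring
      _ ≤ intGram z * R ^ (2 * t) := mul_le_mul_of_nonneg_left h1 hGz.le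
  have hR2 : (Real.sqrt (intGram z) * R ^ t) ^ 2 = intGram z * R ^ (2 * t) := by
    rw [mul_pow, Real.sq_sqrt hGz.le, ← pow_mul, mul_comm t 2]
  have hfin : X ^ 2 ≤ (Real.sqrt (intGram z) * R ^ t) ^ 2 := by
    rw [hR2]
    exact hmain
  exact (abs_le_of_sq_le_sq' hfin (by positivity)).2

end Claimed.Agent.R293
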