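/-
R293 / IntStruct.lean  (owner: helper74).  Leaf D1 of the package INT (paper B, (4.1)-(4.3)):
a lattice `K ≤ ℤ^m` one of whose cosets contains `≥ 2^{αN}` cube points contains `≥ αN/2` independent vectors with
Gram determinant `≤ exp (2 N ℓ²)`.
Inputs: determinant threshold sublattice (LatMin.lean), quotients (LatQuot.lean), Reverse Minkowski in ball count form
(`StRMBall τ`, `CovTauOK τ` of CovIface.lean), cube points in an affine subspace (RobustExtract.lean).
-/
import Claimed.Agent.R293.IntDefs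
import Claimed.Agent.R293.CovIface
import Claimed.Agent.R293.LatMin
import Claimed.Agent.R293.LatInt
import Claimed.Agent.R293.RobustExtract

set_option autoImplicit false

namespace Claimed.Agent.R293

open Filter Submodule Module
open scoped RealInnerProductSpace

section Core
variable {m : ℕ}

theorem intst_vecR_sub (a b : Fin m → ℤ) : vecR (a - b) = vecR a - vecR b := by
  ext i
  simp [vecR]

theorem intst_vecR_apply (a : Fin m → ℤ) (i : Fin m) : vecR a i = (a i : ℝ) := rfl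

/-- the identification `ℝ^m → EucM m`. -/
noncomputable def intstEuc (m : ℕ) : (Fin m → ℝ) ≃ₗ[ℝ] EucM m := (WithLp.linearEquiv 2 ℝ (Fin m → ℝ)).symm

theorem intst_euc_bitVec (z : Fin m → Bool) : intstEuc m (bitVec z) = vecR (bitVecZ z) := by
  ext i
  change bitVec z i = ((bitVecZ z i : ℤ) : ℝ)
  unfold bitVec bitVecZ
  split_ifs <;> simp

theorem intst_bitVec_injective : Function.Injective (bitVec : (Fin m → Bool) → Fin m → ℝ) := by
  intro z z' h
  funext i
  have := congrFun h i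
  unfold bitVec at this
  cases hz : z i <;> cases hz' : z' i <;> simp [hz, hz'] at this ⊢

theorem intst_norm_le (z z0 : Fin m → Bool) :
    ‖vecR (bitVecZ z - bitVecZ z0)‖ ≤ Real.sqrt m := by
  rw [EuclideanSpace.norm_eq]
  apply Real.sqrt_le_sqrt
  calc ∑ i, ‖(vecR (bitVecZ z - bitVecZ z0)).ofLp i‖ ^ 2 ≤ ∑ _i : Fin m, (1 : ℝ) := by
        refine Finset.sum_le_sum fun i _ => ?_
        change ‖(((bitVecZ z - bitVecZ z0) i : ℤ) : ℝ)‖ ^ 2 ≤ 1
        simp only [Pi.sub_apply, bitVecZ]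
        split_ifs <;> norm_num
    _ = m := by simp

/-- cube points in a translate of the subspace `F`. -/
theorem intst_fibre_card (F : Submodule ℝ (EucM m)) (S : Finset (Fin m → Bool))
    (hS : ∀ z ∈ S, ∀ z' ∈ S, vecR (bitVecZ z) - vecR (bitVecZ z') ∈ F) :
    S.card ≤ 2 ^ finrank ℝ F := by
  classical
  set A' : Finset (Fin m → ℝ) := S.image bitVec with hA'
  have hcard : A'.card = S.card := Finset.card_image_of_injective _ intst_bitVec_injective
  have hcube : ∀ x ∈ A', ∀ i, x i = 0 ∨ x i = 1 := by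
    intro x hx i
    obtain ⟨z, -, rfl⟩ := Finset.mem_image.1 hx
    unfold bitVec
    split_ifs
    · exact Or.inr rfl
    · exact Or.inl rfl
  have h1 := card_le_two_pow_finrank_vectorSpan A' hcube
  have hle : (vectorSpan ℝ (A' : Set (Fin m → ℝ))).map (intstEuc m : (Fin m → ℝ) →ₗ[ℝ] EucM m) ≤ F := by
    rw [Submodule.map_le_iff_le_comap, vectorSpan_def, Submodule.span_le]
    intro v hv
    obtain ⟨a, ha, b, hb, rfl⟩ := Set.mem_vsub.1 hv
    obtain ⟨z, hz, rfl⟩ := Finset.mem_image.1 (Finset.mem_coe.1 ha)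
    obtain ⟨z', hz', rfl⟩ := Finset.mem_image.1 (Finset.mem_coe.1 hb)
    change intstEuc m (bitVec z - bitVec z') ∈ F
    rw [map_sub, intst_euc_bitVec, intst_euc_bitVec]
    exact hS z hz z' hz'
  have h2 : finrank ℝ (vectorSpan ℝ (A' : Set (Fin m → ℝ))) ≤ finrank ℝ F := by
    rw [← LinearEquiv.finrank_map_eq (intstEuc m)]
    exact Submodule.finrank_mono hle
  rw [← hcard]
  exact h1.trans (Nat.pow_le_pow_right (by norm_num) h2)

theorem intst_rank_le (L : Submodule ℤ (EucM m)) : latRank L ≤ m := by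
  unfold latRank
  calc finrank ℝ (rspan L) ≤ finrank ℝ (EucM m) := Submodule.finrank_le _
    _ = m := finrank_euclideanSpace_fin

/-- **Deterministic core of D1.** -/
theorem intst_core {τ : ℕ → ℝ} (hRM : StRMBall τ) (K : AddSubgroup (Fin m → ℤ)) (x : Fin m → ℤ)
    {T : ℝ} (hT : 0 < T) :
    ∃ (f : ℕ) (z : Fin f → Fin m → ℤ), (∀ a, z a ∈ K) ∧ (LinearIndependent ℝ fun a => vecR (z a)) ∧
      f ≤ m ∧ intGram z ≤ T ^ (2 * f) ∧ ∃ j ≤ m,
        (Nat.card {z : Fin m → Bool // bitVecZ z - x ∈ K} : ℝ) ≤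
          (3 / 2) * Real.exp (Real.pi * m * τ j ^ 2 / T ^ 2) * 2 ^ f := by
  classical
  set L := latOfSubgroup K with hLdef
  have hL : IsLat L := latInt_sub_isLat (latInt_ofSubgroup_le K)
  obtain ⟨L0, hP, hdet, hLB⟩ := lat_exists_threshold hL hT
  obtain ⟨f, b, hb⟩ := lat_of_le hL hP.1
  have hbK : ∀ a, ∃ y ∈ K, ∀ i, b a i = (y i : ℝ) := fun a => hP.1 (lat_basis_mem hb a)
  choose z hzK hzb using hbK
  have hbz : (fun a => vecR (z a)) = b := by
    funext a
    ext i
    exact (hzb a i).symm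
  have hrk : latRank L0 = f := lat_rank_eq hb
  refine ⟨f, z, hzK, by rw [hbz]; exact hb.1, hrk ▸ intst_rank_le L0, ?_,
    latRank (latQuot L L0), intst_rank_le _, ?_⟩
  · unfold intGram
    rw [hbz, ← lat_det_sq hb, mul_comm, pow_mul]
    rw [hrk] at hdet
    exact pow_le_pow_left₀ (lat_det_nonneg _) hdet 2
  · set A : Finset (Fin m → Bool) := Finset.univ.filter (fun z => bitVecZ z - x ∈ K) with hA
    have hcardA : Nat.card {z : Fin m → Bool // bitVecZ z - x ∈ K} = A.card := by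
      rw [Nat.card_eq_fintype_card, Fintype.card_subtype]
    rw [hcardA]
    set Bd : ℝ := (3 / 2) * Real.exp (Real.pi * m * τ (latRank (latQuot L L0)) ^ 2 / T ^ 2) with hBd
    have hBd0 : 0 ≤ Bd := by positivity
    rcases A.eq_empty_or_nonempty with hemp | ⟨z0, hz0⟩
    · rw [hemp]
      simp only [Finset.card_empty, Nat.cast_zero]
      positivity
    set F := rspan L0 with hF
    set p : (Fin m → Bool) → EucM m := fun z => perpProj F (vecR (bitVecZ z - bitVecZ z0)) with hp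
    have hmemL : ∀ z ∈ A, vecR (bitVecZ z - bitVecZ z0) ∈ L := by
      intro z hz
      rw [hLdef, latInt_vecR_mem_ofSubgroup]
      have h1 := (Finset.mem_filter.1 hz).2
      have h2 := (Finset.mem_filter.1 hz0).2
      have : bitVecZ z - bitVecZ z0 = (bitVecZ z - x) - (bitVecZ z0 - x) := by abel
      rw [this]
      exact K.sub_mem h1 h2
    have himg : ((A.image p).card : ℝ) ≤ Bd := by
      have h := hRM m (latQuot L L0) T (Real.sqrt m) (lat_quot_isLat hL hP) hT hLB (Real.sqrt_nonneg _)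
      rw [Real.sq_sqrt (Nat.cast_nonneg m)] at h
      apply h
      intro y hy
      obtain ⟨z, hz, rfl⟩ := Finset.mem_image.1 (Finset.mem_coe.1 hy)
      exact ⟨lat_perpProj_mem_quot L0 (hmemL z hz),
        (lat_norm_perpProj_le _ _).trans (intst_norm_le z z0)⟩
    have hfib : ∀ y ∈ A.image p, (A.filter (fun z => p z = y)).card ≤ 2 ^ f := by
      intro y _
      have h := intst_fibre_card F (A.filter (fun z => p z = y)) (by
        intro z hz z' hz'
        have h1 : p z = y := (Finset.mem_filter.1 hz).2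
        have h2 : p z' = y := (Finset.mem_filter.1 hz').2
        apply lat_perpProj_eq_zero_iff.1
        have : vecR (bitVecZ z) - vecR (bitVecZ z') =
            vecR (bitVecZ z - bitVecZ z0) - vecR (bitVecZ z' - bitVecZ z0) := by
          rw [intst_vecR_sub, intst_vecR_sub]
          abel
        rw [this, map_sub]
        change p z - p z' = 0
        rw [h1, h2, sub_self])
      have hfF : finrank ℝ F = f := hrk
      rwa [hfF] at h
    have hmain := Finset.card_le_mul_card_image A (2 ^ f) hfib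
    calc (A.card : ℝ) ≤ ((2 ^ f * (A.image p).card : ℕ) : ℝ) := by exact_mod_cast hmain
      _ = ((A.image p).card : ℝ) * 2 ^ f := by push_cast; ring
      _ ≤ Bd * 2 ^ f := mul_le_mul_of_nonneg_right himg (by positivity)

end Core

/-- numerical part: the Reverse Minkowski count is `≤ 2^{αN/2}`. -/
theorem intst_count_bound {α C lg t : ℝ} {κ N m : ℕ} (hα : 0 < α) (hm : m ≤ N) (hlg1 : 1 ≤ lg)
    (hlgM : C ^ 2 * 4 ^ κ * (4 * Real.pi / (α * Real.log 2)) ≤ lg)
    (hN : 4 / (α * Real.log 2) ≤ (N : ℝ)) (ht0 : 0 ≤ t) (ht : t ≤ C * (2 * lg) ^ κ) :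
    (3 / 2) * Real.exp (Real.pi * m * t ^ 2 / (lg ^ (κ + 1)) ^ 2) ≤ (2 : ℝ) ^ (α * N / 2) := by
  have hlog2 : 0 < Real.log 2 := Real.log_pos (by norm_num)
  have hal : 0 < α * Real.log 2 := mul_pos hα hlog2
  have hlg0 : 0 < lg := by linarith
  have hpi := Real.pi_pos
  set Q : ℝ := C ^ 2 * 4 ^ κ with hQ
  have hQ0 : 0 ≤ Q := by positivity
  have hT2 : (lg ^ (κ + 1)) ^ 2 = lg ^ (2 * κ) * lg ^ 2 := by ring
  have hT2pos : 0 < (lg ^ (κ + 1)) ^ 2 := by positivity
  have ht2 : t ^ 2 ≤ Q * lg ^ (2 * κ) := by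
    calc t ^ 2 ≤ (C * (2 * lg) ^ κ) ^ 2 := pow_le_pow_left₀ ht0 ht 2
      _ = Q * lg ^ (2 * κ) := by
          rw [hQ, mul_pow, mul_pow, mul_pow, ← pow_mul, ← pow_mul, mul_comm κ 2, pow_mul 2 2 κ]
          norm_num
          ring
  have hpQ : Real.pi * Q ≤ α * Real.log 2 / 4 * lg ^ 2 := by
    have h1 : Q * (4 * Real.pi) ≤ lg * (α * Real.log 2) := by
      have := mul_le_mul_of_nonneg_right hlgM hal.le
      rwa [mul_assoc, div_mul_cancel₀ _ hal.ne'] at this
    have h2 : lg ≤ lg ^ 2 := by nlinarith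
    nlinarith
  have hmN : (m : ℝ) ≤ N := by exact_mod_cast hm
  have hE : Real.pi * m * t ^ 2 / (lg ^ (κ + 1)) ^ 2 ≤ α * Real.log 2 / 4 * N := by
    rw [div_le_iff₀ hT2pos, hT2]
    have hl2k : 0 ≤ lg ^ (2 * κ) := by positivity
    calc Real.pi * m * t ^ 2 ≤ Real.pi * N * (Q * lg ^ (2 * κ)) := by
          apply mul_le_mul (mul_le_mul_of_nonneg_left hmN hpi.le) ht2 (by positivity) (by positivity)
      _ = (N * lg ^ (2 * κ)) * (Real.pi * Q) := by ring
      _ ≤ (N * lg ^ (2 * κ)) * (α * Real.log 2 / 4 * lg ^ 2) :=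
          mul_le_mul_of_nonneg_left hpQ (by positivity)
      _ = α * Real.log 2 / 4 * N * (lg ^ (2 * κ) * lg ^ 2) := by ring
  have hhalf : (1 : ℝ) / 2 ≤ α * Real.log 2 / 4 * N := by
    have := (div_le_iff₀ hal).1 hN
    nlinarith
  have h32 : (3 : ℝ) / 2 ≤ Real.exp (1 / 2) := by
    have := Real.add_one_le_exp ((1 : ℝ) / 2)
    linarith
  calc (3 / 2) * Real.exp (Real.pi * m * t ^ 2 / (lg ^ (κ + 1)) ^ 2)
      ≤ Real.exp (1 / 2) * Real.exp (α * Real.log 2 / 4 * N) :=
        mul_le_mul h32 (Real.exp_le_exp.2 hE) (Real.exp_pos _).le (Real.exp_pos _).le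
    _ = Real.exp (1 / 2 + α * Real.log 2 / 4 * N) := (Real.exp_add _ _).symm
    _ ≤ Real.exp (Real.log 2 * (α * N / 2)) := by
        apply Real.exp_le_exp.2
        nlinarith
    _ = (2 : ℝ) ^ (α * N / 2) := (Real.rpow_def_of_pos (by norm_num) _).symm

/-- **Leaf D1.** -/
theorem int_struct {τ : ℕ → ℝ} (hRM : StRMBall τ) (hτ : CovTauOK τ) : StIntStruct := by
  intro α hα
  obtain ⟨hmono, hone, C, κ, hC⟩ := hτ
  have hlogT : Tendsto (fun N : ℕ => Real.log N) atTop atTop :=
    Real.tendsto_log_atTop.comp tendsto_natCast_atTop_atTop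
  have hellT : Tendsto (fun N : ℕ => ell N) atTop atTop := Real.tendsto_log_atTop.comp hlogT
  filter_upwards [hlogT.eventually_ge_atTop
      (max 1 (C ^ 2 * 4 ^ κ * (4 * Real.pi / (α * Real.log 2)))),
    hellT.eventually_ge_atTop ((κ : ℝ) + 1),
    (tendsto_natCast_atTop_atTop (R := ℝ)).eventually_ge_atTop (4 / (α * Real.log 2)),
    eventually_ge_atTop 2] with N h1 h2 h3 h4 m hm K x hcard
  set lg := Real.log N with hlg
  have hlg1 : 1 ≤ lg := (le_max_left _ _).trans h1
  have hlgM := (le_max_right _ _).trans h1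
  have hlg0 : 0 < lg := by linarith
  have hT1 : 1 ≤ lg ^ (κ + 1) := one_le_pow₀ hlg1
  have hT : 0 < lg ^ (κ + 1) := by linarith
  obtain ⟨f, z, hzK, hli, hfm, hgram, j, hjm, hcount⟩ := intst_core hRM K x hT
  refine ⟨f, z, hzK, hli, ?_, ?_⟩
  · have hexp : Real.exp (ell N) = lg := Real.exp_log hlg0
    have hN0 : (0 : ℝ) ≤ N := Nat.cast_nonneg N
    calc intGram z ≤ (lg ^ (κ + 1)) ^ (2 * f) := hgram
      _ ≤ (lg ^ (κ + 1)) ^ (2 * N) := pow_le_pow_right₀ hT1 (by omega)
      _ = Real.exp ((((κ + 1) * (2 * N) : ℕ) : ℝ) * ell N) := by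
          rw [Real.exp_nat_mul, hexp, ← pow_mul]
      _ ≤ Real.exp (2 * N * ell N ^ 2) := by
          apply Real.exp_le_exp.2
          push_cast
          have hell0 : 0 ≤ ell N := by
            have : (0 : ℝ) ≤ (κ : ℝ) + 1 := by positivity
            linarith
          have : 0 ≤ 2 * (N : ℝ) * ell N * (ell N - ((κ : ℝ) + 1)) :=
            mul_nonneg (by positivity) (by linarith)
          nlinarith
  · have hN2 : (2 : ℝ) ≤ N := by exact_mod_cast h4
    have hlogN2 : Real.log ((N : ℝ) + 2) ≤ 2 * lg := by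
      have : Real.log ((N : ℝ) + 2) ≤ Real.log ((N : ℝ) ^ 2) :=
        Real.log_le_log (by linarith) (by nlinarith)
      rwa [Real.log_pow, Nat.cast_ofNat] at this
    have hlog0 : 0 ≤ Real.log ((N : ℝ) + 2) := Real.log_nonneg (by linarith)
    have hC0 : 0 ≤ C := by
      by_contra hneg
      have h5 := (hone N).trans (hC N)
      have : C * Real.log ((N : ℝ) + 2) ^ κ ≤ 0 :=
        mul_nonpos_of_nonpos_of_nonneg (not_le.1 hneg).le (pow_nonneg hlog0 κ)
      linarith
    have htj : τ j ≤ C * (2 * lg) ^ κ :=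
      calc τ j ≤ τ N := hmono (hjm.trans hm)
        _ ≤ C * Real.log ((N : ℝ) + 2) ^ κ := hC N
        _ ≤ C * (2 * lg) ^ κ :=
          mul_le_mul_of_nonneg_left (pow_le_pow_left₀ hlog0 hlogN2 κ) hC0
    have hB := intst_count_bound hα hm hlg1 hlgM h3 (by linarith [hone j]) htj
    have h5 : (2 : ℝ) ^ (α * N) ≤ (2 : ℝ) ^ (α * N / 2) * 2 ^ f :=
      hcard.trans (hcount.trans (mul_le_mul_of_nonneg_right hB (by positivity)))
    have h6 : (2 : ℝ) ^ (α * N) = (2 : ℝ) ^ (α * N / 2) * (2 : ℝ) ^ (α * N / 2) := by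
      rw [← Real.rpow_add (by norm_num)]
      congr 1
      ring
    rw [h6] at h5
    have h7 : (2 : ℝ) ^ (α * N / 2) ≤ 2 ^ f :=
      le_of_mul_le_mul_left h5 (Real.rpow_pos_of_pos (by norm_num) _)
    rw [← Real.rpow_natCast] at h7
    exact (Real.rpow_le_rpow_left_iff (by norm_num)).1 h7

end Claimed.Agent.R293
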