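/-
R293 / IntTop.lean  (owner: helper103).  Top assembly of INT: paper B, Theorem 4.1 = `StSmallInt`.
-/
import Claimed.Agent.R293.IntDefs
import Claimed.Agent.R293.ProbBasic
import Claimed.Agent.R293.ProbMarg

set_option autoImplicit false

namespace Claimed.Agent.R293

open Filter Submodule Module

theorem int_bitMat_bit {m : ℕ} (s : Sym2 (Fin m) → Bool) (i j : Fin m) :
    bitMat s i j = 0 ∨ bitMat s i j = 1 := by
  unfold bitMat
  by_cases h : s s(i, j) <;> simp [h]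

theorem int_bitMat_symm {m : ℕ} (s : Sym2 (Fin m) → Bool) : (bitMat s).IsSymm := by
  ext i j
  simp [bitMat, Matrix.transpose_apply, Sym2.eq_swap]

theorem int_top (hCor : StPrimeCorank) (hCov : StIntCover) (hDet : StIntDet) (hProb : StIntProb)
    (hNumD : StIntNumDet) (hNumT : StIntNumTop) : StSmallInt := by
  intro p hp0 hp12 D hD α hα0 hα1 A
  have hp1 : p < 1 := by linarith
  have hP : 0 < intP D := by unfold intP; linarith
  filter_upwards [hCor p hp0 hp12 (A + 1), hCov (intP D) hP, hDet p hp0 hp12 D hD α hα0 hα1,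
    hNumD p hp0 hp12 D hD α hα0 hα1, hNumT p hp0 hp12 D hD α hα0 hα1 (A + 1),
    eventually_ge_atTop 1] with N h1 h2 h3 h4 h5 hN1
  intro m hm π hπ
  classical
  have hmN : m ≤ N := hm.2
  have hπp : IsProbArray π := pb_bitModel_isProbArray hp0.le hp1.le hπ
  obtain ⟨𝒞, h𝒞⟩ := h2 m hmN
  -- the index set of the union bound
  let t : Finset (Submodule ℝ (EucM m) × Finset (Fin m)) :=
    (𝒞.filter fun V => (finrank ℝ (Vᗮ : Submodule ℝ (EucM m)) : ℝ) ≤ (1 - α / 3) * N) ×ˢ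
      (Finset.univ.filter fun J : Finset (Fin m) => (J.card : ℝ) ≤ intGam α * N)
  let Ev : Submodule ℝ (EucM m) × Finset (Fin m) → Set (Sym2 (Fin m) → Bool) := fun VJ =>
    {s | IntWitness p (intA N * intR N) (intB α N * intR N) (intTheta p D α N) (intM α N)
      (intK p D α N) (VJ.1ᗮ : Submodule ℝ (EucM m)) VJ.2 (bitMat s)}
  let Cor : Set (Sym2 (Fin m) → Bool) := {s | (bitMat s).det ≠ 0 ∧ ¬ ∀ q : ℕ, q.Prime →
      (m : ℝ) - (((bitMat s).map (Int.cast : ℤ → ZMod q)).rank : ℝ) ≤ (N : ℝ) ^ ((3 : ℝ) / 5)}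
  have hsub : {s | (bitMat s).det ≠ 0 ∧ ¬ SmallInt α (ell N ^ (-D)) N m (bitMat s)} ⊆
      Cor ∪ ⋃ VJ ∈ t, Ev VJ := by
    intro s hs
    by_cases hc : ∀ q : ℕ, q.Prime →
      (m : ℝ) - (((bitMat s).map (Int.cast : ℤ → ZMod q)).rank : ℝ) ≤ (N : ℝ) ^ ((3 : ℝ) / 5)
    · right
      obtain ⟨V, hV, J, hd, hJ, hw⟩ := h3 m hmN 𝒞 h𝒞 (bitMat s) (int_bitMat_bit s) (int_bitMat_symm s)
        hs.1 hc hs.2
      refine Set.mem_biUnion (x := (V, J)) ?_ hw
      simp only [t, Finset.coe_product, Set.mem_prod, Finset.mem_coe, Finset.mem_filter,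
        Finset.mem_univ, true_and]
      exact ⟨⟨hV, hd⟩, hJ⟩
    · left
      exact ⟨hs.1, hc⟩
  set X : ℝ := (2 : ℝ) ^ (-((A + 1) * N)) with hX
  set Y : ℝ := (2 : ℝ) ^ ((N : ℝ) ^ 2 * ell N ^ (-(intP D))) * (2 : ℝ) ^ m with hY
  have hXpos : 0 < X := by positivity
  have hYpos : 0 < Y := by positivity
  have hEv : ∀ VJ ∈ t, prb π (Ev VJ) ≤ X / Y := by
    intro VJ hVJ
    simp only [t, Finset.mem_product, Finset.mem_filter, Finset.mem_univ, true_and] at hVJ
    have hb := hProb p hp0 hp1 m (intK p D α N) (intM α N) h4.M_pos (intA N * intR N)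
      (intB α N * intR N) (intEps α N) (intTheta p D α N)
      (mul_nonneg (le_trans zero_le_one h4.one_le_A) h4.R_pos.le)
      (mul_nonneg h4.B_pos.le h4.R_pos.le)
      (by unfold intEps; have : (0 : ℝ) < N := by exact_mod_cast hN1
          positivity)
      (Real.exp_pos _).le (h4.prec m hmN) (VJ.1ᗮ : Submodule ℝ (EucM m)) VJ.2 π hπ.val
    have hfin := h5 m hm (finrank ℝ (VJ.1ᗮ : Submodule ℝ (EucM m))) VJ.2.card hVJ.1.2 hVJ.2
    rw [le_div_iff₀ hYpos]
    calc prb π (Ev VJ) * Y ≤ intProbBound p D α N m (finrank ℝ (VJ.1ᗮ : Submodule ℝ (EucM m))) VJ.2.card * Y :=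
          mul_le_mul_of_nonneg_right hb hYpos.le
      _ = Y * intProbBound p D α N m (finrank ℝ (VJ.1ᗮ : Submodule ℝ (EucM m))) VJ.2.card := mul_comm _ _
      _ ≤ X := hfin
  have hcard : (t.card : ℝ) ≤ Y := by
    have h1 : t.card ≤ 𝒞.card * 2 ^ m := by
      simp only [t, Finset.card_product]
      refine Nat.mul_le_mul (Finset.card_filter_le _ _) ?_
      refine (Finset.card_filter_le _ _).trans ?_
      simp
    calc (t.card : ℝ) ≤ ((𝒞.card * 2 ^ m : ℕ) : ℝ) := by exact_mod_cast h1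
      _ = (𝒞.card : ℝ) * (2 : ℝ) ^ m := by push_cast; ring
      _ ≤ Y := mul_le_mul_of_nonneg_right h𝒞.1 (by positivity)
  have hU : prb π (⋃ VJ ∈ t, Ev VJ) ≤ X := by
    refine (pb_prb_biUnion_le_card_mul hπp t Ev hEv).trans ?_
    calc (t.card : ℝ) * (X / Y) ≤ Y * (X / Y) := mul_le_mul_of_nonneg_right hcard (by positivity)
      _ = X := by field_simp
  have hC : prb π Cor ≤ X := h1 m hm π hπ
  calc prb π {s | (bitMat s).det ≠ 0 ∧ ¬ SmallInt α (ell N ^ (-D)) N m (bitMat s)}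
      ≤ prb π (Cor ∪ ⋃ VJ ∈ t, Ev VJ) := pb_prb_mono hπp hsub
    _ ≤ prb π Cor + prb π (⋃ VJ ∈ t, Ev VJ) := pb_prb_union_le hπp _ _
    _ ≤ X + X := add_le_add hC hU
    _ = (2 : ℝ) ^ (1 - (A + 1) * N) := by
        rw [hX, Real.rpow_sub (by norm_num : (0 : ℝ) < 2), Real.rpow_neg (by norm_num : (0 : ℝ) ≤ 2),
          Real.rpow_one]
        ring
    _ ≤ (2 : ℝ) ^ (-(A * N)) := by
        refine Real.rpow_le_rpow_of_exponent_le (by norm_num) ?_
        have : (1 : ℝ) ≤ N := by exact_mod_cast hN1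
        linarith

end Claimed.Agent.R293
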