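/-
R293 / IntTors.lean  (INT leaf D3a, owner helper38).
Torsion bound: `|Q| ≤ |u|^g |uQ|` for `Q = ℤ^m / K`, if `B ℤ^m ≤ K` and `B` has corank `≤ g` modulo every prime.
-/
import Claimed.Agent.R293.IntDefs

set_option autoImplicit false

namespace Claimed.Agent.R293

open AddSubgroup Module

section
variable {m : ℕ}

/-- `u ℤ^m`. -/
def intTorsR (m : ℕ) (u : ℤ) : AddSubgroup (Fin m → ℤ) :=
  (zsmulAddGroupHom u : (Fin m → ℤ) →+ (Fin m → ℤ)).range

/-- `K + u ℤ^m`. -/
def intTorsS (K : AddSubgroup (Fin m → ℤ)) (u : ℤ) : AddSubgroup (Fin m → ℤ) := K ⊔ intTorsR m u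

theorem intTors_mem_R {u : ℤ} {x : Fin m → ℤ} : x ∈ intTorsR m u ↔ ∃ y : Fin m → ℤ, u • y = x := by
  unfold intTorsR
  rw [AddMonoidHom.mem_range]
  rfl

theorem intTors_R_mul_le (u v : ℤ) : intTorsR m (u * v) ≤ intTorsR m u := by
  intro x hx
  obtain ⟨y, rfl⟩ := intTors_mem_R.mp hx
  exact intTors_mem_R.mpr ⟨v • y, by rw [smul_smul]⟩

theorem intTors_R_neg (u : ℤ) : intTorsR m (-u) = intTorsR m u := by
  ext x
  rw [intTors_mem_R, intTors_mem_R]
  constructor
  · rintro ⟨y, rfl⟩
    exact ⟨-y, by simp⟩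
  · rintro ⟨y, rfl⟩
    exact ⟨-y, by simp⟩

/-- `|Q| = |uQ| |Q/uQ|`. -/
theorem intTors_index (K : AddSubgroup (Fin m → ℤ)) (u : ℤ) :
    K.index = (intColon K u).index * (intTorsS K u).index := by
  unfold intColon intTorsS intTorsR
  rw [AddSubgroup.index_comap, ← AddSubgroup.relIndex_sup_left,
    AddSubgroup.relIndex_mul_index le_sup_left]

/-- `|Q/uvQ|` divides `|Q/uQ| |Q/vQ|`. -/
theorem intTors_mul (K : AddSubgroup (Fin m → ℤ)) (u v : ℤ) :
    (intTorsS K (u * v)).index ∣ (intTorsS K u).index * (intTorsS K v).index := by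
  have h1 : intTorsS K (u * v) ≤ intTorsS K u :=
    sup_le le_sup_left ((intTors_R_mul_le u v).trans le_sup_right)
  rw [← AddSubgroup.relIndex_mul_index h1, mul_comm]
  apply mul_dvd_mul_left
  have h2 : intTorsS K u = intTorsS K (u * v) ⊔ intTorsR m u := by
    apply le_antisymm
    · exact sup_le (le_sup_left.trans le_sup_left) le_sup_right
    · exact sup_le h1 le_sup_right
  rw [h2, AddSubgroup.relIndex_sup_left]
  unfold intTorsR
  rw [← AddSubgroup.index_comap]
  apply AddSubgroup.index_dvd_of_le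
  apply sup_le
  · intro x hx
    rw [AddSubgroup.mem_comap]
    exact (le_sup_left : K ≤ intTorsS K (u * v)) (K.zsmul_mem hx u)
  · intro x hx
    obtain ⟨y, rfl⟩ := intTors_mem_R.mp hx
    rw [AddSubgroup.mem_comap]
    exact (le_sup_right : intTorsR m (u * v) ≤ intTorsS K (u * v))
      (intTors_mem_R.mpr ⟨y, (smul_smul u v y).symm⟩)

theorem intTors_one (K : AddSubgroup (Fin m → ℤ)) : (intTorsS K 1).index = 1 := by
  rw [AddSubgroup.index_eq_one, eq_top_iff]
  intro x _
  exact (le_sup_right : intTorsR m 1 ≤ intTorsS K 1) (intTors_mem_R.mpr ⟨x, one_smul _ _⟩)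

/-- the prime case: `Q/qQ` is a quotient of the cokernel of `B` modulo `q`. -/
theorem intTors_prime (B : Matrix (Fin m) (Fin m) ℤ) (K : AddSubgroup (Fin m → ℤ))
    (hB : ∀ y, B.mulVec y ∈ K) (q g : ℕ) (hq : q.Prime)
    (hg : m ≤ (B.map (Int.cast : ℤ → ZMod q)).rank + g) :
    (intTorsS K (q : ℤ)).index ∣ q ^ g := by
  have : Fact q.Prime := ⟨hq⟩
  let π : (Fin m → ℤ) →+ (Fin m → ZMod q) := (Int.castAddHom (ZMod q)).compLeft (Fin m)
  have hπ : ∀ x i, π x i = ((x i : ℤ) : ZMod q) := fun _ _ => rfl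
  have hsurj : Function.Surjective π := by
    intro y
    choose x hx using fun i => ZMod.intCast_surjective (y i)
    exact ⟨x, funext fun i => by rw [hπ, hx]⟩
  let R : Submodule (ZMod q) (Fin m → ZMod q) :=
    LinearMap.range (B.map (Int.cast : ℤ → ZMod q)).mulVecLin
  have hle : R.toAddSubgroup.comap π ≤ intTorsS K (q : ℤ) := by
    intro x hx
    obtain ⟨ybar, hy⟩ : ∃ ybar, (B.map (Int.cast : ℤ → ZMod q)).mulVecLin ybar = π x := hx
    obtain ⟨y, rfl⟩ := hsurj ybar
    have h1 : ∀ i, ((x i - B.mulVec y i : ℤ) : ZMod q) = 0 := by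
      intro i
      have h2 := congrFun hy i
      rw [hπ] at h2
      rw [Int.cast_sub, ← h2, sub_eq_zero]
      simp only [Matrix.mulVecLin_apply, Matrix.mulVec, dotProduct, Matrix.map_apply, hπ]
      push_cast
      rfl
    choose z hz using fun i => (ZMod.intCast_zmod_eq_zero_iff_dvd _ _).mp (h1 i)
    have h3 : x = B.mulVec y + (q : ℤ) • z := by
      funext i
      have := hz i
      simp only [Pi.add_apply, Pi.smul_apply, smul_eq_mul]
      linarith
    rw [h3]
    exact (intTorsS K (q : ℤ)).add_mem ((le_sup_left : K ≤ intTorsS K (q : ℤ)) (hB y))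
      ((le_sup_right : intTorsR m (q : ℤ) ≤ intTorsS K (q : ℤ)) (intTors_mem_R.mpr ⟨z, rfl⟩))
  have h4 := AddSubgroup.index_dvd_of_le hle
  rw [AddSubgroup.index_comap_of_surjective _ hsurj] at h4
  refine h4.trans ?_
  have h5 : R.toAddSubgroup.index = Nat.card ((Fin m → ZMod q) ⧸ R) := rfl
  rw [h5, Module.natCard_eq_pow_finrank (K := ZMod q), Nat.card_zmod]
  apply pow_dvd_pow
  have h6 := Submodule.finrank_quotient_add_finrank R
  rw [Module.finrank_fin_fun] at h6
  have h7 : finrank (ZMod q) R = (B.map (Int.cast : ℤ → ZMod q)).rank := rfl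
  omega

end

/-- **Leaf D3a.** -/
theorem int_tors : StIntTors := by
  intro m g B K hB hrank u hu
  have key : ∀ k : ℕ, k ≠ 0 → (intTorsS K (k : ℤ)).index ∣ k ^ g := by
    intro k
    induction k using induction_on_primes with
    | zero => intro h; exact absurd rfl h
    | one => intro _; simp [intTors_one]
    | prime_mul p a hp ih =>
      intro hpa
      have ha : a ≠ 0 := fun h => hpa (by rw [h, mul_zero])
      rw [Nat.cast_mul, mul_pow]
      exact (intTors_mul K p a).trans (mul_dvd_mul (intTors_prime B K hB p g hp (hrank p hp)) (ih ha))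
  have hS : intTorsS K u = intTorsS K (u.natAbs : ℤ) := by
    rcases Int.natAbs_eq u with h | h
    · rw [← h]
    · conv_lhs => rw [h]
      unfold intTorsS
      rw [intTors_R_neg]
  have hk := key u.natAbs (Int.natAbs_ne_zero.mpr hu)
  rw [← hS] at hk
  have hle : (intTorsS K u).index ≤ u.natAbs ^ g :=
    Nat.le_of_dvd (pow_pos (Nat.pos_of_ne_zero (Int.natAbs_ne_zero.mpr hu)) g) hk
  rw [intTors_index K u, mul_comm]
  exact Nat.mul_le_mul_right _ hle

end Claimed.Agent.R293
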