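/-
R293 / IntVol.lean  (owner: helper118).  Leaf INT-D3 vol: `int_vol : StIntVol`.
Volume expansion of `S = a P_{W0} + b P_{W1}` on families of vectors of `E = Fᗮ = W0 ⊕ W1`.
Proof: `S = a (1 - (1-β) P_{W1})` on `E`, `β = b/a`; `1 - (1-β) P_{W1}` is a product of `r = dim W1` rank-one shrinkings
`x ↦ x - (1-β) ⟪e,x⟫ e`; each of them multiplies a Gram determinant by at least `β²` (matrix determinant lemma).
-/
import Claimed.Agent.R293.IntDefs
import Claimed.Agent.R293.LatGram

set_option autoImplicit false

namespace Claimed.Agent.R293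

open Submodule Module Matrix
open scoped RealInnerProductSpace

section General
variable {E : Type*} [NormedAddCommGroup E] [InnerProductSpace ℝ E]

/-- shrinking by the factor `β` in the direction `e`. -/
noncomputable def intvShrink (β : ℝ) (e x : E) : E := x - ((1 - β) * ⟪e, x⟫) • e

theorem intv_gram_shrink (β : ℝ) {e : E} (he : ‖e‖ = 1) {t : ℕ} (x : Fin t → E) :
    Matrix.gram ℝ (fun j => intvShrink β e (x j)) =
      Matrix.gram ℝ x + replicateCol Unit ((-(1 - β ^ 2)) • fun i => ⟪e, x i⟫) *
        replicateRow Unit (fun i => ⟪e, x i⟫) := by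
  have hee : ⟪e, e⟫ = 1 := by rw [real_inner_self_eq_norm_sq, he]; norm_num
  ext i j
  simp only [Matrix.gram_apply, intvShrink, Matrix.add_apply, Matrix.mul_apply, replicateCol_apply,
    replicateRow_apply, Finset.univ_unique, Finset.sum_singleton, Pi.smul_apply, smul_eq_mul,
    inner_sub_left, inner_sub_right, real_inner_smul_left, real_inner_smul_right, hee]
  rw [real_inner_comm e (x i)]
  ring

theorem intv_det_rank_one {t : ℕ} {G : Matrix (Fin t) (Fin t) ℝ} (hG : IsUnit G.det) (c : Fin t → ℝ)
    (s : ℝ) :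
    (G + replicateCol Unit ((-s) • c) * replicateRow Unit c).det =
      G.det * (1 - s * (replicateRow Unit c * G⁻¹ * replicateCol Unit c) () ()) := by
  rw [det_add_replicateCol_mul_replicateRow hG, replicateCol_smul, Matrix.mul_smul,
    det_unique (1 + _)]
  simp only [Matrix.add_apply, Matrix.one_apply_eq, Matrix.smul_apply, smul_eq_mul]
  congr 1
  ring_nf

/-- a rank-one shrinking multiplies a Gram determinant by at least `β²`. -/
theorem intv_gramDet_shrink {β : ℝ} (hβ : β ^ 2 ≤ 1) {e : E} (he : ‖e‖ = 1) {t : ℕ} (x : Fin t → E) :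
    β ^ 2 * gramDet x ≤ gramDet fun j => intvShrink β e (x j) := by
  by_cases h0 : gramDet x = 0
  · rw [h0, mul_zero]
    exact lat_gramDet_nonneg _
  have hpos : 0 < gramDet x := lt_of_le_of_ne (lat_gramDet_nonneg x) (Ne.symm h0)
  have hU : IsUnit (Matrix.gram ℝ x).det := isUnit_iff_ne_zero.2 h0
  set c : Fin t → ℝ := fun i => ⟪e, x i⟫ with hc
  set q : ℝ := (replicateRow Unit c * (Matrix.gram ℝ x)⁻¹ * replicateCol Unit c) () () with hq
  have h1 : gramDet (fun j => intvShrink β e (x j)) = gramDet x * (1 - (1 - β ^ 2) * q) := by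
    unfold gramDet
    rw [intv_gram_shrink β he x, intv_det_rank_one hU]
  have h2 : gramDet (fun j => intvShrink 0 e (x j)) = gramDet x * (1 - (1 - 0 ^ 2) * q) := by
    unfold gramDet
    rw [intv_gram_shrink 0 he x, intv_det_rank_one hU]
  have h3 : 0 ≤ gramDet x * (1 - (1 - 0 ^ 2) * q) := h2 ▸ lat_gramDet_nonneg _
  have hq1 : q ≤ 1 := by
    have := nonneg_of_mul_nonneg_right h3 hpos
    linarith
  rw [h1, mul_comm]
  apply mul_le_mul_of_nonneg_left _ hpos.le
  nlinarith

/-- simultaneous shrinking along a family of directions. -/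
noncomputable def intvShrinkS {ι : Type*} (β : ℝ) (e : ι → E) (s : Finset ι) (x : E) : E :=
  x - (1 - β) • ∑ i ∈ s, ⟪e i, x⟫ • e i

theorem intv_shrinkS_insert {ι : Type*} [DecidableEq ι] (β : ℝ) {e : ι → E} (he : Orthonormal ℝ e)
    {s : Finset ι} {k : ι} (hk : k ∉ s) (x : E) :
    intvShrinkS β e (insert k s) x = intvShrink β (e k) (intvShrinkS β e s x) := by
  have h : ⟪e k, ∑ i ∈ s, ⟪e i, x⟫ • e i⟫ = 0 := by
    rw [inner_sum]
    refine Finset.sum_eq_zero fun i hi => ?_
    rw [real_inner_smul_right, he.2 (ne_of_mem_of_not_mem hi hk).symm, mul_zero]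
  unfold intvShrinkS intvShrink
  rw [Finset.sum_insert hk, inner_sub_right, real_inner_smul_right, h, mul_zero, sub_zero, smul_add,
    smul_smul]
  abel

theorem intv_gramDet_shrinkS {ι : Type*} [DecidableEq ι] {β : ℝ} (hβ : β ^ 2 ≤ 1) {e : ι → E}
    (he : Orthonormal ℝ e) (s : Finset ι) {t : ℕ} (x : Fin t → E) :
    (β ^ 2) ^ s.card * gramDet x ≤ gramDet fun j => intvShrinkS β e s (x j) := by
  induction s using Finset.induction_on with
  | empty => simp [intvShrinkS]
  | insert k s hk ih =>
    rw [Finset.card_insert_of_notMem hk, pow_succ']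
    calc β ^ 2 * (β ^ 2) ^ s.card * gramDet x = β ^ 2 * ((β ^ 2) ^ s.card * gramDet x) := by ring
      _ ≤ β ^ 2 * gramDet (fun j => intvShrinkS β e s (x j)) :=
          mul_le_mul_of_nonneg_left ih (sq_nonneg β)
      _ ≤ gramDet (fun j => intvShrink β (e k) (intvShrinkS β e s (x j))) :=
          intv_gramDet_shrink hβ (he.1 k) _
      _ = gramDet (fun j => intvShrinkS β e (insert k s) (x j)) := by
          congr 1
          funext j
          rw [intv_shrinkS_insert β he hk]

theorem intv_gramDet_smul (a : ℝ) {t : ℕ} (y : Fin t → E) :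
    gramDet (fun j => a • y j) = a ^ (2 * t) * gramDet y := by
  unfold gramDet
  have : Matrix.gram ℝ (fun j => a • y j) = (a ^ 2) • Matrix.gram ℝ y := by
    ext i j
    simp only [Matrix.gram_apply, real_inner_smul_left, real_inner_smul_right, Matrix.smul_apply,
      smul_eq_mul]
    ring
  rw [this, det_smul, Fintype.card_fin, ← pow_mul]

end General

/-- **Leaf D3-vol.** -/
theorem int_vol : StIntVol := by
  intro m F W0 hW a b hb hba t x hx
  have ha : 0 < a := lt_of_lt_of_le hb hba
  set W1 : Submodule ℝ (EucM m) := Fᗮ ⊓ W0ᗮ with hW1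
  set β : ℝ := b / a with hβ
  have hβ0 : 0 < β := div_pos hb ha
  have hβ1 : β ≤ 1 := (div_le_one ha).2 hba
  have hβ2 : β ^ 2 ≤ 1 := by nlinarith
  set e := stdOrthonormalBasis ℝ W1 with he
  set e' : Fin (finrank ℝ W1) → EucM m := fun i => (e i : EucM m) with he'
  have hon : Orthonormal ℝ e' := e.orthonormal.comp_linearIsometry W1.subtypeₗᵢ
  have hP1 : ∀ y : EucM m, W1.starProjection y = ∑ i, ⟪e' i, y⟫ • e' i := by
    intro y
    rw [e.starProjection_eq_sum_rankOne]
    simp [he', InnerProductSpace.rankOne_apply]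
  -- decomposition of `x ∈ Fᗮ`
  have hdec : ∀ y ∈ Fᗮ, W1.starProjection y = y - W0.starProjection y := by
    intro y hy
    apply Submodule.eq_starProjection_of_mem_of_inner_eq_zero
    · refine ⟨Fᗮ.sub_mem hy (hW (Submodule.starProjection_apply_mem _ _)), ?_⟩
      exact Submodule.sub_starProjection_mem_orthogonal y
    · intro w hw
      have : y - (y - W0.starProjection y) = W0.starProjection y := by abel
      rw [this]
      exact (Submodule.mem_orthogonal _ _).1 hw.2 _ (Submodule.starProjection_apply_mem _ _)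
  have hS : ∀ j, intScale a b F W0 (x j) = a • intvShrinkS β e' Finset.univ (x j) := by
    intro j
    have h1 := hdec (x j) (hx j)
    have h2 : W0.starProjection (x j) = x j - W1.starProjection (x j) := by rw [h1]; abel
    unfold intScale intvShrinkS
    rw [← hP1]
    simp only [LinearMap.add_apply, LinearMap.smul_apply, ContinuousLinearMap.coe_coe]
    have h3 : (Fᗮ ⊓ W0ᗮ).starProjection (x j) = W1.starProjection (x j) := rfl
    rw [h2, h3]
    have hb' : b = a * β := by rw [hβ]; field_simp
    rw [hb']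
    module
  have hr : finrank ℝ W1 = finrank ℝ (Fᗮ : Submodule ℝ (EucM m)) - finrank ℝ W0 := by
    have := Submodule.finrank_add_inf_finrank_orthogonal hW
    have h' : W0ᗮ ⊓ Fᗮ = W1 := inf_comm _ _
    rw [h'] at this
    omega
  have hmain := intv_gramDet_shrinkS hβ2 hon Finset.univ x
  rw [Finset.card_univ, Fintype.card_fin, ← pow_mul] at hmain
  have : (fun j => intScale a b F W0 (x j)) = fun j => a • intvShrinkS β e' Finset.univ (x j) :=
    funext hS
  rw [this, intv_gramDet_smul, mul_assoc, ← hr]
  exact mul_le_mul_of_nonneg_left hmain (by positivity)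

end Claimed.Agent.R293
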