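/-
R293 / IntMain.lean (owner: helper103).  Package INT assembled: B Theorem 4.1 = `StSmallInt`.

Inputs from outside the package: the low-height cover `StCover` (package COV) and the ball count of reverse Minkowski
`StRMBall τ` with `CovTauOK τ` (package RM).
-/
import Claimed.Agent.R293.IntTop
import Claimed.Agent.R293.IntDet
import Claimed.Agent.R293.IntGp
import Claimed.Agent.R293.IntCover
import Claimed.Agent.R293.IntGeom
import Claimed.Agent.R293.IntIdx
import Claimed.Agent.R293.IntLat
import Claimed.Agent.R293.IntNumDet
import Claimed.Agent.R293.IntNumTop
import Claimed.Agent.R293.IntPickJ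
import Claimed.Agent.R293.IntProb
import Claimed.Agent.R293.IntRow
import Claimed.Agent.R293.IntSelect
import Claimed.Agent.R293.IntFourierAvg
import Claimed.Agent.R293.IntSepIndex
import Claimed.Agent.R293.IntSepRank
import Claimed.Agent.R293.IntStruct
import Claimed.Agent.R293.IntTors
import Claimed.Agent.R293.IntVol
import Claimed.Agent.R293.CrkPrime

set_option autoImplicit false

namespace Claimed.Agent.R293

/-- B Lemma 4.2 (separated subset sums). -/
theorem int_sep_final : StIntSep :=
  int_sep int_sepRep (int_sepRank int_vol) (int_sepIndex int_idx)

/-- the probabilistic half. -/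
theorem int_prob_final : StIntProb := int_prob int_cells int_row

/-- the deterministic half. -/
theorem int_det_final {τ : ℕ → ℝ} (hRM : StRMBall τ) (hτ : CovTauOK τ) : StIntDet :=
  int_det (int_struct hRM hτ) int_dims int_tors int_sep_final int_pickJ int_lat
    (int_select int_gpSummable int_gpDualLat int_gpTail
      (int_fourierAvg int_gpSummable int_gpDualLat int_gpFourier)) int_transfer int_numDet

/-- **B Theorem 4.1.** -/
theorem int_main {τ : ℕ → ℝ} (hRM : StRMBall τ) (hτ : CovTauOK τ) (hCov : StCover) : StSmallInt :=
  int_top crk_primeCorank (int_cover hCov) (int_det_final hRM hτ) int_prob_final int_numDet int_numTop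

end Claimed.Agent.R293
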