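/-
R293 / IntFinal.lean (owner: helper103).  B Theorem 4.1 without hypotheses.
-/
import Claimed.Agent.R293.IntMain
import Claimed.Agent.R293.CovFinal
import Claimed.Agent.R293.RM.GramFinal

set_option autoImplicit false

namespace Claimed.Agent.R293

/-- **B Theorem 4.1**, unconditional. -/
theorem int_smallInt : StSmallInt :=
  int_main rm_ball_final rmTau_ok (cov_cover_of_ball rmTau_ok rm_ball_final)

end Claimed.Agent.R293
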