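/-
R293 / PairCB.lean  (owner: helper118).  Leaves PAIR-CB: `pair_cb : StPairCB` (Cauchy-Binet, unordered form) and
`pair_wgram : StPairCB → StPairWGram` (weighted Gram inequality).
-/
import Claimed.Agent.R293.PairLeaves

set_option autoImplicit false

namespace Claimed.Agent.R293

open Matrix Equiv

/-- expansion of `det (Z diag(μ) Zᵀ)` over all maps `f`. -/
theorem paircb_expand (s m : ℕ) (Z : Matrix (Fin s) (Fin m) ℝ) (μ : Fin m → ℝ) :
    (Z * Matrix.diagonal μ * Zᵀ).det =
      ∑ f : Fin s → Fin m, (∏ i, μ (f i)) * (∏ i, Z i (f i)) * (Z.submatrix id f).det := by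
  rw [Matrix.det_apply']
  have hA : ∀ i j, (Z * Matrix.diagonal μ * Zᵀ) i j = ∑ k, Z i k * μ k * Z j k := by
    intro i j
    rw [Matrix.mul_apply]
    refine Finset.sum_congr rfl fun k _ => ?_
    rw [Matrix.mul_diagonal, Matrix.transpose_apply]
  simp_rw [hA, Finset.prod_univ_sum, Fintype.piFinset_univ, Finset.mul_sum]
  rw [Finset.sum_comm]
  refine Finset.sum_congr rfl fun f _ => ?_
  rw [Matrix.det_apply', Finset.mul_sum]
  refine Finset.sum_congr rfl fun σ _ => ?_
  simp only [Finset.prod_mul_distrib, submatrix_apply, id]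
  ring

/-- the same expansion after the substitution `f ↦ f ∘ τ`. -/
theorem paircb_perm (s m : ℕ) (Z : Matrix (Fin s) (Fin m) ℝ) (μ : Fin m → ℝ) (τ : Perm (Fin s)) :
    (Z * Matrix.diagonal μ * Zᵀ).det =
      ∑ f : Fin s → Fin m, (∏ i, μ (f i)) * (Z.submatrix id f).det *
        (((Perm.sign τ : ℤ) : ℝ) * ∏ i, Z i (f (τ i))) := by
  rw [paircb_expand, ← Equiv.sum_comp (τ.symm.arrowCongr (Equiv.refl (Fin m)))]
  refine Finset.sum_congr rfl fun f _ => ?_
  have h0 : (τ.symm.arrowCongr (Equiv.refl (Fin m))) f = f ∘ τ := rfl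
  rw [h0]
  have h1 : ∏ i, μ ((f ∘ τ) i) = ∏ i, μ (f i) := Equiv.prod_comp τ (fun i => μ (f i))
  have h2 : (Z.submatrix id (f ∘ τ)).det = ((Perm.sign τ : ℤ) : ℝ) * (Z.submatrix id f).det := by
    have : Z.submatrix id (f ∘ τ) = (Z.submatrix id f).submatrix id τ := rfl
    rw [this, Matrix.det_permute']
  rw [h1, h2]
  simp only [Function.comp]
  ring

/-- **Leaf CB**: Cauchy-Binet, unordered form. -/
theorem pair_cb : StPairCB := by
  intro s m Z μ
  have h1 : (s.factorial : ℝ) * (Z * Matrix.diagonal μ * Zᵀ).det =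
      ∑ _τ : Perm (Fin s), (Z * Matrix.diagonal μ * Zᵀ).det := by
    rw [Finset.sum_const, Finset.card_univ, Fintype.card_perm, Fintype.card_fin, nsmul_eq_mul]
  rw [h1]
  have h2 : ∀ τ : Perm (Fin s), (Z * Matrix.diagonal μ * Zᵀ).det =
      ∑ f : Fin s → Fin m, (∏ i, μ (f i)) * (Z.submatrix id f).det *
        (((Perm.sign τ : ℤ) : ℝ) * ∏ i, Z i (f (τ i))) := paircb_perm s m Z μ
  rw [Finset.sum_congr rfl fun τ _ => h2 τ, Finset.sum_comm]
  refine Finset.sum_congr rfl fun f _ => ?_
  rw [← Finset.mul_sum]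
  have h3 : ∑ τ : Perm (Fin s), (((Perm.sign τ : ℤ) : ℝ) * ∏ i, Z i (f (τ i))) =
      (Z.submatrix id f).det := by
    rw [← Matrix.det_transpose, Matrix.det_apply']
    refine Finset.sum_congr rfl fun τ _ => ?_
    simp
  rw [h3]
  ring

/-- an injective map meets `bad` in at most `#bad` points. -/
theorem paircb_count {s m : ℕ} {f : Fin s → Fin m} (hf : Function.Injective f) (bad : Finset (Fin m)) :
    s - bad.card ≤ (Finset.univ.filter fun i => f i ∉ bad).card := by
  have h1 : (Finset.univ.filter fun i => f i ∈ bad).card ≤ bad.card :=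
    Finset.card_le_card_of_injOn f (fun i hi => (Finset.mem_filter.1 hi).2) hf.injOn
  have h2 := Finset.card_filter_add_card_filter_not (s := (Finset.univ : Finset (Fin s)))
    (fun i => f i ∈ bad)
  rw [Finset.card_univ, Fintype.card_fin] at h2
  omega

/-- **Leaf WGRAM**: weighted Gram inequality. -/
theorem pair_wgram (hCB : StPairCB) : StPairWGram := by
  intro s m Z μ a bad ha0 ha1 hμ1 hμa
  have hfac : (0 : ℝ) < s.factorial := by exact_mod_cast Nat.factorial_pos s
  have h1 := hCB s m Z μ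
  have h2 := hCB s m Z (fun _ => 1)
  have hone : Matrix.diagonal (fun _ : Fin m => (1 : ℝ)) = 1 := Matrix.diagonal_one
  rw [hone, Matrix.mul_one] at h2
  simp only [Finset.prod_const_one, one_mul] at h2
  have hterm : ∀ f : Fin s → Fin m, |(∏ i, μ (f i)) * ((Z.submatrix id f).det) ^ 2| ≤
      a ^ (s - bad.card) * ((Z.submatrix id f).det) ^ 2 := by
    intro f
    by_cases hf : Function.Injective f
    · rw [abs_mul, abs_of_nonneg (sq_nonneg (Z.submatrix id f).det)]
      apply mul_le_mul_of_nonneg_right _ (sq_nonneg _)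
      rw [Finset.abs_prod]
      calc ∏ i, |μ (f i)| ≤ ∏ i, (if f i ∈ bad then 1 else a) :=
            Finset.prod_le_prod (fun i _ => abs_nonneg _) (fun i _ => by
              split_ifs with h
              · exact hμ1 _
              · exact hμa _ h)
        _ = a ^ (Finset.univ.filter fun i => f i ∉ bad).card := by
            rw [Finset.prod_ite, Finset.prod_const_one, one_mul, Finset.prod_const]
        _ ≤ a ^ (s - bad.card) := pow_le_pow_of_le_one ha0 ha1 (paircb_count hf bad)
    · obtain ⟨i, j, hij, hne⟩ : ∃ i j, f i = f j ∧ i ≠ j := by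
        simpa [Function.Injective] using hf
      have : (Z.submatrix id f).det = 0 :=
        Matrix.det_zero_of_column_eq hne (fun k => by simp [hij])
      simp [this]
  have h3 : (s.factorial : ℝ) * |(Z * Matrix.diagonal μ * Zᵀ).det| ≤
      (s.factorial : ℝ) * (a ^ (s - bad.card) * (Z * Zᵀ).det) := by
    calc (s.factorial : ℝ) * |(Z * Matrix.diagonal μ * Zᵀ).det|
        = |(s.factorial : ℝ) * (Z * Matrix.diagonal μ * Zᵀ).det| := by
          rw [abs_mul, abs_of_pos hfac]
      _ = |∑ f : Fin s → Fin m, (∏ i, μ (f i)) * ((Z.submatrix id f).det) ^ 2| := by rw [h1]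
      _ ≤ ∑ f : Fin s → Fin m, |(∏ i, μ (f i)) * ((Z.submatrix id f).det) ^ 2| :=
          Finset.abs_sum_le_sum_abs _ _
      _ ≤ ∑ f : Fin s → Fin m, a ^ (s - bad.card) * ((Z.submatrix id f).det) ^ 2 :=
          Finset.sum_le_sum fun f _ => hterm f
      _ = a ^ (s - bad.card) * ((s.factorial : ℝ) * (Z * Zᵀ).det) := by
          rw [h2, Finset.mul_sum]
      _ = (s.factorial : ℝ) * (a ^ (s - bad.card) * (Z * Zᵀ).det) := by ring
  exact le_of_mul_le_mul_left h3 hfac

end Claimed.Agent.R293
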