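/-
Row 293 (S0541), package PAIR, leaf CLASS (B (5.12)): a largest colour class, then robust extraction.  Owner helper78.
-/
import Claimed.Agent.R293.PairLeaves
import Claimed.Agent.R293.RobustExtract

set_option autoImplicit false

namespace Claimed.Agent.R293

open Filter Module Matrix Topology

theorem paircl_bitVec_injective {m : ℕ} : Function.Injective (bitVec : (Fin m → Bool) → Fin m → ℝ) := by
  intro z z' h
  funext i
  have := congrFun h i
  unfold bitVec at this
  by_cases h1 : z i <;> by_cases h2 : z' i <;> simp_all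

/-- pigeonhole for colour vectors. -/
theorem paircl_pigeon {α : Type*} [DecidableEq α] (S : Finset α) (hS : S.Nonempty) (PF : Finset ℕ)
    (k : ℕ → ℕ) (c : ℕ → α → ℕ) (hc : ∀ l z, c l z ≤ k l) :
    ∃ S₁ : Finset α, S₁ ⊆ S ∧ S₁.Nonempty ∧ (∀ l ∈ PF, ∀ z ∈ S₁, ∀ z' ∈ S₁, c l z = c l z') ∧
      S.card ≤ (∏ l ∈ PF, (1 + k l)) * S₁.card := by
  classical
  let T : Finset (∀ l ∈ PF, ℕ) := PF.pi (fun l => Finset.range (1 + k l))
  let f : α → (∀ l ∈ PF, ℕ) := fun z l _ => c l z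
  have hmaps : ∀ z ∈ S, f z ∈ T := by
    intro z _
    rw [Finset.mem_pi]
    intro l hl
    rw [Finset.mem_range]
    have := hc l z
    show c l z < 1 + k l
    omega
  have hT : T.card = ∏ l ∈ PF, (1 + k l) := by
    rw [Finset.card_pi]
    simp
  obtain ⟨z₀, hz₀⟩ := hS
  have hTne : T.Nonempty := ⟨f z₀, hmaps z₀ hz₀⟩
  obtain ⟨t, ht, hmax⟩ := Finset.exists_max_image T (fun t => (S.filter (fun z => f z = t)).card) hTne
  have hsum : S.card = ∑ t' ∈ T, (S.filter (fun z => f z = t')).card :=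
    Finset.card_eq_sum_card_fiberwise hmaps
  have hle : S.card ≤ T.card * (S.filter (fun z => f z = t)).card := by
    rw [hsum]
    calc ∑ t' ∈ T, (S.filter (fun z => f z = t')).card
        ≤ ∑ _t' ∈ T, (S.filter (fun z => f z = t)).card := Finset.sum_le_sum hmax
      _ = _ := by rw [Finset.sum_const, smul_eq_mul]
  refine ⟨S.filter (fun z => f z = t), Finset.filter_subset _ _, ?_, ?_, by rw [← hT]; exact hle⟩
  · rw [← Finset.card_pos]
    by_contra h0
    have h0' : (S.filter (fun z => f z = t)).card = 0 := by omega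
    rw [h0', mul_zero] at hle
    have : 0 < S.card := Finset.card_pos.mpr ⟨z₀, hz₀⟩
    omega
  · intro l hl z hz z' hz'
    have h1 := (Finset.mem_filter.mp hz).2
    have h2 := (Finset.mem_filter.mp hz').2
    have := congrFun (congrFun (h1.trans h2.symm) l) hl
    exact this

theorem paircl_prod_le (PF : Finset ℕ) (k : ℕ → ℕ) (c : ℝ)
    (h : ∑ l ∈ PF, Real.logb 2 (1 + 8 * (k l : ℝ)) ≤ c) :
    ((∏ l ∈ PF, (1 + 8 * k l) : ℕ) : ℝ) ≤ (2 : ℝ) ^ c := by
  have e : ((∏ l ∈ PF, (1 + 8 * k l) : ℕ) : ℝ)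
      = (2 : ℝ) ^ (∑ l ∈ PF, Real.logb 2 (1 + 8 * (k l : ℝ))) := by
    rw [Real.rpow_sum_of_pos two_pos]
    push_cast
    refine Finset.prod_congr rfl fun l _ => ?_
    rw [Real.rpow_logb two_pos (by norm_num) (by positivity)]
  rw [e]
  exact Real.rpow_le_rpow_of_exponent_le one_le_two h

/-- **Leaf CLASS** (B (5.12)). -/
theorem pair_class (hCost : StColorCost) (hLB : StPairLayerBit) (hSc : StPairScale) : StPairClass := by
  intro ε hε
  obtain ⟨hell, -, -, -⟩ := hSc
  have h1 := hCost (ε / 2) (by positivity)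
  have h2 : ∀ᶠ N : ℕ in atTop, 0 < ell N ∧ ell N ^ (-(2 : ℝ)) ≤ ε / 2 := by
    have ht : Tendsto (fun N : ℕ => ell N ^ (-(2 : ℝ))) atTop (𝓝 0) :=
      (tendsto_rpow_neg_atTop (by norm_num)).comp hell
    filter_upwards [hell.eventually_gt_atTop 0, ht.eventually (ge_mem_nhds (by positivity : (0:ℝ) < ε / 2))]
      with N a b using ⟨a, b⟩
  filter_upwards [h1, h2, eventually_ge_atTop 2] with N hN1 hN2 hN3
  intro m hm B hB hdet hT2 col hcol S hS
  obtain ⟨-, hcost⟩ := hN1 m hm B hB hdet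
  have hcost' := hcost hT2
  obtain ⟨-, -, -, -, -, -, hzero⟩ := hLB N m hN3 hm B hB hdet
  obtain ⟨S₁, hS₁, hS₁ne, hmono, hcard⟩ := paircl_pigeon S hS (Nat.card (DiscGroup B)).primeFactors
    (fun l => 8 * twoCount (DiscGroup B) l) (fun l z => col l (bitVecZ z)) (fun l z => hcol.le l _)
  have hρ : 0 < ell N ^ (-(2 : ℝ)) := Real.rpow_pos_of_pos hN2.1 _
  obtain ⟨A₀, hA₀sub, hA₀ne, -, hrob, -, hA₀card, -⟩ := robust_cube_extraction (k := ℝ)
    (ell N ^ (-(2 : ℝ))) hρ (S₁.image bitVec) (hS₁ne.image _) (by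
      intro x hx i
      obtain ⟨z, -, rfl⟩ := Finset.mem_image.mp hx
      unfold bitVec
      by_cases h : z i <;> simp [h])
  have himg : (S₁.filter (fun z => bitVec z ∈ A₀)).image bitVec = A₀ := by
    ext x
    simp only [Finset.mem_image, Finset.mem_filter]
    constructor
    · rintro ⟨z, ⟨-, hz⟩, rfl⟩; exact hz
    · intro hx
      obtain ⟨z, hz, rfl⟩ := Finset.mem_image.mp (hA₀sub hx)
      exact ⟨z, ⟨hz, hx⟩, rfl⟩
  have hVcard : (S₁.filter (fun z => bitVec z ∈ A₀)).card = A₀.card := by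
    have := Finset.card_image_of_injective (S₁.filter (fun z => bitVec z ∈ A₀))
      (paircl_bitVec_injective (m := m))
    rw [himg] at this
    exact this.symm
  have hS₁card : (S₁.image bitVec).card = S₁.card :=
    Finset.card_image_of_injective _ paircl_bitVec_injective
  refine ⟨S₁.filter (fun z => bitVec z ∈ A₀), (Finset.filter_subset _ _).trans hS₁, ?_, ?_, ?_, ?_⟩
  · rw [← Finset.card_pos, hVcard]; exact hA₀ne.card_pos
  · intro l hl z hz z' hz'
    have hz1 := (Finset.mem_filter.mp hz).1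
    have hz1' := (Finset.mem_filter.mp hz').1
    by_cases hlPF : l ∈ (Nat.card (DiscGroup B)).primeFactors
    · exact hmono l hlPF z hz1 z' hz1'
    · have h0 := hzero l hl hlPF
      have a := hcol.le l (bitVecZ z)
      have b := hcol.le l (bitVecZ z')
      rw [h0] at a b
      omega
  · rw [himg]; exact hrob
  · rw [hVcard]
    rw [hS₁card] at hA₀card
    have hprod := paircl_prod_le _ _ _ hcost'
    have hNpos : (0 : ℝ) ≤ N := Nat.cast_nonneg N
    have hmN : (m : ℝ) ≤ N := by exact_mod_cast hm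
    have e1 : (S.card : ℝ) ≤ (2 : ℝ) ^ (ε / 2 * N) * S₁.card := by
      have : (S.card : ℝ) ≤ ((∏ l ∈ (Nat.card (DiscGroup B)).primeFactors,
          (1 + 8 * twoCount (DiscGroup B) l) : ℕ) : ℝ) * S₁.card := by
        rw [← Nat.cast_mul]
        exact Nat.cast_le.mpr hcard
      exact this.trans (mul_le_mul_of_nonneg_right hprod (Nat.cast_nonneg _))
    have e2 : (S₁.card : ℝ) ≤ (2 : ℝ) ^ (ε / 2 * N) * A₀.card := by
      have h3 : (S₁.card : ℝ) = (2 : ℝ) ^ (ell N ^ (-(2 : ℝ)) * m)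
          * ((S₁.card : ℝ) * (2 : ℝ) ^ (-(ell N ^ (-(2 : ℝ)) * m))) := by
        rw [mul_comm (S₁.card : ℝ), ← mul_assoc, ← Real.rpow_add two_pos, add_neg_cancel,
          Real.rpow_zero, one_mul]
      rw [h3]
      have hp1 : (0 : ℝ) ≤ (S₁.card : ℝ) * (2 : ℝ) ^ (-(ell N ^ (-(2 : ℝ)) * m)) :=
        mul_nonneg (Nat.cast_nonneg _) (Real.rpow_nonneg two_pos.le _)
      have hp2 : (0 : ℝ) ≤ (2 : ℝ) ^ (ε / 2 * N) := Real.rpow_nonneg two_pos.le _
      apply mul_le_mul _ hA₀card hp1 hp2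
      apply Real.rpow_le_rpow_of_exponent_le one_le_two
      exact mul_le_mul hN2.2 hmN (Nat.cast_nonneg _) (by positivity)
    calc (S.card : ℝ) ≤ (2 : ℝ) ^ (ε / 2 * N) * S₁.card := e1
      _ ≤ (2 : ℝ) ^ (ε / 2 * N) * ((2 : ℝ) ^ (ε / 2 * N) * A₀.card) := by gcongr
      _ = (2 : ℝ) ^ (ε * N) * A₀.card := by
          rw [← mul_assoc, ← Real.rpow_add two_pos]
          congr 2
          ring

end Claimed.Agent.R293
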