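/-
R293 / PairCoordBasis.lean  (owner: helper118).  Leaf PAIR-COORDBASIS: `pair_coordBasis : StPairCoordBasis`.
A subspace `U` of `ℝ^m` has a basis which is the identity on a suitable set `I` of coordinates: extract a maximal independent
family of coordinate functionals on `U`; the projection of `U` to these coordinates is an isomorphism.
-/
import Claimed.Agent.R293.PairLeaves

set_option autoImplicit false

namespace Claimed.Agent.R293

open Module

/-- version indexed by an abstract finite type `κ` with an injection `a : κ → Fin m`. -/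
theorem paircb2_exists (m : ℕ) (U : Submodule ℝ (EucM m)) :
    ∃ (κ : Type) (_ : Fintype κ) (_ : DecidableEq κ) (a : κ → Fin m) (w : Basis κ ℝ U),
      Function.Injective a ∧ ∀ j j' : κ, ((w j : U) : EucM m) (a j') = if j = j' then 1 else 0 := by
  classical
  let φ : Fin m → Module.Dual ℝ U := fun i =>
    ((EuclideanSpace.proj i : EucM m →L[ℝ] ℝ).toLinearMap).comp U.subtype
  obtain ⟨κ, a, ha, hspan, hli⟩ := exists_linearIndependent' ℝ φ
  have : Finite κ := Finite.of_injective a ha
  have : Fintype κ := Fintype.ofFinite κ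
  have hκ : Fintype.card κ ≤ finrank ℝ U := by
    have := hli.fintype_card_le_finrank
    rwa [Subspace.dual_finrank_eq] at this
  -- the projection to the coordinates `a j`
  let π : U →ₗ[ℝ] (κ → ℝ) := LinearMap.pi fun j => φ (a j)
  have hinj : Function.Injective π := by
    rw [← LinearMap.ker_eq_bot, LinearMap.ker_eq_bot']
    intro u hu
    let Z : Submodule ℝ (Module.Dual ℝ U) := LinearMap.ker (Module.Dual.eval ℝ U u)
    have hZ : Submodule.span ℝ (Set.range (φ ∘ a)) ≤ Z := by
      rw [Submodule.span_le]
      rintro _ ⟨j, rfl⟩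
      exact congrFun hu j
    apply Subtype.ext
    ext i
    have hi : φ i ∈ Z := hZ (hspan ▸ Submodule.subset_span ⟨i, rfl⟩)
    exact hi
  have hdim : finrank ℝ U = finrank ℝ (κ → ℝ) := by
    rw [Module.finrank_fintype_fun_eq_card]
    apply le_antisymm _ hκ
    have := LinearMap.finrank_le_finrank_of_injective hinj
    rwa [Module.finrank_fintype_fun_eq_card] at this
  have hsurj : Function.Surjective π :=
    (LinearMap.injective_iff_surjective_of_finrank_eq_finrank hdim).1 hinj
  let e : U ≃ₗ[ℝ] (κ → ℝ) := LinearEquiv.ofBijective π ⟨hinj, hsurj⟩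
  refine ⟨κ, inferInstance, inferInstance, a, (Pi.basisFun ℝ κ).map e.symm, ha, ?_⟩
  intro j j'
  have h1 : π (((Pi.basisFun ℝ κ).map e.symm) j) = Pi.single j 1 := by
    have : e (e.symm (Pi.basisFun ℝ κ j)) = Pi.basisFun ℝ κ j := e.apply_symm_apply _
    rw [Pi.basisFun_apply] at this
    exact this
  have h2 := congrFun h1 j'
  rw [Pi.single_apply] at h2
  refine Eq.trans h2 ?_
  by_cases h : j = j'
  · rw [if_pos h, if_pos h.symm]
  · rw [if_neg h, if_neg (fun h' => h h'.symm)]

/-- **Leaf COORDBASIS.** -/
theorem pair_coordBasis : StPairCoordBasis := by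
  classical
  intro m U
  obtain ⟨κ, _, _, a, w, ha, hw⟩ := paircb2_exists m U
  let I : Finset (Fin m) := Finset.univ.image a
  have hmem : ∀ b : I, ∃ j, a j = b := fun b => by
    obtain ⟨j, _, hj⟩ := Finset.mem_image.1 b.2
    exact ⟨j, hj⟩
  choose c hc using hmem
  have hcinj : Function.Injective c := by
    intro b b' h
    apply Subtype.ext
    rw [← hc b, ← hc b', h]
  have hcsurj : Function.Surjective c := by
    intro j
    refine ⟨⟨a j, Finset.mem_image_of_mem a (Finset.mem_univ j)⟩, ?_⟩
    exact ha (hc _)
  refine ⟨I, fun b i => ((w (c b) : U) : EucM m) i, ?_, ?_, ?_⟩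
  · have h1 : LinearIndependent ℝ (fun j => ((w j : U) : EucM m)) :=
      w.linearIndependent.map' U.subtype (Submodule.ker_subtype _)
    have h2 := (h1.comp c hcinj).map' (WithLp.linearEquiv 2 ℝ (Fin m → ℝ)).toLinearMap
      (LinearEquiv.ker _)
    exact h2
  · have h1 : (fun b : I => eucMap m (fun i => ((w (c b) : U) : EucM m) i)) =
        (U.subtype ∘ w) ∘ c := by
      funext b
      rfl
    rw [h1, hcsurj.range_comp, Set.range_comp, Submodule.span_image, w.span_eq, Submodule.map_top,
      Submodule.range_subtype]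
  · intro b b'
    have := hw (c b) (c b')
    rw [hc b'] at this
    refine Eq.trans this ?_
    by_cases h : b = b'
    · rw [if_pos h, if_pos (congrArg c h)]
    · rw [if_neg h, if_neg (fun h' => h (hcinj h'))]

end Claimed.Agent.R293
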