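/-
R293 / PairDiffSpan.lean  (owner: helper26).  Leaf PAIR-DIFFSPAN: translations between the three languages
(`Fin m → Bool`, `Fin m → ℤ`, `Fin m → ℝ`).  `pair_diffSpan : StPairDiffSpan`.  Prefix `pairds`.
-/
import Claimed.Agent.R293.PairLeaves

set_option autoImplicit false

namespace Claimed.Agent.R293

open Module

variable {m : ℕ}

/-- `zToR` as an additive homomorphism. -/
def pairdsHom (m : ℕ) : (Fin m → ℤ) →+ (Fin m → ℝ) where
  toFun := zToR
  map_zero' := by funext i; simp [zToR]
  map_add' x y := by funext i; simp [zToR]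

@[simp] theorem pairdsHom_apply (x : Fin m → ℤ) : pairdsHom m x = zToR x := rfl

theorem pairds_zToR_bitVecZ (z : Fin m → Bool) : zToR (bitVecZ z) = bitVec z := by
  funext i
  simp only [zToR, bitVecZ, bitVec]
  split_ifs <;> simp

theorem pairds_zToR_sub (x y : Fin m → ℤ) : zToR (x - y) = zToR x - zToR y :=
  (pairdsHom m).map_sub x y

theorem pairds_bitVec_injective : Function.Injective (bitVec : (Fin m → Bool) → Fin m → ℝ) := by
  intro z z' h
  funext i
  have := congrFun h i
  simp only [bitVec] at this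
  cases hz : z i <;> cases hz' : z' i <;> simp [hz, hz'] at this ⊢

/-- the real span only sees the subgroup generated. -/
theorem pairds_span_image_closure {E : Type*} [AddCommGroup E] [Module ℝ E] (f : (Fin m → ℤ) →+ E)
    (S : Set (Fin m → ℤ)) :
    Submodule.span ℝ (f '' (AddSubgroup.closure S : Set (Fin m → ℤ))) = Submodule.span ℝ (f '' S) := by
  apply le_antisymm
  · rw [Submodule.span_le]
    rintro _ ⟨u, hu, rfl⟩
    induction hu using AddSubgroup.closure_induction with
    | mem x hx => exact Submodule.subset_span ⟨x, hx, rfl⟩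
    | zero => rw [map_zero]; exact Submodule.zero_mem _
    | add x y _ _ hx hy => rw [map_add]; exact Submodule.add_mem _ hx hy
    | neg x _ hx => rw [map_neg]; exact Submodule.neg_mem _ hx
  · exact Submodule.span_mono (Set.image_mono AddSubgroup.subset_closure)

/-- the `ℤ`-span of the image of a set only depends on the subgroup generated. -/
theorem pairds_spanZ_image {E : Type*} [AddCommGroup E] (f : (Fin m → ℤ) →+ E) {S S' : Set (Fin m → ℤ)}
    (h : AddSubgroup.closure S = AddSubgroup.closure S') :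
    Submodule.span ℤ (f '' S) = Submodule.span ℤ (f '' S') := by
  apply Submodule.toAddSubgroup_injective
  rw [Submodule.span_int_eq_addSubgroupClosure, Submodule.span_int_eq_addSubgroupClosure,
    ← AddMonoidHom.map_closure, ← AddMonoidHom.map_closure, h]

/-- the set of differences of the integer `0/1` vectors of `V`. -/
def pairdsDiff (V : Finset (Fin m → Bool)) : Set (Fin m → ℤ) :=
  {d | ∃ x ∈ {u | ∃ z ∈ V, u = bitVecZ z}, ∃ y ∈ {u | ∃ z ∈ V, u = bitVecZ z}, d = x - y}

theorem pairds_image_diff {E : Type*} [AddCommGroup E] (g : (Fin m → ℝ) →+ E) (V : Finset (Fin m → Bool)) :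
    (g.comp (pairdsHom m)) '' pairdsDiff V =
      {y | ∃ a ∈ V.image bitVec, ∃ b ∈ V.image bitVec, y = g a - g b} := by
  ext y
  constructor
  · rintro ⟨_, ⟨_, ⟨z, hz, rfl⟩, _, ⟨z', hz', rfl⟩, rfl⟩, rfl⟩
    refine ⟨bitVec z, Finset.mem_image_of_mem _ hz, bitVec z', Finset.mem_image_of_mem _ hz', ?_⟩
    rw [AddMonoidHom.comp_apply, pairdsHom_apply, pairds_zToR_sub, pairds_zToR_bitVecZ, pairds_zToR_bitVecZ,
      map_sub]
  · rintro ⟨a, ha, b, hb, rfl⟩
    obtain ⟨z, hz, rfl⟩ := Finset.mem_image.1 ha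
    obtain ⟨z', hz', rfl⟩ := Finset.mem_image.1 hb
    refine ⟨bitVecZ z - bitVecZ z', ⟨_, ⟨z, hz, rfl⟩, _, ⟨z', hz', rfl⟩, rfl⟩, ?_⟩
    rw [AddMonoidHom.comp_apply, pairdsHom_apply, pairds_zToR_sub, pairds_zToR_bitVecZ, pairds_zToR_bitVecZ,
      map_sub]

theorem pair_diffSpan : StPairDiffSpan := by
  intro m r V x hx
  have hcl : AddSubgroup.closure (Set.range x) = AddSubgroup.closure (pairdsDiff V) := hx.closure_eq
  have h1 : Submodule.span ℝ (Set.range fun i => zToR (x i))
      = vectorSpan ℝ ((V.image bitVec : Finset (Fin m → ℝ)) : Set (Fin m → ℝ)) := by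
    have e1 : (Set.range fun i => zToR (x i)) = (pairdsHom m) '' Set.range x := by
      rw [← Set.range_comp]; rfl
    have e2 := pairds_image_diff (AddMonoidHom.id (Fin m → ℝ)) V
    rw [AddMonoidHom.id_comp] at e2
    rw [e1, ← pairds_span_image_closure, hcl, pairds_span_image_closure, e2, vectorSpan_def]
    congr 1
    ext y
    constructor
    · rintro ⟨a, ha, b, hb, rfl⟩
      exact ⟨a, ha, b, hb, rfl⟩
    · rintro ⟨a, ha, b, hb, rfl⟩
      exact ⟨a, ha, b, hb, rfl⟩
  refine ⟨h1, ?_, ?_⟩
  · have h2 := card_le_two_pow_finrank_vectorSpan (k := ℝ) (V.image bitVec) (by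
      intro y hy i
      obtain ⟨z, _, rfl⟩ := Finset.mem_image.1 hy
      simp only [bitVec]
      split_ifs
      · exact Or.inr rfl
      · exact Or.inl rfl)
    rw [Finset.card_image_of_injective _ pairds_bitVec_injective, ← h1,
      finrank_span_eq_card hx.indepR, Fintype.card_fin] at h2
    exact h2
  · intro d Φ
    have e1 : (Set.range fun i => Φ (zToR (x i))) = (Φ.toAddMonoidHom.comp (pairdsHom m)) '' Set.range x := by
      rw [← Set.range_comp]; rfl
    have e2 := pairds_image_diff Φ.toAddMonoidHom V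
    rw [e1, pairds_spanZ_image _ hcl, e2]
    rfl

end Claimed.Agent.R293
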