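/-
R293 / PairFixed.lean (owner helper108).  Leaf PAIR-FIXED (B (5.18)): nullity tail of the random form on a fixed subspace.
Prefix `pairfx`.  No sorry.
-/
import Claimed.Agent.R293.PairLeaves

set_option autoImplicit false
set_option linter.unusedSectionVars false

namespace Claimed.Agent.R293

open Module Matrix

section Fixed
variable {m : ℕ}

/-- Gram matrix of the form `C` in the family `v`. -/
def pairfxGram {I : Finset (Fin m)} (v : I → Fin m → ℝ) (C : Matrix (Fin m) (Fin m) ℝ) : Matrix I I ℝ :=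
  Matrix.of fun a b => v a ⬝ᵥ C.mulVec (v b)

theorem pairfx_crkMat_symm (s : Sym2 (Fin m) → Bool) : (crkMat ℝ s)ᵀ = crkMat ℝ s := by
  ext i j
  rw [transpose_apply, crkMat_apply, crkMat_apply, Sym2.eq_swap]

theorem pairfxGram_symm {I : Finset (Fin m)} (v : I → Fin m → ℝ) {C : Matrix (Fin m) (Fin m) ℝ}
    (hC : Cᵀ = C) : (pairfxGram v C).IsSymm := by
  ext a b
  show v b ⬝ᵥ C.mulVec (v a) = v a ⬝ᵥ C.mulVec (v b)
  rw [dotProduct_mulVec, ← mulVec_transpose, hC, dotProduct_comm]

/-- a matrix supported on `I × I` has Gram matrix equal to its block. -/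
theorem pairfxGram_of_supported {I : Finset (Fin m)} (v : I → Fin m → ℝ)
    (hv : ∀ a b : I, v a (b : Fin m) = if a = b then 1 else 0)
    (Δ : Matrix (Fin m) (Fin m) ℝ) (hΔ : ∀ i j, ¬ (i ∈ I ∧ j ∈ I) → Δ i j = 0) :
    pairfxGram v Δ = crkBlock Δ I := by
  ext a b
  show v a ⬝ᵥ Δ.mulVec (v b) = Δ a b
  have h1 : ∀ i : Fin m, (Δ.mulVec (v b)) i = Δ i b := by
    intro i
    show ∑ j, Δ i j * v b j = Δ i b
    rw [Finset.sum_eq_single (b : Fin m)]
    · rw [hv b b, if_pos rfl, mul_one]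
    · intro j _ hj
      by_cases hjI : j ∈ I
      · have := hv b ⟨j, hjI⟩
        rw [if_neg (fun h => hj (by rw [h]))] at this
        show Δ i j * v b j = 0
        rw [this, mul_zero]
      · rw [hΔ i j (fun h => hjI h.2), zero_mul]
    · intro h; exact absurd (Finset.mem_univ _) h
  show ∑ i, v a i * (Δ.mulVec (v b)) i = Δ a b
  rw [Finset.sum_eq_single (a : Fin m)]
  · rw [hv a a, if_pos rfl, one_mul, h1]
  · intro i _ hi
    rw [h1]
    by_cases hiI : i ∈ I
    · have := hv a ⟨i, hiI⟩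
      rw [if_neg (fun h => hi (by rw [h]))] at this
      show v a i * Δ i b = 0
      rw [this, zero_mul]
    · rw [hΔ i b (fun h => hiI h.1), mul_zero]
  · intro h; exact absurd (Finset.mem_univ _) h

theorem pairfxGram_sub {I : Finset (Fin m)} (v : I → Fin m → ℝ) (C C' : Matrix (Fin m) (Fin m) ℝ) :
    pairfxGram v (C - C') = pairfxGram v C - pairfxGram v C' := by
  ext a b
  show v a ⬝ᵥ (C - C').mulVec (v b) = v a ⬝ᵥ C.mulVec (v b) - v a ⬝ᵥ C'.mulVec (v b)
  rw [sub_mulVec, dotProduct_sub]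

end Fixed

/-- **Leaf FIXED.** -/
theorem pair_fixed (hblock : StCrkBlock) (hcoord : StPairCoordBasis) (hrad : StPairRadRank) :
    StPairFixed := by
  intro m π b hπ hb hb0 hb1 U k
  obtain ⟨I, v, hlin, hspan, hv⟩ := hcoord m U
  let H : (Sym2 (Fin m) → Bool) → Matrix I I ℝ :=
    fun s => pairfxGram v (crkMat ℝ s) - crkBlock (crkMat ℝ s) I
  have hHsymm : ∀ s, (H s).IsSymm := by
    intro s
    refine Matrix.IsSymm.sub (pairfxGram_symm v (pairfx_crkMat_symm s)) ?_
    ext a b
    show crkMat ℝ s b a = crkMat ℝ s a b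
    rw [crkMat_apply, crkMat_apply, Sym2.eq_swap]
  have hHdep : ∀ s s' : Sym2 (Fin m) → Bool, (∀ e, e ∉ I.sym2 → s e = s' e) → H s = H s' := by
    intro s s' hss
    have h1 := pairfxGram_of_supported v hv (crkMat ℝ s - crkMat ℝ s') (by
      intro i j hij
      rw [Matrix.sub_apply, crkMat_apply, crkMat_apply, hss s(i, j) (by
        rw [Finset.mk_mem_sym2_iff]; exact hij), sub_self])
    rw [pairfxGram_sub] at h1
    have h2 : crkBlock (crkMat ℝ s - crkMat ℝ s') I
        = crkBlock (crkMat ℝ s) I - crkBlock (crkMat ℝ s') I := rfl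
    rw [h2] at h1
    show pairfxGram v (crkMat ℝ s) - crkBlock (crkMat ℝ s) I
      = pairfxGram v (crkMat ℝ s') - crkBlock (crkMat ℝ s') I
    rw [sub_eq_sub_iff_sub_eq_sub]
    exact h1
  have hmain := hblock m π b hπ hb hb0 hb1 I H hHsymm hHdep k
  have hset : {s : Sym2 (Fin m) → Bool | k ≤ finrank ℝ (formRad (toR (bitMat s)) U)}
      = {s | (crkBlock (crkMat ℝ s) I + H s).rank + k ≤ I.card} := by
    ext s
    have h1 := hrad m (toR (bitMat s)) I v hlin
    rw [hspan, Fintype.card_coe] at h1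
    have h2 : crkBlock (crkMat ℝ s) I + H s
        = Matrix.of fun a b => v a ⬝ᵥ (toR (bitMat s)).mulVec (v b) := by
      show crkBlock (crkMat ℝ s) I + (pairfxGram v (crkMat ℝ s) - crkBlock (crkMat ℝ s) I) = _
      rw [add_sub_cancel]
      rfl
    simp only [Set.mem_ofPred_eq]
    rw [h2]
    omega
  rw [hset]
  refine hmain.trans ?_
  refine mul_le_mul_of_nonneg_right ?_ (pow_nonneg hb0 _)
  refine pow_le_pow_right₀ one_le_two ?_
  simpa using Finset.card_le_univ I

end Claimed.Agent.R293
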