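/-
R293 / PairHeightTwo.lean  (owner: helper205).  Leaf PAIR-HEIGHTTWO: **B eq. (5.11)**.  No sorry.
Many layers of height two force the admissible columns into few lattices of large index.
-/
import Claimed.Agent.R293.PairLeaves
import Claimed.Agent.R293.PairBridge

set_option autoImplicit false

namespace Claimed.Agent.R293

open Filter Module Matrix

/-- index of an intersection of subgroups with pairwise coprime prime power indices. -/
theorem pairht_index {G : Type*} [AddCommGroup G] (Ps : Finset ℕ) (hPs : ∀ l ∈ Ps, l.Prime)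
    (Kf : ℕ → AddSubgroup G) (e : ℕ → ℕ) (he : ∀ l ∈ Ps, (Kf l).index = l ^ e l)
    (K0 : AddSubgroup G) (hK0 : ∀ l ∈ Ps, K0 ≤ Kf l) (h0 : K0.index ≠ 0) :
    ∏ l ∈ Ps, l ^ e l ≤ (⨅ l ∈ Ps, Kf l).index := by
  set K : AddSubgroup G := ⨅ l ∈ Ps, Kf l with hK
  have hle : K0 ≤ K := le_iInf₂ hK0
  have hne : K.index ≠ 0 := by
    intro h
    have := AddSubgroup.index_dvd_of_le hle
    rw [h, zero_dvd_iff] at this
    exact h0 this
  refine Nat.le_of_dvd (Nat.pos_of_ne_zero hne) ?_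
  refine Finset.prod_dvd_of_isRelPrime ?_ ?_
  · intro a ha b hb hab
    show IsRelPrime (a ^ e a) (b ^ e b)
    rw [← Nat.coprime_iff_isRelPrime]
    exact Nat.Coprime.pow _ _ ((Nat.coprime_primes (hPs a ha) (hPs b hb)).2 hab)
  · intro l hl
    rw [← he l hl]
    exact AddSubgroup.index_dvd_of_le (iInf₂_le l hl)

/-- `∏ l^{k_l} = N^{N ∑ k_l ν_l}`. -/
theorem pairht_prod_eq {N : ℕ} (hN : 2 ≤ N) (Ps : Finset ℕ) (hPs : ∀ l ∈ Ps, l.Prime) (k : ℕ → ℕ) :
    ∏ l ∈ Ps, ((l : ℝ) ^ k l) = (N : ℝ) ^ ((∑ l ∈ Ps, (k l : ℝ) * nu N l) * N) := by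
  have hN1 : (1 : ℝ) < N := by exact_mod_cast (by omega : 1 < N)
  have hN0 : (0 : ℝ) < N := by linarith
  have hlog : 0 < Real.log N := Real.log_pos hN1
  rw [Real.rpow_def_of_pos hN0, Finset.sum_mul, Finset.mul_sum, Real.exp_sum]
  refine Finset.prod_congr rfl fun l hl => ?_
  have hl0 : (0 : ℝ) < l := by exact_mod_cast (hPs l hl).pos
  have : Real.log N * ((k l : ℝ) * nu N l * N) = (k l : ℝ) * Real.log l := by
    unfold nu
    field_simp
  rw [this, ← Real.rpow_natCast, Real.rpow_def_of_pos hl0, mul_comm]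

/-- number of colour vectors. -/
theorem pairht_colours (Ps : Finset ℕ) (k : ℕ → ℕ) :
    ((∏ l ∈ Ps, (8 * k l + 1) : ℕ) : ℝ) = (2 : ℝ) ^ (∑ l ∈ Ps, Real.logb 2 (1 + 8 * (k l : ℝ))) := by
  rw [Real.rpow_sum_of_pos (by norm_num)]
  push_cast
  refine Finset.prod_congr rfl fun l _ => ?_
  rw [Real.rpow_logb (by norm_num) (by norm_num) (by positivity)]
  ring

/-- **B eq. (5.11)**. -/
theorem pair_heightTwo (hCol : StColoring) (hCost : StColorCost) (hIdx : StIndexDet)
    (hScale : StPairScale) : StHeightTwo := by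
  classical
  intro α hα ε hε L0
  filter_upwards [hCost ε hε, hScale.2.2.2, eventually_ge_atTop 2] with N e1 e2 e3 m hm B hB hdet hT hSI
  have hN1 : (1 : ℝ) ≤ N := by exact_mod_cast (by omega : 1 ≤ N)
  have hN0 : (0 : ℝ) ≤ N := by linarith
  obtain ⟨col, hcol⟩ := hCol m B hB.1 hdet
  obtain ⟨Ps, hPsub, hweight, hcost⟩ := (e1 m hm B hB hdet).1 hT
  have hPs : ∀ l ∈ Ps, l.Prime := fun l hl => Nat.prime_of_mem_primeFactors (hPsub hl)
  set k : ℕ → ℕ := fun l => twoCount (DiscGroup B) l with hk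
  set S : Finset (Fin m → Bool) := Finset.univ.filter fun z => IsAdmCol L0 N B z with hS
  have hcount : admCount L0 N B = S.card := by
    unfold admCount
    rw [Nat.card_eq_fintype_card, Fintype.card_subtype]
  -- the colour vector
  let f : (Fin m → Bool) → (Ps → ℕ) := fun z l => col l (bitVecZ z)
  let T : Finset (Ps → ℕ) := Fintype.piFinset fun l : Ps => Finset.range (8 * k l + 1)
  have hf : ∀ z ∈ S, f z ∈ T := by
    intro z _
    rw [Fintype.mem_piFinset]
    intro l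
    rw [Finset.mem_range]
    exact Nat.lt_succ_of_le (hcol.le l (bitVecZ z))
  have hTcard : T.card = ∏ l ∈ Ps, (8 * k l + 1) := by
    rw [Fintype.card_piFinset]
    simp only [Finset.card_range]
    exact Finset.prod_coe_sort Ps (fun l => 8 * k l + 1)
  -- the fibres
  have hfib : ∀ c ∈ T, (S.filter fun z => f z = c).card ≤ ⌊(2 : ℝ) ^ (α * N)⌋₊ := by
    intro c _
    -- extend `c` to all naturals
    let c' : ℕ → ℕ := fun l => if h : l ∈ Ps then c ⟨l, h⟩ else 0
    have hsub : ∀ l : ℕ, ∃ K : AddSubgroup (Fin m → ℤ), l ∈ Ps → (colLat B ≤ K ∧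
        (∃ e, k l ≤ e ∧ K.index = l ^ e) ∧
        ∀ z, IsInt (invForm B z z) → col l z = c' l → z ∈ K) := by
      intro l
      by_cases hl : l ∈ Ps
      · obtain ⟨K, h1, h2, h3⟩ := hcol.sub l (hPs l hl) (c' l)
        exact ⟨K, fun _ => ⟨h1, h2, h3⟩⟩
      · exact ⟨⊤, fun h => absurd h hl⟩
    choose Kf hKf using hsub
    have hex : ∀ l : ℕ, ∃ e : ℕ, l ∈ Ps → (k l ≤ e ∧ (Kf l).index = l ^ e) := by
      intro l
      by_cases hl : l ∈ Ps
      · obtain ⟨e, h1, h2⟩ := (hKf l hl).2.1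
        exact ⟨e, fun _ => ⟨h1, h2⟩⟩
      · exact ⟨0, fun h => absurd h hl⟩
    choose e he using hex
    set K : AddSubgroup (Fin m → ℤ) := ⨅ l ∈ Ps, Kf l with hK
    have h0 : (colLat B).index ≠ 0 := by
      rw [hIdx m B]
      exact Int.natAbs_ne_zero.2 hdet
    have hidx := pairht_index Ps hPs Kf e (fun l hl => (he l hl).2) (colLat B)
      (fun l hl => (hKf l hl).1) h0
    have hcolK : colLat B ≤ K := le_iInf₂ fun l hl => (hKf l hl).1
    have hidx' : (N : ℝ) ^ (ell N ^ (-(20 : ℝ)) * N) ≤ (K.index : ℝ) := by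
      calc (N : ℝ) ^ (ell N ^ (-(20 : ℝ)) * N)
          ≤ (N : ℝ) ^ ((∑ l ∈ Ps, (k l : ℝ) * nu N l) * N) := by
            apply Real.rpow_le_rpow_of_exponent_le hN1
            exact mul_le_mul_of_nonneg_right (e2.trans hweight) hN0
        _ = ∏ l ∈ Ps, ((l : ℝ) ^ k l) := (pairht_prod_eq e3 Ps hPs k).symm
        _ ≤ ∏ l ∈ Ps, ((l : ℝ) ^ e l) := by
            refine Finset.prod_le_prod (fun l _ => by positivity) fun l hl => ?_
            have hl1 : (1 : ℝ) ≤ l := by exact_mod_cast (hPs l hl).one_lt.le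
            exact pow_le_pow_right₀ hl1 (he l hl).1
        _ = ((∏ l ∈ Ps, l ^ e l : ℕ) : ℝ) := by push_cast; rfl
        _ ≤ (K.index : ℝ) := by exact_mod_cast hidx
    have hsmall := hSI K (fun y => hcolK ⟨y, rfl⟩) hidx' 0
    rw [Nat.card_eq_fintype_card, Fintype.card_subtype] at hsmall
    refine Nat.le_floor ?_
    refine le_trans ?_ hsmall.le
    have : (S.filter fun z => f z = c) ⊆ Finset.univ.filter fun z : Fin m → Bool => bitVecZ z - 0 ∈ K := by
      intro z hz
      rw [Finset.mem_filter] at hz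
      refine Finset.mem_filter.2 ⟨Finset.mem_univ _, ?_⟩
      rw [sub_zero, hK]
      simp only [AddSubgroup.mem_iInf]
      intro l hl
      refine (hKf l hl).2.2 _ (pair_isInt_of_adm (Finset.mem_filter.1 hz.1).2) ?_
      have := congrFun hz.2 ⟨l, hl⟩
      simp only [c', hl, dif_pos]
      exact this
    exact_mod_cast Finset.card_le_card this
  have hmain := Finset.card_le_mul_card_image_of_maps_to hf _ hfib
  rw [hcount]
  calc (S.card : ℝ) ≤ (⌊(2 : ℝ) ^ (α * N)⌋₊ : ℝ) * (T.card : ℝ) := by exact_mod_cast hmain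
    _ ≤ (2 : ℝ) ^ (α * N) * (2 : ℝ) ^ (ε * N) := by
        refine mul_le_mul (Nat.floor_le (by positivity)) ?_ (Nat.cast_nonneg _) (by positivity)
        rw [hTcard, pairht_colours]
        exact Real.rpow_le_rpow_of_exponent_le one_le_two hcost
    _ = (2 : ℝ) ^ ((α + ε) * N) := by
        rw [← Real.rpow_add (by norm_num)]
        ring_nf

end Claimed.Agent.R293
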