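/-
R293 / PairInvRank.lean  (owner: helper112).  Leaf PAIR-INVRANK: B Proposition 5.9 (uniform inverse restriction rank).
`pair_invRank : StCover → StPairFixed → StPairNullStab → StPairPerpDist → StPairDualRad → StInvRank`.
-/
import Claimed.Agent.R293.PairLeaves
import Claimed.Agent.R293.ProbMarg
import Claimed.Agent.R293.CovAsymp

set_option autoImplicit false

namespace Claimed.Agent.R293

open Filter Module Matrix Topology

theorem pairir_bitMat_symm {m : ℕ} (s : Sym2 (Fin m) → Bool) : (bitMat s).IsSymm := by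
  ext i j
  simp [bitMat, Matrix.transpose_apply, Sym2.eq_swap]

/-- the eventual numerical conditions. -/
theorem pairir_eventually (c1 c2 : ℝ) (hc1 : 0 < c1) (hc2 : 0 < c2) (A : ℝ) :
    ∀ᶠ N : ℕ in atTop, ell N ^ (-(1 : ℝ)) ≤ c1 ∧ 1 ≤ c2 * N ∧ A ≤ c2 * N := by
  have h1 := covy_ell_neg (1 / c1) (p := 1) one_pos
  have h2 : Tendsto (fun N : ℕ => c2 * (N : ℝ)) atTop atTop :=
    Tendsto.const_mul_atTop hc2 tendsto_natCast_atTop_atTop
  filter_upwards [h1, h2.eventually_ge_atTop 1, h2.eventually_ge_atTop A] with N e1 e2 e3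
  refine ⟨?_, e2, e3⟩
  rw [div_mul_eq_mul_div, one_mul, div_le_one hc1] at e1
  exact e1

/-- **Leaf PAIR-INVRANK = B Proposition 5.9.** -/
theorem pair_invRank (hCov : StCover) (hFix : StPairFixed) (hNull : StPairNullStab)
    (hPerp : StPairPerpDist) (hDual : StPairDualRad) : StInvRank := by
  intro p hp0 hp1 D hD ξ hξ A
  -- `α = - log₂ (1-p) > 0`
  set α : ℝ := - Real.logb 2 (1 - p) with hα
  have hb0 : 0 < 1 - p := by linarith
  have hb1 : 1 - p < 1 := by linarith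
  have hαpos : 0 < α := by
    rw [hα, neg_pos]
    exact Real.logb_neg (by norm_num) hb0 hb1
  have hbα : (1 - p) = (2 : ℝ) ^ (-α) := by
    rw [hα, neg_neg, Real.rpow_logb (by norm_num) (by norm_num) hb0]
  have hc : 0 < min (ξ / 4) (α * ξ ^ 2 / 16) := lt_min (by positivity) (by positivity)
  filter_upwards [hCov D 1 hD one_pos,
    pairir_eventually (min (ξ / 4) (α * ξ ^ 2 / 16)) (min (ξ / 4) (α * ξ ^ 2 / 16)) hc hc (A + 1)]
    with N hN hnum m hm π hπ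
  obtain ⟨he, hn1, hnA⟩ := hnum
  have he1 : ell N ^ (-(1 : ℝ)) ≤ ξ / 4 := he.trans (min_le_left _ _)
  have he2 : ell N ^ (-(1 : ℝ)) ≤ α * ξ ^ 2 / 16 := he.trans (min_le_right _ _)
  have hN0 : (0 : ℝ) ≤ N := Nat.cast_nonneg N
  have hn1' : 1 ≤ ξ / 4 * N := hn1.trans (mul_le_mul_of_nonneg_right (min_le_left _ _) hN0)
  have hnA' : A + 1 ≤ α * ξ ^ 2 / 16 * N :=
    hnA.trans (mul_le_mul_of_nonneg_right (min_le_right _ _) hN0)
  have hmN : m ≤ N := hm.2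
  obtain ⟨C, hCcard, hCcov⟩ := hN m hmN
  have hprob : IsProbArray π := pb_bitModel_isProbArray hp0.le (by linarith) hπ
  set k : ℕ := ⌈ξ * N / 2⌉₊ with hk
  have hk1 : ξ * N / 2 ≤ k := Nat.le_ceil _
  have hk2 : (k : ℝ) < ξ * N / 2 + 1 := Nat.ceil_lt_add_one (by positivity)
  -- the bad event is contained in the union
  have hsub : {s : Sym2 (Fin m) → Bool | (bitMat s).det ≠ 0 ∧ ¬ InvRank D ξ N (bitMat s)} ⊆
      ⋃ U ∈ C, {s | k ≤ finrank ℝ (formRad (toR (bitMat s)) Uᗮ)} := by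
    rintro s ⟨hdet, hbad⟩
    unfold InvRank at hbad
    push Not at hbad
    obtain ⟨F, hF, hHF, hlt⟩ := hbad
    obtain ⟨U, hU, hdist⟩ := hCcov F hF hHF
    simp only [Set.mem_iUnion]
    refine ⟨U, hU, ?_⟩
    rw [hDual m (bitMat s) (pairir_bitMat_symm s) hdet F] at hlt
    have h1 := hNull m (toR (bitMat s)) Fᗮ Uᗮ
    rw [hPerp m F U] at h1
    have h2 : (finrank ℝ (formRad (toR (bitMat s)) Fᗮ) : ℝ) ≤
        (finrank ℝ (formRad (toR (bitMat s)) Uᗮ) : ℝ) + (rkDist F U : ℝ) := by exact_mod_cast h1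
    have h3 : (k : ℝ) < (finrank ℝ (formRad (toR (bitMat s)) Uᗮ) : ℝ) := by
      have h4 : (N : ℝ) * ell N ^ (-(1 : ℝ)) ≤ N * (ξ / 4) := mul_le_mul_of_nonneg_left he1 hN0
      nlinarith
    have : k < finrank ℝ (formRad (toR (bitMat s)) Uᗮ) := by exact_mod_cast h3
    exact this.le
  have hone : ∀ U ∈ C, prb π {s | k ≤ finrank ℝ (formRad (toR (bitMat s)) Uᗮ)} ≤
      2 ^ m * (1 - p) ^ (Nat.choose (k + 1) 2) := fun U _ =>
    hFix m π (1 - p) hprob (fun e => pb_bitModel_atom_le hp1 hπ e) hb0.le hb1.le Uᗮ k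
  have hmain := (pb_prb_mono hprob hsub).trans (pb_prb_biUnion_le_card_mul hprob C _ hone)
  refine hmain.trans ?_
  -- numerics
  have hch : ξ ^ 2 * (N : ℝ) ^ 2 / 8 ≤ (Nat.choose (k + 1) 2 : ℝ) := by
    rw [Nat.cast_choose_two]
    push_cast
    have hk0 : (0 : ℝ) ≤ k := Nat.cast_nonneg k
    have hx : 0 ≤ ξ * N / 2 := by positivity
    nlinarith
  have hpow : (1 - p) ^ (Nat.choose (k + 1) 2) = (2 : ℝ) ^ (-α * (Nat.choose (k + 1) 2 : ℝ)) := by
    rw [hbα, ← Real.rpow_natCast, ← Real.rpow_mul (by norm_num)]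
  have h2m : (2 : ℝ) ^ m ≤ (2 : ℝ) ^ (N : ℝ) := by
    rw [Real.rpow_natCast]
    exact pow_le_pow_right₀ (by norm_num) hmN
  calc (C.card : ℝ) * (2 ^ m * (1 - p) ^ (Nat.choose (k + 1) 2))
      ≤ (2 : ℝ) ^ ((N : ℝ) ^ 2 * ell N ^ (-(1 : ℝ))) *
          ((2 : ℝ) ^ (N : ℝ) * (2 : ℝ) ^ (-α * (Nat.choose (k + 1) 2 : ℝ))) := by
        rw [hpow]
        gcongr
    _ = (2 : ℝ) ^ ((N : ℝ) ^ 2 * ell N ^ (-(1 : ℝ)) + ((N : ℝ) + -α * (Nat.choose (k + 1) 2 : ℝ))) := by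
        rw [Real.rpow_add (by norm_num), Real.rpow_add (by norm_num)]
    _ ≤ (2 : ℝ) ^ (-(A * N)) := by
        apply Real.rpow_le_rpow_of_exponent_le (by norm_num)
        have h5 : (N : ℝ) ^ 2 * ell N ^ (-(1 : ℝ)) ≤ (N : ℝ) ^ 2 * (α * ξ ^ 2 / 16) :=
          mul_le_mul_of_nonneg_left he2 (by positivity)
        have h6 : α * (ξ ^ 2 * (N : ℝ) ^ 2 / 8) ≤ α * (Nat.choose (k + 1) 2 : ℝ) :=
          mul_le_mul_of_nonneg_left hch hαpos.le
        have h7 : (A + 1) * N ≤ α * ξ ^ 2 / 16 * N * N := mul_le_mul_of_nonneg_right hnA' hN0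
        nlinarith

end Claimed.Agent.R293
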