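/-
R293 / LatShort.lean  (LAT leaf; statements by helper195, proofs by helper38).
Finiteness of balls, shortest vectors, rank one lattices.
Prefix `latSh_`.
-/
import Claimed.Agent.R293.LatIface
import Claimed.Agent.R293.LatBasic

set_option autoImplicit false

namespace Claimed.Agent.R293

open Submodule Module
open scoped RealInnerProductSpace

variable {E : Type*} [NormedAddCommGroup E] [InnerProductSpace ℝ E] [FiniteDimensional ℝ E]

/-- set form of the finiteness of balls. -/
theorem latSh_setFinite_ball {L : Submodule ℤ E} (hL : IsLat L) (R : ℝ) (v : E) :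
    Set.Finite (Metric.closedBall v R ∩ (L : Set E)) := by
  have hd : DiscreteTopology L := lat_discrete hL
  have : ProperSpace E := FiniteDimensional.proper_real E
  refine Metric.finite_isBounded_inter_isClosed
    (isDiscrete_iff_discreteTopology.mpr hd) Metric.isBounded_closedBall ?_
  rw [← coe_toAddSubgroup]
  have : DiscreteTopology L.toAddSubgroup := hd
  exact AddSubgroup.isClosed_of_discrete

/-- a ball contains finitely many lattice points. -/
theorem latSh_finite_ball {L : Submodule ℤ E} (hL : IsLat L) (R : ℝ) (v : E) :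
    Finite {x : L // ‖(x : E) - v‖ ≤ R} := by
  have hfin := (latSh_setFinite_ball hL R v).to_subtype
  refine Finite.of_injective
    (fun x : {x : L // ‖(x : E) - v‖ ≤ R} =>
      (⟨(x.1 : E), by
        refine ⟨?_, x.1.2⟩
        rw [Metric.mem_closedBall, dist_eq_norm]
        exact x.2⟩ : ↥(Metric.closedBall v R ∩ (L : Set E)))) ?_
  intro x y hxy
  have : ((x.1 : L) : E) = ((y.1 : L) : E) :=
    congrArg (fun z : ↥(Metric.closedBall v R ∩ (L : Set E)) => (z : E)) hxy
  exact Subtype.ext (Subtype.ext this)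

theorem latSh_finite_ball0 {L : Submodule ℤ E} (hL : IsLat L) (R : ℝ) : Finite {x : L // ‖(x : E)‖ ≤ R} := by
  simpa using latSh_finite_ball hL R 0

theorem latSh_exists_shortest {L : Submodule ℤ E} (hL : IsLat L) (hne : L ≠ ⊥) :
    ∃ v ∈ L, v ≠ 0 ∧ ∀ x ∈ L, x ≠ 0 → ‖v‖ ≤ ‖x‖ := by
  obtain ⟨x0, hx0, hx00⟩ := (Submodule.ne_bot_iff L).mp hne
  have hfin : Set.Finite {x : E | x ∈ L ∧ x ≠ 0 ∧ ‖x‖ ≤ ‖x0‖} := by
    refine (latSh_setFinite_ball hL ‖x0‖ 0).subset ?_
    rintro x ⟨hx, -, hxn⟩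
    exact ⟨by simpa using hxn, hx⟩
  obtain ⟨v, ⟨hvL, hv0, hvn⟩, hmin⟩ := Set.exists_min_image _ (fun x : E => ‖x‖) hfin
    ⟨x0, hx0, hx00, le_rfl⟩
  refine ⟨v, hvL, hv0, fun x hx hx0' => ?_⟩
  by_cases hxn : ‖x‖ ≤ ‖x0‖
  · exact hmin x ⟨hx, hx0', hxn⟩
  · exact hvn.trans (not_le.mp hxn).le

omit [FiniteDimensional ℝ E] in
theorem latSh_singleton_basis {v : E} (hv : v ≠ 0) : IsLatBasis (fun _ : Fin 1 => v) (span ℤ {v}) := by
  refine ⟨LinearIndependent.of_subsingleton 0 hv, ?_⟩
  rw [Set.range_const]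

omit [FiniteDimensional ℝ E] in
theorem latSh_singleton_isLat (v : E) : IsLat (span ℤ {v}) := by
  by_cases hv : v = 0
  · subst hv
    rw [Submodule.span_zero_singleton]
    exact lat_isLat_bot
  · exact ⟨1, _, latSh_singleton_basis hv⟩

omit [FiniteDimensional ℝ E] in
theorem latSh_singleton_rank {v : E} (hv : v ≠ 0) : latRank (span ℤ {v}) = 1 :=
  lat_rank_eq (latSh_singleton_basis hv)

omit [FiniteDimensional ℝ E] in
theorem latSh_singleton_det {v : E} (hv : v ≠ 0) : latDet (span ℤ {v}) = ‖v‖ := by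
  rw [lat_det_eq (latSh_singleton_basis hv), lat_gramDet_one, Real.sqrt_sq (norm_nonneg _)]

omit [FiniteDimensional ℝ E] in
/-- a shortest nonzero vector is primitive. -/
theorem latSh_shortest_prim {L : Submodule ℤ E} (_hL : IsLat L) {v : E} (hv : v ∈ L) (hv0 : v ≠ 0)
    (hmin : ∀ x ∈ L, x ≠ 0 → ‖v‖ ≤ ‖x‖) : IsPrim L (span ℤ {v}) := by
  have hle : span ℤ {v} ≤ L := by
    rw [span_le]
    rintro _ rfl
    exact hv
  refine ⟨hle, le_antisymm ?_ (lat_le_sat hle)⟩
  rintro x ⟨hxL, hxs⟩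
  have hxs' : x ∈ span ℝ ({v} : Set E) := by
    have : rspan (span ℤ {v}) = span ℝ ({v} : Set E) := by
      unfold rspan
      rw [Submodule.span_span_of_tower]
    rw [← this]
    exact hxs
  obtain ⟨t, rfl⟩ := Submodule.mem_span_singleton.mp hxs'
  have hy : t • v - (round t : ℤ) • v ∈ L := L.sub_mem hxL (L.smul_mem _ hv)
  have hyeq : t • v - (round t : ℤ) • v = (t - round t) • v := by
    rw [sub_smul, Int.cast_smul_eq_zsmul]
  have hy0 : t • v - (round t : ℤ) • v = 0 := by
    by_contra hne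
    have h1 := hmin _ hy hne
    rw [hyeq, norm_smul, Real.norm_eq_abs] at h1
    have h2 := abs_sub_round t
    have h3 : 0 < ‖v‖ := norm_pos_iff.mpr hv0
    nlinarith
  rw [sub_eq_zero.mp hy0]
  exact Submodule.smul_mem _ _ (Submodule.mem_span_singleton_self v)

theorem latSh_rank_eq_zero_iff {L : Submodule ℤ E} : latRank L = 0 ↔ L = ⊥ := by
  unfold latRank rspan
  rw [Submodule.finrank_eq_zero, Submodule.span_eq_bot, Submodule.eq_bot_iff]
  rfl

omit [FiniteDimensional ℝ E] in
theorem latSh_bot_isLat : IsLat (⊥ : Submodule ℤ E) := lat_isLat_bot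

omit [FiniteDimensional ℝ E] in
theorem latSh_bot_det : latDet (⊥ : Submodule ℤ E) = 1 := lat_det_bot

end Claimed.Agent.R293
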