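/-
R293 / LatRobust.lean  (owner: helper195).   Determinant of a robust image lattice: paper A, Lemma 3.8 = paper B,
Lemma 5.5.   Prefix `latRob_`.    Reverse Minkowski enters as the hypothesis `StRM τ`.
The affine map `Φ` of the paper is taken LINEAR on the ambient space (both uses, the identity and the graph map
`x ↦ (x, B⁻¹ x)`, are linear); injectivity of `Φ` is not needed for the determinant bound; discreteness of the image lattice is a
hypothesis `IsLat L` (in both uses `L` is a subgroup of a scaled copy of an integer lattice: `latRob_isLat_of_scaled`).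
No sorry in this file; it uses `latGs_count_RM` (LatGauss.lean) and `latSh_finite_ball0` (LatShort.lean).
-/
import Claimed.Agent.R293.LatIface
import Claimed.Agent.R293.LatMin
import Claimed.Agent.R293.LatGauss
import Claimed.Agent.R293.LatShort
import Claimed.Agent.R293.LatInt
import Claimed.Agent.R293.RobustExtract
import Claimed.Agent.R293.Model

set_option autoImplicit false

namespace Claimed.Agent.R293

open Submodule Module Filter
open scoped RealInnerProductSpace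

/-- the lattice generated by the differences of the images. -/
def latDiff {V E : Type*} [AddCommGroup V] [Module ℝ V] [AddCommGroup E] [Module ℝ E]
    (Φ : V →ₗ[ℝ] E) (A : Finset V) : Submodule ℤ E :=
  span ℤ {y | ∃ a ∈ A, ∃ b ∈ A, y = Φ a - Φ b}

section
variable {V : Type*} [AddCommGroup V] [Module ℝ V]
variable {E : Type*} [NormedAddCommGroup E] [InnerProductSpace ℝ E]

theorem latRob_rspan (Φ : V →ₗ[ℝ] E) (A : Finset V) :
    rspan (latDiff Φ A) = (vectorSpan ℝ (A : Set V)).map Φ := by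
  unfold rspan latDiff vectorSpan
  rw [Submodule.span_span_of_tower, Submodule.map_span]
  congr 1
  ext y
  constructor
  · rintro ⟨a, ha, b, hb, rfl⟩
    exact ⟨a - b, ⟨a, ha, b, hb, rfl⟩, by simp⟩
  · rintro ⟨_, ⟨a, ha, b, hb, rfl⟩, rfl⟩
    exact ⟨a, ha, b, hb, by simp⟩

theorem latRob_rank (Φ : V →ₗ[ℝ] E) (A : Finset V)
    (hinj : ∀ x ∈ vectorSpan ℝ (A : Set V), Φ x = 0 → x = 0) :
    latRank (latDiff Φ A) = finrank ℝ (vectorSpan ℝ (A : Set V)) := by
  unfold latRank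
  rw [latRob_rspan]
  have hinj' : Function.Injective (Φ.domRestrict (vectorSpan ℝ (A : Set V))) := by
    rw [← LinearMap.ker_eq_bot, LinearMap.ker_eq_bot']
    intro x hx
    exact Subtype.ext (hinj x x.2 hx)
  rw [← LinearMap.range_domRestrict]
  exact LinearMap.finrank_range_of_inj hinj'

theorem latRob_rspan_map {E' : Type*} [NormedAddCommGroup E'] [InnerProductSpace ℝ E']
    (L : Submodule ℤ E) (f : E →ₗ[ℝ] E') :
    rspan (L.map (f.restrictScalars ℤ)) = (rspan L).map f := by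
  unfold rspan
  rw [Submodule.map_span]
  rfl

/-- a subgroup `M` with `q • M ⊆ L` (`q ≠ 0`, `L` a lattice) is a lattice. -/
theorem latRob_isLat_of_scaled [FiniteDimensional ℝ E] {L M : Submodule ℤ E} (hL : IsLat L) {q : ℤ} (hq : q ≠ 0)
    (h : ∀ x ∈ M, q • x ∈ L) : IsLat M := by
  have hq' : (q : ℝ) ≠ 0 := by exact_mod_cast hq
  set M' : Submodule ℤ E := M.map (LinearMap.lsmul ℤ E q) with hM'
  have hle : M' ≤ L := by
    rintro _ ⟨x, hx, rfl⟩
    exact h x hx
  obtain ⟨r, c, hc⟩ := lat_of_le hL hle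
  refine ⟨r, fun i => (q : ℝ)⁻¹ • c i, ?_, ?_⟩
  · have := hc.1.units_smul (fun _ => (Units.mk0 (q : ℝ) hq')⁻¹)
    convert this using 1
    funext i
    simp [Units.smul_def]
  · apply le_antisymm
    · rw [Submodule.span_le]
      rintro _ ⟨i, rfl⟩
      obtain ⟨x, hx, hxc⟩ := (lat_basis_mem hc i : c i ∈ M')
      have : c i = (q : ℝ) • x := by
        rw [← hxc, Int.cast_smul_eq_zsmul]
        rfl
      show (q : ℝ)⁻¹ • c i ∈ M
      rw [this, smul_smul, inv_mul_cancel₀ hq', one_smul]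
      exact hx
    · intro x hx
      have hqx : q • x ∈ M' := ⟨x, hx, rfl⟩
      obtain ⟨a, ha⟩ := lat_exists_coeff hc hqx
      have : x = ∑ j, a j • ((q : ℝ)⁻¹ • c j) := by
        have h1 : (q : ℝ) • x = ∑ j, (a j : ℝ) • c j := by rw [← ha, Int.cast_smul_eq_zsmul]
        have h2 : x = (q : ℝ)⁻¹ • ((q : ℝ) • x) := by rw [smul_smul, inv_mul_cancel₀ hq', one_smul]
        rw [h2, h1, Finset.smul_sum]
        refine Finset.sum_congr rfl fun j _ => ?_
        rw [← Int.cast_smul_eq_zsmul ℝ, smul_comm]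
      rw [this]
      exact Submodule.sum_mem _ fun j _ => Submodule.smul_mem _ _ (Submodule.subset_span ⟨j, rfl⟩)

/-- rank-nullity on a subspace. -/
theorem latRob_rank_nullity [FiniteDimensional ℝ V] {E' : Type*} [AddCommGroup E'] [Module ℝ E'] (W : Submodule ℝ V) (g : V →ₗ[ℝ] E') :
    finrank ℝ (W.map g) + finrank ℝ (W ⊓ LinearMap.ker g : Submodule ℝ V) = finrank ℝ W := by
  have h := LinearMap.finrank_range_add_finrank_ker (g.domRestrict W)
  rw [LinearMap.range_domRestrict, LinearMap.ker_domRestrict] at h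
  have h2 : finrank ℝ ((LinearMap.ker g).comap W.subtype) = finrank ℝ (W ⊓ LinearMap.ker g : Submodule ℝ V) := by
    have : (LinearMap.ker g).comap W.subtype = (W ⊓ LinearMap.ker g).comap W.subtype := by
      ext x
      simp
    rw [this]
    exact (Submodule.comapSubtypeEquivOfLe (inf_le_left : W ⊓ LinearMap.ker g ≤ W)).finrank_eq
  rw [← h2]
  exact h

/-- lattice Hadamard: a lattice generated (over `ℝ`) by a set `S ⊆ L` of vectors of norm `≤ R` has `det ≤ R^rank`. -/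
theorem latRob_hadamard [FiniteDimensional ℝ E] {L : Submodule ℤ E} (hL : IsLat L) (S : Set E) (hS : S ⊆ L)
    (hspan : span ℝ S = rspan L) {R : ℝ} (hR : ∀ x ∈ S, ‖x‖ ≤ R) : latDet L ≤ R ^ latRank L := by
  obtain ⟨c, hcS, hcspan, hli⟩ := Submodule.exists_fun_fin_finrank_span_eq ℝ S
  have hM : span ℤ (Set.range c) ≤ L := by
    rw [Submodule.span_le]
    rintro _ ⟨i, rfl⟩
    exact hS (hcS i)
  have hb := lat_isLatBasis_span hli
  have hk : finrank ℝ (span ℝ S) = latRank L := by rw [hspan]; rfl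
  have h1 := lat_det_le_of_le hL hM (by rw [lat_rank_eq hb, hk])
  rw [lat_det_eq hb] at h1
  refine h1.trans ?_
  have h2 : Real.sqrt (gramDet c) ≤ ∏ i, ‖c i‖ := by
    have := Real.sqrt_le_sqrt (lat_gramDet_le_prod c)
    rwa [Finset.prod_pow, Real.sqrt_sq (Finset.prod_nonneg fun i _ => norm_nonneg _)] at this
  refine h2.trans ?_
  calc ∏ i, ‖c i‖ ≤ ∏ _i : Fin (finrank ℝ (span ℝ S)), R :=
        Finset.prod_le_prod (fun i _ => norm_nonneg _) (fun i _ => hR _ (hcS i))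
    _ = R ^ latRank L := by simp [hk]

end

section
variable {V : Type} [AddCommGroup V] [Module ℝ V] [FiniteDimensional ℝ V]
variable {E : Type} [NormedAddCommGroup E] [InnerProductSpace ℝ E] [FiniteDimensional ℝ E]

theorem latRob_core {τ : ℕ → ℝ} (hRM : StRM τ) (hτ : ∀ j, 0 < τ j) {ρ : ℝ}
    (A : Finset V) (hA : A.Nonempty) (hrob : IsRobust ℝ ρ A) (Φ : V →ₗ[ℝ] E)
    {R : ℝ} (hR : ∀ a ∈ A, ∀ b ∈ A, ‖Φ a - Φ b‖ ≤ R) (hL : IsLat (latDiff Φ A)) {T : ℝ} (hT : 0 < T) :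
    ∃ j : ℕ, j ≤ latRank (latDiff Φ A) ∧
      ρ * j ≤ Real.logb 2 (3 / 2 * Real.exp (Real.pi * R ^ 2 * τ j ^ 2 / T ^ 2)) ∧
      latDet (latDiff Φ A) ≤ T ^ (latRank (latDiff Φ A) - j) * R ^ j := by
  classical
  obtain ⟨a0, ha0⟩ := hA
  set L := latDiff Φ A with hLdef
  obtain ⟨L0, hP, hdet0, hLB⟩ := lat_exists_threshold hL hT
  set Γ := latQuot L L0 with hΓdef
  set π := perpProj (rspan L0) with hπ
  have hΓ : IsLat Γ := lat_quot_isLat hL hP
  set j := latRank Γ with hj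
  have hrk : latRank L = latRank L0 + j := lat_rank_quot hL hP
  have hR0 : 0 ≤ R := by
    have := hR a0 ha0 a0 ha0
    simpa using this
  set W := vectorSpan ℝ (A : Set V) with hW
  set g : V →ₗ[ℝ] E := π ∘ₗ Φ with hg
  have hspanΓ : rspan Γ = W.map g := by
    have h1 : rspan Γ = (rspan L).map π := latRob_rspan_map L π
    rw [h1, hLdef, latRob_rspan, ← Submodule.map_comp]
  have hmemL : ∀ a ∈ A, ∀ b ∈ A, Φ a - Φ b ∈ L := fun a ha b hb =>
    Submodule.subset_span ⟨a, ha, b, hb, rfl⟩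
  refine ⟨j, by omega, ?_, ?_⟩
  · -- the counting part
    set f : V → E := fun a => π (Φ a - Φ a0) with hf
    set S' := A.image f with hS'
    have hmem : ∀ y ∈ S', y ∈ Γ ∧ ‖y‖ ≤ R := by
      intro y hy
      obtain ⟨a, ha, rfl⟩ := Finset.mem_image.1 hy
      exact ⟨lat_perpProj_mem_quot L0 (hmemL a ha a0 ha0),
        (lat_norm_perpProj_le _ _).trans (hR a ha a0 ha0)⟩
    have hcount : (S'.card : ℝ) ≤ ballCount R Γ := by
      have hfin : Finite {x : Γ // ‖(x : E)‖ ≤ R} := latSh_finite_ball0 hΓ R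
      let G : S' → {x : Γ // ‖(x : E)‖ ≤ R} := fun y => ⟨⟨y.1, (hmem y.1 y.2).1⟩, (hmem y.1 y.2).2⟩
      have hG : Function.Injective G := by
        intro y z hyz
        apply Subtype.ext
        have := congrArg (fun t : {x : Γ // ‖(x : E)‖ ≤ R} => ((t : Γ) : E)) hyz
        exact this
      have := Nat.card_le_card_of_injective G hG
      rw [Nat.card_eq_fintype_card, Fintype.card_coe] at this
      unfold ballCount
      exact_mod_cast this
    have hMb := latGs_count_RM hRM hΓ hT hLB (hτ _) hR0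
    have hfib : ∀ γ ∈ S', ((A.filter (fun a => f a = γ)).card : ℝ) ≤ (2 : ℝ) ^ (-(ρ * j)) * A.card := by
      intro γ hγ
      obtain ⟨a1, ha1, rfl⟩ := Finset.mem_image.1 hγ
      set D : Submodule ℝ V := W ⊓ LinearMap.ker g with hD
      set Eγ : AffineSubspace ℝ V := AffineSubspace.mk' a1 D with hEγ
      have hle : Eγ ≤ affineSpan ℝ (A : Set V) := by
        intro p hp
        rw [hEγ] at hp
        have hp' : p -ᵥ a1 ∈ D := AffineSubspace.mem_mk'.1 hp
        have h1 : a1 ∈ affineSpan ℝ (A : Set V) := subset_affineSpan ℝ _ ha1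
        have h2 : p -ᵥ a1 ∈ (affineSpan ℝ (A : Set V)).direction := by
          rw [direction_affineSpan]
          exact hp'.1
        have := AffineSubspace.vadd_mem_of_mem_direction h2 h1
        rwa [vsub_vadd] at this
      have hfilter : A.filter (· ∈ Eγ) = A.filter (fun a => f a = f a1) := by
        apply Finset.filter_congr
        intro a ha
        rw [hEγ, AffineSubspace.mem_mk']
        have hfg : f a - f a1 = g (a - a1) := by
          simp only [hf, hg, LinearMap.comp_apply, map_sub]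
          abel
        constructor
        · intro h
          have h3 : g (a - a1) = 0 := h.2
          exact sub_eq_zero.1 (hfg.trans h3)
        · intro h
          refine ⟨vsub_mem_vectorSpan ℝ ha ha1, ?_⟩
          show g (a - a1) = 0
          rw [← hfg]
          exact sub_eq_zero.2 h
      have h4 := hrob Eγ hle
      have hdir : Eγ.direction = D := AffineSubspace.direction_mk' a1 D
      have hrn := latRob_rank_nullity W g
      rw [← hspanΓ] at hrn
      have hrn' : (finrank ℝ W : ℝ) - finrank ℝ D = j := by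
        have : (finrank ℝ (rspan Γ) : ℝ) + finrank ℝ D = finrank ℝ W := by exact_mod_cast hrn
        have hj' : (j : ℝ) = finrank ℝ (rspan Γ) := rfl
        linarith
      rw [hdir, hrn'] at h4
      have hcard : (A.filter (fun a => f a = f a1)).card = (A.filter (· ∈ Eγ)).card := by rw [hfilter]
      rw [hcard]
      convert h4 using 3
    have hsum : (A.card : ℝ) ≤ S'.card * ((2 : ℝ) ^ (-(ρ * j)) * A.card) := by
      have h5 : A.card = ∑ γ ∈ S', (A.filter (fun a => f a = γ)).card := Finset.card_eq_sum_card_image f A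
      calc (A.card : ℝ) = ∑ γ ∈ S', ((A.filter (fun a => f a = γ)).card : ℝ) := by exact_mod_cast h5
        _ ≤ ∑ _γ ∈ S', ((2 : ℝ) ^ (-(ρ * j)) * A.card) := Finset.sum_le_sum hfib
        _ = S'.card * ((2 : ℝ) ^ (-(ρ * j)) * A.card) := by rw [Finset.sum_const, nsmul_eq_mul]
    have hApos : (0 : ℝ) < A.card := by
      have : 0 < A.card := Finset.card_pos.2 ⟨a0, ha0⟩
      exact_mod_cast this
    have h6 : (1 : ℝ) ≤ S'.card * (2 : ℝ) ^ (-(ρ * j)) := by
      have : (1 : ℝ) * A.card ≤ (S'.card * (2 : ℝ) ^ (-(ρ * j))) * A.card := by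
        rw [one_mul, mul_assoc]; exact hsum
      exact le_of_mul_le_mul_right this hApos
    have h7 : (2 : ℝ) ^ (ρ * j) ≤ S'.card := by
      have h2pos : (0 : ℝ) < (2 : ℝ) ^ (ρ * j) := Real.rpow_pos_of_pos two_pos _
      have := mul_le_mul_of_nonneg_right h6 h2pos.le
      rwa [one_mul, mul_assoc, ← Real.rpow_add two_pos, neg_add_cancel, Real.rpow_zero, mul_one] at this
    have h8 : (2 : ℝ) ^ (ρ * j) ≤ 3 / 2 * Real.exp (Real.pi * R ^ 2 * τ j ^ 2 / T ^ 2) :=
      h7.trans (hcount.trans hMb)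
    have h9 := Real.logb_le_logb_of_le (b := 2) (by norm_num) (Real.rpow_pos_of_pos two_pos _) h8
    rwa [Real.logb_rpow two_pos (by norm_num)] at h9
  · -- the determinant part
    have hdetΓ : latDet Γ ≤ R ^ j := by
      apply latRob_hadamard hΓ (g '' ((A : Set V) -ᵥ (A : Set V)))
      · rintro _ ⟨_, ⟨a, ha, b, hb, rfl⟩, rfl⟩
        have := lat_perpProj_mem_quot L0 (hmemL a ha b hb)
        simpa [hg] using this
      · rw [hspanΓ, hW, vectorSpan, Submodule.map_span]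
      · rintro _ ⟨_, ⟨a, ha, b, hb, rfl⟩, rfl⟩
        have := (lat_norm_perpProj_le (rspan L0) (Φ a - Φ b)).trans (hR a ha b hb)
        simpa [hg] using this
    rw [lat_det_quot hL hP, show latRank L - j = latRank L0 by omega]
    exact mul_le_mul hdet0 hdetΓ (lat_det_nonneg _) (pow_nonneg hT.le _)

theorem latRob_logb_le {Y : ℝ} (hY : 0 ≤ Y) : Real.logb 2 (3 / 2 * Real.exp Y) ≤ 2 + 2 * Y := by
  have hl2 : (1 : ℝ) / 2 ≤ Real.log 2 := by
    have := Real.log_two_gt_d9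
    linarith
  have hl32 : Real.log (3 / 2) ≤ 1 / 2 := by
    have := Real.log_le_sub_one_of_pos (show (0 : ℝ) < 3 / 2 by norm_num)
    linarith
  unfold Real.logb
  rw [Real.log_mul (by norm_num) (Real.exp_pos _).ne', Real.log_exp, div_le_iff₀ (by linarith)]
  nlinarith

theorem latRob_det_bound {τ : ℕ → ℝ} (hRM : StRM τ) {Cτ : ℝ} {c : ℕ} (hg : RMGrowth τ Cτ c) {D C₀ : ℝ}
    (hC₀ : 0 < C₀) (N : ℕ) (hN : 2 ≤ N) (h1 : 1 ≤ ell N) (h2 : ell N ^ D ≤ Real.log N)
    (h3 : C₀ ≤ Real.sqrt N) (h4 : 4 * Real.log N ^ 2 ≤ N)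
    (h5 : 4 * (Real.pi * C₀ ^ 2 * Cτ ^ 2 * 4 ^ c) ≤ Real.log N ^ 4)
    (A : Finset V) (Φ : V →ₗ[ℝ] E) (hA : A.Nonempty) (hrob : IsRobust ℝ (ell N ^ (-D)) A)
    (hdim : finrank ℝ (vectorSpan ℝ (A : Set V)) ≤ N)
    (hR : ∀ a ∈ A, ∀ b ∈ A, ‖Φ a - Φ b‖ ≤ C₀ * Real.sqrt N) (hL : IsLat (latDiff Φ A)) :
    latDet (latDiff Φ A) ≤ Real.exp (((c : ℝ) + 4) * N * ell N) := by
  set x := Real.log N with hx
  set l := ell N with hl
  have hNr : (2 : ℝ) ≤ N := by exact_mod_cast hN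
  have hNpos : (0 : ℝ) < N := by linarith
  have hlx : l = Real.log x := rfl
  have hxpos : 0 < x := Real.log_pos (by linarith)
  have hx2 : 2 ≤ x := by
    have h := (Real.le_log_iff_exp_le hxpos).1 h1
    have := Real.add_one_le_exp (1 : ℝ)
    linarith
  have hlpos : 0 < l := by linarith
  set T : ℝ := x ^ (c + 3) with hT
  have hTpos : 0 < T := pow_pos hxpos _
  have hT1 : 1 ≤ T := one_le_pow₀ (by linarith)
  set R := C₀ * Real.sqrt N with hRdef
  have hτpos : ∀ j, 0 < τ j := fun j => lt_of_lt_of_le one_pos (hg j).1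
  obtain ⟨j, hjr, hjρ, hdet⟩ := latRob_core hRM hτpos A hA hrob Φ hR hL hTpos
  have hrN : latRank (latDiff Φ A) ≤ N := by
    unfold latRank
    rw [latRob_rspan]
    exact (Submodule.finrank_map_le _ _).trans hdim
  have hjN : j ≤ N := hjr.trans hrN
  have hjNr : (j : ℝ) ≤ N := by exact_mod_cast hjN
  have hj0 : (0 : ℝ) ≤ j := Nat.cast_nonneg j
  have hsq : Real.sqrt N * Real.sqrt N = N := Real.mul_self_sqrt hNpos.le
  have hRN : R ≤ N := by
    calc R ≤ Real.sqrt N * Real.sqrt N := mul_le_mul_of_nonneg_right h3 (Real.sqrt_nonneg _)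
      _ = N := hsq
  have hR0 : 0 ≤ R := by positivity
  have hR2 : R ^ 2 = C₀ ^ 2 * N := by rw [hRdef, mul_pow, Real.sq_sqrt hNpos.le]
  have hlogj : Real.log ((j : ℝ) + 2) ≤ 2 * x := by
    have h6 : (j : ℝ) + 2 ≤ (N : ℝ) ^ 2 := by nlinarith
    calc Real.log ((j : ℝ) + 2) ≤ Real.log ((N : ℝ) ^ 2) := Real.log_le_log (by linarith) h6
      _ = 2 * x := by rw [Real.log_pow]; push_cast; ring
  have hlogj0 : 0 ≤ Real.log ((j : ℝ) + 2) := Real.log_nonneg (by linarith)
  have hCτ : 0 < Cτ := by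
    by_contra hcon
    push Not at hcon
    have h7 := (hg j).1.trans (hg j).2
    have h8 : Cτ * Real.log ((j : ℝ) + 2) ^ c ≤ 0 := mul_nonpos_of_nonpos_of_nonneg hcon (pow_nonneg hlogj0 c)
    linarith
  have hτj : τ j ≤ Cτ * (2 * x) ^ c :=
    (hg j).2.trans (mul_le_mul_of_nonneg_left (pow_le_pow_left₀ hlogj0 hlogj c) hCτ.le)
  have h4c : (4 : ℝ) ^ c = (2 ^ c) ^ 2 := by
    rw [← pow_mul, mul_comm, pow_mul]; norm_num
  have hτj2 : τ j ^ 2 ≤ Cτ ^ 2 * 4 ^ c * x ^ (2 * c) := by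
    calc τ j ^ 2 ≤ (Cτ * (2 * x) ^ c) ^ 2 := pow_le_pow_left₀ (hτpos j).le hτj 2
      _ = Cτ ^ 2 * 4 ^ c * x ^ (2 * c) := by rw [h4c]; ring
  set K1 : ℝ := Real.pi * C₀ ^ 2 * Cτ ^ 2 * 4 ^ c with hK1
  have hK1pos : 0 < K1 := by positivity
  set Y : ℝ := Real.pi * R ^ 2 * τ j ^ 2 / T ^ 2 with hY
  have hY0 : 0 ≤ Y := by positivity
  have hT2 : T ^ 2 = x ^ (2 * c) * x ^ 6 := by rw [hT]; ring
  have hYle : Y ≤ K1 * N / x ^ 6 := by
    rw [hY, hT2, hR2, div_le_div_iff₀ (by positivity) (by positivity)]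
    have h9 : Real.pi * (C₀ ^ 2 * N) * τ j ^ 2 ≤ Real.pi * (C₀ ^ 2 * N) * (Cτ ^ 2 * 4 ^ c * x ^ (2 * c)) :=
      mul_le_mul_of_nonneg_left hτj2 (by positivity)
    calc Real.pi * (C₀ ^ 2 * N) * τ j ^ 2 * x ^ 6
        ≤ Real.pi * (C₀ ^ 2 * N) * (Cτ ^ 2 * 4 ^ c * x ^ (2 * c)) * x ^ 6 :=
          mul_le_mul_of_nonneg_right h9 (by positivity)
      _ = K1 * N * (x ^ (2 * c) * x ^ 6) := by rw [hK1]; ring
  have hlD : 0 < l ^ D := Real.rpow_pos_of_pos hlpos D
  have hjle : (j : ℝ) ≤ x * (2 + 2 * Y) := by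
    have h10 : (j : ℝ) = l ^ D * (l ^ (-D) * j) := by
      rw [← mul_assoc, ← Real.rpow_add hlpos, add_neg_cancel, Real.rpow_zero, one_mul]
    have h11 : l ^ (-D) * j ≤ 2 + 2 * Y := hjρ.trans (latRob_logb_le hY0)
    calc (j : ℝ) = l ^ D * (l ^ (-D) * j) := h10
      _ ≤ l ^ D * (2 + 2 * Y) := mul_le_mul_of_nonneg_left h11 hlD.le
      _ ≤ x * (2 + 2 * Y) := mul_le_mul_of_nonneg_right h2 (by linarith)
  have hjx : (j : ℝ) * x ≤ N := by
    have h12 : x ^ 2 * Y ≤ N / 4 := by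
      have h13 : x ^ 2 * Y ≤ x ^ 2 * (K1 * N / x ^ 6) := mul_le_mul_of_nonneg_left hYle (by positivity)
      have h14 : x ^ 2 * (K1 * N / x ^ 6) = K1 * N / x ^ 4 := by
        field_simp
      have h15 : K1 * N / x ^ 4 ≤ N / 4 := by
        rw [div_le_div_iff₀ (by positivity) (by norm_num)]
        nlinarith
      linarith
    calc (j : ℝ) * x ≤ x * (2 + 2 * Y) * x := mul_le_mul_of_nonneg_right hjle hxpos.le
      _ = 2 * x ^ 2 + 2 * (x ^ 2 * Y) := by ring
      _ ≤ N := by linarith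
  have hTN : T ^ (latRank (latDiff Φ A) - j) ≤ Real.exp (((c : ℝ) + 3) * N * l) := by
    calc T ^ (latRank (latDiff Φ A) - j) ≤ T ^ N := pow_le_pow_right₀ hT1 (by omega)
      _ = Real.exp (((c : ℝ) + 3) * N * l) := by
          rw [hT, ← pow_mul, ← Real.exp_log hxpos, ← hlx, ← Real.exp_nat_mul]
          congr 1
          push_cast
          ring
  have hRj : R ^ j ≤ Real.exp ((j : ℝ) * x) := by
    calc R ^ j ≤ (N : ℝ) ^ j := pow_le_pow_left₀ hR0 hRN j
      _ = Real.exp ((j : ℝ) * x) := by rw [Real.exp_nat_mul, hx, Real.exp_log hNpos]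
  calc latDet (latDiff Φ A) ≤ T ^ (latRank (latDiff Φ A) - j) * R ^ j := hdet
    _ ≤ Real.exp (((c : ℝ) + 3) * N * l) * Real.exp ((j : ℝ) * x) :=
        mul_le_mul hTN hRj (pow_nonneg hR0 j) (Real.exp_pos _).le
    _ = Real.exp (((c : ℝ) + 3) * N * l + (j : ℝ) * x) := (Real.exp_add _ _).symm
    _ ≤ Real.exp (((c : ℝ) + 4) * N * l) := by
        apply Real.exp_le_exp.2
        have h16 : (N : ℝ) ≤ N * l := le_mul_of_one_le_right hNpos.le h1
        have e : ((c : ℝ) + 4) * N * l = ((c : ℝ) + 3) * N * l + N * l := by ring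
        rw [e]
        linarith

end

theorem latRob_eventually (D C₀ K : ℝ) :
    ∀ᶠ N : ℕ in atTop, 2 ≤ N ∧ 1 ≤ ell N ∧ ell N ^ D ≤ Real.log N ∧ C₀ ≤ Real.sqrt N ∧
      4 * Real.log N ^ 2 ≤ N ∧ K ≤ Real.log N ^ 4 := by
  have hx : Tendsto (fun N : ℕ => Real.log (N : ℝ)) atTop atTop :=
    Real.tendsto_log_atTop.comp tendsto_natCast_atTop_atTop
  have hl : Tendsto (fun N : ℕ => ell N) atTop atTop := Real.tendsto_log_atTop.comp hx
  have e1 := hl.eventually_ge_atTop 1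
  have e2 : ∀ᶠ N : ℕ in atTop, ell N ^ D ≤ Real.log N := by
    have h := (isLittleO_log_rpow_rpow_atTop D (one_pos : (0 : ℝ) < 1)).def (one_pos : (0 : ℝ) < 1)
    have h' := hx.eventually (h.and (eventually_gt_atTop 0))
    filter_upwards [h'] with N hN
    obtain ⟨hN1, hN2⟩ := hN
    rw [Real.rpow_one, one_mul, Real.norm_of_nonneg hN2.le] at hN1
    exact (le_abs_self _).trans hN1
  have e3 : ∀ᶠ N : ℕ in atTop, C₀ ≤ Real.sqrt N :=
    (Real.tendsto_sqrt_atTop.comp tendsto_natCast_atTop_atTop).eventually_ge_atTop C₀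
  have e4 : ∀ᶠ N : ℕ in atTop, 4 * Real.log N ^ 2 ≤ N := by
    have h := (Real.isLittleO_pow_log_id_atTop (n := 2)).def (show (0 : ℝ) < 1 / 4 by norm_num)
    have h' := tendsto_natCast_atTop_atTop.eventually h
    filter_upwards [h'] with N hN
    simp only [id, Real.norm_eq_abs] at hN
    rw [abs_of_nonneg (sq_nonneg _), abs_of_nonneg (Nat.cast_nonneg N)] at hN
    linarith
  have e5 : ∀ᶠ N : ℕ in atTop, K ≤ Real.log N ^ 4 :=
    ((tendsto_pow_atTop (by norm_num : (4 : ℕ) ≠ 0)).comp hx).eventually_ge_atTop K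
  filter_upwards [eventually_ge_atTop 2, e1, e2, e3, e4, e5] with N h0 h1 h2 h3 h4 h5
  exact ⟨h0, h1, h2, h3, h4, h5⟩

/-- **A Lemma 3.8 = B Lemma 5.5**, asymptotic form: `det L_Φ ≤ exp (C N ℓ)` with `C = c + 4` depending only on the exponent of `τ`.
Take `T = (log N)^(c+3)` in `latRob_core`: `j ≤ O(N ℓ^D / (log N)^6)`,
`log det ≤ (c+3) N ℓ + j log (C₀ √N) ≤ (c+4) N ℓ`. -/
theorem latRob_asymp {τ : ℕ → ℝ} (hRM : StRM τ) {Cτ : ℝ} {c : ℕ} (hg : RMGrowth τ Cτ c) (D C₀ : ℝ)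
    (hC₀ : 0 < C₀) :
    ∀ᶠ N : ℕ in atTop, ∀ (V : Type) [AddCommGroup V] [Module ℝ V] [FiniteDimensional ℝ V]
      (E : Type) [NormedAddCommGroup E] [InnerProductSpace ℝ E] [FiniteDimensional ℝ E]
      (A : Finset V) (Φ : V →ₗ[ℝ] E), A.Nonempty → IsRobust ℝ (ell N ^ (-D)) A →
      finrank ℝ (vectorSpan ℝ (A : Set V)) ≤ N →
      (∀ a ∈ A, ∀ b ∈ A, ‖Φ a - Φ b‖ ≤ C₀ * Real.sqrt N) → IsLat (latDiff Φ A) →
      latDet (latDiff Φ A) ≤ Real.exp (((c : ℝ) + 4) * N * ell N) := by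
  filter_upwards [latRob_eventually D C₀ (4 * (Real.pi * C₀ ^ 2 * Cτ ^ 2 * 4 ^ c))] with N hN
  obtain ⟨h0, h1, h2, h3, h4, h5⟩ := hN
  intro V _ _ _ E _ _ _ A Φ hA hrob hdim hR hL
  exact latRob_det_bound hRM hg hC₀ N h0 h1 h2 h3 h4 h5 A Φ hA hrob hdim hR hL

theorem latRob_norm_le {m : ℕ} (x : EucM m) (hx : ∀ i, |x i| ≤ 1) : ‖x‖ ≤ Real.sqrt m := by
  rw [EuclideanSpace.norm_eq]
  apply Real.sqrt_le_sqrt
  calc ∑ i, ‖x i‖ ^ 2 ≤ ∑ _i : Fin m, (1 : ℝ) := by
        refine Finset.sum_le_sum fun i _ => ?_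
        rw [Real.norm_eq_abs]
        have h0 := abs_nonneg (x i)
        have h1 := hx i
        nlinarith
    _ = m := by simp

/-- **height form**: `H(span (A - A)) ≤ exp ((c+4) N ℓ)` for a robust set of `0/1` vectors in `ℝ^m`, `m ≤ N`. -/
theorem latRob_height {τ : ℕ → ℝ} (hRM : StRM τ) {Cτ : ℝ} {c : ℕ} (hg : RMGrowth τ Cτ c) (D : ℝ) :
    ∀ᶠ N : ℕ in atTop, ∀ (m : ℕ) (A : Finset (EucM m)), m ≤ N → A.Nonempty →
      (∀ x ∈ A, ∀ i, x i = 0 ∨ x i = 1) → IsRobust ℝ (ell N ^ (-D)) A →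
      IsRat (vectorSpan ℝ (A : Set (EucM m))) ∧
        height (vectorSpan ℝ (A : Set (EucM m))) ≤ Real.exp (((c : ℝ) + 4) * N * ell N) := by
  filter_upwards [latRob_asymp hRM hg D 1 one_pos] with N hN
  intro m A hmN hA hcube hrob
  have hle : latDiff (LinearMap.id : EucM m →ₗ[ℝ] EucM m) A ≤ intLat m := by
    unfold latDiff
    rw [Submodule.span_le]
    rintro _ ⟨a, ha, b, hb, rfl⟩ i
    rcases hcube a ha i with h1 | h1 <;> rcases hcube b hb i with h2 | h2
    · exact ⟨0, by simp [h1, h2]⟩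
    · exact ⟨-1, by simp [h1, h2]⟩
    · exact ⟨1, by simp [h1, h2]⟩
    · exact ⟨0, by simp [h1, h2]⟩
  have hspan : rspan (latDiff (LinearMap.id : EucM m →ₗ[ℝ] EucM m) A) = vectorSpan ℝ (A : Set (EucM m)) := by
    rw [latRob_rspan, Submodule.map_id]
  have hdim : finrank ℝ (vectorSpan ℝ (A : Set (EucM m))) ≤ N := by
    have := Submodule.finrank_le (vectorSpan ℝ (A : Set (EucM m)))
    rw [finrank_euclideanSpace_fin] at this
    omega
  have hR : ∀ a ∈ A, ∀ b ∈ A, ‖(LinearMap.id : EucM m →ₗ[ℝ] EucM m) a - (LinearMap.id : EucM m →ₗ[ℝ] EucM m) b‖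
      ≤ 1 * Real.sqrt N := by
    intro a ha b hb
    rw [one_mul]
    refine (latRob_norm_le _ fun i => ?_).trans (Real.sqrt_le_sqrt (by exact_mod_cast hmN))
    rcases hcube a ha i with h1 | h1 <;> rcases hcube b hb i with h2 | h2 <;> simp [h1, h2]
  have h := hN (EucM m) (EucM m) A LinearMap.id hA hrob hdim hR (latInt_sub_isLat hle)
  rw [← hspan]
  exact ⟨latInt_isRat_rspan hle, (latInt_height_le hle).trans h⟩

/-- the linear identification `ℝ^m = (Fin m → ℝ) → EucM m`. -/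
noncomputable def latToEuc (m : ℕ) : (Fin m → ℝ) →ₗ[ℝ] EucM m := (WithLp.linearEquiv 2 ℝ (Fin m → ℝ)).symm.toLinearMap

theorem latToEuc_apply {m : ℕ} (x : Fin m → ℝ) (i : Fin m) : latToEuc m x i = x i := rfl

/-- the same for subsets of `Fin m → ℝ` (the type used in `robust_cube_extraction`). -/
theorem latRob_height' {τ : ℕ → ℝ} (hRM : StRM τ) {Cτ : ℝ} {c : ℕ} (hg : RMGrowth τ Cτ c) (D : ℝ) :
    ∀ᶠ N : ℕ in atTop, ∀ (m : ℕ) (A : Finset (Fin m → ℝ)), m ≤ N → A.Nonempty →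
      (∀ x ∈ A, ∀ i, x i = 0 ∨ x i = 1) → IsRobust ℝ (ell N ^ (-D)) A →
      IsRat ((vectorSpan ℝ (A : Set (Fin m → ℝ))).map (latToEuc m)) ∧
        height ((vectorSpan ℝ (A : Set (Fin m → ℝ))).map (latToEuc m)) ≤ Real.exp (((c : ℝ) + 4) * N * ell N) := by
  filter_upwards [latRob_asymp hRM hg D 1 one_pos] with N hN
  intro m A hmN hA hcube hrob
  have hle : latDiff (latToEuc m) A ≤ intLat m := by
    unfold latDiff
    rw [Submodule.span_le]
    rintro _ ⟨a, ha, b, hb, rfl⟩ i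
    rcases hcube a ha i with h1 | h1 <;> rcases hcube b hb i with h2 | h2
    · exact ⟨0, by simp [latToEuc_apply, h1, h2]⟩
    · exact ⟨-1, by simp [latToEuc_apply, h1, h2]⟩
    · exact ⟨1, by simp [latToEuc_apply, h1, h2]⟩
    · exact ⟨0, by simp [latToEuc_apply, h1, h2]⟩
  have hspan := latRob_rspan (latToEuc m) A
  have hdim : finrank ℝ (vectorSpan ℝ (A : Set (Fin m → ℝ))) ≤ N := by
    have := Submodule.finrank_le (vectorSpan ℝ (A : Set (Fin m → ℝ)))
    rw [Module.finrank_fin_fun] at this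
    omega
  have hR : ∀ a ∈ A, ∀ b ∈ A, ‖latToEuc m a - latToEuc m b‖ ≤ 1 * Real.sqrt N := by
    intro a ha b hb
    rw [one_mul]
    refine (latRob_norm_le _ fun i => ?_).trans (Real.sqrt_le_sqrt (by exact_mod_cast hmN))
    rcases hcube a ha i with h1 | h1 <;> rcases hcube b hb i with h2 | h2 <;> simp [latToEuc_apply, h1, h2]
  have h := hN (Fin m → ℝ) (EucM m) A (latToEuc m) hA hrob hdim hR (latInt_sub_isLat hle)
  rw [← hspan]
  exact ⟨latInt_isRat_rspan hle, (latInt_height_le hle).trans h⟩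

end Claimed.Agent.R293
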