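/-
R293 / PairLat.lean  (owner: helper205).  BRIDGE from `LatRobust.lean` (helper195) and `RM/GramFinal.lean` (helper140) to the two
LAT inputs of PAIR.  No sorry in this file.
-/
import Claimed.Agent.R293.PairIface
import Claimed.Agent.R293.LatRobust
import Claimed.Agent.R293.RM.GramFinal

set_option autoImplicit false

namespace Claimed.Agent.R293

open Filter Module Matrix

theorem pair_robustImage {τ : ℕ → ℝ} (hRM : StRM τ) {Cτ : ℝ} {c : ℕ} (hg : RMGrowth τ Cτ c) :
    StRobustImage := by
  intro D _ C0 hC0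
  refine ⟨(c : ℝ) + 4, by positivity, ?_⟩
  filter_upwards [latRob_asymp hRM hg D C0 hC0] with N e m hm A hA hrob d Φ _ hnorm hlat
  refine e (Fin m → ℝ) (EucM d) A Φ hA hrob ?_ hnorm hlat
  refine (Submodule.finrank_le _).trans ?_
  rw [Module.finrank_fin_fun]
  exact hm

theorem pair_robustHeight {τ : ℕ → ℝ} (hRM : StRM τ) {Cτ : ℝ} {c : ℕ} (hg : RMGrowth τ Cτ c) :
    StRobustHeight := by
  intro D _
  refine ⟨(c : ℝ) + 4, by positivity, ?_⟩
  filter_upwards [latRob_height' hRM hg D] with N e m hm A hA hcube hrob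
  exact e m A hm hA hcube hrob

/-- Reverse Minkowski in the form of `LatIface.lean` (rank `0` included). -/
theorem pair_stRM : StRM rmTau := by
  intro E _ _ _ L T hL hT hdet
  rcases Nat.eq_zero_or_pos (latRank L) with h0 | h1
  · -- rank zero: `L = ⊥`
    obtain ⟨r, b, hb⟩ := hL
    have hr : r = 0 := by rw [← lat_rank_eq hb]; exact h0
    subst hr
    have hbot : L = ⊥ := by
      rw [← hb.2]
      have : Set.range b = ∅ := Set.range_eq_empty b
      rw [this, Submodule.span_empty]
    subst hbot
    unfold gaussMass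
    rw [tsum_eq_single (0 : (⊥ : Submodule ℤ E))]
    · simp
      norm_num
    · intro x hx
      exact absurd (Subsingleton.elim x 0) hx
  · exact rm_lat_tau rm_gram L T hL hT hdet h1

theorem pair_rmGrowth : ∃ (C : ℝ) (c : ℕ), RMGrowth rmTau C c := by
  obtain ⟨-, h1, C, κ, h2⟩ := rmTau_ok
  exact ⟨C, κ, fun j => ⟨h1 j, h2 j⟩⟩

theorem pair_robustImage_final : StRobustImage := by
  obtain ⟨C, c, h⟩ := pair_rmGrowth
  exact pair_robustImage pair_stRM h

theorem pair_robustHeight_final : StRobustHeight := by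
  obtain ⟨C, c, h⟩ := pair_rmGrowth
  exact pair_robustHeight pair_stRM h

end Claimed.Agent.R293
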