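/-
R293 / PairPerp.lean (owner helper108).  Leaves PAIR-PERP: orthocomplements preserve the rank distance; dual radical.
Prefix `pairpp`.  No sorry.
-/
import Claimed.Agent.R293.PairLeaves

set_option autoImplicit false
set_option linter.unusedSectionVars false

namespace Claimed.Agent.R293

open Module Matrix

/-- **Leaf PERPDIST.** -/
theorem pair_perpDist : StPairPerpDist := by
  intro m U V
  unfold rkDist
  rw [Submodule.inf_orthogonal]
  have h1 := Submodule.finrank_add_finrank_orthogonal U
  have h2 := Submodule.finrank_add_finrank_orthogonal V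
  have h3 := Submodule.finrank_add_finrank_orthogonal (U ⊔ V)
  have h4 := Submodule.finrank_sup_add_finrank_inf_eq U V
  have h5 := Submodule.finrank_mono (inf_le_left : U ⊓ V ≤ U)
  have h6 := Submodule.finrank_mono (inf_le_right : U ⊓ V ≤ V)
  omega

section Dual
variable {m : ℕ}

theorem pairpp_inner (x y : EucM m) : inner ℝ x y = (fun i => x i) ⬝ᵥ (fun i => y i) := by
  rw [EuclideanSpace.inner_eq_star_dotProduct, dotProduct_comm]
  rfl

/-- multiplication by an invertible matrix as a linear equivalence of `Fin m → ℝ`. -/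
noncomputable def pairppMul0 (M : Matrix (Fin m) (Fin m) ℝ) (hM : IsUnit M.det) :
    (Fin m → ℝ) ≃ₗ[ℝ] (Fin m → ℝ) where
  toFun := M.mulVec
  map_add' := fun x y => Matrix.mulVec_add M x y
  map_smul' := fun c x => Matrix.mulVec_smul M c x
  invFun := M⁻¹.mulVec
  left_inv := fun x => by
    show M⁻¹ *ᵥ (M *ᵥ x) = x
    rw [mulVec_mulVec, Matrix.nonsing_inv_mul M hM, one_mulVec]
  right_inv := fun x => by
    show M *ᵥ (M⁻¹ *ᵥ x) = x
    rw [mulVec_mulVec, Matrix.mul_nonsing_inv M hM, one_mulVec]

/-- multiplication by an invertible matrix as a linear equivalence of `EucM m`. -/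
noncomputable def pairppMul (M : Matrix (Fin m) (Fin m) ℝ) (hM : IsUnit M.det) : EucM m ≃ₗ[ℝ] EucM m :=
  ((WithLp.linearEquiv 2 ℝ (Fin m → ℝ)).trans (pairppMul0 M hM)).trans
    (WithLp.linearEquiv 2 ℝ (Fin m → ℝ)).symm

theorem pairppMul_apply (M : Matrix (Fin m) (Fin m) ℝ) (hM : IsUnit M.det) (x : EucM m) :
    (fun i => pairppMul M hM x i) = M.mulVec (fun i => x i) := rfl

theorem pairppMul_symm_apply (M : Matrix (Fin m) (Fin m) ℝ) (hM : IsUnit M.det) (x : EucM m) :
    (fun i => (pairppMul M hM).symm x i) = M⁻¹.mulVec (fun i => x i) := rfl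

theorem pairpp_dualRad_aux (M : Matrix (Fin m) (Fin m) ℝ) (hsymm : Mᵀ = M) (hM : IsUnit M.det)
    (F : Submodule ℝ (EucM m)) :
    (formRad M Fᗮ).map (pairppMul M hM).toLinearMap = formRad M⁻¹ F := by
  have hinvsymm : (M⁻¹)ᵀ = M⁻¹ := by rw [Matrix.transpose_nonsing_inv, hsymm]
  ext x
  constructor
  · rintro ⟨u, ⟨huF, hu⟩, rfl⟩
    have hx : (fun i => (pairppMul M hM).toLinearMap u i) = M.mulVec (fun i => u i) :=
      pairppMul_apply M hM u
    constructor
    · -- `M u ∈ F = Fᗮᗮ`
      rw [← Submodule.orthogonal_orthogonal F, Submodule.mem_orthogonal]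
      intro w hw
      rw [pairpp_inner, hx, dotProduct_comm]
      have := hu w hw
      rw [dotProduct_mulVec, ← mulVec_transpose, hsymm] at this
      exact this
    · intro y hy
      rw [hx, dotProduct_mulVec, ← mulVec_transpose, hinvsymm, mulVec_mulVec,
        Matrix.nonsing_inv_mul M hM, one_mulVec]
      have := (Submodule.mem_orthogonal F u).mp huF y hy
      rw [pairpp_inner, dotProduct_comm] at this
      exact this
  · rintro ⟨hxF, hx⟩
    refine ⟨(pairppMul M hM).symm x, ⟨?_, ?_⟩, by simp⟩
    all_goals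
      have hu : (fun i => (pairppMul M hM).symm x i) = M⁻¹.mulVec (fun i => x i) :=
        pairppMul_symm_apply M hM x
    · rw [Submodule.mem_orthogonal]
      intro y hy
      rw [pairpp_inner, hu, dotProduct_comm]
      have := hx y hy
      rw [dotProduct_mulVec, ← mulVec_transpose, hinvsymm] at this
      exact this
    · intro w hw
      rw [hu, dotProduct_mulVec, ← mulVec_transpose, hsymm, mulVec_mulVec,
        Matrix.mul_nonsing_inv M hM, one_mulVec]
      have := (Submodule.mem_orthogonal F w).mp hw x hxF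
      rw [pairpp_inner] at this
      exact this

end Dual

/-- **Leaf DUALRAD.** -/
theorem pair_dualRad : StPairDualRad := by
  intro m B hB hdet F
  have hsymm : (toR B)ᵀ = toR B := by
    unfold toR
    rw [← Matrix.transpose_map, hB.eq]
  have hM : IsUnit (toR B).det := by
    have : (toR B).det = (B.det : ℝ) := (Int.cast_det B).symm
    rw [this, isUnit_iff_ne_zero]
    exact_mod_cast hdet
  rw [← pairpp_dualRad_aux (toR B) hsymm hM F]
  exact LinearEquiv.finrank_map_eq (pairppMul (toR B) hM) _

end Claimed.Agent.R293
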