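/-
R293 / PairLatBound.lean (owner helper108).  Leaf PAIR-LATBOUND (B (5.13)): height of `F₀` and determinant of the graph
lattice.  Prefix `pairlt`.  No sorry.
-/
import Claimed.Agent.R293.PairLeaves
import Claimed.Agent.R293.PairPerp
import Claimed.Agent.R293.LatBasic

set_option autoImplicit false
set_option linter.unusedSectionVars false

namespace Claimed.Agent.R293

open Module Matrix Filter

section Graph
variable {m : ℕ}

theorem pairlt_inner_graph (B : Matrix (Fin m) (Fin m) ℤ) (u v : Fin m → ℝ) :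
    inner ℝ (graphMap B u) (graphMap B v)
      = u ⬝ᵥ v + ((toR B)⁻¹.mulVec u) ⬝ᵥ ((toR B)⁻¹.mulVec v) := by
  rw [pairpp_inner]
  show ∑ k, Fin.append u ((toR B)⁻¹.mulVec u) k * Fin.append v ((toR B)⁻¹.mulVec v) k = _
  rw [Fin.sum_univ_add]
  simp only [Fin.append_left, Fin.append_right]
  rfl

theorem pairlt_inner_graph' (B : Matrix (Fin m) (Fin m) ℤ) (hB : B.IsSymm) (u v : Fin m → ℝ) :
    inner ℝ (graphMap B u) (graphMap B v)
      = u ⬝ᵥ (1 + (toR B)⁻¹ * (toR B)⁻¹).mulVec v := by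
  have hsymm : (toR B)ᵀ = toR B := by
    unfold toR
    rw [← Matrix.transpose_map, hB.eq]
  have hinv : ((toR B)⁻¹)ᵀ = (toR B)⁻¹ := by rw [Matrix.transpose_nonsing_inv, hsymm]
  rw [pairlt_inner_graph, add_mulVec, one_mulVec, dotProduct_add, ← mulVec_mulVec,
    dotProduct_mulVec u, ← mulVec_transpose, hinv]

theorem pairlt_graph_injective (B : Matrix (Fin m) (Fin m) ℤ) : Function.Injective (graphMap B) := by
  intro u v h
  funext i
  have h1 : (graphMap B u) (Fin.castAdd m i) = (graphMap B v) (Fin.castAdd m i) := by rw [h]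
  have h2 : ∀ w : Fin m → ℝ, (graphMap B w) (Fin.castAdd m i) = w i := by
    intro w
    show Fin.append w ((toR B)⁻¹.mulVec w) (Fin.castAdd m i) = w i
    rw [Fin.append_left]
  rwa [h2, h2] at h1

theorem pairlt_norm_sq (B : Matrix (Fin m) (Fin m) ℤ) (u : Fin m → ℝ) :
    ‖graphMap B u‖ ^ 2 = ∑ i, u i ^ 2 + ∑ i, ((toR B)⁻¹.mulVec u i) ^ 2 := by
  rw [← real_inner_self_eq_norm_sq, pairlt_inner_graph]
  simp only [dotProduct, sq]

theorem pairlt_norm_le (B : Matrix (Fin m) (Fin m) ℤ) {L0 : ℝ} {N : ℕ} (hmN : m ≤ N)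
    (z z' : Fin m → Bool)
    (hz : ∑ i, ((toR B)⁻¹.mulVec (bitVec z) i) ^ 2 ≤ L0 ^ 2 * N)
    (hz' : ∑ i, ((toR B)⁻¹.mulVec (bitVec z') i) ^ 2 ≤ L0 ^ 2 * N) :
    ‖graphMap B (bitVec z) - graphMap B (bitVec z')‖ ≤ Real.sqrt (1 + 4 * L0 ^ 2) * Real.sqrt N := by
  rw [← map_sub, ← Real.sqrt_mul (by positivity)]
  apply Real.le_sqrt_of_sq_le
  rw [pairlt_norm_sq]
  have h1 : ∑ i, (bitVec z - bitVec z') i ^ 2 ≤ (N : ℝ) := by
    calc ∑ i, (bitVec z - bitVec z') i ^ 2 ≤ ∑ _i : Fin m, (1 : ℝ) := by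
          refine Finset.sum_le_sum fun i _ => ?_
          simp only [Pi.sub_apply, bitVec]
          split_ifs <;> norm_num
      _ = m := by simp
      _ ≤ N := by exact_mod_cast hmN
  have h2 : ∑ i, ((toR B)⁻¹.mulVec (bitVec z - bitVec z') i) ^ 2 ≤ 4 * L0 ^ 2 * N := by
    calc ∑ i, ((toR B)⁻¹.mulVec (bitVec z - bitVec z') i) ^ 2
        ≤ ∑ i, (2 * ((toR B)⁻¹.mulVec (bitVec z) i) ^ 2
            + 2 * ((toR B)⁻¹.mulVec (bitVec z') i) ^ 2) := by
          refine Finset.sum_le_sum fun i _ => ?_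
          rw [mulVec_sub, Pi.sub_apply]
          nlinarith [sq_nonneg ((toR B)⁻¹.mulVec (bitVec z) i + (toR B)⁻¹.mulVec (bitVec z') i)]
      _ = 2 * ∑ i, ((toR B)⁻¹.mulVec (bitVec z) i) ^ 2
            + 2 * ∑ i, ((toR B)⁻¹.mulVec (bitVec z') i) ^ 2 := by
          rw [Finset.sum_add_distrib, Finset.mul_sum, Finset.mul_sum]
      _ ≤ 4 * L0 ^ 2 * N := by linarith
  linarith

theorem pairlt_gramDet (B : Matrix (Fin m) (Fin m) ℤ) (hB : B.IsSymm) {r : ℕ} (y : Fin r → Fin m → ℝ) :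
    gramDet (fun i => graphMap B (y i)) = (discGram (1 + (toR B)⁻¹ * (toR B)⁻¹) y).det := by
  unfold gramDet
  congr 1
  ext i j
  rw [Matrix.gram_apply, pairlt_inner_graph' B hB]
  rfl

end Graph

theorem pairlt_ell_nonneg : ∀ᶠ N : ℕ in atTop, 0 ≤ ell N := by
  filter_upwards [eventually_ge_atTop 3] with N hN
  unfold ell
  apply Real.log_nonneg
  have h3 : (3 : ℝ) ≤ N := by exact_mod_cast hN
  rw [Real.le_log_iff_exp_le (by linarith)]
  have := Real.exp_one_lt_d9
  linarith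

/-- **Leaf LATBOUND.** -/
theorem pair_latBound (himg : StRobustImage) (hht : StRobustHeight) (hds : StPairDiffSpan) :
    StPairLatBound := by
  intro L0 hL0
  obtain ⟨C₁, hC₁, h₁⟩ := hht 2 two_pos
  obtain ⟨C₂, hC₂, h₂⟩ := himg 2 two_pos (Real.sqrt (1 + 4 * L0 ^ 2)) (by positivity)
  refine ⟨C₁ + 2 * C₂, by positivity, ?_⟩
  filter_upwards [h₁, h₂, pairlt_ell_nonneg] with N hN₁ hN₂ hell m hmN B hB hdet V hV hrob hbd r x hx
  obtain ⟨hspan, -, hlat⟩ := hds m r V x hx
  have hNell : 0 ≤ (N : ℝ) * ell N := mul_nonneg (Nat.cast_nonneg N) hell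
  have hA : (V.image bitVec).Nonempty := hV.image _
  have h01 : ∀ a ∈ V.image bitVec, ∀ i, a i = 0 ∨ a i = 1 := by
    intro a ha i
    obtain ⟨z, -, rfl⟩ := Finset.mem_image.mp ha
    unfold bitVec
    split_ifs
    · exact Or.inr rfl
    · exact Or.inl rfl
  have hF : Submodule.span ℝ (Set.range fun i => eucMap m (zToR (x i)))
      = (vectorSpan ℝ ((V.image bitVec : Finset (Fin m → ℝ)) : Set (Fin m → ℝ))).map (eucMap m) := by
    rw [← hspan, Submodule.map_span, ← Set.range_comp]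
    rfl
  obtain ⟨hrat, hheight⟩ := hN₁ m hmN (V.image bitVec) hA h01 hrob
  rw [hF]
  refine ⟨hrat, hheight.trans (Real.exp_le_exp.mpr ?_), ?_⟩
  · have : C₁ * N * ell N ≤ (C₁ + 2 * C₂) * N * ell N := by
      have h0 : 0 ≤ 2 * C₂ * (N * ell N) := by positivity
      nlinarith
    exact this
  · have hindep : LinearIndependent ℝ (fun i => graphMap B (zToR (x i))) :=
      hx.indepR.map' (graphMap B) (LinearMap.ker_eq_bot.mpr (pairlt_graph_injective B))
    have hbasis := lat_isLatBasis_span hindep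
    have hLeq := hlat (m + m) (graphMap B)
    have hisLat : IsLat (Submodule.span ℤ {y | ∃ a ∈ V.image bitVec, ∃ b ∈ V.image bitVec,
        y = graphMap B a - graphMap B b}) := by
      rw [hLeq]; exact ⟨r, _, hbasis⟩
    have hnorm : ∀ a ∈ V.image bitVec, ∀ b ∈ V.image bitVec,
        ‖graphMap B a - graphMap B b‖ ≤ Real.sqrt (1 + 4 * L0 ^ 2) * Real.sqrt N := by
      intro a ha b hb
      obtain ⟨z, hz, rfl⟩ := Finset.mem_image.mp ha
      obtain ⟨z', hz', rfl⟩ := Finset.mem_image.mp hb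
      exact pairlt_norm_le B hmN z z' (hbd z hz) (hbd z' hz')
    have hdetle := hN₂ m hmN (V.image bitVec) hA hrob (m + m) (graphMap B)
      (pairlt_graph_injective B) hnorm hisLat
    rw [hLeq] at hdetle
    have hsq := lat_det_sq hbasis
    rw [pairlt_gramDet B hB (fun i => zToR (x i))] at hsq
    rw [← hsq]
    have h0 := lat_det_nonneg (Submodule.span ℤ (Set.range fun i => graphMap B (zToR (x i))))
    calc latDet (Submodule.span ℤ (Set.range fun i => graphMap B (zToR (x i)))) ^ 2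
        ≤ Real.exp (C₂ * N * ell N) ^ 2 := pow_le_pow_left₀ h0 hdetle 2
      _ = Real.exp (2 * (C₂ * N * ell N)) := by rw [← Real.exp_nat_mul]; norm_num
      _ ≤ Real.exp ((C₁ + 2 * C₂) * N * ell N) := by
          apply Real.exp_le_exp.mpr
          have h1 : 0 ≤ C₁ * (N * ell N) := by positivity
          nlinarith

end Claimed.Agent.R293
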