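/-
R293 / PairLayerBit.lean (owner: helper96).  Leaf PAIR-LAYERBIT: layer bookkeeping for `G_B`.
-/
import Claimed.Agent.R293.PairLeaves

set_option autoImplicit false

namespace Claimed.Agent.R293

open Filter Module Matrix Topology

theorem pairlb_nu_nonneg (N l : ℕ) : 0 ≤ nu N l := by
  unfold nu
  exact div_nonneg (Real.log_natCast_nonneg l)
    (mul_nonneg (Nat.cast_nonneg N) (Real.log_natCast_nonneg N))

theorem pair_layerBit (hTot : StLayerTotal) (hSupp : StLayerSupport) (hIdx : StIndexDet)
    (hHad : StHadamardBit) : StPairLayerBit := by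
  intro N m hN hmN B hB hdet
  set G := DiscGroup B with hG
  have hc : Nat.card G = B.det.natAbs := hIdx m B
  have hc0 : Nat.card G ≠ 0 := by
    rw [hc]
    exact Int.natAbs_ne_zero.mpr hdet
  have hfin : Finite G := Nat.finite_of_card_ne_zero hc0
  have hcN : (Nat.card G : ℝ) ≤ (N : ℝ) ^ ((N : ℝ) / 2) := by
    rw [hc]
    exact hHad N m hmN B hB
  have hN1 : (1 : ℝ) < N := by exact_mod_cast hN
  have hN0 : (0 : ℝ) < N := by linarith
  have hlogN : 0 < Real.log N := Real.log_pos hN1
  have hNlog : 0 < (N : ℝ) * Real.log N := mul_pos hN0 hlogN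
  have hcpos : (0 : ℝ) < Nat.card G := by exact_mod_cast Nat.pos_of_ne_zero hc0
  have hlogc : Real.log (Nat.card G) ≤ (N : ℝ) / 2 * Real.log N := by
    rw [← Real.log_rpow hN0]
    exact Real.log_le_log hcpos hcN
  have htot := hTot G
  -- (1)
  have h1 : 0 ≤ matJ N B := by
    refine Finset.sum_nonneg fun x _ => mul_nonneg ?_ (pairlb_nu_nonneg N x.1)
    beta_reduce
    split_ifs
    · exact Nat.cast_nonneg _
    · exact le_rfl
  -- (2)
  have h2 : matJ N B ≤ 1 / 2 := by
    calc matJ N B ≤ ∑ x ∈ layerIndex G, (layer G x.1 x.2 : ℝ) * nu N x.1 := by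
          refine Finset.sum_le_sum fun x _ =>
            mul_le_mul_of_nonneg_right ?_ (pairlb_nu_nonneg N x.1)
          beta_reduce
          split_ifs
          · exact le_rfl
          · exact Nat.cast_nonneg _
      _ = (∑ x ∈ layerIndex G, (layer G x.1 x.2 : ℝ) * Real.log x.1) / ((N : ℝ) * Real.log N) := by
          rw [Finset.sum_div]
          refine Finset.sum_congr rfl fun x _ => ?_
          unfold nu
          ring
      _ = Real.log (Nat.card G) / ((N : ℝ) * Real.log N) := by rw [htot]
      _ ≤ 1 / 2 := by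
          rw [div_le_iff₀ hNlog]
          linarith
  -- (3)
  have h3 : matJ N B ≤ 3 * matW N 2 B := by
    change layerSum G N _ ≤ 3 * layerSum G N _
    unfold layerSum
    rw [Finset.mul_sum]
    refine Finset.sum_le_sum fun x _ => ?_
    rw [← mul_assoc]
    refine mul_le_mul_of_nonneg_right ?_ (pairlb_nu_nonneg N x.1)
    beta_reduce
    split_ifs with h
    · have : layer G x.1 x.2 ≤ 3 * (layer G x.1 x.2 - 2) := by omega
      exact_mod_cast this
    · positivity
  -- (4)
  have h4 : ((∏ l ∈ (Nat.card G).primeFactors, l ^ highExp G l : ℕ) : ℝ)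
      = (N : ℝ) ^ ((N : ℝ) * matJ N B) := by
    have e1 : (N : ℝ) * matJ N B * Real.log N
        = ∑ l ∈ (Nat.card G).primeFactors, (highExp G l : ℝ) * Real.log l := by
      change (N : ℝ) * layerSum G N _ * Real.log N = _
      unfold layerSum layerIndex highExp
      rw [Finset.sum_product, Finset.mul_sum, Finset.sum_mul]
      refine Finset.sum_congr rfl fun l _ => ?_
      rw [Finset.sum_filter, Nat.cast_sum, Finset.sum_mul, Finset.mul_sum, Finset.sum_mul]
      refine Finset.sum_congr rfl fun j _ => ?_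
      unfold nu
      simp only
      split_ifs
      · field_simp
      · simp
    rw [Real.rpow_def_of_pos hN0, mul_comm (Real.log N), e1, Real.exp_sum, Nat.cast_prod]
    refine Finset.prod_congr rfl fun l hl => ?_
    have hl0 : (0 : ℝ) < l := by exact_mod_cast (Nat.prime_of_mem_primeFactors hl).pos
    rw [Nat.cast_pow, mul_comm, ← Real.rpow_def_of_pos hl0, Real.rpow_natCast]
  -- (5)
  have h5 : matT2 N B = ∑ l ∈ (Nat.card G).primeFactors, (twoCount G l : ℝ) * nu N l := by
    change layerSum G N _ = _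
    unfold layerSum layerIndex twoCount
    rw [Finset.sum_product]
    refine Finset.sum_congr rfl fun l _ => ?_
    rw [Finset.card_filter, Nat.cast_sum, Finset.sum_mul]
    refine Finset.sum_congr rfl fun j _ => ?_
    simp only
    split_ifs <;> simp
  -- (6)
  have h6 : ∀ l : ℕ, (twoCount G l : ℝ) ≤ (N : ℝ) ^ 2 := by
    intro l
    have e1 : twoCount G l ≤ Nat.log 2 (Nat.card G) := by
      unfold twoCount
      refine (Finset.card_filter_le _ _).trans ?_
      simp
    have e2 : (Nat.log 2 (Nat.card G) : ℝ) ≤ Real.logb 2 (Nat.card G) := by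
      exact_mod_cast Real.natLog_le_logb (Nat.card G) 2
    have hlog2 : 0 < Real.log 2 := Real.log_pos (by norm_num)
    have e3 : Real.log N ≤ (N : ℝ) * Real.log 2 := by
      have : (N : ℝ) ≤ (2 : ℝ) ^ N := by exact_mod_cast (Nat.lt_two_pow_self (n := N)).le
      calc Real.log N ≤ Real.log ((2 : ℝ) ^ N) := Real.log_le_log hN0 this
        _ = (N : ℝ) * Real.log 2 := by rw [Real.log_pow]
    have e4 : Real.logb 2 (Nat.card G) ≤ (N : ℝ) ^ 2 := by
      unfold Real.logb
      rw [div_le_iff₀ hlog2]
      calc Real.log (Nat.card G) ≤ (N : ℝ) / 2 * Real.log N := hlogc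
        _ ≤ (N : ℝ) / 2 * ((N : ℝ) * Real.log 2) := by gcongr
        _ ≤ (N : ℝ) ^ 2 * Real.log 2 := by nlinarith [mul_pos (mul_pos hN0 hN0) hlog2]
    calc (twoCount G l : ℝ) ≤ (Nat.log 2 (Nat.card G) : ℝ) := by exact_mod_cast e1
      _ ≤ Real.logb 2 (Nat.card G) := e2
      _ ≤ (N : ℝ) ^ 2 := e4
  -- (7)
  have h7 : ∀ l : ℕ, l.Prime → l ∉ (Nat.card G).primeFactors → twoCount G l = 0 := by
    intro l hl hlP
    unfold twoCount
    rw [Finset.card_eq_zero, Finset.filter_eq_empty_iff]
    intro j _ hj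
    have := hSupp G l j hl (by omega)
    simp only [layerIndex, Finset.mem_product] at this
    exact hlP this.1
  exact ⟨h1, h2, h3, h4, h5, h6, h7⟩

end Claimed.Agent.R293
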