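/-
R293 / PairGraph.lean  (owner: helper205).  GLUE: **B Lemma 5.8 (the graph comparison)** from the PAIR leaves.  No sorry.
-/
import Claimed.Agent.R293.PairLeaves
import Claimed.Agent.R293.PairBridge

set_option autoImplicit false

namespace Claimed.Agent.R293

open Filter Module Matrix

variable {m : ℕ}

/-- the matrix `1 + B⁻¹ B⁻¹` of the graph metric is symmetric. -/
theorem pairg_metric_isSymm {B : Matrix (Fin m) (Fin m) ℤ} (h : B.IsSymm) :
    (1 + (toR B)⁻¹ * (toR B)⁻¹ : Matrix (Fin m) (Fin m) ℝ).IsSymm := by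
  have h1 := pair_toR_inv_isSymm h
  unfold Matrix.IsSymm at h1 ⊢
  rw [Matrix.transpose_add, Matrix.transpose_one, Matrix.transpose_mul, h1]

/-- the graph metric dominates the Euclidean metric. -/
theorem pairg_metric_ge {B : Matrix (Fin m) (Fin m) ℤ} (h : B.IsSymm) (v : Fin m → ℝ) :
    v ⬝ᵥ v ≤ v ⬝ᵥ (1 + (toR B)⁻¹ * (toR B)⁻¹ : Matrix (Fin m) (Fin m) ℝ).mulVec v := by
  have h1 := pair_toR_inv_isSymm h
  rw [Matrix.add_mulVec, Matrix.one_mulVec, dotProduct_add, ← Matrix.mulVec_mulVec,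
    Matrix.dotProduct_mulVec, ← Matrix.mulVec_transpose, h1]
  have : 0 ≤ (toR B)⁻¹.mulVec v ⬝ᵥ (toR B)⁻¹.mulVec v := by
    unfold dotProduct
    exact Finset.sum_nonneg fun i _ => mul_self_nonneg _
  linarith

open Classical in
theorem pairg_admCount_eq (L0 : ℝ) (N : ℕ) (B : Matrix (Fin m) (Fin m) ℤ) :
    admCount L0 N B = (Finset.univ.filter fun z : Fin m → Bool => IsAdmCol L0 N B z).card := by
  unfold admCount
  rw [Nat.card_eq_fintype_card, Fintype.card_subtype]

/-- **B Lemma 5.8** from the leaves. -/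
theorem pair_graph (hCol : StColoring) (hClass : StPairClass) (hSetup : StPairSetup)
    (hDS : StPairDiffSpan) (hLB : StPairLatBound) (hRR : StPairRadRank) (hRC : StPairRankCast)
    (hPD : StPairDet) (hSG : StPairSpecGram) (hAr : StPairArith) (hLayer : StPairLayerBit)
    (hScale : StPairScale) : StGraphComparison := by
  classical
  intro L0 hL0 ξ hξ w hw ε hε
  obtain ⟨C, hC, hLB'⟩ := hLB L0 hL0
  have hsqrt : Tendsto (fun N : ℕ => w * Real.sqrt (N : ℝ)) atTop atTop :=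
    Tendsto.const_mul_atTop hw (Real.tendsto_sqrt_atTop.comp tendsto_natCast_atTop_atTop)
  filter_upwards [hClass (ε / 2) (by positivity), hLB', hAr C hC w hw ξ hξ (ε / 2) (by positivity),
    hScale.1.eventually_ge_atTop (max C 1), hsqrt.eventually_ge_atTop 1, eventually_ge_atTop 2]
    with N e1 e2 e3 e4 e5 e6 m hm B hB hdet hT2 hInv hSpec
  have hmN : m ≤ N := by exact_mod_cast hm.2
  have hN0 : (0 : ℝ) ≤ N := Nat.cast_nonneg N
  obtain ⟨hJ0, hJ1, -, hprod, -, -, -⟩ := hLayer N m e6 hmN B hB hdet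
  set J := matJ N B with hJdef
  set S : Finset (Fin m → Bool) := Finset.univ.filter fun z => IsAdmCol L0 N B z with hS
  have hcount : admCount L0 N B = S.card := pairg_admCount_eq L0 N B
  rw [hcount]
  rcases S.eq_empty_or_nonempty with hSe | hSne
  · rw [hSe]
    simp only [Finset.card_empty, Nat.cast_zero]
    positivity
  obtain ⟨col, hcol⟩ := hCol m B hB.1 hdet
  obtain ⟨V, hVS, hVne, hmono, hrob, hcard⟩ := e1 m hmN B hB hdet hT2 col hcol S hSne
  have hadm : ∀ z ∈ V, IsAdmCol L0 N B z := fun z hz => (Finset.mem_filter.1 (hVS hz)).2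
  set X : Set (Fin m → ℤ) := {u | ∃ z ∈ V, u = bitVecZ z} with hX
  obtain ⟨r, x, hxR, hxZ, hxc⟩ := hSetup m (diffLat X)
  have hbasis : IsDiffBasis V x := ⟨hxR, hxZ, hxc⟩
  obtain ⟨-, hV2, -⟩ := hDS m r V x hbasis
  obtain ⟨hRat, hHt, hGram⟩ := e2 m hmN B hB.1 hdet V hVne hrob (fun z hz => (hadm z hz).2) r x hbasis
  -- the rank of the inverse form on `F₀`
  have hell : C ≤ ell N := (le_max_left _ _).trans e4
  have hell1 : 1 ≤ ell N := (le_max_right _ _).trans e4
  have hHt' : height (Submodule.span ℝ (Set.range fun i => eucMap m (zToR (x i))))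
      ≤ Real.exp (N * ell N ^ (2 : ℝ)) := by
    refine hHt.trans (Real.exp_le_exp.2 ?_)
    rw [Real.rpow_two]
    nlinarith [mul_nonneg hN0 (by linarith : (0 : ℝ) ≤ ell N)]
  have hnull := hInv _ hRat hHt'
  have hrr := hRR m (toR B)⁻¹ (Fin r) (fun i => zToR (x i)) hxR
  rw [Fintype.card_fin] at hrr
  set M : Matrix (Fin r) (Fin r) ℚ := Matrix.of fun i j => invForm B (x i) (x j) with hM
  have hMcast : (Matrix.of fun a b => zToR (x a) ⬝ᵥ (toR B)⁻¹.mulVec (zToR (x b)))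
      = M.map (Rat.cast : ℚ → ℝ) := by
    ext i j
    simp only [Matrix.of_apply, Matrix.map_apply, hM]
    rw [pair_invForm_cast]
  rw [hMcast, hRC r M] at hrr
  set s := M.rank with hs
  -- the pairing determinant
  obtain ⟨hne, y, hy1, hy2⟩ := hPD m B hB.1 hdet (1 + (toR B)⁻¹ * (toR B)⁻¹) (pairg_metric_isSymm hB.1)
    (pairg_metric_ge hB.1) r x hxZ s hs
  rw [hxc] at hy1
  have himg := (hcol.img X (by
      rintro u ⟨z, hz, rfl⟩
      exact pair_isInt_of_adm (hadm z hz)) (by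
      rintro l hl u ⟨z, hz, rfl⟩ u' ⟨z', hz', rfl⟩
      exact hmono l hl z hz z' hz')).2
  have himg' : (((pairKer B (diffLat X)).relIndex (diffLat X) : ℕ) : ℝ) ≤ (N : ℝ) ^ ((N : ℝ) * J) := by
    rw [← hprod]
    exact_mod_cast himg
  obtain ⟨t, ht, hsg⟩ := hSG w ξ N m B hB.1 hdet hw e5 hSpec
  have ha0 : 0 ≤ ((w * Real.sqrt N)⁻¹) ^ (s - t) := by positivity
  have hchain : 1 ≤ (N : ℝ) ^ ((N : ℝ) * J) *
      (((w * Real.sqrt N)⁻¹) ^ (s - t) * Real.exp (C * N * ell N)) := by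
    refine hy1.trans ?_
    refine mul_le_mul himg' ?_ (abs_nonneg _) (by positivity)
    refine (hsg s y).trans ?_
    exact mul_le_mul_of_nonneg_left (hy2.trans hGram) ha0
  have hs_le := e3 J s t hJ0 (by linarith) ht hchain
  -- conclusion
  have hr_le : (r : ℝ) ≤ (2 * J + 2 * ξ + ε / 2) * N := by
    have : (r : ℝ) = (finrank ℝ (formRad (toR B)⁻¹
        (Submodule.span ℝ (Set.range fun i => eucMap m (zToR (x i))))) : ℝ) + s := by
      exact_mod_cast hrr.symm
    rw [this]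
    nlinarith
  have hV2' : (V.card : ℝ) ≤ (2 : ℝ) ^ (r : ℝ) := by
    rw [Real.rpow_natCast]
    exact_mod_cast hV2
  calc (S.card : ℝ) ≤ (2 : ℝ) ^ (ε / 2 * N) * V.card := hcard
    _ ≤ (2 : ℝ) ^ (ε / 2 * N) * (2 : ℝ) ^ (r : ℝ) := by
        exact mul_le_mul_of_nonneg_left hV2' (by positivity)
    _ = (2 : ℝ) ^ (ε / 2 * N + r) := by rw [Real.rpow_add (by norm_num)]
    _ ≤ (2 : ℝ) ^ ((2 * J + 2 * ξ + ε) * N) := by
        apply Real.rpow_le_rpow_of_exponent_le one_le_two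
        nlinarith

end Claimed.Agent.R293
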