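/-
R293 / PairStatic.lean  (owner: helper205).  GLUE: **B Lemma 5.4** (`StColorCost`) and **B Proposition 5.1** (`StStatic`) from the
PAIR leaves.  No sorry.
-/
import Claimed.Agent.R293.PairLeaves
import Claimed.Agent.R293.PairBridge

set_option autoImplicit false

namespace Claimed.Agent.R293

open Filter Module Matrix

/-- **B Lemma 5.4** from its abstract form. -/
theorem pair_colorCost (hAbs : StPairCostAbs) (hLayer : StPairLayerBit) : StColorCost := by
  intro ε hε
  filter_upwards [hAbs ε hε, eventually_ge_atTop 2] with N e1 e2 m hm B hB hdet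
  obtain ⟨-, -, -, -, hT2, hk, -⟩ := hLayer N m e2 hm B hB hdet
  have h := e1 (Nat.card (DiscGroup B)).primeFactors (fun l => twoCount (DiscGroup B) l)
    (fun l hl => (Nat.prime_of_mem_primeFactors hl).one_lt.le) (fun l _ => hk l)
  rw [hT2]
  exact h

/-- **B Proposition 5.1 (static column estimate)** from the four main statements of PAIR, INT and SPC. -/
theorem pair_static (hInt : StSmallInt) (hTwo : StHeightTwo) (hGraph : StGraphComparison)
    (hInv : StInvRank) (hSpec : ∀ p : ℝ, 0 < p → p ≤ 1 / 2 → StSmallSpectrum p)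
    (hLayer : StPairLayerBit) : StStatic := by
  intro p hp0 hp L0 hL0 e0 he0
  -- constants
  set ξ : ℝ := e0 / 8 with hξ
  set ζ : ℝ := e0 / 24 with hζ
  set α : ℝ := min (e0 / 2) (1 / 2) with hα
  have hξ0 : 0 < ξ := by positivity
  have hζ0 : 0 < ζ := by positivity
  have hα0 : 0 < α := lt_min (by positivity) (by norm_num)
  have hα1 : α < 1 := lt_of_le_of_lt (min_le_right _ _) (by norm_num)
  have hαe : α ≤ e0 / 2 := min_le_left _ _
  obtain ⟨w, hw, hSp⟩ := hSpec p hp0 hp ξ hξ0
  refine ⟨ζ, hζ0, ?_⟩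
  have t1 := hInt p hp0 hp 20 (by norm_num) α hα0 hα1
  have t2 := hInv p hp0 hp 2 (by norm_num) ξ hξ0
  have t12 := pair_typically_and hp0 hp t1 t2
  refine pair_typically_of2 hp0 hp t12 hSp ?_
  filter_upwards [hTwo α hα0 (e0 / 2) (by positivity) L0,
    hGraph L0 hL0 ξ hξ0 w hw (e0 / 2) (by positivity), eventually_ge_atTop 2]
    with N e1 e2 e3 m hm B hB hdet hG1 hG2 hW
  have hmN : m ≤ N := by exact_mod_cast hm.2
  have hN0 : (0 : ℝ) ≤ N := Nat.cast_nonneg N
  obtain ⟨-, -, hJW, -, -, -, -⟩ := hLayer N m e3 hmN B hB hdet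
  rcases le_or_gt (scaleSigma N) (matT2 N B) with hT | hT
  · refine (e1 m hmN B hB hdet hT hG1.1).trans ?_
    apply Real.rpow_le_rpow_of_exponent_le one_le_two
    nlinarith
  · refine (e2 m hm B hB hdet hT hG1.2 hG2).trans ?_
    apply Real.rpow_le_rpow_of_exponent_le one_le_two
    have : 2 * matJ N B + 2 * ξ + e0 / 2 ≤ e0 := by
      have : matJ N B ≤ 3 * ζ := hJW.trans (by linarith)
      rw [hξ]
      rw [hζ] at this
      linarith
    exact mul_le_mul_of_nonneg_right this hN0

end Claimed.Agent.R293
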