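/-
R293 / PairMain.lean  (owner: helper205).  ASSEMBLY of the package PAIR: `StStatic` (B Proposition 5.1) from
* the inputs of the other packages (DISC, LAT/RM, COV, INT, SPC, PATH-ALG), and
* the PAIR leaves of `PairLeaves.lean` (all taken as hypotheses here; they are discharged when the leaf files are complete).
No sorry.
-/
import Claimed.Agent.R293.PairGraph
import Claimed.Agent.R293.PairStatic

set_option autoImplicit false

namespace Claimed.Agent.R293

/-- all leaves of PAIR, in the form in which the leaf files prove them. -/
structure PairLeavesOK : Prop where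
  scale : StPairScale
  layerBit : StLayerTotal → StLayerSupport → StIndexDet → StHadamardBit → StPairLayerBit
  costAbs : StPairScale → StPairCostAbs
  heightTwo : StColoring → StColorCost → StIndexDet → StPairScale → StHeightTwo
  cb : StPairCB
  wgram : StPairCB → StPairWGram
  specGram : StPairWGram → StPairSpecGram
  setup : StPairSetup
  diffSpan : StPairDiffSpan
  latBound : StRobustImage → StRobustHeight → StPairDiffSpan → StPairLatBound
  radRank : StPairRadRank
  rankCast : StPairRankCast
  cls : StColorCost → StPairLayerBit → StPairScale → StPairClass
  arith : StPairArith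
  nullStab : StPairNullStab
  perpDist : StPairPerpDist
  dualRad : StPairDualRad
  crkBlock : StCrkBlock
  coordBasis : StPairCoordBasis
  fixed : StCrkBlock → StPairCoordBasis → StPairRadRank → StPairFixed
  invRank : StCover → StPairFixed → StPairNullStab → StPairPerpDist → StPairDualRad → StInvRank

/-- **B Proposition 5.1** from the leaves and the inputs of the other packages. -/
theorem pair_main (L : PairLeavesOK)
    -- DISC
    (hCol : StColoring) (hPD : StPairDet)
    -- LAT + RM
    (hRI : StRobustImage) (hRH : StRobustHeight)
    -- COV, INT, SPC
    (hCov : StCover) (hInt : StSmallInt) (hSpec : ∀ p : ℝ, 0 < p → p ≤ 1 / 2 → StSmallSpectrum p)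
    -- PATH-ALG
    (hTot : StLayerTotal) (hSupp : StLayerSupport) (hIdx : StIndexDet) (hHad : StHadamardBit) :
    StStatic := by
  have hLayer := L.layerBit hTot hSupp hIdx hHad
  have hCost := pair_colorCost (L.costAbs L.scale) hLayer
  have hTwo := L.heightTwo hCol hCost hIdx L.scale
  have hGraph := pair_graph hCol (L.cls hCost hLayer L.scale) L.setup L.diffSpan
    (L.latBound hRI hRH L.diffSpan) L.radRank L.rankCast hPD (L.specGram (L.wgram L.cb)) L.arith hLayer
    L.scale
  have hInv := L.invRank hCov (L.fixed L.crkBlock L.coordBasis L.radRank) L.nullStab L.perpDist L.dualRad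
  exact pair_static hInt hTwo hGraph hInv hSpec hLayer

end Claimed.Agent.R293
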