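/-
R293 / PairNullStab.lean (owner helper108).  Leaf PAIR-NULLSTAB: restricted nullity is 1-Lipschitz for the
rank distance.  Prefix `pairns`.  No sorry.
-/
import Claimed.Agent.R293.PairLeaves

set_option autoImplicit false
set_option linter.unusedSectionVars false

namespace Claimed.Agent.R293

open Module Matrix

section General
variable {E : Type*} [AddCommGroup E] [Module ℝ E] [FiniteDimensional ℝ E]

/-- left radical of a bilinear map restricted to `W`. -/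
def pairnsRad (β : E →ₗ[ℝ] E →ₗ[ℝ] ℝ) (W : Submodule ℝ E) : Submodule ℝ E where
  carrier := {x | x ∈ W ∧ ∀ y ∈ W, β x y = 0}
  add_mem' := by
    rintro a b ⟨ha, ha'⟩ ⟨hb, hb'⟩
    exact ⟨W.add_mem ha hb, fun y hy => by simp [ha' y hy, hb' y hy]⟩
  zero_mem' := ⟨W.zero_mem, fun y _ => by simp⟩
  smul_mem' := by
    rintro c a ⟨ha, ha'⟩
    exact ⟨W.smul_mem c ha, fun y hy => by simp [ha' y hy]⟩

theorem pairns_mem_rad (β : E →ₗ[ℝ] E →ₗ[ℝ] ℝ) (W : Submodule ℝ E) (x : E) :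
    x ∈ pairnsRad β W ↔ x ∈ W ∧ ∀ y ∈ W, β x y = 0 := Iff.rfl

/-- going down: `dim rad(U) ≤ dim rad(Z) + (dim U - dim Z)` for `Z ≤ U`. -/
theorem pairns_down (β : E →ₗ[ℝ] E →ₗ[ℝ] ℝ) {Z U : Submodule ℝ E} (hZU : Z ≤ U) :
    finrank ℝ (pairnsRad β U) + finrank ℝ Z ≤ finrank ℝ (pairnsRad β Z) + finrank ℝ U := by
  set A := pairnsRad β U with hA
  have h1 : A ⊓ Z ≤ pairnsRad β Z := by
    rintro x ⟨hxA, hxZ⟩
    exact ⟨hxZ, fun y hy => hxA.2 y (hZU hy)⟩
  have h2 : A ⊔ Z ≤ U := sup_le (fun x hx => hx.1) hZU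
  have h3 := Submodule.finrank_sup_add_finrank_inf_eq A Z
  have h4 := Submodule.finrank_mono h1
  have h5 := Submodule.finrank_mono h2
  omega

/-- going up: `dim rad(Z) ≤ dim rad(V) + (dim V - dim Z)` for `Z ≤ V`. -/
theorem pairns_up (β : E →ₗ[ℝ] E →ₗ[ℝ] ℝ) {Z V : Submodule ℝ E} (hZV : Z ≤ V) :
    finrank ℝ (pairnsRad β Z) + finrank ℝ Z ≤ finrank ℝ (pairnsRad β V) + finrank ℝ V := by
  obtain ⟨Z'', hc⟩ := Submodule.exists_isCompl Z
  set Z' := Z'' ⊓ V with hZ'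
  have hsup : Z ⊔ Z' = V := by
    rw [hZ', ← sup_inf_assoc_of_le Z'' hZV, hc.sup_eq_top, top_inf_eq]
  have hinf : Z ⊓ Z' = ⊥ := by
    rw [hZ', ← inf_assoc, hc.inf_eq_bot, bot_inf_eq]
  have hdim : finrank ℝ V = finrank ℝ Z + finrank ℝ Z' := by
    have := Submodule.finrank_sup_add_finrank_inf_eq Z Z'
    rw [hsup, hinf, finrank_bot] at this
    omega
  set K := pairnsRad β Z with hK
  let φ : K →ₗ[ℝ] (Z' →ₗ[ℝ] ℝ) := β.domRestrict₁₂ K Z'
  have hφ : ∀ (x : K) (y : Z'), φ x y = β x y := fun x y => rfl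
  have hrn := LinearMap.finrank_range_add_finrank_ker φ
  have hrange : finrank ℝ (LinearMap.range φ) ≤ finrank ℝ Z' := by
    have h1 := Submodule.finrank_le (LinearMap.range φ)
    have h2 : finrank ℝ (Z' →ₗ[ℝ] ℝ) = finrank ℝ Z' := Subspace.dual_finrank_eq
    omega
  have hker : finrank ℝ (LinearMap.ker φ) ≤ finrank ℝ (pairnsRad β V) := by
    rw [← Submodule.finrank_map_subtype_eq K (LinearMap.ker φ)]
    apply Submodule.finrank_mono
    rintro _ ⟨x, hx, rfl⟩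
    have hx0 : φ x = 0 := hx
    refine ⟨hZV x.2.1, fun y hy => ?_⟩
    rw [← hsup] at hy
    obtain ⟨y1, hy1, y2, hy2, rfl⟩ := Submodule.mem_sup.mp hy
    have e1 : β (x : E) y1 = 0 := x.2.2 y1 hy1
    have e2 : β (x : E) y2 = 0 := by
      have := congrArg (fun f => f ⟨y2, hy2⟩) hx0
      simpa [hφ] using this
    show β (x : E) (y1 + y2) = 0
    rw [map_add, e1, e2, add_zero]
  omega

theorem pairns_main (β : E →ₗ[ℝ] E →ₗ[ℝ] ℝ) (U V : Submodule ℝ E) :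
    finrank ℝ (pairnsRad β U) ≤ finrank ℝ (pairnsRad β V)
      + (finrank ℝ U + finrank ℝ V - 2 * finrank ℝ (U ⊓ V : Submodule ℝ E)) := by
  have h1 := pairns_down β (inf_le_left : U ⊓ V ≤ U)
  have h2 := pairns_up β (inf_le_right : U ⊓ V ≤ V)
  have h3 := Submodule.finrank_mono (inf_le_left : U ⊓ V ≤ U)
  have h4 := Submodule.finrank_mono (inf_le_right : U ⊓ V ≤ V)
  omega

end General

/-- the bilinear map `x, y ↦ xᵀ C y` on `EucM m`. -/
noncomputable def pairnsBil {m : ℕ} (C : Matrix (Fin m) (Fin m) ℝ) : EucM m →ₗ[ℝ] EucM m →ₗ[ℝ] ℝ :=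
  (Matrix.toLinearMap₂' ℝ C).compl₁₂ (WithLp.linearEquiv 2 ℝ (Fin m → ℝ)).toLinearMap
    (WithLp.linearEquiv 2 ℝ (Fin m → ℝ)).toLinearMap

theorem pairnsBil_apply {m : ℕ} (C : Matrix (Fin m) (Fin m) ℝ) (x y : EucM m) :
    pairnsBil C x y = (fun i => x i) ⬝ᵥ C.mulVec (fun i => y i) := by
  unfold pairnsBil
  rw [LinearMap.compl₁₂_apply, Matrix.toLinearMap₂'_apply']
  rfl

theorem pairns_formRad_eq {m : ℕ} (C : Matrix (Fin m) (Fin m) ℝ) (W : Submodule ℝ (EucM m)) :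
    formRad C W = pairnsRad (pairnsBil C) W := by
  ext x
  simp only [pairns_mem_rad, pairnsBil_apply]
  rfl

/-- **Leaf NULLSTAB.** -/
theorem pair_nullStab : StPairNullStab := by
  intro m C U V
  rw [pairns_formRad_eq, pairns_formRad_eq]
  exact pairns_main (pairnsBil C) U V

end Claimed.Agent.R293
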