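/-
R293 / PairRadRank.lean (owner helper108).  Leaf PAIR-RADRANK: nullity of a restricted form = corank of its Gram matrix.
Prefix `pairrr`.  No sorry.
-/
import Claimed.Agent.R293.PairLeaves

set_option autoImplicit false
set_option linter.unusedSectionVars false

namespace Claimed.Agent.R293

open Module Matrix

section RadRank
variable {m : ℕ} {κ : Type} [Fintype κ] [DecidableEq κ]

/-- `c ↦ ∑ c_a v_a` with values in `EucM m`. -/
noncomputable def pairrrL (v : κ → Fin m → ℝ) : (κ → ℝ) →ₗ[ℝ] EucM m :=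
  Fintype.linearCombination ℝ (fun a => eucMap m (v a))

theorem pairrrL_apply (v : κ → Fin m → ℝ) (c : κ → ℝ) :
    pairrrL v c = ∑ a, c a • eucMap m (v a) := by
  simp [pairrrL, Fintype.linearCombination_apply]

theorem pairrrL_coe (v : κ → Fin m → ℝ) (c : κ → ℝ) :
    (fun i => pairrrL v c i) = ∑ a, c a • v a := by
  funext i
  rw [pairrrL_apply]
  simp [eucMap]

theorem pairrr_eucMap_injective : Function.Injective (eucMap m) :=
  (WithLp.linearEquiv 2 ℝ (Fin m → ℝ)).symm.injective

theorem pairrrL_injective {v : κ → Fin m → ℝ} (hv : LinearIndependent ℝ v) :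
    Function.Injective (pairrrL v) := by
  have h1 : LinearIndependent ℝ (fun a => eucMap m (v a)) :=
    hv.map' (eucMap m) (LinearMap.ker_eq_bot.mpr pairrr_eucMap_injective)
  exact linearIndependent_iff_injective_fintypeLinearCombination.mp h1

theorem pairrrL_range (v : κ → Fin m → ℝ) :
    LinearMap.range (pairrrL v) = Submodule.span ℝ (Set.range fun a => eucMap m (v a)) :=
  Fintype.range_linearCombination ℝ _

theorem pairrr_rad_eq (C : Matrix (Fin m) (Fin m) ℝ) (v : κ → Fin m → ℝ) :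
    formRad C (Submodule.span ℝ (Set.range fun a => eucMap m (v a)))
      = (LinearMap.ker ((Matrix.of fun a b => v a ⬝ᵥ C.mulVec (v b))ᵀ).mulVecLin).map (pairrrL v) := by
  set G : Matrix κ κ ℝ := Matrix.of fun a b => v a ⬝ᵥ C.mulVec (v b) with hG
  have key : ∀ (c : κ → ℝ) (b : κ),
      (fun i => pairrrL v c i) ⬝ᵥ C.mulVec (v b) = (Gᵀ *ᵥ c) b := by
    intro c b
    rw [pairrrL_coe, sum_dotProduct]
    show _ = ∑ a, Gᵀ b a * c a
    refine Finset.sum_congr rfl fun a _ => ?_
    rw [smul_dotProduct, smul_eq_mul, transpose_apply, hG, of_apply, mul_comm]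
  ext x
  constructor
  · rintro ⟨hxW, hx⟩
    rw [← pairrrL_range] at hxW
    obtain ⟨c, rfl⟩ := hxW
    refine ⟨c, ?_, rfl⟩
    show Gᵀ *ᵥ c = 0
    funext b
    rw [← key]
    have hb : eucMap m (v b) ∈ Submodule.span ℝ (Set.range fun a => eucMap m (v a)) :=
      Submodule.subset_span ⟨b, rfl⟩
    exact hx _ hb
  · rintro ⟨c, hc, rfl⟩
    have hc' : Gᵀ *ᵥ c = 0 := hc
    refine ⟨?_, ?_⟩
    · rw [← pairrrL_range]; exact ⟨c, rfl⟩
    · intro y hy
      rw [← pairrrL_range] at hy
      obtain ⟨d, rfl⟩ := hy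
      rw [pairrrL_coe v d, mulVec_sum, dotProduct_sum]
      refine Finset.sum_eq_zero fun b _ => ?_
      rw [mulVec_smul, dotProduct_smul, key, hc']
      simp

end RadRank

/-- **Leaf RADRANK.** -/
theorem pair_radRank : StPairRadRank := by
  intro m C κ _ _ v hv
  rw [pairrr_rad_eq]
  set G : Matrix κ κ ℝ := Matrix.of fun a b => v a ⬝ᵥ C.mulVec (v b) with hG
  have h1 : finrank ℝ ((LinearMap.ker Gᵀ.mulVecLin).map (pairrrL v))
      = finrank ℝ (LinearMap.ker Gᵀ.mulVecLin) :=
    (Submodule.equivMapOfInjective (pairrrL v) (pairrrL_injective hv) _).finrank_eq.symm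
  have h2 := LinearMap.finrank_range_add_finrank_ker Gᵀ.mulVecLin
  have h3 : G.rank = finrank ℝ (LinearMap.range Gᵀ.mulVecLin) := by
    rw [← Matrix.rank_transpose]; rfl
  rw [h1, h3, finrank_fintype_fun_eq_card] at *
  omega

end Claimed.Agent.R293
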