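/-
R293 / PairReal.lean (owner: helper175).  Four leaves of the PAIR package in ONE file (file budget):
  PAIR-RANKCAST `pair_rankCast : StPairRankCast`            (prefix `pairrc_`; rank is invariant under field extension)
  PAIR-SCALE    `pair_scale : StPairScale`                  (prefix `pairsc_`)
  PAIR-ARITH    `pair_arith : StPairArith`                  (prefix `pairar_`)
  PAIR-COSTABS  `pair_costAbs : StPairScale → StPairCostAbs` (prefix `pairca_`)
-/
import Claimed.Agent.R293.PairLeaves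

set_option autoImplicit false

namespace Claimed.Agent.R293

open Filter Module Matrix Topology

/-! ### PAIR-RANKCAST -/

theorem pairrc_rank_block (K : Type*) [Field K] (r k : ℕ) :
    (fromBlocks (1 : Matrix (Fin r) (Fin r) K) 0 0 (0 : Matrix (Fin k) (Fin k) K)).rank = r := by
  classical
  rw [← diagonal_one, ← diagonal_zero, fromBlocks_diagonal, rank_diagonal]
  have e : {i : Fin r ⊕ Fin k // Sum.elim (fun _ => (1 : K)) (fun _ => (0 : K)) i ≠ 0} ≃ Fin r :=
    { toFun := fun i => match i with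
        | ⟨Sum.inl a, _⟩ => a
        | ⟨Sum.inr _, h⟩ => absurd rfl h
      invFun := fun a => ⟨Sum.inl a, by simp⟩
      left_inv := by
        rintro ⟨a | b, h⟩
        · rfl
        · exact absurd rfl h
      right_inv := fun a => rfl }
  rw [Fintype.card_congr e, Fintype.card_fin]

theorem pairrc_rank_map {K L : Type*} [Field K] [Field L] (φ : K →+* L) (r : ℕ)
    (M : Matrix (Fin r) (Fin r) K) : (M.map φ).rank = M.rank := by
  obtain ⟨V, U, e, hV, hU, h⟩ := exists_rank_normal_form M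
  have hV' : IsUnit (V.map φ).det := by
    have := ((isUnit_iff_isUnit_det _).1 hV).map φ
    rwa [RingHom.map_det] at this
  have hU' : IsUnit (U.map φ).det := by
    have := ((isUnit_iff_isUnit_det _).1 hU).map φ
    rwa [RingHom.map_det] at this
  have h2 : V.map φ * M.map φ * U.map φ
      = (fromBlocks (1 : Matrix (Fin M.rank) (Fin M.rank) L) 0 0
          (0 : Matrix (Fin (Fintype.card (Fin r) - M.rank)) (Fin (Fintype.card (Fin r) - M.rank)) L)
        ).submatrix e e := by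
    rw [← Matrix.map_mul, ← Matrix.map_mul, h]
    ext i j
    simp only [map_apply, submatrix_apply]
    rcases e i with a | a <;> rcases e j with b | b <;>
      simp [fromBlocks, Matrix.one_apply, apply_ite φ]
  rw [← rank_mul_eq_right_of_isUnit_det (V.map φ) (M.map φ) hV',
    ← rank_mul_eq_left_of_isUnit_det (U.map φ) _ hU', h2, rank_submatrix, pairrc_rank_block]

theorem pair_rankCast : StPairRankCast := fun r M => pairrc_rank_map (Rat.castHom ℝ) r M

/-! ### PAIR-SCALE, PAIR-ARITH -/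

theorem pairsc_log_tendsto : Tendsto (fun N : ℕ => Real.log N) atTop atTop :=
  Real.tendsto_log_atTop.comp tendsto_natCast_atTop_atTop

theorem pairsc_ell_tendsto : Tendsto ell atTop atTop :=
  Real.tendsto_log_atTop.comp pairsc_log_tendsto

theorem pairsc_R_tendsto : Tendsto (fun N => (scaleR N : ℝ)) atTop atTop := by
  have h1 : Tendsto (fun N => ell N ^ 2) atTop atTop :=
    (tendsto_pow_atTop (two_ne_zero)).comp pairsc_ell_tendsto
  exact tendsto_atTop_mono (fun N => Nat.le_ceil _) h1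

theorem pair_scale : StPairScale := by
  refine ⟨pairsc_ell_tendsto, ?_, ?_, ?_⟩
  · exact tendsto_inv_atTop_zero.comp ((tendsto_pow_atTop (by norm_num)).comp pairsc_R_tendsto)
  · filter_upwards [pairsc_R_tendsto.eventually_gt_atTop 0] with N hN
    unfold scaleSigma
    positivity
  · filter_upwards [pairsc_ell_tendsto.eventually_ge_atTop 2,
      pairsc_R_tendsto.eventually_gt_atTop 0] with N hN hR
    have hl : 0 < ell N := by linarith
    have h1 : (scaleR N : ℝ) ≤ 2 * ell N ^ 2 := by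
      have := (Nat.ceil_lt_add_one (sq_nonneg (ell N))).le
      unfold scaleR
      nlinarith
    have h2 : (scaleR N : ℝ) ^ 6 ≤ ell N ^ 20 := by
      calc (scaleR N : ℝ) ^ 6 ≤ (2 * ell N ^ 2) ^ 6 := pow_le_pow_left₀ hR.le h1 6
        _ = 64 * ell N ^ 12 := by ring
        _ ≤ ell N ^ 8 * ell N ^ 12 := by
            refine mul_le_mul_of_nonneg_right ?_ (by positivity)
            calc (64 : ℝ) ≤ 2 ^ 8 := by norm_num
              _ ≤ ell N ^ 8 := pow_le_pow_left₀ (by norm_num) hN 8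
        _ = ell N ^ 20 := by ring
    rw [Real.rpow_neg hl.le, show (20 : ℝ) = ((20 : ℕ) : ℝ) by norm_num, Real.rpow_natCast]
    unfold scaleSigma
    exact inv_anti₀ (by positivity) h2

/-- `ℓ = o(log N)` -/
theorem pairar_ell_le (c : ℝ) (hc : 0 < c) : ∀ᶠ N : ℕ in atTop, ell N ≤ c * Real.log N := by
  have h := (Real.isLittleO_log_id_atTop.comp_tendsto pairsc_log_tendsto).bound hc
  filter_upwards [h, pairsc_log_tendsto.eventually_ge_atTop 0] with N hN h0
  simp only [Function.comp_apply, id_eq, Real.norm_eq_abs] at hN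
  rw [abs_of_nonneg h0] at hN
  exact (le_abs_self _).trans hN

theorem pair_arith : StPairArith := by
  intro C hC w hw ξ hξ ε hε
  have hc : 0 < ε / (4 * C) := by positivity
  filter_upwards [pairar_ell_le _ hc,
    pairsc_log_tendsto.eventually_ge_atTop (4 * (2 + ε) * |Real.log w| / ε),
    pairsc_log_tendsto.eventually_gt_atTop (2 * |Real.log w|),
    eventually_ge_atTop 1] with N h1 h2 h3 hN1 J s t hJ0 hJ1 ht hmain
  have hN : (0 : ℝ) < N := by exact_mod_cast hN1
  have hlogw := neg_abs_le (Real.log w)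
  rcases le_or_gt s t with hst | hst
  · have : (s : ℝ) ≤ t := by exact_mod_cast hst
    have h5 : 0 ≤ (2 * J + ε) * N := by positivity
    nlinarith
  -- `d = s - t ≥ 1`
  set d : ℕ := s - t with hd
  have hsd : (s : ℝ) = t + d := by
    have : s = t + d := by omega
    exact_mod_cast this
  set Lw : ℝ := Real.log w + Real.log N / 2 with hLw
  have hLwpos : 0 < Lw := by rw [hLw]; linarith [abs_nonneg (Real.log w)]
  have hsq : Real.log (w * Real.sqrt N) = Lw := by
    rw [Real.log_mul hw.ne' (Real.sqrt_pos.2 hN).ne', Real.log_sqrt hN.le]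
  have hpos1 : 0 < (N : ℝ) ^ ((N : ℝ) * J) := Real.rpow_pos_of_pos hN _
  have hpos2 : 0 < ((w * Real.sqrt N)⁻¹) ^ d := by
    have := Real.sqrt_pos.2 hN
    positivity
  have hlog := Real.log_nonneg hmain
  rw [Real.log_mul hpos1.ne' (mul_pos hpos2 (Real.exp_pos _)).ne',
    Real.log_mul hpos2.ne' (Real.exp_pos _).ne', Real.log_exp, Real.log_rpow hN, Real.log_pow,
    Real.log_inv, hsq] at hlog
  -- `d Lw ≤ N (J log N + C ℓ)`
  have hkey : J * Real.log N + C * ell N ≤ (2 * J + ε) * Lw := by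
    have e1 : C * ell N ≤ ε / 4 * Real.log N := by
      have := mul_le_mul_of_nonneg_left h1 hC.le
      have e : C * (ε / (4 * C) * Real.log N) = ε / 4 * Real.log N := by field_simp
      rwa [e] at this
    have e2 : (2 + ε) * |Real.log w| ≤ ε / 4 * Real.log N := by
      have := (div_le_iff₀ hε).1 h2
      nlinarith
    have e3 : -(2 + ε) * |Real.log w| ≤ (2 * J + ε) * Real.log w := by
      have h0 : 0 ≤ 2 * J + ε := by positivity
      have h4 : 2 * J + ε ≤ 2 + ε := by linarith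
      have := abs_nonneg (Real.log w)
      nlinarith
    rw [hLw]
    nlinarith
  have hd2 : (d : ℝ) * Lw ≤ ((2 * J + ε) * N) * Lw := by
    have := mul_le_mul_of_nonneg_left hkey hN.le
    nlinarith
  have hd3 : (d : ℝ) ≤ (2 * J + ε) * N := le_of_mul_le_mul_right hd2 hLwpos
  rw [hsd]
  nlinarith

/-! ### PAIR-COSTABS -/

/-- `log₂ (1 + 8 k) ≤ 4 k` -/
theorem pairca_cost_le (k : ℕ) : Real.logb 2 (1 + 8 * (k : ℝ)) ≤ 4 * k := by
  have h1 : (1 : ℝ) + 8 * k ≤ 16 ^ k := by
    have := one_add_mul_le_pow (a := (15 : ℝ)) (by norm_num) k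
    have h0 : (0 : ℝ) ≤ k := Nat.cast_nonneg k
    calc (1 : ℝ) + 8 * k ≤ 1 + k * 15 := by linarith
      _ ≤ (1 + 15) ^ k := this
      _ = 16 ^ k := by norm_num
  have h2 : Real.logb 2 ((16 : ℝ) ^ k) = 4 * k := by
    rw [Real.logb_pow, show (16 : ℝ) = 2 ^ 4 by norm_num, Real.logb_pow,
      Real.logb_self_eq_one (by norm_num)]
    push_cast; ring
  rw [← h2]
  exact Real.logb_le_logb_of_le (by norm_num) (by positivity) h1

theorem pairca_cost_nonneg (k : ℕ) : 0 ≤ Real.logb 2 (1 + 8 * (k : ℝ)) :=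
  Real.logb_nonneg (by norm_num) (by have : (0 : ℝ) ≤ k := Nat.cast_nonneg k; linarith)

theorem pairca_nu_nonneg {N l : ℕ} (_hl : 1 ≤ l) : 0 ≤ nu N l := by
  unfold nu
  have h1 : 0 ≤ Real.log l := Real.log_natCast_nonneg l
  have h2 : 0 ≤ Real.log N := Real.log_natCast_nonneg N
  positivity

/-- large primes have weight `≥ 1/(2N)` -/
theorem pairca_nu_large {N l : ℕ} (hN : 2 ≤ N) (hl : N < l ^ 2) : 1 / (2 * (N : ℝ)) ≤ nu N l := by
  unfold nu
  have hN0 : (0 : ℝ) < N := by positivity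
  have hlog : 0 < Real.log N := Real.log_pos (by exact_mod_cast hN)
  have h1 : Real.log N ≤ 2 * Real.log l := by
    have : (N : ℝ) ≤ (l : ℝ) ^ 2 := by exact_mod_cast hl.le
    have h2 := Real.log_le_log hN0 this
    rwa [Real.log_pow] at h2
  rw [div_le_div_iff₀ (by positivity) (by positivity)]
  nlinarith

/-- cost of a set: small primes are few, large primes are charged to their weight -/
theorem pairca_cost_set {N : ℕ} (hN : 2 ≤ N) {PF : Finset ℕ} {k : ℕ → ℕ} (h1 : ∀ l ∈ PF, 1 ≤ l)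
    (hk : ∀ l ∈ PF, (k l : ℝ) ≤ (N : ℝ) ^ 2) {Q : Finset ℕ} (hQ : Q ⊆ PF) :
    ∑ l ∈ Q, Real.logb 2 (1 + 8 * (k l : ℝ))
      ≤ Real.sqrt N * Real.logb 2 (1 + 8 * (N : ℝ) ^ 2)
        + 8 * N * ∑ l ∈ Q.filter (fun l => ¬ l ^ 2 ≤ N), (k l : ℝ) * nu N l := by
  rw [← Finset.sum_filter_add_sum_filter_not Q (fun l => l ^ 2 ≤ N)]
  refine add_le_add ?_ ?_
  · have hΛ : 0 ≤ Real.logb 2 (1 + 8 * (N : ℝ) ^ 2) :=
      Real.logb_nonneg (by norm_num) (by have : (0 : ℝ) ≤ (N : ℝ) ^ 2 := by positivity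
                                         linarith)
    have hcard : ((Q.filter fun l => l ^ 2 ≤ N).card : ℝ) ≤ Real.sqrt N := by
      have hsub : (Q.filter fun l => l ^ 2 ≤ N) ⊆ Finset.Icc 1 (Nat.sqrt N) := by
        intro l hl
        rw [Finset.mem_filter] at hl
        exact Finset.mem_Icc.2 ⟨h1 l (hQ hl.1), Nat.le_sqrt'.2 hl.2⟩
      have h2 := Finset.card_le_card hsub
      rw [Nat.card_Icc, Nat.add_sub_cancel] at h2
      calc ((Q.filter fun l => l ^ 2 ≤ N).card : ℝ) ≤ (Nat.sqrt N : ℝ) := by exact_mod_cast h2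
        _ ≤ Real.sqrt N := Real.nat_sqrt_le_real_sqrt
    calc ∑ l ∈ Q.filter (fun l => l ^ 2 ≤ N), Real.logb 2 (1 + 8 * (k l : ℝ))
        ≤ ∑ _l ∈ Q.filter (fun l => l ^ 2 ≤ N), Real.logb 2 (1 + 8 * (N : ℝ) ^ 2) := by
          refine Finset.sum_le_sum fun l hl => ?_
          have hl' := hQ (Finset.mem_filter.1 hl).1
          refine Real.logb_le_logb_of_le (by norm_num) ?_ (by linarith [hk l hl'])
          have : (0 : ℝ) ≤ k l := Nat.cast_nonneg _
          linarith
      _ = ((Q.filter fun l => l ^ 2 ≤ N).card : ℝ) * Real.logb 2 (1 + 8 * (N : ℝ) ^ 2) := by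
          rw [Finset.sum_const, nsmul_eq_mul]
      _ ≤ Real.sqrt N * Real.logb 2 (1 + 8 * (N : ℝ) ^ 2) :=
          mul_le_mul_of_nonneg_right hcard hΛ
  · rw [Finset.mul_sum]
    refine Finset.sum_le_sum fun l hl => ?_
    have hl2 : N < l ^ 2 := not_le.1 (Finset.mem_filter.1 hl).2
    have h3 := pairca_nu_large hN hl2
    have hN0 : (0 : ℝ) < N := by positivity
    have h4 : 1 ≤ 2 * (N : ℝ) * nu N l := by
      have := (div_le_iff₀ (by positivity : (0 : ℝ) < 2 * N)).1 h3
      linarith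
    have hk0 : (0 : ℝ) ≤ k l := Nat.cast_nonneg _
    calc Real.logb 2 (1 + 8 * (k l : ℝ)) ≤ 4 * k l := pairca_cost_le _
      _ ≤ 4 * k l * (2 * (N : ℝ) * nu N l) := le_mul_of_one_le_right (by positivity) h4
      _ = 8 * N * ((k l : ℝ) * nu N l) := by ring

/-- the numerical fact -/
theorem pairca_num (hsc : StPairScale) (ε : ℝ) (hε : 0 < ε) : ∀ᶠ N : ℕ in atTop,
    Real.sqrt N * Real.logb 2 (1 + 8 * (N : ℝ) ^ 2) + 8 * N * scaleSigma N
      + Real.logb 2 (1 + 8 * (N : ℝ) ^ 2) ≤ ε * N := by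
  have hσ := (tendsto_order.1 hsc.2.1).2 (ε / 24) (by positivity)
  have hlog : ∀ᶠ N : ℕ in atTop, Real.log N ≤ ε / 18 * Real.sqrt N := by
    have h := ((isLittleO_log_rpow_atTop (by norm_num : (0 : ℝ) < 1 / 2)).comp_tendsto
      tendsto_natCast_atTop_atTop).bound (by positivity : 0 < ε / 18)
    filter_upwards [h] with N hN
    simp only [Function.comp_apply, Real.norm_eq_abs] at hN
    rw [← Real.sqrt_eq_rpow, abs_of_nonneg (Real.sqrt_nonneg _)] at hN
    exact (le_abs_self _).trans hN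
  filter_upwards [hσ, hlog, eventually_ge_atTop 3] with N h1 h2 hN3
  have hN : (3 : ℝ) ≤ N := by exact_mod_cast hN3
  have hN0 : (0 : ℝ) < N := by linarith
  have hs1 : 1 ≤ Real.sqrt N := Real.one_le_sqrt.2 (by linarith)
  have hss : Real.sqrt N * Real.sqrt N = N := Real.mul_self_sqrt hN0.le
  have hlogN : 0 ≤ Real.log N := Real.log_nonneg (by linarith)
  -- `Λ ≤ 6 log N`
  have hΛ : Real.logb 2 (1 + 8 * (N : ℝ) ^ 2) ≤ 6 * Real.log N := by
    have h3 : 1 + 8 * (N : ℝ) ^ 2 ≤ (N : ℝ) ^ 4 := by nlinarith [sq_nonneg ((N : ℝ) ^ 2 - 9)]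
    have h4 : Real.log (1 + 8 * (N : ℝ) ^ 2) ≤ 4 * Real.log N := by
      have := Real.log_le_log (by positivity) h3
      rwa [Real.log_pow] at this
    have h5 : (0.6931471803 : ℝ) < Real.log 2 := Real.log_two_gt_d9
    unfold Real.logb
    rw [div_le_iff₀ (by linarith)]
    nlinarith
  have hΛ0 : 0 ≤ Real.logb 2 (1 + 8 * (N : ℝ) ^ 2) :=
    Real.logb_nonneg (by norm_num) (by have : (0 : ℝ) ≤ (N : ℝ) ^ 2 := by positivity
                                       linarith)
  have hA : (Real.sqrt N + 1) * Real.logb 2 (1 + 8 * (N : ℝ) ^ 2) ≤ 2 * ε / 3 * N := by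
    calc (Real.sqrt N + 1) * Real.logb 2 (1 + 8 * (N : ℝ) ^ 2)
        ≤ (2 * Real.sqrt N) * (6 * (ε / 18 * Real.sqrt N)) := by
          refine mul_le_mul (by linarith) (hΛ.trans (by linarith)) hΛ0 (by positivity)
      _ = 2 * ε / 3 * (Real.sqrt N * Real.sqrt N) := by ring
      _ = 2 * ε / 3 * N := by rw [hss]
  have hB : 8 * N * scaleSigma N ≤ ε / 3 * N := by nlinarith
  nlinarith

theorem pair_costAbs : StPairScale → StPairCostAbs := by
  classical
  intro hsc ε hε
  filter_upwards [pairca_num hsc ε hε, eventually_ge_atTop 2] with N hnum hN PF k h1 hk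
  have hN0 : (0 : ℝ) < N := by positivity
  have hw : ∀ l ∈ PF, 0 ≤ (k l : ℝ) * nu N l := fun l hl =>
    mul_nonneg (Nat.cast_nonneg _) (pairca_nu_nonneg (h1 l hl))
  have hΛ0 : 0 ≤ Real.logb 2 (1 + 8 * (N : ℝ) ^ 2) :=
    Real.logb_nonneg (by norm_num) (by have : (0 : ℝ) ≤ (N : ℝ) ^ 2 := by positivity
                                       linarith)
  have hlarge_le : ∀ Q ⊆ PF, ∑ l ∈ Q.filter (fun l => ¬ l ^ 2 ≤ N), (k l : ℝ) * nu N l
      ≤ ∑ l ∈ Q, (k l : ℝ) * nu N l := fun Q hQ =>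
    Finset.sum_le_sum_of_subset_of_nonneg (Finset.filter_subset _ _)
      fun l hl _ => hw l (hQ hl)
  constructor
  · intro htot
    obtain ⟨Ps, hPs, hmin⟩ := Finset.exists_min_image
      (PF.powerset.filter fun Q => PF.filter (fun l => l ^ 2 ≤ N) ⊆ Q ∧
        scaleSigma N ≤ ∑ l ∈ Q, (k l : ℝ) * nu N l) Finset.card
      ⟨PF, Finset.mem_filter.2 ⟨Finset.mem_powerset.2 subset_rfl, Finset.filter_subset _ _, htot⟩⟩
    obtain ⟨hsub, hsmall, hwt⟩ := Finset.mem_filter.1 hPs
    rw [Finset.mem_powerset] at hsub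
    refine ⟨Ps, hsub, hwt, ?_⟩
    by_cases hex : ∃ l₀ ∈ Ps, ¬ l₀ ^ 2 ≤ N
    · obtain ⟨l₀, hl₀, hl₀N⟩ := hex
      have hsub' : Ps.erase l₀ ⊆ PF := (Finset.erase_subset _ _).trans hsub
      have hlt : ∑ l ∈ Ps.erase l₀, (k l : ℝ) * nu N l < scaleSigma N := by
        by_contra hcon
        have hmem : Ps.erase l₀ ∈ PF.powerset.filter fun Q =>
            PF.filter (fun l => l ^ 2 ≤ N) ⊆ Q ∧ scaleSigma N ≤ ∑ l ∈ Q, (k l : ℝ) * nu N l := by
          refine Finset.mem_filter.2 ⟨Finset.mem_powerset.2 hsub', fun l hl => ?_, not_lt.1 hcon⟩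
          refine Finset.mem_erase.2 ⟨fun e => hl₀N (e ▸ (Finset.mem_filter.1 hl).2), hsmall hl⟩
        have := hmin _ hmem
        rw [Finset.card_erase_of_mem hl₀] at this
        have hpos : 0 < Ps.card := Finset.card_pos.2 ⟨l₀, hl₀⟩
        omega
      have hc := pairca_cost_set hN h1 hk hsub'
      have hl := hlarge_le _ hsub'
      have h0 : Real.logb 2 (1 + 8 * (k l₀ : ℝ)) ≤ Real.logb 2 (1 + 8 * (N : ℝ) ^ 2) := by
        refine Real.logb_le_logb_of_le (by norm_num) ?_ (by linarith [hk l₀ (hsub hl₀)])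
        have : (0 : ℝ) ≤ k l₀ := Nat.cast_nonneg _
        linarith
      rw [← Finset.add_sum_erase Ps _ hl₀]
      have h8 : 8 * (N : ℝ) * ∑ l ∈ (Ps.erase l₀).filter (fun l => ¬ l ^ 2 ≤ N), (k l : ℝ) * nu N l
          ≤ 8 * N * scaleSigma N :=
        mul_le_mul_of_nonneg_left (hl.trans hlt.le) (by positivity)
      linarith
    · have hc := pairca_cost_set hN h1 hk hsub
      have hempty : Ps.filter (fun l => ¬ l ^ 2 ≤ N) = ∅ := by
        rw [Finset.filter_eq_empty_iff]
        intro l hl hl2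
        exact hex ⟨l, hl, hl2⟩
      rw [hempty, Finset.sum_empty, mul_zero, add_zero] at hc
      have hσ0 : 0 ≤ scaleSigma N := by unfold scaleSigma; positivity
      have : 0 ≤ 8 * (N : ℝ) * scaleSigma N := by positivity
      linarith
  · intro hlt
    have hc := pairca_cost_set hN h1 hk (subset_refl PF)
    have hl := hlarge_le _ (subset_refl PF)
    have h8 : 8 * (N : ℝ) * ∑ l ∈ PF.filter (fun l => ¬ l ^ 2 ≤ N), (k l : ℝ) * nu N l
        ≤ 8 * N * scaleSigma N :=
      mul_le_mul_of_nonneg_left (hl.trans hlt.le) (by positivity)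
    linarith

end Claimed.Agent.R293
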