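/-
R293 / SpcKlein.lean.  LEAF L2 of package SPC: Peierls / Klein inequality for trace functions of real symmetric
matrices; convexity and Frobenius-Lipschitz bound of `A ↦ ∑ g(λ_i(A))`.
-/
import Claimed.Agent.R293.SpcDefs

set_option autoImplicit false

namespace Claimed.Agent.R293

open Finset Matrix

variable {n : Type*} [Fintype n] [DecidableEq n]

theorem spcTr_of_isHermitian (g : ℝ → ℝ) {A : Matrix n n ℝ} (hA : A.IsHermitian) :
    spcTr g A = ∑ i, g (hA.eigenvalues i) := by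
  unfold spcTr
  rw [dif_pos hA]

/-! ### eigenbasis toolkit in `dotProduct` form -/

theorem spc_ev_mulVec {A : Matrix n n ℝ} (hA : A.IsHermitian) (i : n) :
    A.mulVec (hA.eigenvectorBasis i : n → ℝ) = hA.eigenvalues i • (hA.eigenvectorBasis i : n → ℝ) :=
  hA.mulVec_eigenvectorBasis i

theorem spc_ev_parseval {A : Matrix n n ℝ} (hA : A.IsHermitian) (x y : n → ℝ) :
    ∑ i, ((hA.eigenvectorBasis i : n → ℝ) ⬝ᵥ x) * ((hA.eigenvectorBasis i : n → ℝ) ⬝ᵥ y) = x ⬝ᵥ y := by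
  have h := hA.eigenvectorBasis.sum_inner_mul_inner (WithLp.toLp 2 x) (WithLp.toLp 2 y)
  simp only [EuclideanSpace.inner_eq_star_dotProduct, star_trivial] at h
  rw [dotProduct_comm x y, ← h]
  refine Finset.sum_congr rfl fun i _ => ?_
  rw [dotProduct_comm y]

theorem spc_ev_orthonormal {A : Matrix n n ℝ} (hA : A.IsHermitian) (i j : n) :
    (hA.eigenvectorBasis i : n → ℝ) ⬝ᵥ (hA.eigenvectorBasis j : n → ℝ) = if i = j then 1 else 0 := by
  have h := orthonormal_iff_ite.mp hA.eigenvectorBasis.orthonormal j i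
  simp only [EuclideanSpace.inner_eq_star_dotProduct, star_trivial] at h
  rw [h]
  simp [eq_comm]

theorem spc_ev_self {A : Matrix n n ℝ} (hA : A.IsHermitian) (i : n) :
    (hA.eigenvectorBasis i : n → ℝ) ⬝ᵥ (hA.eigenvectorBasis i : n → ℝ) = 1 := by
  rw [spc_ev_orthonormal, if_pos rfl]

theorem spc_ev_sum_sq {A : Matrix n n ℝ} (hA : A.IsHermitian) (x : n → ℝ) :
    ∑ i, ((hA.eigenvectorBasis i : n → ℝ) ⬝ᵥ x) ^ 2 = x ⬝ᵥ x := by
  rw [← spc_ev_parseval hA x x]
  exact Finset.sum_congr rfl fun i _ => sq _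

omit [DecidableEq n] in
theorem spc_herm_dot_mulVec {A : Matrix n n ℝ} (hA : A.IsHermitian) (x y : n → ℝ) :
    x ⬝ᵥ A.mulVec y = A.mulVec x ⬝ᵥ y := by
  have hT : Aᵀ = A := by
    have := hA.eq
    rwa [conjTranspose_eq_transpose_of_trivial] at this
  rw [dotProduct_mulVec, ← mulVec_transpose, hT]

theorem spc_ev_dot_mulVec {A : Matrix n n ℝ} (hA : A.IsHermitian) (i : n) (x : n → ℝ) :
    (hA.eigenvectorBasis i : n → ℝ) ⬝ᵥ A.mulVec x
      = hA.eigenvalues i * ((hA.eigenvectorBasis i : n → ℝ) ⬝ᵥ x) := by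
  rw [spc_herm_dot_mulVec hA, spc_ev_mulVec hA, smul_dotProduct, smul_eq_mul]

/-- `xᵀ A x = ∑ λ_i ⟨u_i, x⟩²`. -/
theorem spc_ev_quad {A : Matrix n n ℝ} (hA : A.IsHermitian) (x : n → ℝ) :
    x ⬝ᵥ A.mulVec x = ∑ i, hA.eigenvalues i * ((hA.eigenvectorBasis i : n → ℝ) ⬝ᵥ x) ^ 2 := by
  rw [← spc_ev_parseval hA x (A.mulVec x)]
  refine Finset.sum_congr rfl fun i _ => ?_
  rw [spc_ev_dot_mulVec hA]
  ring

theorem spc_ev_quad_self {A : Matrix n n ℝ} (hA : A.IsHermitian) (i : n) :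
    (hA.eigenvectorBasis i : n → ℝ) ⬝ᵥ A.mulVec (hA.eigenvectorBasis i : n → ℝ) = hA.eigenvalues i := by
  rw [spc_ev_dot_mulVec hA, spc_ev_self hA, mul_one]

/-- **Klein's inequality** (via Peierls).  `g'` is a subgradient of `g`. -/
theorem spc_klein (g g' : ℝ → ℝ) (hg : ∀ x y, g y + g' y * (x - y) ≤ g x)
    {A B : Matrix n n ℝ} (hA : A.IsHermitian) (hB : B.IsHermitian) :
    spcTr g B + ∑ j, g' (hB.eigenvalues j) *
        ((hB.eigenvectorBasis j : n → ℝ) ⬝ᵥ ((A - B).mulVec (hB.eigenvectorBasis j : n → ℝ)))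
      ≤ spcTr g A := by
  rw [spcTr_of_isHermitian g hA, spcTr_of_isHermitian g hB]
  have hc1 : ∀ i, ∑ j, ((hA.eigenvectorBasis i : n → ℝ) ⬝ᵥ (hB.eigenvectorBasis j : n → ℝ)) ^ 2 = 1 := by
    intro i
    rw [← spc_ev_self hA i, ← spc_ev_sum_sq hB]
    exact Finset.sum_congr rfl fun j _ => by rw [dotProduct_comm]
  have hc2 : ∀ j, ∑ i, ((hA.eigenvectorBasis i : n → ℝ) ⬝ᵥ (hB.eigenvectorBasis j : n → ℝ)) ^ 2 = 1 := by
    intro j
    rw [← spc_ev_self hB j, ← spc_ev_sum_sq hA]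
  have hq : ∀ j, (hB.eigenvectorBasis j : n → ℝ) ⬝ᵥ ((A - B).mulVec (hB.eigenvectorBasis j : n → ℝ))
      = ∑ i, ((hA.eigenvectorBasis i : n → ℝ) ⬝ᵥ (hB.eigenvectorBasis j : n → ℝ)) ^ 2
          * (hA.eigenvalues i - hB.eigenvalues j) := by
    intro j
    rw [sub_mulVec, dotProduct_sub, spc_ev_quad_self hB, spc_ev_quad hA]
    simp only [mul_sub]
    rw [Finset.sum_sub_distrib, ← Finset.sum_mul, hc2 j, one_mul]
    congr 1
    exact Finset.sum_congr rfl fun i _ => mul_comm _ _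
  calc ∑ j, g (hB.eigenvalues j) + ∑ j, g' (hB.eigenvalues j) *
        ((hB.eigenvectorBasis j : n → ℝ) ⬝ᵥ ((A - B).mulVec (hB.eigenvectorBasis j : n → ℝ)))
      = ∑ j, ∑ i, ((hA.eigenvectorBasis i : n → ℝ) ⬝ᵥ (hB.eigenvectorBasis j : n → ℝ)) ^ 2 *
          (g (hB.eigenvalues j) + g' (hB.eigenvalues j) * (hA.eigenvalues i - hB.eigenvalues j)) := by
        rw [← Finset.sum_add_distrib]
        refine Finset.sum_congr rfl fun j _ => ?_
        rw [hq j]
        simp only [mul_add]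
        rw [Finset.sum_add_distrib, ← Finset.sum_mul, hc2 j, one_mul, Finset.mul_sum]
        congr 1
        exact Finset.sum_congr rfl fun i _ => by ring
    _ ≤ ∑ j, ∑ i, ((hA.eigenvectorBasis i : n → ℝ) ⬝ᵥ (hB.eigenvectorBasis j : n → ℝ)) ^ 2 *
          g (hA.eigenvalues i) := by
        refine Finset.sum_le_sum fun j _ => Finset.sum_le_sum fun i _ => ?_
        exact mul_le_mul_of_nonneg_left (hg _ _) (sq_nonneg _)
    _ = ∑ i, g (hA.eigenvalues i) := by
        rw [Finset.sum_comm]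
        refine Finset.sum_congr rfl fun i _ => ?_
        rw [← Finset.sum_mul, hc1 i, one_mul]

/-- trace functions of convex functions are convex. -/
theorem spc_tr_convex (g g' : ℝ → ℝ) (hg : ∀ x y, g y + g' y * (x - y) ≤ g x)
    {A B : Matrix n n ℝ} (hA : A.IsHermitian) (hB : B.IsHermitian) {a b : ℝ} (ha : 0 ≤ a) (hb : 0 ≤ b)
    (hab : a + b = 1) :
    spcTr g (a • A + b • B) ≤ a * spcTr g A + b * spcTr g B := by
  have hC : (a • A + b • B).IsHermitian := by
    refine IsHermitian.add ?_ ?_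
    · unfold IsHermitian
      rw [conjTranspose_smul, hA.eq, star_trivial]
    · unfold IsHermitian
      rw [conjTranspose_smul, hB.eq, star_trivial]
  have h1 := spc_klein g g' hg hA hC
  have h2 := spc_klein g g' hg hB hC
  have h3 : a * ∑ j, g' (hC.eigenvalues j) * ((hC.eigenvectorBasis j : n → ℝ) ⬝ᵥ
        ((A - (a • A + b • B)).mulVec (hC.eigenvectorBasis j : n → ℝ)))
      + b * ∑ j, g' (hC.eigenvalues j) * ((hC.eigenvectorBasis j : n → ℝ) ⬝ᵥ
        ((B - (a • A + b • B)).mulVec (hC.eigenvectorBasis j : n → ℝ))) = 0 := by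
    rw [Finset.mul_sum, Finset.mul_sum, ← Finset.sum_add_distrib]
    refine Finset.sum_eq_zero fun j _ => ?_
    have hz : a • (A - (a • A + b • B)) + b • (B - (a • A + b • B)) = 0 := by
      have hb' : b = 1 - a := by linarith
      subst hb'
      ext i k
      simp only [Matrix.add_apply, Matrix.smul_apply, Matrix.sub_apply, smul_eq_mul, Matrix.zero_apply]
      ring
    have : a * ((hC.eigenvectorBasis j : n → ℝ) ⬝ᵥ
          ((A - (a • A + b • B)).mulVec (hC.eigenvectorBasis j : n → ℝ)))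
        + b * ((hC.eigenvectorBasis j : n → ℝ) ⬝ᵥ
          ((B - (a • A + b • B)).mulVec (hC.eigenvectorBasis j : n → ℝ))) = 0 := by
      rw [← smul_eq_mul, ← smul_eq_mul, ← dotProduct_smul, ← dotProduct_smul, ← dotProduct_add,
        ← smul_mulVec, ← smul_mulVec, ← add_mulVec, hz, zero_mulVec, dotProduct_zero]
    linear_combination g' (hC.eigenvalues j) * this
  have h1' := mul_le_mul_of_nonneg_left h1 ha
  have h2' := mul_le_mul_of_nonneg_left h2 hb
  have : spcTr g (a • A + b • B) = a * spcTr g (a • A + b • B) + b * spcTr g (a • A + b • B) := by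
    rw [← add_mul, hab, one_mul]
  linarith

/-- `∑_j |M v_j|² = |M|_F²` for an orthonormal eigenbasis `v`. -/
theorem spc_ev_frob {B : Matrix n n ℝ} (hB : B.IsHermitian) (M : Matrix n n ℝ) :
    ∑ j, (M.mulVec (hB.eigenvectorBasis j : n → ℝ)) ⬝ᵥ (M.mulVec (hB.eigenvectorBasis j : n → ℝ))
      = spcFrob M := by
  unfold spcFrob
  simp only [dotProduct]
  rw [Finset.sum_comm]
  refine Finset.sum_congr rfl fun i _ => ?_
  have h := spc_ev_sum_sq hB (M i)
  simp only [dotProduct] at h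
  rw [show ∑ j, (M i j) ^ 2 = ∑ j, M i j * M i j from Finset.sum_congr rfl fun j _ => sq _, ← h]
  refine Finset.sum_congr rfl fun j _ => ?_
  rw [← sq]
  congr 1
  simp only [mulVec, dotProduct]
  exact Finset.sum_congr rfl fun k _ => mul_comm _ _

omit [DecidableEq n] in
theorem spcFrob_nonneg (M : Matrix n n ℝ) : 0 ≤ spcFrob M :=
  Finset.sum_nonneg fun _ _ => Finset.sum_nonneg fun _ _ => sq_nonneg _

omit [DecidableEq n] in
theorem spc_dot_sq_le (x y : n → ℝ) : (x ⬝ᵥ y) ^ 2 ≤ (x ⬝ᵥ x) * (y ⬝ᵥ y) := by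
  have h := Finset.sum_mul_sq_le_sq_mul_sq Finset.univ x y
  simp only [dotProduct]
  calc (∑ i, x i * y i) ^ 2 ≤ (∑ i, x i ^ 2) * ∑ i, y i ^ 2 := h
    _ = (∑ i, x i * x i) * ∑ i, y i * y i := by simp only [sq]

/-- weighted sums of diagonal matrix elements in an orthonormal eigenbasis. -/
theorem spc_ev_weighted_le {B : Matrix n n ℝ} (hB : B.IsHermitian) (M : Matrix n n ℝ) (w : n → ℝ)
    (c : ℝ) (hw : ∀ j, |w j| ≤ c) :
    |∑ j, w j * ((hB.eigenvectorBasis j : n → ℝ) ⬝ᵥ (M.mulVec (hB.eigenvectorBasis j : n → ℝ)))|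
      ≤ c * Real.sqrt (Fintype.card n) * Real.sqrt (spcFrob M) := by
  set q : n → ℝ := fun j =>
    (hB.eigenvectorBasis j : n → ℝ) ⬝ᵥ (M.mulVec (hB.eigenvectorBasis j : n → ℝ)) with hq
  have hq2 : ∑ j, (q j) ^ 2 ≤ spcFrob M := by
    rw [← spc_ev_frob hB M]
    refine Finset.sum_le_sum fun j _ => ?_
    have := spc_dot_sq_le (hB.eigenvectorBasis j : n → ℝ) (M.mulVec (hB.eigenvectorBasis j : n → ℝ))
    rwa [spc_ev_self hB, one_mul] at this
  have hsum : ∑ j, |q j| ≤ Real.sqrt (Fintype.card n) * Real.sqrt (spcFrob M) := by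
    rw [← Real.sqrt_mul (Nat.cast_nonneg _)]
    refine Real.le_sqrt_of_sq_le ?_
    calc (∑ j, |q j|) ^ 2 ≤ (Finset.univ : Finset n).card * ∑ j, |q j| ^ 2 :=
          sq_sum_le_card_mul_sum_sq
      _ = Fintype.card n * ∑ j, (q j) ^ 2 := by simp only [sq_abs, Finset.card_univ]
      _ ≤ Fintype.card n * spcFrob M := mul_le_mul_of_nonneg_left hq2 (Nat.cast_nonneg _)
  rcases isEmpty_or_nonempty n with hn | ⟨⟨j0⟩⟩
  · simp
  have hc0 : 0 ≤ c := (abs_nonneg _).trans (hw j0)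
  calc |∑ j, w j * q j| ≤ ∑ j, |w j * q j| := Finset.abs_sum_le_sum_abs _ _
    _ ≤ ∑ j, c * |q j| := by
        refine Finset.sum_le_sum fun j _ => ?_
        rw [abs_mul]
        exact mul_le_mul_of_nonneg_right (hw j) (abs_nonneg _)
    _ = c * ∑ j, |q j| := by rw [Finset.mul_sum]
    _ ≤ c * (Real.sqrt (Fintype.card n) * Real.sqrt (spcFrob M)) :=
        mul_le_mul_of_nonneg_left hsum hc0
    _ = c * Real.sqrt (Fintype.card n) * Real.sqrt (spcFrob M) := by ring

omit [DecidableEq n] in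
theorem spcFrob_neg_sub (A B : Matrix n n ℝ) : spcFrob (B - A) = spcFrob (A - B) := by
  unfold spcFrob
  refine Finset.sum_congr rfl fun i _ => Finset.sum_congr rfl fun j _ => ?_
  simp only [Matrix.sub_apply]
  ring

/-- trace functions of convex `c`-Lipschitz functions are `c √n`-Lipschitz for the Frobenius norm. -/
theorem spc_tr_lipschitz (g g' : ℝ → ℝ) (hg : ∀ x y, g y + g' y * (x - y) ≤ g x) (c : ℝ)
    (hc : ∀ y, |g' y| ≤ c) {A B : Matrix n n ℝ} (hA : A.IsHermitian) (hB : B.IsHermitian) :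
    |spcTr g A - spcTr g B| ≤ c * Real.sqrt (Fintype.card n) * Real.sqrt (spcFrob (A - B)) := by
  have h1 := spc_klein g g' hg hA hB
  have h2 := spc_klein g g' hg hB hA
  have h3 := spc_ev_weighted_le hB (A - B) (fun j => g' (hB.eigenvalues j)) c (fun j => hc _)
  have h4 := spc_ev_weighted_le hA (B - A) (fun j => g' (hA.eigenvalues j)) c (fun j => hc _)
  rw [spcFrob_neg_sub] at h4
  rw [abs_le] at h3 h4 ⊢
  constructor
  · linarith [h3.1]
  · linarith [h4.1]

/-- subgradient of `|x|/δ`. -/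
theorem spcG1_subgradient {δ : ℝ} (hδ : 0 < δ) (x y : ℝ) :
    spcG1 δ y + (SignType.sign y : ℝ) / δ * (x - y) ≤ spcG1 δ x := by
  unfold spcG1
  have key : |y| + (SignType.sign y : ℝ) * (x - y) ≤ |x| := by
    rcases lt_trichotomy y 0 with h | h | h
    · rw [sign_neg h, abs_of_neg h]
      have := neg_abs_le x
      simp only [SignType.coe_neg, SignType.coe_one]
      linarith
    · subst h
      simp
    · rw [sign_pos h, abs_of_pos h]
      have := le_abs_self x
      simp only [SignType.coe_one]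
      linarith
  calc |y| / δ + (SignType.sign y : ℝ) / δ * (x - y)
      = (|y| + (SignType.sign y : ℝ) * (x - y)) / δ := by ring
    _ ≤ |x| / δ := div_le_div_of_nonneg_right key hδ.le

/-- subgradient of `(|x|/δ - 1)₊`. -/
theorem spcG2_subgradient {δ : ℝ} (hδ : 0 < δ) (x y : ℝ) :
    spcG2 δ y + (if δ < |y| then (SignType.sign y : ℝ) / δ else 0) * (x - y) ≤ spcG2 δ x := by
  have h1 := spcG1_subgradient hδ x y
  unfold spcG1 at h1
  unfold spcG2
  split_ifs with h
  · have hy : 0 ≤ |y| / δ - 1 := by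
      rw [sub_nonneg, le_div_iff₀ hδ]
      linarith
    rw [max_eq_left hy]
    refine le_trans ?_ (le_max_left _ _)
    linarith
  · have hy : |y| / δ - 1 ≤ 0 := by
      rw [sub_nonpos, div_le_iff₀ hδ]
      linarith [not_lt.mp h]
    rw [max_eq_right hy]
    simp

theorem spcTent_eq (δ x : ℝ) : spcTent δ x = 1 - spcG1 δ x + spcG2 δ x := by
  unfold spcTent spcG1 spcG2
  rcases le_total (|x| / δ) 1 with h | h
  · rw [max_eq_left (by linarith), max_eq_right (by linarith)]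
    ring
  · rw [max_eq_right (by linarith), max_eq_left (by linarith)]
    ring

theorem spcTent_le_lorentz {δ : ℝ} (hδ : 0 < δ) (x : ℝ) :
    spcTent δ x ≤ 2 * δ ^ 2 * (1 / (x ^ 2 + δ ^ 2)) := by
  unfold spcTent
  have hpos : 0 < x ^ 2 + δ ^ 2 := by positivity
  refine max_le ?_ (by positivity)
  rw [mul_one_div, le_div_iff₀ hpos]
  rcases le_total (|x|) δ with h | h
  · have hx2 : x ^ 2 ≤ δ ^ 2 := by
      rw [← sq_abs x]
      exact pow_le_pow_left₀ (abs_nonneg x) h 2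
    have h0 : 0 ≤ |x| / δ := by positivity
    have h1 : 0 ≤ 1 - |x| / δ := by
      rw [sub_nonneg, div_le_iff₀ hδ]
      linarith
    nlinarith
  · have h1 : 1 - |x| / δ ≤ 0 := by
      rw [sub_nonpos, le_div_iff₀ hδ]
      linarith
    have : (1 - |x| / δ) * (x ^ 2 + δ ^ 2) ≤ 0 := mul_nonpos_of_nonpos_of_nonneg h1 hpos.le
    have : 0 ≤ 2 * δ ^ 2 := by positivity
    linarith

theorem spcTent_ge_half {δ : ℝ} (hδ : 0 < δ) {x : ℝ} (hx : |x| ≤ δ / 2) : 1 / 2 ≤ spcTent δ x := by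
  unfold spcTent
  refine le_trans ?_ (le_max_left _ _)
  have : |x| / δ ≤ 1 / 2 := by
    rw [div_le_iff₀ hδ]
    linarith
  linarith

theorem spcTent_nonneg (δ x : ℝ) : 0 ≤ spcTent δ x := le_max_right _ _

end Claimed.Agent.R293
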