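/-
R293 / PairSpecGram.lean (owner helper202).  Leaf PAIR-SPECGRAM: the spectral Gram inequality, paper B (5.17).
-/
import Claimed.Agent.R293.PairLeaves
import Claimed.Agent.R293.SpcKlein

set_option autoImplicit false
set_option linter.unusedSectionVars false

namespace Claimed.Agent.R293

open Finset Matrix

variable {m : ℕ}

theorem pairsg_toR_herm {B : Matrix (Fin m) (Fin m) ℤ} (hB : B.IsSymm) : (toR B).IsHermitian := by
  unfold Matrix.IsHermitian
  rw [Matrix.conjTranspose_eq_transpose_of_trivial]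
  ext i j
  have := congrFun (congrFun hB i) j
  simp only [Matrix.transpose_apply] at this
  simp only [toR, Matrix.transpose_apply, Matrix.map_apply, this]

theorem pairsg_toR_det {B : Matrix (Fin m) (Fin m) ℤ} (hB : B.det ≠ 0) : (toR B).det ≠ 0 := by
  have h : (toR B).det = ((B.det : ℤ) : ℝ) := by
    have := (Int.castRingHom ℝ).map_det B
    simpa [toR, RingHom.mapMatrix_apply] using this.symm
  rw [h]
  exact_mod_cast hB

section Spec
variable {A : Matrix (Fin m) (Fin m) ℝ} (hA : A.IsHermitian) (hdet : A.det ≠ 0)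
include hdet

theorem pairsg_inv_mulVec_mulVec (x : Fin m → ℝ) : A⁻¹.mulVec (A.mulVec x) = x := by
  rw [Matrix.mulVec_mulVec, Matrix.nonsing_inv_mul _ (isUnit_iff_ne_zero.mpr hdet), Matrix.one_mulVec]

theorem pairsg_ev_ne_zero (k : Fin m) : hA.eigenvalues k ≠ 0 := by
  intro h0
  have h1 := spc_ev_mulVec hA k
  rw [h0, zero_smul] at h1
  have h2 := pairsg_inv_mulVec_mulVec hdet (hA.eigenvectorBasis k : Fin m → ℝ)
  rw [h1, Matrix.mulVec_zero] at h2
  have h3 := spc_ev_self hA k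
  rw [← h2] at h3
  simp at h3

theorem pairsg_inv_ev (k : Fin m) :
    A⁻¹.mulVec (hA.eigenvectorBasis k : Fin m → ℝ)
      = (hA.eigenvalues k)⁻¹ • (hA.eigenvectorBasis k : Fin m → ℝ) := by
  have h1 := spc_ev_mulVec hA k
  have h2 := pairsg_inv_mulVec_mulVec hdet (hA.eigenvectorBasis k : Fin m → ℝ)
  rw [h1, Matrix.mulVec_smul] at h2
  have hne := pairsg_ev_ne_zero hA hdet k
  calc A⁻¹.mulVec (hA.eigenvectorBasis k : Fin m → ℝ)
      = (hA.eigenvalues k)⁻¹ • (hA.eigenvalues k • A⁻¹.mulVec (hA.eigenvectorBasis k : Fin m → ℝ)) := by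
        rw [smul_smul, inv_mul_cancel₀ hne, one_smul]
    _ = _ := by rw [h2]

theorem pairsg_ev_dot_inv (k : Fin m) (x : Fin m → ℝ) :
    (hA.eigenvectorBasis k : Fin m → ℝ) ⬝ᵥ A⁻¹.mulVec x
      = (hA.eigenvalues k)⁻¹ * ((hA.eigenvectorBasis k : Fin m → ℝ) ⬝ᵥ x) := by
  rw [spc_herm_dot_mulVec hA.inv, pairsg_inv_ev hA hdet, smul_dotProduct, smul_eq_mul]

/-- the Gram matrix of `A⁻¹` in eigen-coordinates. -/
theorem pairsg_gram_inv {s : ℕ} (y : Fin s → Fin m → ℝ) (i j : Fin s) :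
    discGram A⁻¹ y i j = ∑ k, (hA.eigenvalues k)⁻¹ *
      (((hA.eigenvectorBasis k : Fin m → ℝ) ⬝ᵥ y i) * ((hA.eigenvectorBasis k : Fin m → ℝ) ⬝ᵥ y j)) := by
  simp only [discGram, Matrix.of_apply]
  rw [← spc_ev_parseval hA]
  refine Finset.sum_congr rfl fun k _ => ?_
  rw [pairsg_ev_dot_inv hA hdet]
  ring

/-- the Gram matrix of `1 + A⁻²` in eigen-coordinates. -/
theorem pairsg_gram_one_add {s : ℕ} (y : Fin s → Fin m → ℝ) (i j : Fin s) :
    discGram (1 + A⁻¹ * A⁻¹) y i j = ∑ k, (1 + ((hA.eigenvalues k)⁻¹) ^ 2) *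
      (((hA.eigenvectorBasis k : Fin m → ℝ) ⬝ᵥ y i) * ((hA.eigenvectorBasis k : Fin m → ℝ) ⬝ᵥ y j)) := by
  simp only [discGram, Matrix.of_apply]
  rw [← spc_ev_parseval hA]
  refine Finset.sum_congr rfl fun k _ => ?_
  rw [Matrix.add_mulVec, Matrix.one_mulVec, ← Matrix.mulVec_mulVec, dotProduct_add,
    pairsg_ev_dot_inv hA hdet, pairsg_ev_dot_inv hA hdet]
  ring

end Spec

/-- the eigenvectors with indices in `bad` span a space of dimension `#bad`. -/
theorem pairsg_finrank_span {A : Matrix (Fin m) (Fin m) ℝ} (hA : A.IsHermitian) (bad : Finset (Fin m)) :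
    Module.finrank ℝ (Submodule.span ℝ
      (Set.range fun k : bad => (hA.eigenvectorBasis k : Fin m → ℝ))) = bad.card := by
  have hli : LinearIndependent ℝ (fun k : bad => (hA.eigenvectorBasis k : Fin m → ℝ)) := by
    rw [Fintype.linearIndependent_iff]
    intro c hc j
    have h1 : (hA.eigenvectorBasis j : Fin m → ℝ) ⬝ᵥ
        (∑ k : bad, c k • (hA.eigenvectorBasis k : Fin m → ℝ)) = 0 := by
      rw [hc, dotProduct_zero]
    rw [dotProduct_sum] at h1
    simp only [dotProduct_smul, spc_ev_orthonormal hA, smul_eq_mul, mul_ite, mul_one, mul_zero] at h1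
    have h2 : ∀ k : bad, (if (j : Fin m) = (k : Fin m) then c k else 0) = if j = k then c k else 0 := by
      intro k
      simp only [Subtype.ext_iff]
    simp only [h2, Finset.sum_ite_eq, Finset.mem_univ, if_true] at h1
    exact h1
  rw [finrank_span_eq_card hli, Fintype.card_coe]

/-- vectors of that span are orthogonal to the other eigenvectors. -/
theorem pairsg_span_orth {A : Matrix (Fin m) (Fin m) ℝ} (hA : A.IsHermitian) (bad : Finset (Fin m))
    {v : Fin m → ℝ} (hv : v ∈ Submodule.span ℝ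
      (Set.range fun k : bad => (hA.eigenvectorBasis k : Fin m → ℝ))) {j : Fin m} (hj : j ∉ bad) :
    (hA.eigenvectorBasis j : Fin m → ℝ) ⬝ᵥ v = 0 := by
  induction hv using Submodule.span_induction with
  | mem x hx =>
    obtain ⟨k, rfl⟩ := hx
    rw [spc_ev_orthonormal hA, if_neg]
    intro h
    exact hj (h ▸ k.2)
  | zero => exact dotProduct_zero _
  | add x y _ _ hx hy => rw [dotProduct_add, hx, hy, add_zero]
  | smul a x _ hx => rw [dotProduct_smul, hx, smul_zero]

/-- `#{i : |λ_i| ≤ w√N} ≤ ξ N`. -/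
theorem pairsg_card_bad {w ξ : ℝ} {N : ℕ} {B : Matrix (Fin m) (Fin m) ℤ} (hB : B.IsSymm)
    (hS : SmallSpec w ξ N m B) :
    ((univ.filter fun i => |(pairsg_toR_herm hB).eigenvalues i| ≤ w * Real.sqrt N).card : ℝ) ≤ ξ * N := by
  set hA := pairsg_toR_herm hB with hhA
  set bad := univ.filter fun i => |hA.eigenvalues i| ≤ w * Real.sqrt N with hbad
  have h := hS (Submodule.span ℝ (Set.range fun k : bad => (hA.eigenvectorBasis k : Fin m → ℝ))) ?_
  · rw [pairsg_finrank_span hA bad] at h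
    exact h
  · intro v hv
    have e1 : ∑ i, ((toR B).mulVec v i) ^ 2 = (toR B).mulVec v ⬝ᵥ (toR B).mulVec v := by
      unfold dotProduct
      exact Finset.sum_congr rfl fun i _ => sq _
    have e2 : ∑ i, (v i) ^ 2 = v ⬝ᵥ v := by
      unfold dotProduct
      exact Finset.sum_congr rfl fun i _ => sq _
    rw [e1, e2, ← spc_ev_sum_sq hA, ← spc_ev_sum_sq hA v, Finset.mul_sum]
    apply Finset.sum_le_sum
    intro j _
    rw [spc_ev_dot_mulVec hA, mul_pow]
    by_cases hj : j ∈ bad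
    · have h1 : |hA.eigenvalues j| ≤ w * Real.sqrt N := (Finset.mem_filter.mp hj).2
      have h2 : hA.eigenvalues j ^ 2 ≤ (w * Real.sqrt N) ^ 2 := by
        rw [← sq_abs]
        exact pow_le_pow_left₀ (abs_nonneg _) h1 2
      have h3 : (w * Real.sqrt N) ^ 2 = w ^ 2 * N := by
        rw [mul_pow, Real.sq_sqrt (Nat.cast_nonneg N)]
      rw [h3] at h2
      exact mul_le_mul_of_nonneg_right h2 (sq_nonneg _)
    · rw [pairsg_span_orth hA bad hv hj]
      simp

theorem pair_specGram (hW : StPairWGram) : StPairSpecGram := by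
  intro w ξ N m B hB hdet hw hwN hS
  set hA := pairsg_toR_herm hB with hhA
  have hd := pairsg_toR_det hdet
  set Λ := w * Real.sqrt N with hΛ
  have hΛpos : 0 < Λ := by linarith
  set bad := univ.filter fun i => |hA.eigenvalues i| ≤ Λ with hbad
  refine ⟨bad.card, pairsg_card_bad hB hS, ?_⟩
  intro s y
  set lam : Fin m → ℝ := fun k => hA.eigenvalues k with hlam
  have hne : ∀ k, lam k ≠ 0 := fun k => pairsg_ev_ne_zero hA hd k
  set c : Fin m → ℝ := fun k => Real.sqrt (1 + ((lam k)⁻¹) ^ 2) with hc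
  have hc2 : ∀ k, c k * c k = 1 + ((lam k)⁻¹) ^ 2 := fun k =>
    Real.mul_self_sqrt (by positivity)
  set μ : Fin m → ℝ := fun k => lam k / (1 + lam k ^ 2) with hμ
  set Z : Matrix (Fin s) (Fin m) ℝ :=
    Matrix.of fun i k => c k * ((hA.eigenvectorBasis k : Fin m → ℝ) ⬝ᵥ y i) with hZ
  have e1 : Z * Matrix.diagonal μ * Zᵀ = discGram (toR B)⁻¹ y := by
    ext i j
    rw [pairsg_gram_inv hA hd, Matrix.mul_apply]
    refine Finset.sum_congr rfl fun k _ => ?_
    rw [Matrix.mul_diagonal, Matrix.transpose_apply]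
    simp only [hZ, Matrix.of_apply]
    have h1 : c k * c k * μ k = (lam k)⁻¹ := by
      rw [hc2]
      simp only [hμ]
      have := hne k
      field_simp
      ring
    calc c k * ((hA.eigenvectorBasis k : Fin m → ℝ) ⬝ᵥ y i) * μ k
          * (c k * ((hA.eigenvectorBasis k : Fin m → ℝ) ⬝ᵥ y j))
        = (c k * c k * μ k) * (((hA.eigenvectorBasis k : Fin m → ℝ) ⬝ᵥ y i)
          * ((hA.eigenvectorBasis k : Fin m → ℝ) ⬝ᵥ y j)) := by ring
      _ = _ := by rw [h1]
  have e2 : Z * Zᵀ = discGram (1 + (toR B)⁻¹ * (toR B)⁻¹) y := by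
    ext i j
    rw [pairsg_gram_one_add hA hd, Matrix.mul_apply]
    refine Finset.sum_congr rfl fun k _ => ?_
    rw [Matrix.transpose_apply]
    simp only [hZ, Matrix.of_apply]
    calc c k * ((hA.eigenvectorBasis k : Fin m → ℝ) ⬝ᵥ y i)
          * (c k * ((hA.eigenvectorBasis k : Fin m → ℝ) ⬝ᵥ y j))
        = (c k * c k) * (((hA.eigenvectorBasis k : Fin m → ℝ) ⬝ᵥ y i)
          * ((hA.eigenvectorBasis k : Fin m → ℝ) ⬝ᵥ y j)) := by ring
      _ = _ := by rw [hc2]
  have hμabs : ∀ k, |μ k| = |lam k| / (1 + lam k ^ 2) := by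
    intro k
    simp only [hμ]
    rw [abs_div, abs_of_pos (by positivity : (0 : ℝ) < 1 + lam k ^ 2)]
  have hμ1 : ∀ k, |μ k| ≤ 1 := by
    intro k
    rw [hμabs, div_le_one (by positivity)]
    have : lam k ^ 2 = |lam k| ^ 2 := (sq_abs _).symm
    rw [this]
    nlinarith [sq_nonneg (|lam k| - 1), abs_nonneg (lam k)]
  have hμ2 : ∀ k, k ∉ bad → |μ k| ≤ Λ⁻¹ := by
    intro k hk
    have h1 : Λ < |lam k| := by
      by_contra hcon
      rw [not_lt] at hcon
      exact hk (Finset.mem_filter.mpr ⟨Finset.mem_univ _, hcon⟩)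
    rw [hμabs, div_le_iff₀ (by positivity), inv_mul_eq_div, le_div_iff₀ hΛpos]
    have : lam k ^ 2 = |lam k| ^ 2 := (sq_abs _).symm
    rw [this]
    nlinarith [abs_nonneg (lam k)]
  have hfin := hW s m Z μ Λ⁻¹ bad (by positivity) (inv_le_one_of_one_le₀ hwN) hμ1 hμ2
  rw [e1, e2] at hfin
  exact hfin

end Claimed.Agent.R293
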