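/-
R293 / SpcCount.lean.  LEAF L5 of package SPC: dimension counting.
-/
import Claimed.Agent.R293.SpcDefs

set_option autoImplicit false

namespace Claimed.Agent.R293

open Finset Matrix

variable {n : Type*} [Fintype n] [DecidableEq n]

/-- the coordinate of `v` along the `i`-th eigenvector. -/
noncomputable def spcCoord {A : Matrix n n ℝ} (hA : A.IsHermitian) (v : n → ℝ) (i : n) : ℝ :=
  (hA.eigenvectorBasis i).ofLp ⬝ᵥ v

theorem spcCoord_eq_inner {A : Matrix n n ℝ} (hA : A.IsHermitian) (v : n → ℝ) (i : n) :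
    spcCoord hA v i = inner ℝ (hA.eigenvectorBasis i) (WithLp.toLp 2 v) := by
  unfold spcCoord
  rw [EuclideanSpace.inner_eq_star_dotProduct]
  simp [dotProduct_comm]

/-- Parseval in the eigenbasis. -/
theorem spcCoord_sum_sq {A : Matrix n n ℝ} (hA : A.IsHermitian) (v : n → ℝ) :
    ∑ i, (spcCoord hA v i) ^ 2 = ∑ i, (v i) ^ 2 := by
  have h := hA.eigenvectorBasis.sum_sq_norm_inner_right (WithLp.toLp 2 v)
  rw [EuclideanSpace.norm_sq_eq] at h
  simp only [Real.norm_eq_abs, sq_abs] at h
  rw [← h]
  exact Finset.sum_congr rfl fun i _ => by rw [spcCoord_eq_inner]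

/-- the eigenbasis diagonalises `A`. -/
theorem spcCoord_mulVec {A : Matrix n n ℝ} (hA : A.IsHermitian) (v : n → ℝ) (i : n) :
    spcCoord hA (A.mulVec v) i = hA.eigenvalues i * spcCoord hA v i := by
  unfold spcCoord
  rw [dotProduct_mulVec, ← mulVec_transpose]
  have hT : Aᵀ = A := by
    have := hA.eq
    rwa [conjTranspose_eq_transpose_of_trivial] at this
  rw [hT, hA.mulVec_eigenvectorBasis, smul_dotProduct, smul_eq_mul]

/-- A subspace on which `|A v| ≤ δ |v|` has dimension at most `#{i : |λ_i(A)| ≤ δ}`.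
Proof: it meets `span {u_i : |λ_i| > δ}` trivially. -/
theorem spc_finrank_le_count {A : Matrix n n ℝ} (hA : A.IsHermitian) {δ : ℝ} (hδ : 0 ≤ δ)
    (V : Submodule ℝ (n → ℝ))
    (hV : ∀ v ∈ V, ∑ i, (A.mulVec v i) ^ 2 ≤ δ ^ 2 * ∑ i, (v i) ^ 2) :
    Module.finrank ℝ V ≤ (univ.filter fun i => |hA.eigenvalues i| ≤ δ).card := by
  classical
  -- the projection to the small coordinates
  let P : V →ₗ[ℝ] ({i // |hA.eigenvalues i| ≤ δ} → ℝ) :=
    { toFun := fun v i => spcCoord hA v.1 i.1
      map_add' := by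
        intro v w; funext i
        simp [spcCoord, dotProduct_add]
      map_smul' := by
        intro c v; funext i
        simp [spcCoord, dotProduct_smul] }
  have hinj : Function.Injective P := by
    rw [← LinearMap.ker_eq_bot, LinearMap.ker_eq_bot']
    intro v hv
    have hsmall : ∀ i, |hA.eigenvalues i| ≤ δ → spcCoord hA v.1 i = 0 := by
      intro i hi
      exact congrFun hv ⟨i, hi⟩
    have h1 := hV v.1 v.2
    rw [← spcCoord_sum_sq hA (A.mulVec v.1), ← spcCoord_sum_sq hA v.1, Finset.mul_sum] at h1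
    simp only [spcCoord_mulVec] at h1
    have hterm : ∀ i, 0 ≤ (hA.eigenvalues i * spcCoord hA v.1 i) ^ 2
        - δ ^ 2 * (spcCoord hA v.1 i) ^ 2 := by
      intro i
      by_cases hi : |hA.eigenvalues i| ≤ δ
      · rw [hsmall i hi]; simp
      · push Not at hi
        have : δ ^ 2 ≤ (hA.eigenvalues i) ^ 2 := by
          rw [← sq_abs (hA.eigenvalues i)]
          exact pow_le_pow_left₀ hδ hi.le 2
        have h2 : 0 ≤ ((hA.eigenvalues i) ^ 2 - δ ^ 2) * (spcCoord hA v.1 i) ^ 2 :=
          mul_nonneg (sub_nonneg.mpr this) (sq_nonneg _)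
        nlinarith
    have hsum : ∑ i, ((hA.eigenvalues i * spcCoord hA v.1 i) ^ 2
        - δ ^ 2 * (spcCoord hA v.1 i) ^ 2) = 0 := by
      apply le_antisymm
      · rw [Finset.sum_sub_distrib]; linarith
      · exact Finset.sum_nonneg fun i _ => hterm i
    have hz := (Finset.sum_eq_zero_iff_of_nonneg fun i _ => hterm i).mp hsum
    have hall : ∀ i, spcCoord hA v.1 i = 0 := by
      intro i
      by_cases hi : |hA.eigenvalues i| ≤ δ
      · exact hsmall i hi
      · push Not at hi
        have h3 := hz i (Finset.mem_univ i)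
        have : δ ^ 2 < (hA.eigenvalues i) ^ 2 := by
          rw [← sq_abs (hA.eigenvalues i)]
          exact pow_lt_pow_left₀ hi hδ (by norm_num)
        have h4 : ((hA.eigenvalues i) ^ 2 - δ ^ 2) * (spcCoord hA v.1 i) ^ 2 = 0 := by
          rw [← h3]; ring
        rcases mul_eq_zero.mp h4 with h5 | h5
        · linarith
        · exact pow_eq_zero_iff (by norm_num) |>.mp h5
    have hv0 : ∑ i, (v.1 i) ^ 2 = 0 := by
      rw [← spcCoord_sum_sq hA v.1]
      exact Finset.sum_eq_zero fun i _ => by rw [hall i]; simp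
    have hv1 := (Finset.sum_eq_zero_iff_of_nonneg fun i _ => sq_nonneg (v.1 i)).mp hv0
    apply Subtype.ext
    funext i
    exact pow_eq_zero_iff (by norm_num) |>.mp (hv1 i (Finset.mem_univ i))
  have h := LinearMap.finrank_le_finrank_of_injective hinj
  rw [Module.finrank_fintype_fun_eq_card, Fintype.card_subtype] at h
  exact h

/-- Cutting a subspace with the kernel of a matrix of small rank. -/
theorem spc_finrank_inf_ker (E : Matrix n n ℝ) (V : Submodule ℝ (n → ℝ)) :
    Module.finrank ℝ V ≤ Module.finrank ℝ ↥(V ⊓ LinearMap.ker E.mulVecLin) + E.rank := by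
  have h := LinearMap.finrank_range_add_finrank_ker (E.mulVecLin.domRestrict V)
  have h1 : Module.finrank ℝ (LinearMap.range (E.mulVecLin.domRestrict V)) ≤ E.rank := by
    unfold Matrix.rank
    apply Submodule.finrank_mono
    rintro _ ⟨x, rfl⟩
    exact ⟨x.1, rfl⟩
  have h2 : Module.finrank ℝ (LinearMap.ker (E.mulVecLin.domRestrict V))
      = Module.finrank ℝ ↥(V ⊓ LinearMap.ker E.mulVecLin) := by
    rw [LinearMap.ker_domRestrict]
    have h3 : Submodule.comap V.subtype (LinearMap.ker E.mulVecLin)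
        = Submodule.comap V.subtype (V ⊓ LinearMap.ker E.mulVecLin) := by
      ext x; simp
    rw [h3]
    exact (Submodule.comapSubtypeEquivOfLe inf_le_left).finrank_eq
  omega

/-- sums over ordered pairs versus sums over unordered pairs. -/
theorem spc_sum_sym2_le {m : ℕ} (h : Sym2 (Fin m) → ℝ) (hh : ∀ e, 0 ≤ h e) :
    ∑ i : Fin m, ∑ j : Fin m, h s(i, j) ≤ 2 * ∑ e, h e := by
  classical
  rw [← Finset.sum_product' (s := univ) (t := univ) (f := fun i j => h s(i, j))]
  rw [← Finset.sum_fiberwise_of_maps_to (s := univ ×ˢ univ) (t := univ)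
    (g := fun p : Fin m × Fin m => s(p.1, p.2)) (fun _ _ => Finset.mem_univ _)]
  rw [Finset.mul_sum]
  apply Finset.sum_le_sum
  intro e _
  have h1 : ∑ p ∈ (univ ×ˢ univ : Finset (Fin m × Fin m)) with s(p.1, p.2) = e, h s(p.1, p.2)
      = ((univ ×ˢ univ : Finset (Fin m × Fin m)).filter fun p => s(p.1, p.2) = e).card * h e := by
    rw [Finset.sum_congr rfl (g := fun _ => h e)]
    · simp
    · intro p hp
      rw [(Finset.mem_filter.mp hp).2]
  rw [h1]
  apply mul_le_mul_of_nonneg_right _ (hh e)
  have h2 : ((univ ×ˢ univ : Finset (Fin m × Fin m)).filter fun p => s(p.1, p.2) = e).card ≤ 2 := by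
    induction e with
    | _ a b =>
      calc _ ≤ ({(a, b), (b, a)} : Finset (Fin m × Fin m)).card := by
            apply Finset.card_le_card
            intro p hp
            have := (Finset.mem_filter.mp hp).2
            rw [Sym2.eq_iff] at this
            rcases this with ⟨h1, h2⟩ | ⟨h1, h2⟩
            · simp [Prod.ext_iff, h1, h2]
            · simp [Prod.ext_iff, h1, h2]
        _ ≤ 2 := Finset.card_le_two
  exact_mod_cast h2

end Claimed.Agent.R293
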