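/-
R293 / SpcProb.lean (skeleton helper202, proofs helper96).
Minimal API for `bern / prb / exq` used by package SPC.
-/
import Claimed.Agent.R293.SpcDefs
import Claimed.Agent.R293.ProbMix

set_option autoImplicit false
set_option linter.unusedSectionVars false

namespace Claimed.Agent.R293

open Finset

variable {κ : Type*} [Fintype κ] [DecidableEq κ]

theorem spc_bern_nonneg {π : κ → ℝ} (hπ : IsProbArray π) (s : κ → Bool) : 0 ≤ bern π s :=
  pb_bern_nonneg hπ s

theorem spc_sum_bern (π : κ → ℝ) : ∑ s, bern π s = 1 := pb_sum_bern π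

theorem spc_exq_const (π : κ → ℝ) (c : ℝ) : exq π (fun _ => c) = c := pb_exq_const π c

theorem spc_exq_add (π : κ → ℝ) (f g : (κ → Bool) → ℝ) :
    exq π (fun s => f s + g s) = exq π f + exq π g := pb_exq_add π f g

theorem spc_exq_sub (π : κ → ℝ) (f g : (κ → Bool) → ℝ) :
    exq π (fun s => f s - g s) = exq π f - exq π g := pb_exq_sub π f g

theorem spc_exq_const_mul (π : κ → ℝ) (c : ℝ) (f : (κ → Bool) → ℝ) :
    exq π (fun s => c * f s) = c * exq π f := pb_exq_const_mul π c f

theorem spc_exq_sum {ι : Type*} (π : κ → ℝ) (t : Finset ι) (f : ι → (κ → Bool) → ℝ) :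
    exq π (fun s => ∑ i ∈ t, f i s) = ∑ i ∈ t, exq π (f i) := pb_exq_sum π t f

theorem spc_exq_mono {π : κ → ℝ} (hπ : IsProbArray π) {f g : (κ → Bool) → ℝ} (h : ∀ s, f s ≤ g s) :
    exq π f ≤ exq π g := pb_exq_mono hπ h

theorem spc_exq_nonneg {π : κ → ℝ} (hπ : IsProbArray π) {f : (κ → Bool) → ℝ} (h : ∀ s, 0 ≤ f s) :
    0 ≤ exq π f := pb_exq_nonneg hπ h

/-- Cauchy-Schwarz / Jensen for the square. -/
theorem spc_exq_sq_le {π : κ → ℝ} (hπ : IsProbArray π) (f : (κ → Bool) → ℝ) :
    (exq π f) ^ 2 ≤ exq π (fun s => (f s) ^ 2) := by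
  have h := (Even.convexOn_pow (𝕜 := ℝ) (n := 2) even_two).map_sum_le (t := Finset.univ)
    (w := bern π) (p := f) (fun s _ => pb_bern_nonneg hπ s) (pb_sum_bern π)
    (fun _ _ => Set.mem_univ _)
  simpa [exq, smul_eq_mul] using h

/-- Jensen for `exp`. -/
theorem spc_exp_exq_le {π : κ → ℝ} (hπ : IsProbArray π) (f : (κ → Bool) → ℝ) :
    Real.exp (exq π f) ≤ exq π (fun s => Real.exp (f s)) := by
  have h := convexOn_exp.map_sum_le (t := Finset.univ)
    (w := bern π) (p := f) (fun s _ => pb_bern_nonneg hπ s) (pb_sum_bern π)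
    (fun _ _ => Set.mem_univ _)
  simpa [exq, smul_eq_mul] using h

theorem spc_prb_eq_exq (π : κ → ℝ) (E : Set (κ → Bool)) :
    prb π E = exq π (E.indicator fun _ => 1) := pb_prb_eq_exq π E

theorem spc_prb_mono {π : κ → ℝ} (hπ : IsProbArray π) {E F : Set (κ → Bool)} (h : E ⊆ F) :
    prb π E ≤ prb π F := pb_prb_mono hπ h

theorem spc_prb_union_le {π : κ → ℝ} (hπ : IsProbArray π) (E F : Set (κ → Bool)) :
    prb π (E ∪ F) ≤ prb π E + prb π F := pb_prb_union_le hπ E F

/-- Chernoff / exponential Markov. -/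
theorem spc_prb_le_exp {π : κ → ℝ} (hπ : IsProbArray π) (f : (κ → Bool) → ℝ) (t : ℝ) :
    prb π {s | t ≤ f s} ≤ Real.exp (-t) * exq π (fun s => Real.exp (f s)) := by
  rw [pb_prb_eq_exq, ← pb_exq_const_mul]
  refine pb_exq_mono hπ fun s => ?_
  rw [← Real.exp_add]
  by_cases hs : t ≤ f s
  · rw [Set.indicator_of_mem (show s ∈ {s | t ≤ f s} from hs)]
    exact Real.one_le_exp (by linarith)
  · rw [Set.indicator_of_notMem (show s ∉ {s | t ≤ f s} from hs)]
    exact (Real.exp_pos _).le

/-- expectation of a function of one coordinate. -/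
theorem spc_exq_single (π : κ → ℝ) (e : κ) (G : Bool → ℝ) :
    exq π (fun x => G (x e)) = π e * G true + (1 - π e) * G false := by
  have h := pb_exq_prod π (fun (k : κ) (b : Bool) => if k = e then G b else 1)
  have h1 : ∀ x : κ → Bool, ∏ k, (if k = e then G (x k) else 1) = G (x e) := by
    intro x
    rw [Finset.prod_eq_single e]
    · simp
    · intro b _ hb
      simp [hb]
    · intro he
      exact absurd (Finset.mem_univ e) he
  simp only [h1] at h
  rw [h, Finset.prod_eq_single e]
  · simp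
  · intro b _ hb
    simp [hb]
  · intro he
    exact absurd (Finset.mem_univ e) he

/-- integrate out one coordinate. -/
theorem spc_exq_coord (π : κ → ℝ) (e : κ) (F : (κ → Bool) → ℝ) :
    exq π F = exq π (fun s => π e * F (Function.update s e true)
      + (1 - π e) * F (Function.update s e false)) := by
  rw [pb_tower π {e} F]
  refine pb_exq_congr π fun s => ?_
  have h1 : ∀ x : κ → Bool, pbMix {e} x s = Function.update s e (x e) := by
    intro x
    funext k
    by_cases hk : k = e
    · subst hk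
      simp [pbMix]
    · simp [pbMix, hk]
  simp only [h1]
  exact spc_exq_single π e (fun b => F (Function.update s e b))

/-- single-coordinate independence. -/
theorem spc_exq_coord_mul (π : κ → ℝ) (e : κ) (h : Bool → ℝ) (G : (κ → Bool) → ℝ)
    (hG : ∀ s b, G (Function.update s e b) = G s) :
    exq π (fun s => h (s e) * G s) = (π e * h true + (1 - π e) * h false) * exq π G := by
  rw [spc_exq_coord π e, ← pb_exq_const_mul]
  refine pb_exq_congr π fun s => ?_
  simp only [Function.update_self, hG]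
  ring

/-- reindexing. -/
theorem spc_exq_equiv {κ' : Type*} [Fintype κ'] [DecidableEq κ'] (σ : κ' ≃ κ) (π : κ → ℝ)
    (F : (κ → Bool) → ℝ) :
    exq π F = exq (fun k => π (σ k)) (fun s => F (fun k => s (σ.symm k))) := by
  unfold exq
  refine Fintype.sum_equiv (σ.symm.arrowCongr (Equiv.refl Bool)) _ _ fun s => ?_
  have h1 : (fun k => (σ.symm.arrowCongr (Equiv.refl Bool)) s (σ.symm k)) = s := by
    funext k
    simp [Equiv.arrowCongr]
  beta_reduce
  rw [h1]
  congr 1
  unfold bern
  rw [← Equiv.prod_comp σ]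
  refine Finset.prod_congr rfl fun k _ => ?_
  simp [Equiv.arrowCongr]

/-- peel off the first coordinate on `Fin (n+1)`. -/
theorem spc_exq_cons {n : ℕ} (π : Fin (n + 1) → ℝ) (F : (Fin (n + 1) → Bool) → ℝ) :
    exq π F = π 0 * exq (fun i : Fin n => π i.succ) (fun s => F (Fin.cons true s))
      + (1 - π 0) * exq (fun i : Fin n => π i.succ) (fun s => F (Fin.cons false s)) := by
  unfold exq
  rw [← (Fin.consEquiv (fun _ : Fin (n + 1) => Bool)).sum_comp, Fintype.sum_prod_type,
    Fintype.sum_bool, Finset.mul_sum, Finset.mul_sum]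
  congr 1 <;>
  · refine Finset.sum_congr rfl fun s _ => ?_
    simp only [Fin.consEquiv, Equiv.coe_fn_mk, bern, Fin.prod_univ_succ, Fin.cons_zero,
      Fin.cons_succ]
    simp [mul_assoc]

end Claimed.Agent.R293
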