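/-
R293 / SpcQuad.lean (skeleton helper202, proofs helper96).
LEAF L4 of package SPC: mean and variance of a quadratic form in independent centred bits,
with a coefficient matrix that may depend on the OTHER bits.
-/
import Claimed.Agent.R293.SpcProb

set_option autoImplicit false
set_option linter.unusedSectionVars false

namespace Claimed.Agent.R293

open Finset Matrix

variable {κ : Type*} [Fintype κ] [DecidableEq κ]

/-- centred bit. -/
noncomputable def spcEps (π : κ → ℝ) (e : κ) (s : κ → Bool) : ℝ := (if s e then 1 else 0) - π e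

theorem spc_eps_update (π : κ → ℝ) {e e' : κ} (h : e' ≠ e) (s : κ → Bool) (b : Bool) :
    spcEps π e' (Function.update s e b) = spcEps π e' s := by
  simp [spcEps, Function.update_of_ne h]

/-- integrate out a function of one centred bit. -/
theorem spc_exq_phi_eps_mul (π : κ → ℝ) (e : κ) (φ : ℝ → ℝ) (G : (κ → Bool) → ℝ)
    (hG : ∀ s b, G (Function.update s e b) = G s) :
    exq π (fun s => φ (spcEps π e s) * G s)
      = (π e * φ (1 - π e) + (1 - π e) * φ (-π e)) * exq π G := by
  have h := spc_exq_coord_mul π e (fun b => φ ((if b then 1 else 0) - π e)) G hG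
  simpa [spcEps] using h

/-- Mean of the quadratic form.  `c i` are distinct coordinates, `S` does not depend on them. -/
theorem spc_quad_mean {m : ℕ} {π : κ → ℝ} (hπ : IsProbArray π) (c : Fin m → κ) (hc : Function.Injective c)
    (S : (κ → Bool) → Matrix (Fin m) (Fin m) ℝ)
    (hS : ∀ s i b, S (Function.update s (c i) b) = S s) :
    exq π (fun s => ∑ i, ∑ j, spcEps π (c i) s * spcEps π (c j) s * S s i j)
      = exq π (fun s => ∑ i, π (c i) * (1 - π (c i)) * S s i i) := by
  rw [spc_exq_sum π Finset.univ (fun i s => ∑ j, spcEps π (c i) s * spcEps π (c j) s * S s i j),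
    spc_exq_sum π Finset.univ (fun i s => π (c i) * (1 - π (c i)) * S s i i)]
  refine Finset.sum_congr rfl fun i _ => ?_
  rw [spc_exq_sum π Finset.univ (fun j s => spcEps π (c i) s * spcEps π (c j) s * S s i j),
    Finset.sum_eq_single i]
  · have h := spc_exq_phi_eps_mul π (c i) (fun x => x * x) (fun s => S s i i)
      (fun s b => by rw [hS])
    rw [h, spc_exq_const_mul]
    ring
  · intro j _ hji
    have h := spc_exq_phi_eps_mul π (c i) (fun x => x) (fun s => spcEps π (c j) s * S s i j)
      (fun s b => by rw [hS, spc_eps_update π (hc.ne hji)])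
    have e : (fun s => spcEps π (c i) s * spcEps π (c j) s * S s i j)
        = fun s => spcEps π (c i) s * (spcEps π (c j) s * S s i j) := by
      funext s; ring
    rw [e, h]
    ring
  · intro hi
    exact absurd (Finset.mem_univ i) hi

/-- Second moment of a linear form. -/
theorem spc_lin_sq {m : ℕ} {π : κ → ℝ} (hπ : IsProbArray π) (c : Fin m → κ)
    (hc : Function.Injective c) (u : (κ → Bool) → Fin m → ℝ)
    (hu : ∀ s i b, u (Function.update s (c i) b) = u s) :
    exq π (fun s => (∑ j, spcEps π (c j) s * u s j) ^ 2)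
      = exq π (fun s => ∑ j, π (c j) * (1 - π (c j)) * u s j ^ 2) := by
  have h := spc_quad_mean hπ c hc (fun s => Matrix.of fun i j => u s i * u s j)
    (fun s i b => by rw [hu])
  simp only [Matrix.of_apply] at h
  have e1 : (fun s => (∑ j, spcEps π (c j) s * u s j) ^ 2)
      = fun s => ∑ i, ∑ j, spcEps π (c i) s * spcEps π (c j) s * (u s i * u s j) := by
    funext s
    rw [sq, Finset.sum_mul_sum]
    refine Finset.sum_congr rfl fun i _ => Finset.sum_congr rfl fun j _ => ?_
    ring
  have e2 : (fun s => ∑ j, π (c j) * (1 - π (c j)) * u s j ^ 2)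
      = fun s => ∑ j, π (c j) * (1 - π (c j)) * (u s j * u s j) := by
    funext s
    refine Finset.sum_congr rfl fun j _ => ?_
    ring
  rw [e1, e2, h]

/-- Variance of the quadratic form: `E (aᵀ S a - ∑ v_i S_ii)² ≤ E |S|_F²`. -/
theorem spc_quad_var {m : ℕ} {π : κ → ℝ} (hπ : IsProbArray π) (c : Fin m → κ) (hc : Function.Injective c)
    (S : (κ → Bool) → Matrix (Fin m) (Fin m) ℝ) (hSsymm : ∀ s, (S s).IsSymm)
    (hS : ∀ s i b, S (Function.update s (c i) b) = S s) :
    exq π (fun s => (∑ i, ∑ j, spcEps π (c i) s * spcEps π (c j) s * S s i j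
        - ∑ i, π (c i) * (1 - π (c i)) * S s i i) ^ 2)
      ≤ exq π (fun s => spcFrob (S s)) := by
  induction m with
  | zero =>
    simp [spcFrob, spc_exq_const]
  | succ m ih =>
    -- notation
    set l : Fin (m + 1) := Fin.last m with hl
    set e : κ := c l with he
    set v : ℝ := π e * (1 - π e) with hv
    let c' : Fin m → κ := fun i => c i.castSucc
    have hc' : Function.Injective c' := fun i j hij => Fin.castSucc_injective m (hc hij)
    have hne : ∀ i : Fin m, c' i ≠ e := fun i => hc.ne (Fin.castSucc_lt_last i).ne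
    let S' : (κ → Bool) → Matrix (Fin m) (Fin m) ℝ := fun s => (S s).submatrix Fin.castSucc Fin.castSucc
    have hS'symm : ∀ s, (S' s).IsSymm := fun s => (hSsymm s).submatrix _
    have hS' : ∀ s i b, S' (Function.update s (c' i) b) = S' s := fun s i b => by
      simp only [S', c', hS]
    have IH := ih c' hc' S' hS'symm hS'
    let X' : (κ → Bool) → ℝ := fun s => ∑ i, ∑ j, spcEps π (c' i) s * spcEps π (c' j) s * S' s i j
        - ∑ i, π (c' i) * (1 - π (c' i)) * S' s i i
    let L : (κ → Bool) → ℝ := fun s => ∑ j, spcEps π (c' j) s * S s l j.castSucc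
    have hX'free : ∀ s b, X' (Function.update s e b) = X' s := by
      intro s b
      simp only [X', S', he, hS]
      simp only [← he, spc_eps_update π (hne _)]
    have hLfree : ∀ s b, L (Function.update s e b) = L s := by
      intro s b
      simp only [L, he, hS]
      simp only [← he, spc_eps_update π (hne _)]
    have hSfree : ∀ s b, S (Function.update s e b) = S s := fun s b => hS s l b
    -- decomposition
    have hX : ∀ s, (∑ i, ∑ j, spcEps π (c i) s * spcEps π (c j) s * S s i j
        - ∑ i, π (c i) * (1 - π (c i)) * S s i i)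
        = X' s + ((spcEps π e s ^ 2 - v) * S s l l + spcEps π e s * (2 * L s)) := by
      intro s
      simp only [Fin.sum_univ_castSucc, X', L, S', c', Matrix.submatrix_apply,
        Finset.sum_add_distrib, Finset.mul_sum]
      have hsym : ∀ i : Fin m, S s i.castSucc l = S s l i.castSucc := fun i =>
        (hSsymm s).apply _ _
      simp only [← hl, ← he, hsym]
      have e1 : ∑ x : Fin m, spcEps π (c x.castSucc) s * spcEps π e s * S s l x.castSucc
          = ∑ x : Fin m, spcEps π e s * spcEps π (c x.castSucc) s * S s l x.castSucc :=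
        Finset.sum_congr rfl fun x _ => by ring
      have e2 : ∑ x : Fin m, spcEps π e s * (2 * (spcEps π (c x.castSucc) s * S s l x.castSucc))
          = 2 * ∑ x : Fin m, spcEps π e s * spcEps π (c x.castSucc) s * S s l x.castSucc := by
        rw [Finset.mul_sum]
        exact Finset.sum_congr rfl fun x _ => by ring
      rw [e1, e2, hv]
      ring
    -- pointwise bound
    have hpt : ∀ s, (X' s + ((spcEps π e s ^ 2 - v) * S s l l + spcEps π e s * (2 * L s))) ^ 2
        ≤ X' s ^ 2 + 2 * ((spcEps π e s ^ 2 - v) * (S s l l * X' s))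
          + 2 * (spcEps π e s * (2 * L s * X' s))
          + 2 * ((spcEps π e s ^ 2 - v) ^ 2 * (S s l l) ^ 2)
          + 8 * (spcEps π e s ^ 2 * (L s) ^ 2) := by
      intro s
      nlinarith [sq_nonneg ((spcEps π e s ^ 2 - v) * S s l l - spcEps π e s * (2 * L s))]
    have T1 : exq π (fun s => (spcEps π e s ^ 2 - v) * (S s l l * X' s)) = 0 := by
      have h := spc_exq_phi_eps_mul π e (fun x => x ^ 2 - v) (fun s => S s l l * X' s)
        (fun s b => by rw [hSfree, hX'free])
      rw [h, hv]
      ring
    have T2 : exq π (fun s => spcEps π e s * (2 * L s * X' s)) = 0 := by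
      have h := spc_exq_phi_eps_mul π e (fun x => x) (fun s => 2 * L s * X' s)
        (fun s b => by rw [hLfree, hX'free])
      rw [h]
      ring
    have T3 : exq π (fun s => (spcEps π e s ^ 2 - v) ^ 2 * (S s l l) ^ 2)
        = (v * (1 - 2 * π e) ^ 2) * exq π (fun s => (S s l l) ^ 2) := by
      have h := spc_exq_phi_eps_mul π e (fun x => (x ^ 2 - v) ^ 2) (fun s => (S s l l) ^ 2)
        (fun s b => by rw [hSfree])
      rw [h, hv]
      ring
    have T4 : exq π (fun s => spcEps π e s ^ 2 * (L s) ^ 2) = v * exq π (fun s => (L s) ^ 2) := by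
      have h := spc_exq_phi_eps_mul π e (fun x => x ^ 2) (fun s => (L s) ^ 2)
        (fun s b => by rw [hLfree])
      rw [h, hv]
      ring
    have hvar : ∀ k : κ, 0 ≤ π k * (1 - π k) ∧ π k * (1 - π k) ≤ 1 / 4 := by
      intro k
      obtain ⟨h0, h1⟩ := hπ k
      constructor
      · exact mul_nonneg h0 (by linarith)
      · nlinarith [sq_nonneg (π k - 1 / 2)]
    let R : (κ → Bool) → ℝ := fun s => ∑ j : Fin m, (S s l j.castSucc) ^ 2
    have T5 : exq π (fun s => (L s) ^ 2) ≤ 1 / 4 * exq π R := by
      have h := spc_lin_sq hπ c' hc' (fun s j => S s l j.castSucc)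
        (fun s i b => by simp only [c', hS])
      rw [show (fun s => (L s) ^ 2)
        = fun s => (∑ j, spcEps π (c' j) s * S s l j.castSucc) ^ 2 from rfl, h,
        ← spc_exq_const_mul]
      refine spc_exq_mono hπ fun s => ?_
      simp only [R]
      rw [Finset.mul_sum]
      refine Finset.sum_le_sum fun j _ => ?_
      exact mul_le_mul_of_nonneg_right (hvar _).2 (sq_nonneg _)
    have hR0 : 0 ≤ exq π R := spc_exq_nonneg hπ fun s => Finset.sum_nonneg fun j _ => sq_nonneg _
    have hD0 : 0 ≤ exq π (fun s => (S s l l) ^ 2) := spc_exq_nonneg hπ fun s => sq_nonneg _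
    have hL0 : 0 ≤ exq π (fun s => (L s) ^ 2) := spc_exq_nonneg hπ fun s => sq_nonneg _
    have hFrob : exq π (fun s => spcFrob (S' s)) + exq π R + exq π (fun s => (S s l l) ^ 2)
        ≤ exq π (fun s => spcFrob (S s)) := by
      rw [← spc_exq_add, ← spc_exq_add]
      refine spc_exq_mono hπ fun s => ?_
      simp only [spcFrob, Fin.sum_univ_castSucc, S', R, Matrix.submatrix_apply,
        Finset.sum_add_distrib, ← hl]
      have : 0 ≤ ∑ x : Fin m, S s x.castSucc l ^ 2 := Finset.sum_nonneg fun j _ => sq_nonneg _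
      linarith
    have hk4 : v * (1 - 2 * π e) ^ 2 ≤ 1 / 4 := by
      obtain ⟨h0, h1⟩ := hπ e
      have h2 : (1 - 2 * π e) ^ 2 ≤ 1 := by nlinarith
      have h3 := hvar e
      calc v * (1 - 2 * π e) ^ 2 ≤ v * 1 := mul_le_mul_of_nonneg_left h2 h3.1
        _ ≤ 1 / 4 := by rw [mul_one]; exact h3.2
    have hv4 : v ≤ 1 / 4 := (hvar e).2
    have hv0 : 0 ≤ v := (hvar e).1
    calc exq π (fun s => (∑ i, ∑ j, spcEps π (c i) s * spcEps π (c j) s * S s i j
          - ∑ i, π (c i) * (1 - π (c i)) * S s i i) ^ 2)
        = exq π (fun s => (X' s + ((spcEps π e s ^ 2 - v) * S s l l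
            + spcEps π e s * (2 * L s))) ^ 2) := by
          simp only [hX]
      _ ≤ exq π (fun s => X' s ^ 2 + 2 * ((spcEps π e s ^ 2 - v) * (S s l l * X' s))
          + 2 * (spcEps π e s * (2 * L s * X' s))
          + 2 * ((spcEps π e s ^ 2 - v) ^ 2 * (S s l l) ^ 2)
          + 8 * (spcEps π e s ^ 2 * (L s) ^ 2)) := spc_exq_mono hπ hpt
      _ = exq π (fun s => X' s ^ 2) + 2 * ((v * (1 - 2 * π e) ^ 2) * exq π (fun s => (S s l l) ^ 2))
          + 8 * (v * exq π (fun s => (L s) ^ 2)) := by
          rw [spc_exq_add, spc_exq_add, spc_exq_add, spc_exq_add, spc_exq_const_mul,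
            spc_exq_const_mul, spc_exq_const_mul, spc_exq_const_mul, T1, T2, T3, T4]
          ring
      _ ≤ exq π (fun s => spcFrob (S' s)) + exq π R + exq π (fun s => (S s l l) ^ 2) := by
          have h1 : (v * (1 - 2 * π e) ^ 2) * exq π (fun s => (S s l l) ^ 2)
              ≤ 1 / 4 * exq π (fun s => (S s l l) ^ 2) := mul_le_mul_of_nonneg_right hk4 hD0
          have h2 : v * exq π (fun s => (L s) ^ 2) ≤ 1 / 4 * (1 / 4 * exq π R) :=
            mul_le_mul hv4 T5 hL0 (by norm_num)
          have h3 : exq π (fun s => X' s ^ 2) ≤ exq π (fun s => spcFrob (S' s)) := IH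
          linarith
      _ ≤ exq π (fun s => spcFrob (S s)) := hFrob

end Claimed.Agent.R293
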