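/-
R293 / SpcResolvent.lean.  LEAF L3 of package SPC: deterministic facts on `R = (Y² + η²)⁻¹` for a real symmetric
matrix `Y`, and its comparison with the matrix `Y_k` (row and column `k` zeroed).
-/
import Claimed.Agent.R293.SpcDefs
import Claimed.Agent.R293.SpcKlein

set_option autoImplicit false

namespace Claimed.Agent.R293

open Finset Matrix

variable {n : Type*} [Fintype n] [DecidableEq n]

/-! ### basic vector algebra -/

omit [DecidableEq n] in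
theorem spc_symm_dot {Y : Matrix n n ℝ} (hY : Y.IsSymm) (x y : n → ℝ) :
    x ⬝ᵥ Y.mulVec y = Y.mulVec x ⬝ᵥ y := by
  rw [dotProduct_mulVec, ← mulVec_transpose, hY.eq]

omit [DecidableEq n] in
theorem spc_dot_self_nonneg (x : n → ℝ) : 0 ≤ x ⬝ᵥ x :=
  Finset.sum_nonneg fun i _ => mul_self_nonneg (x i)

omit [DecidableEq n] in
theorem spc_dot_self_eq_zero {x : n → ℝ} (h : x ⬝ᵥ x = 0) : x = 0 :=
  dotProduct_self_eq_zero.mp h

theorem spcN_mulVec (η : ℝ) (Y : Matrix n n ℝ) (x : n → ℝ) :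
    (Y * Y + (η ^ 2) • (1 : Matrix n n ℝ)).mulVec x = Y.mulVec (Y.mulVec x) + (η ^ 2) • x := by
  rw [add_mulVec, mulVec_mulVec, smul_mulVec, one_mulVec]

/-- `yᵀ N x = ⟨Y y, Y x⟩ + η² ⟨y, x⟩`. -/
theorem spcN_bilin (η : ℝ) {Y : Matrix n n ℝ} (hY : Y.IsSymm) (y x : n → ℝ) :
    y ⬝ᵥ (Y * Y + (η ^ 2) • (1 : Matrix n n ℝ)).mulVec x
      = Y.mulVec y ⬝ᵥ Y.mulVec x + η ^ 2 * (y ⬝ᵥ x) := by
  rw [spcN_mulVec, dotProduct_add, dotProduct_smul, smul_eq_mul, spc_symm_dot hY]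

theorem spcN_isSymm (η : ℝ) {Y : Matrix n n ℝ} (hY : Y.IsSymm) :
    (Y * Y + (η ^ 2) • (1 : Matrix n n ℝ)).IsSymm := by
  unfold IsSymm
  rw [transpose_add, transpose_mul, transpose_smul, transpose_one, hY.eq]

theorem spcN_isUnit_det {η : ℝ} (hη : 0 < η) {Y : Matrix n n ℝ} (hY : Y.IsSymm) :
    IsUnit (Y * Y + (η ^ 2) • (1 : Matrix n n ℝ)).det := by
  rw [← isUnit_iff_isUnit_det, ← mulVec_injective_iff_isUnit]
  intro x y hxy
  have h0 : (Y * Y + (η ^ 2) • (1 : Matrix n n ℝ)).mulVec (x - y) = 0 := by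
    rw [mulVec_sub, hxy, sub_self]
  have h1 := spcN_bilin η hY (x - y) (x - y)
  rw [h0, dotProduct_zero] at h1
  have h2 := spc_dot_self_nonneg (Y.mulVec (x - y))
  have h3 := spc_dot_self_nonneg (x - y)
  have hη2 : 0 < η ^ 2 := by positivity
  have h4 : (x - y) ⬝ᵥ (x - y) = 0 := by nlinarith
  exact sub_eq_zero.mp (spc_dot_self_eq_zero h4)

theorem spcRes_mul_cancel {η : ℝ} (hη : 0 < η) {Y : Matrix n n ℝ} (hY : Y.IsSymm) :
    (Y * Y + (η ^ 2) • (1 : Matrix n n ℝ)) * spcRes η Y = 1 :=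
  mul_nonsing_inv _ (spcN_isUnit_det hη hY)

theorem spcRes_mul_cancel_left {η : ℝ} (hη : 0 < η) {Y : Matrix n n ℝ} (hY : Y.IsSymm) :
    spcRes η Y * (Y * Y + (η ^ 2) • (1 : Matrix n n ℝ)) = 1 :=
  nonsing_inv_mul _ (spcN_isUnit_det hη hY)

theorem spcRes_isSymm {η : ℝ} (_hη : 0 < η) {Y : Matrix n n ℝ} (hY : Y.IsSymm) :
    (spcRes η Y).IsSymm := by
  unfold IsSymm spcRes
  rw [transpose_nonsing_inv, (spcN_isSymm η hY).eq]

/-- `N (R x) = x`. -/
theorem spcN_mulVec_res {η : ℝ} (hη : 0 < η) {Y : Matrix n n ℝ} (hY : Y.IsSymm) (x : n → ℝ) :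
    (Y * Y + (η ^ 2) • (1 : Matrix n n ℝ)).mulVec ((spcRes η Y).mulVec x) = x := by
  rw [mulVec_mulVec, spcRes_mul_cancel hη hY, one_mulVec]

/-- `R (N x) = x`. -/
theorem spcRes_mulVec_N {η : ℝ} (hη : 0 < η) {Y : Matrix n n ℝ} (hY : Y.IsSymm) (x : n → ℝ) :
    (spcRes η Y).mulVec ((Y * Y + (η ^ 2) • (1 : Matrix n n ℝ)).mulVec x) = x := by
  rw [mulVec_mulVec, spcRes_mul_cancel_left hη hY, one_mulVec]

/-- `xᵀ R x = |Y R x|² + η² |R x|²`. -/
theorem spcRes_quad_eq {η : ℝ} (hη : 0 < η) {Y : Matrix n n ℝ} (hY : Y.IsSymm) (x : n → ℝ) :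
    x ⬝ᵥ (spcRes η Y).mulVec x
      = Y.mulVec ((spcRes η Y).mulVec x) ⬝ᵥ Y.mulVec ((spcRes η Y).mulVec x)
        + η ^ 2 * ((spcRes η Y).mulVec x ⬝ᵥ (spcRes η Y).mulVec x) := by
  rw [← spcN_bilin η hY, spcN_mulVec_res hη hY, dotProduct_comm]

/-- `0 ≤ xᵀ R x ≤ |x|²/η²`. -/
theorem spcRes_quad_nonneg {η : ℝ} (hη : 0 < η) {Y : Matrix n n ℝ} (hY : Y.IsSymm) (x : n → ℝ) :
    0 ≤ x ⬝ᵥ (spcRes η Y).mulVec x := by
  rw [spcRes_quad_eq hη hY]
  have h2 := spc_dot_self_nonneg (Y.mulVec ((spcRes η Y).mulVec x))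
  have h3 := spc_dot_self_nonneg ((spcRes η Y).mulVec x)
  positivity

/-- `η² |R x|² ≤ xᵀ R x`. -/
theorem spcRes_norm_le_quad {η : ℝ} (hη : 0 < η) {Y : Matrix n n ℝ} (hY : Y.IsSymm) (x : n → ℝ) :
    η ^ 2 * ((spcRes η Y).mulVec x ⬝ᵥ (spcRes η Y).mulVec x) ≤ x ⬝ᵥ (spcRes η Y).mulVec x := by
  rw [spcRes_quad_eq hη hY x]
  have h2 := spc_dot_self_nonneg (Y.mulVec ((spcRes η Y).mulVec x))
  linarith

theorem spcRes_quad_le {η : ℝ} (hη : 0 < η) {Y : Matrix n n ℝ} (hY : Y.IsSymm) (x : n → ℝ) :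
    x ⬝ᵥ (spcRes η Y).mulVec x ≤ (x ⬝ᵥ x) / η ^ 2 := by
  have hη2 : 0 < η ^ 2 := by positivity
  set q := x ⬝ᵥ (spcRes η Y).mulVec x with hq
  have h0 : 0 ≤ q := spcRes_quad_nonneg hη hY x
  have h1 : η ^ 2 * ((spcRes η Y).mulVec x ⬝ᵥ (spcRes η Y).mulVec x) ≤ q := spcRes_norm_le_quad hη hY x
  have h2 : q ^ 2 ≤ (x ⬝ᵥ x) * ((spcRes η Y).mulVec x ⬝ᵥ (spcRes η Y).mulVec x) := spc_dot_sq_le _ _
  have hx := spc_dot_self_nonneg x
  rw [le_div_iff₀ hη2]
  rcases h0.eq_or_lt with h | h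
  · rw [← h]; simpa using hx
  · have h3 : q ^ 2 * η ^ 2 ≤ (x ⬝ᵥ x) * q := by
      calc q ^ 2 * η ^ 2 ≤ (x ⬝ᵥ x) * ((spcRes η Y).mulVec x ⬝ᵥ (spcRes η Y).mulVec x) * η ^ 2 :=
            mul_le_mul_of_nonneg_right h2 hη2.le
        _ = (x ⬝ᵥ x) * (η ^ 2 * ((spcRes η Y).mulVec x ⬝ᵥ (spcRes η Y).mulVec x)) := by ring
        _ ≤ (x ⬝ᵥ x) * q := mul_le_mul_of_nonneg_left h1 hx
    have h4 : q * (q * η ^ 2) ≤ q * (x ⬝ᵥ x) := by nlinarith
    exact le_of_mul_le_mul_left h4 h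

/-- `|R x|² ≤ |x|²/η⁴`. -/
theorem spcRes_norm_le {η : ℝ} (hη : 0 < η) {Y : Matrix n n ℝ} (hY : Y.IsSymm) (x : n → ℝ) :
    (spcRes η Y).mulVec x ⬝ᵥ (spcRes η Y).mulVec x ≤ (x ⬝ᵥ x) / η ^ 4 := by
  have hη2 : 0 < η ^ 2 := by positivity
  have h1 := spcRes_norm_le_quad hη hY x
  have h2 := spcRes_quad_le hη hY x
  rw [le_div_iff₀ hη2] at h2
  rw [le_div_iff₀ (by positivity)]
  nlinarith

theorem spc_single_dot_mulVec (M : Matrix n n ℝ) (i j : n) :
    (Pi.single i (1 : ℝ) : n → ℝ) ⬝ᵥ M.mulVec (Pi.single j (1 : ℝ)) = M i j := by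
  rw [mulVec_single_one, single_one_dotProduct]
  rfl

theorem spcRes_diag_nonneg {η : ℝ} (hη : 0 < η) {Y : Matrix n n ℝ} (hY : Y.IsSymm) (k : n) :
    0 ≤ spcRes η Y k k := by
  rw [← spc_single_dot_mulVec (spcRes η Y) k k]
  exact spcRes_quad_nonneg hη hY _

theorem spc_single_dot_self (k : n) :
    (Pi.single k (1 : ℝ) : n → ℝ) ⬝ᵥ (Pi.single k (1 : ℝ)) = 1 := by
  rw [single_one_dotProduct, Pi.single_eq_same]

theorem spcRes_diag_le {η : ℝ} (hη : 0 < η) {Y : Matrix n n ℝ} (hY : Y.IsSymm) (k : n) :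
    spcRes η Y k k ≤ 1 / η ^ 2 := by
  have h := spcRes_quad_le hη hY (Pi.single k (1 : ℝ))
  rwa [spc_single_dot_mulVec, spc_single_dot_self] at h

/-- `|R|_F² ≤ n/η⁴`. -/
theorem spcRes_frob_le {η : ℝ} (hη : 0 < η) {Y : Matrix n n ℝ} (hY : Y.IsSymm) :
    spcFrob (spcRes η Y) ≤ Fintype.card n / η ^ 4 := by
  have h : ∀ j, ∑ i, (spcRes η Y i j) ^ 2 ≤ 1 / η ^ 4 := by
    intro j
    have := spcRes_norm_le hη hY (Pi.single j (1 : ℝ))
    rw [spc_single_dot_self, mulVec_single_one] at this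
    refine le_trans (le_of_eq ?_) this
    simp only [dotProduct, col_apply, sq]
  unfold spcFrob
  rw [Finset.sum_comm]
  calc ∑ j, ∑ i, (spcRes η Y i j) ^ 2 ≤ ∑ _j : n, 1 / η ^ 4 := Finset.sum_le_sum fun j _ => h j
    _ = Fintype.card n / η ^ 4 := by
        rw [Finset.sum_const, Finset.card_univ, nsmul_eq_mul]
        ring

/-! ### the matrix with row and column `k` zeroed -/

omit [Fintype n] in
theorem spcZero_isSymm {Y : Matrix n n ℝ} (hY : Y.IsSymm) (k : n) : (spcZero k Y).IsSymm := by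
  ext i j
  simp only [transpose_apply, spcZero, hY.apply i j, or_comm]

theorem spcZero_mulVec_single (Y : Matrix n n ℝ) (k : n) :
    (spcZero k Y).mulVec (Pi.single k (1 : ℝ)) = 0 := by
  rw [mulVec_single_one]
  ext i
  simp [spcZero]

theorem spcRes_zero_mulVec_single {η : ℝ} (hη : 0 < η) {Y : Matrix n n ℝ} (hY : Y.IsSymm) (k : n) :
    (spcRes η (spcZero k Y)).mulVec (Pi.single k (1 : ℝ)) = (1 / η ^ 2) • (Pi.single k (1 : ℝ)) := by
  have hη2 : η ^ 2 ≠ 0 := by positivity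
  have h := spcRes_mulVec_N hη (spcZero_isSymm hY k) (Pi.single k (1 : ℝ))
  rw [spcN_mulVec, spcZero_mulVec_single, mulVec_zero, zero_add, mulVec_smul] at h
  calc (spcRes η (spcZero k Y)).mulVec (Pi.single k (1 : ℝ))
      = (1 / η ^ 2) • ((η ^ 2) • (spcRes η (spcZero k Y)).mulVec (Pi.single k (1 : ℝ))) := by
        rw [smul_smul, one_div, inv_mul_cancel₀ hη2, one_smul]
    _ = (1 / η ^ 2) • (Pi.single k (1 : ℝ)) := by rw [h]

theorem spcRes_zero_diag {η : ℝ} (hη : 0 < η) {Y : Matrix n n ℝ} (hY : Y.IsSymm) (k : n) :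
    spcRes η (spcZero k Y) k k = 1 / η ^ 2 := by
  rw [← spc_single_dot_mulVec (spcRes η (spcZero k Y)) k k, spcRes_zero_mulVec_single hη hY,
    dotProduct_smul, spc_single_dot_self, smul_eq_mul, mul_one]

/-- the vector `r` with its `k`-th coordinate replaced by `0`. -/
def spcCut (k : n) (r : n → ℝ) : n → ℝ := fun i => if i = k then 0 else r i

theorem spcZero_mulVec_cut (Y : Matrix n n ℝ) (k : n) (r : n → ℝ) :
    (spcZero k Y).mulVec (spcCut k r) = (spcZero k Y).mulVec r := by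
  ext i
  simp only [mulVec, dotProduct]
  refine Finset.sum_congr rfl fun j _ => ?_
  by_cases hj : j = k
  · simp [spcZero, hj]
  · simp [spcCut, hj]

theorem spcCut_dot_self (k : n) (r : n → ℝ) :
    r ⬝ᵥ r = (r k) ^ 2 + spcCut k r ⬝ᵥ spcCut k r := by
  simp only [dotProduct]
  have : ∀ i, r i * r i = (if i = k then (r k) ^ 2 else 0) + spcCut k r i * spcCut k r i := by
    intro i
    by_cases hi : i = k
    · subst hi
      simp [spcCut, sq]
    · simp [spcCut, hi]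
  rw [Finset.sum_congr rfl fun i _ => this i, Finset.sum_add_distrib, Finset.sum_ite_eq' ]
  simp

/-- `|r_k a + Y_k r|² ≤ |Y r|²`: the left vector is `Y r` with the `k`-th coordinate removed. -/
theorem spcZero_norm_le (Y : Matrix n n ℝ) (k : n) (r : n → ℝ) :
    (r k • spcCol k Y + (spcZero k Y).mulVec r) ⬝ᵥ (r k • spcCol k Y + (spcZero k Y).mulVec r)
      ≤ Y.mulVec r ⬝ᵥ Y.mulVec r := by
  simp only [dotProduct]
  refine Finset.sum_le_sum fun i _ => ?_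
  by_cases hi : i = k
  · have : (r k • spcCol k Y + (spcZero k Y).mulVec r) i = 0 := by
      simp [spcCol, spcZero, mulVec, dotProduct, hi]
    rw [this]
    simpa using mul_self_nonneg (Y.mulVec r i)
  · have : (r k • spcCol k Y + (spcZero k Y).mulVec r) i = Y.mulVec r i := by
      simp only [Pi.add_apply, Pi.smul_apply, smul_eq_mul, spcCol, if_neg hi, mulVec, dotProduct]
      rw [← Finset.add_sum_erase _ (fun j => Y i j * r j) (Finset.mem_univ k),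
        ← Finset.add_sum_erase _ (fun j => spcZero k Y i j * r j) (Finset.mem_univ k)]
      have h1 : spcZero k Y i k = 0 := by simp [spcZero]
      rw [h1, zero_mul, zero_add, mul_comm]
      congr 1
      refine Finset.sum_congr rfl fun j hj => ?_
      have hj' : j ≠ k := Finset.ne_of_mem_erase hj
      simp [spcZero, hi, hj']
    rw [this]

/-- complete the square: `η² bᵀ S b ≤ |b + Z u|² + η² |u|²`, `S = (Z² + η²)⁻¹`. -/
theorem spcRes_complete_square {η : ℝ} (hη : 0 < η) {Z : Matrix n n ℝ} (hZ : Z.IsSymm) (b u : n → ℝ) :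
    η ^ 2 * (b ⬝ᵥ (spcRes η Z).mulVec b)
      ≤ (b + Z.mulVec u) ⬝ᵥ (b + Z.mulVec u) + η ^ 2 * (u ⬝ᵥ u) := by
  set s := (spcRes η Z).mulVec b with hs
  have hb : Z.mulVec (Z.mulVec s) + (η ^ 2) • s = b := by
    rw [← spcN_mulVec, hs, spcN_mulVec_res hη hZ]
  set w := u + Z.mulVec s with hw
  have h1 : b + Z.mulVec u = Z.mulVec w + (η ^ 2) • s := by
    rw [hw, mulVec_add, ← hb]
    abel
  have h2 : u = w - Z.mulVec s := by rw [hw]; abel
  have h3 : b ⬝ᵥ s = Z.mulVec s ⬝ᵥ Z.mulVec s + η ^ 2 * (s ⬝ᵥ s) := by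
    rw [← hb, add_dotProduct, smul_dotProduct, smul_eq_mul, ← spc_symm_dot hZ, dotProduct_comm]
  have h4 : u ⬝ᵥ u = w ⬝ᵥ w - 2 * (Z.mulVec w ⬝ᵥ s) + Z.mulVec s ⬝ᵥ Z.mulVec s := by
    conv_lhs => rw [h2]
    rw [sub_dotProduct, dotProduct_sub, dotProduct_sub, spc_symm_dot hZ w s,
      dotProduct_comm (Z.mulVec s) w, spc_symm_dot hZ w s]
    ring
  have h5 : (Z.mulVec w + (η ^ 2) • s) ⬝ᵥ (Z.mulVec w + (η ^ 2) • s)
      = Z.mulVec w ⬝ᵥ Z.mulVec w + 2 * η ^ 2 * (Z.mulVec w ⬝ᵥ s) + η ^ 2 * (η ^ 2 * (s ⬝ᵥ s)) := by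
    rw [add_dotProduct, dotProduct_add, dotProduct_add, smul_dotProduct, smul_dotProduct,
      dotProduct_smul, dotProduct_smul, dotProduct_comm s (Z.mulVec w)]
    simp only [smul_eq_mul]
    ring
  rw [h1, h5, h4, h3]
  have h6 := spc_dot_self_nonneg (Z.mulVec w)
  have h7 := spc_dot_self_nonneg w
  have hη2 : 0 < η ^ 2 := by positivity
  nlinarith [mul_nonneg hη2.le h7]

/-- **(i')**  `R_kk (1 + q_k) ≤ 1/η²`, `q_k = a_kᵀ S_k a_k`.
Proof: `1/R_kk = min { |Y x|² + η² |x|² : x_k = 1 }`; for `x = e_k + u`, `u_k = 0`: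
`|Y x|² + η²|x|² ≥ η² + |a + Y_k u|² + η² |u|² ≥ η² + η² aᵀ S_k a` (complete the square). -/
theorem spcRes_diag_mul_le {η : ℝ} (hη : 0 < η) {Y : Matrix n n ℝ} (hY : Y.IsSymm) (k : n) :
    spcRes η Y k k * (1 + spcCol k Y ⬝ᵥ (spcRes η (spcZero k Y)).mulVec (spcCol k Y)) ≤ 1 / η ^ 2 := by
  have hη2 : 0 < η ^ 2 := by positivity
  set r := (spcRes η Y).mulVec (Pi.single k (1 : ℝ)) with hr
  set ρ := spcRes η Y k k with hρ
  set q := spcCol k Y ⬝ᵥ (spcRes η (spcZero k Y)).mulVec (spcCol k Y) with hq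
  have hrk : r k = ρ := by
    rw [hr, mulVec_single_one]
    rfl
  have h0 : 0 ≤ ρ := spcRes_diag_nonneg hη hY k
  have h1 : ρ = Y.mulVec r ⬝ᵥ Y.mulVec r + η ^ 2 * (r ⬝ᵥ r) := by
    rw [hρ, ← spc_single_dot_mulVec (spcRes η Y) k k]
    exact spcRes_quad_eq hη hY _
  have h2 := spcZero_norm_le Y k r
  have h3 := spcCut_dot_self k r
  have h4 := spcRes_complete_square hη (spcZero_isSymm hY k) (r k • spcCol k Y) (spcCut k r)
  rw [spcZero_mulVec_cut, mulVec_smul, dotProduct_smul, smul_dotProduct, smul_eq_mul, smul_eq_mul,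
    ← hq, hrk] at h4
  rw [hrk] at h2 h3
  have h5 : η ^ 2 * ρ ^ 2 * (1 + q) ≤ ρ := by nlinarith
  rw [le_div_iff₀ hη2]
  rcases h0.eq_or_lt with h | h
  · rw [← h]; simp
  · have h6 : ρ * (ρ * (1 + q) * η ^ 2) ≤ ρ * 1 := by nlinarith
    exact le_of_mul_le_mul_left h6 h

/-- variational principle: `2 ⟨w, e⟩ - wᵀ N w ≤ eᵀ S e`. -/
theorem spcRes_variational {η : ℝ} (hη : 0 < η) {Z : Matrix n n ℝ} (hZ : Z.IsSymm) (e w : n → ℝ) :
    2 * (w ⬝ᵥ e) - (Z.mulVec w ⬝ᵥ Z.mulVec w + η ^ 2 * (w ⬝ᵥ w)) ≤ e ⬝ᵥ (spcRes η Z).mulVec e := by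
  set s := (spcRes η Z).mulVec e with hs
  have hN : (Z * Z + (η ^ 2) • (1 : Matrix n n ℝ)).mulVec s = e := spcN_mulVec_res hη hZ e
  have h1 : 0 ≤ (w - s) ⬝ᵥ (Z * Z + (η ^ 2) • (1 : Matrix n n ℝ)).mulVec (w - s) := by
    rw [spcN_bilin η hZ]
    have h6 := spc_dot_self_nonneg (Z.mulVec (w - s))
    have h7 := spc_dot_self_nonneg (w - s)
    positivity
  rw [mulVec_sub, hN, dotProduct_sub, sub_dotProduct, sub_dotProduct, spcN_bilin η hZ w w,
    spc_symm_dot (spcN_isSymm η hZ) s w, hN, dotProduct_comm e w, dotProduct_comm s e] at h1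
  linarith

theorem spcRes_diag_pos {η : ℝ} (hη : 0 < η) {Y : Matrix n n ℝ} (hY : Y.IsSymm) (k : n) :
    0 < spcRes η Y k k := by
  have hη2 : 0 < η ^ 2 := by positivity
  refine lt_of_le_of_ne (spcRes_diag_nonneg hη hY k) fun h => ?_
  have h1 := spcRes_norm_le_quad hη hY (Pi.single k (1 : ℝ))
  rw [spc_single_dot_mulVec, ← h] at h1
  have h2 := spc_dot_self_nonneg ((spcRes η Y).mulVec (Pi.single k (1 : ℝ)))
  have h3 : (spcRes η Y).mulVec (Pi.single k (1 : ℝ)) = 0 :=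
    spc_dot_self_eq_zero (by nlinarith)
  have h4 := spcN_mulVec_res hη hY (Pi.single k (1 : ℝ))
  rw [h3, mulVec_zero] at h4
  have h5 := congrFun h4 k
  simp at h5

/-- **(ii')**  `Tr R ≤ Tr S_k`.
Proof: for every symmetric `W`: `Tr S_k ≥ 2 Tr W - Tr (W N_k W)`, `N_k = Y_k² + η²`; take
`W = R - R e_k e_kᵀ R / R_kk + e_k e_kᵀ/η²`; use `wᵀ N_k w ≤ wᵀ (Y²+η²) w` for `w_k = 0` and `(R²)_kk ≤ R_kk/η²`. -/
theorem spcRes_trace_le {η : ℝ} (hη : 0 < η) {Y : Matrix n n ℝ} (hY : Y.IsSymm) (k : n) :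
    (spcRes η Y).trace ≤ (spcRes η (spcZero k Y)).trace := by
  have hη2 : 0 < η ^ 2 := by positivity
  set R := spcRes η Y with hR
  set S := spcRes η (spcZero k Y) with hS
  have hRs : R.IsSymm := spcRes_isSymm hη hY
  have hpos : 0 < R k k := spcRes_diag_pos hη hY k
  -- the pointwise bound
  have hpt : ∀ j, R j j - (R k j) ^ 2 / R k k + (if j = k then 1 / η ^ 2 else 0) ≤ S j j := by
    intro j
    by_cases hj : j = k
    · subst hj
      rw [if_pos rfl, hS, spcRes_zero_diag hη hY j]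
      have : R j j - (R j j) ^ 2 / R j j = 0 := by
        field_simp
        ring
      linarith
    · rw [if_neg hj, add_zero]
      set t := R k j / R k k with ht
      set w : n → ℝ := R.mulVec (Pi.single j (1 : ℝ)) - t • R.mulVec (Pi.single k (1 : ℝ)) with hw
      have hwi : ∀ i, w i = R i j - t * R i k := by
        intro i
        rw [hw, mulVec_single_one, mulVec_single_one]
        rfl
      have hwk : w k = 0 := by
        rw [hwi, ht]
        field_simp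
        ring
      have hNw : (Y * Y + (η ^ 2) • (1 : Matrix n n ℝ)).mulVec w
          = Pi.single j (1 : ℝ) - t • Pi.single k (1 : ℝ) := by
        rw [hw, mulVec_sub, mulVec_smul, hR, spcN_mulVec_res hη hY, spcN_mulVec_res hη hY]
      have hq : Y.mulVec w ⬝ᵥ Y.mulVec w + η ^ 2 * (w ⬝ᵥ w) = w j := by
        rw [← spcN_bilin η hY, hNw, dotProduct_sub, dotProduct_smul, dotProduct_single_one,
          dotProduct_single_one, hwk]
        simp
      have hle := spcZero_norm_le Y k w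
      rw [hwk, zero_smul, zero_add] at hle
      have hv := spcRes_variational hη (spcZero_isSymm hY k) (Pi.single j (1 : ℝ)) w
      rw [spc_single_dot_mulVec, dotProduct_single_one, ← hS] at hv
      have hwj : w j = R j j - (R k j) ^ 2 / R k k := by
        rw [hwi, ht, hRs.apply k j]
        field_simp
      rw [← hwj]
      linarith
  have hsum : ∑ j, (R k j) ^ 2 ≤ R k k / η ^ 2 := by
    have h1 := spcRes_norm_le_quad hη hY (Pi.single k (1 : ℝ))
    rw [spc_single_dot_mulVec, mulVec_single_one] at h1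
    rw [le_div_iff₀ hη2]
    have : (spcRes η Y).col k ⬝ᵥ (spcRes η Y).col k = ∑ j, (R k j) ^ 2 := by
      simp only [dotProduct, col_apply, sq]
      exact Finset.sum_congr rfl fun j _ => by rw [← hR, hRs.apply k j]
    rw [this] at h1
    linarith
  calc R.trace = ∑ j, R j j := rfl
    _ ≤ ∑ j, (R j j - (R k j) ^ 2 / R k k + (if j = k then 1 / η ^ 2 else 0)) := by
        rw [Finset.sum_add_distrib, Finset.sum_sub_distrib, ← Finset.sum_div, Finset.sum_ite_eq']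
        simp only [Finset.mem_univ, if_true]
        have : (∑ j, (R k j) ^ 2) / R k k ≤ 1 / η ^ 2 := by
          rw [div_le_iff₀ hpos]
          calc ∑ j, (R k j) ^ 2 ≤ R k k / η ^ 2 := hsum
            _ = 1 / η ^ 2 * R k k := by ring
        linarith
    _ ≤ ∑ j, S j j := Finset.sum_le_sum fun j _ => hpt j
    _ = S.trace := rfl

omit [Fintype n] [DecidableEq n] in
theorem spc_isSymm_isHermitian {Y : Matrix n n ℝ} (hY : Y.IsSymm) : Y.IsHermitian := by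
  unfold IsHermitian
  rw [conjTranspose_eq_transpose_of_trivial, hY.eq]

/-- the trace computed in an orthonormal eigenbasis. -/
theorem spc_ev_trace {B : Matrix n n ℝ} (hB : B.IsHermitian) (M : Matrix n n ℝ) :
    ∑ i, (hB.eigenvectorBasis i : n → ℝ) ⬝ᵥ M.mulVec (hB.eigenvectorBasis i : n → ℝ) = M.trace := by
  have h1 : M.trace = ∑ a, ∑ i, ((hB.eigenvectorBasis i : n → ℝ) ⬝ᵥ Pi.single a (1 : ℝ)) *
      ((hB.eigenvectorBasis i : n → ℝ) ⬝ᵥ M.mulVec (Pi.single a (1 : ℝ))) := by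
    unfold trace
    refine Finset.sum_congr rfl fun a _ => ?_
    rw [spc_ev_parseval hB, spc_single_dot_mulVec]
    rfl
  rw [h1, Finset.sum_comm]
  refine Finset.sum_congr rfl fun i _ => ?_
  rw [dotProduct_mulVec]
  simp only [dotProduct_single_one]
  rw [dotProduct_comm]
  simp only [dotProduct]
  refine Finset.sum_congr rfl fun a _ => ?_
  congr 1
  rw [← dotProduct_single_one (vecMul _ M) a, ← dotProduct_mulVec]
  rfl

/-- `Tr R = ∑ 1/(λ_i² + η²)`. -/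
theorem spcRes_trace_eq {η : ℝ} (hη : 0 < η) {Y : Matrix n n ℝ} (hY : Y.IsSymm) :
    (spcRes η Y).trace = spcTr (fun x => 1 / (x ^ 2 + η ^ 2)) Y := by
  have hH := spc_isSymm_isHermitian hY
  rw [spcTr_of_isHermitian _ hH, ← spc_ev_trace hH]
  refine Finset.sum_congr rfl fun i _ => ?_
  have hpos : 0 < (hH.eigenvalues i) ^ 2 + η ^ 2 := by positivity
  have h1 : (Y * Y + (η ^ 2) • (1 : Matrix n n ℝ)).mulVec (hH.eigenvectorBasis i : n → ℝ)
      = ((hH.eigenvalues i) ^ 2 + η ^ 2) • (hH.eigenvectorBasis i : n → ℝ) := by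
    rw [spcN_mulVec, spc_ev_mulVec hH, mulVec_smul, spc_ev_mulVec hH, smul_smul, ← add_smul]
    congr 1
    ring
  have h2 := spcRes_mulVec_N hη hY (hH.eigenvectorBasis i : n → ℝ)
  rw [h1, mulVec_smul] at h2
  have h3 : ((hH.eigenvalues i) ^ 2 + η ^ 2) *
      ((hH.eigenvectorBasis i : n → ℝ) ⬝ᵥ (spcRes η Y).mulVec (hH.eigenvectorBasis i : n → ℝ)) = 1 := by
    rw [← smul_eq_mul, ← dotProduct_smul, h2, spc_ev_self hH]
  rw [eq_div_iff hpos.ne', mul_comm]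
  exact h3

end Claimed.Agent.R293
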