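/-
R293 / SpcExp.lean (owner helper202).  Package SPC, assembly part 1: the expected trace of `(Y² + η²)⁻¹` for the
centred bit matrix `Y`, by the self-consistent resolvent inequality; expected trace of the tent function.
-/
import Claimed.Agent.R293.SpcQuad
import Claimed.Agent.R293.SpcResolvent
import Claimed.Agent.R293.SpcKlein

set_option autoImplicit false

namespace Claimed.Agent.R293

open Finset Matrix

variable {m : ℕ}

/-- the centred bit matrix `B - E B`. -/
noncomputable def spcY (π : Sym2 (Fin m) → ℝ) (s : Sym2 (Fin m) → Bool) : Matrix (Fin m) (Fin m) ℝ :=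
  fun i j => spcEps π s(i, j) s

theorem spcY_isSymm (π : Sym2 (Fin m) → ℝ) (s : Sym2 (Fin m) → Bool) : (spcY π s).IsSymm := by
  ext i j
  simp [spcY, Matrix.transpose_apply, Sym2.eq_swap]

theorem spcY_eq (π : Sym2 (Fin m) → ℝ) (s : Sym2 (Fin m) → Bool) :
    spcY π s = toR (bitMat s) - meanMat π := by
  ext i j
  simp only [spcY, spcEps, toR, bitMat, meanMat, Matrix.sub_apply, Matrix.map_apply]
  split_ifs <;> simp

theorem spcY_eq_meanMat (π : Sym2 (Fin m) → ℝ) (s : Sym2 (Fin m) → Bool) :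
    spcY π s = meanMat (fun e => bitVec s e - π e) := by
  ext i j
  simp only [spcY, spcEps, meanMat, bitVec]

/-! ### The deterministic self-consistent inequality -/

section Det
variable {n : Type*} [Fintype n] [DecidableEq n]

theorem spc_selfconsistent {η σ2 : ℝ} (hη : 0 < η) (hσ0 : 0 ≤ σ2) (hσ : σ2 ≤ η ^ 2)
    {Y : Matrix n n ℝ} (hY : Y.IsSymm) :
    σ2 * (spcRes η Y).trace ^ 2 ≤ Fintype.card n / η ^ 2 + 1 / η ^ 2 *
      ∑ k, |spcCol k Y ⬝ᵥ (spcRes η (spcZero k Y)).mulVec (spcCol k Y)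
          - σ2 * ((spcRes η (spcZero k Y)).trace - 1 / η ^ 2)| := by
  set T := (spcRes η Y).trace with hT
  set q : n → ℝ := fun k => spcCol k Y ⬝ᵥ (spcRes η (spcZero k Y)).mulVec (spcCol k Y) with hq
  set μ : n → ℝ := fun k => σ2 * ((spcRes η (spcZero k Y)).trace - 1 / η ^ 2) with hμ
  have hη2 : 0 < η ^ 2 := by positivity
  have hT0 : 0 ≤ T := by
    rw [hT, Matrix.trace]
    exact Finset.sum_nonneg fun k _ => spcRes_diag_nonneg hη hY k
  have hk : ∀ k, spcRes η Y k k + spcRes η Y k k * (σ2 * (T - 1 / η ^ 2)) - 1 / η ^ 2 * |q k - μ k|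
      ≤ 1 / η ^ 2 := by
    intro k
    have h1 := spcRes_diag_mul_le hη hY k
    have h2 := spcRes_trace_le hη hY k
    have h3 := spcRes_diag_nonneg hη hY k
    have h4 := spcRes_diag_le hη hY k
    have h5 : σ2 * (T - 1 / η ^ 2) ≤ μ k := by
      apply mul_le_mul_of_nonneg_left _ hσ0
      linarith
    have h6 : μ k - |q k - μ k| ≤ q k := by
      have := neg_abs_le (q k - μ k)
      linarith
    have h7 : spcRes η Y k k * (σ2 * (T - 1 / η ^ 2)) ≤ spcRes η Y k k * μ k :=
      mul_le_mul_of_nonneg_left h5 h3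
    have h8 : spcRes η Y k k * (μ k - |q k - μ k|) ≤ spcRes η Y k k * q k :=
      mul_le_mul_of_nonneg_left h6 h3
    have h9 : spcRes η Y k k * |q k - μ k| ≤ 1 / η ^ 2 * |q k - μ k| :=
      mul_le_mul_of_nonneg_right h4 (abs_nonneg _)
    have h10 : spcRes η Y k k * (1 + q k) ≤ 1 / η ^ 2 := h1
    nlinarith
  have hsum := Finset.sum_le_sum fun k (_ : k ∈ (Finset.univ : Finset n)) => hk k
  rw [Finset.sum_sub_distrib, Finset.sum_add_distrib, ← Finset.sum_mul, ← Finset.mul_sum] at hsum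
  have hTr : ∑ k, spcRes η Y k k = T := rfl
  rw [hTr] at hsum
  simp only [Finset.sum_const, Finset.card_univ, nsmul_eq_mul] at hsum
  have h11 : 0 ≤ T * (1 - σ2 / η ^ 2) := by
    apply mul_nonneg hT0
    rw [sub_nonneg, div_le_one hη2]
    exact hσ
  have e1 : T + T * (σ2 * (T - 1 / η ^ 2)) = σ2 * T ^ 2 + T * (1 - σ2 / η ^ 2) := by
    field_simp
    ring
  rw [e1] at hsum
  have e2 : (Fintype.card n : ℝ) * (1 / η ^ 2) = Fintype.card n / η ^ 2 := by ring
  rw [e2] at hsum
  linarith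

theorem spcFrob_spcZero_le (k : n) (S : Matrix n n ℝ) : spcFrob (spcZero k S) ≤ spcFrob S := by
  unfold spcFrob
  apply Finset.sum_le_sum; intro i _
  apply Finset.sum_le_sum; intro j _
  unfold spcZero
  split_ifs
  · simp only [ne_eq, OfNat.ofNat_ne_zero, not_false_eq_true, zero_pow]; positivity
  · exact le_refl _

theorem spcZero_isSymm' {S : Matrix n n ℝ} (hS : S.IsSymm) (k : n) : (spcZero k S).IsSymm := by
  ext i j
  have := congrFun (congrFun hS j) i
  simp only [Matrix.transpose_apply] at this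
  simp only [Matrix.transpose_apply, spcZero, or_comm]
  split_ifs
  · rfl
  · exact this.symm ▸ rfl

theorem spc_trace_spcZero (k : n) (S : Matrix n n ℝ) :
    ∑ i, spcZero k S i i = S.trace - S k k := by
  have h : ∀ i, spcZero k S i i = S i i - (if i = k then S k k else 0) := by
    intro i
    unfold spcZero
    by_cases hik : i = k
    · subst hik; simp
    · simp [hik]
  simp only [h, Finset.sum_sub_distrib, Finset.sum_ite_eq', Finset.mem_univ, if_true, Matrix.trace,
    Matrix.diag_apply]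

end Det

/-! ### The quadratic forms `q_k` -/

theorem spc_q_eq (π : Sym2 (Fin m) → ℝ) (s : Sym2 (Fin m) → Bool) (k : Fin m)
    (S : Matrix (Fin m) (Fin m) ℝ) :
    spcCol k (spcY π s) ⬝ᵥ S.mulVec (spcCol k (spcY π s))
      = ∑ i, ∑ j, spcEps π s(i, k) s * spcEps π s(j, k) s * spcZero k S i j := by
  simp only [dotProduct, Matrix.mulVec, Finset.mul_sum]
  apply Finset.sum_congr rfl; intro i _
  apply Finset.sum_congr rfl; intro j _
  simp only [spcCol, spcZero, spcY]
  by_cases hi : i = k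
  · simp [hi]
  · by_cases hj : j = k
    · simp [hj]
    · simp only [hi, hj, if_false, or_self]; ring

theorem spcZero_spcY_update (π : Sym2 (Fin m) → ℝ) (s : Sym2 (Fin m) → Bool) (k i : Fin m) (b : Bool) :
    spcZero k (spcY π (Function.update s s(i, k) b)) = spcZero k (spcY π s) := by
  ext i' j'
  simp only [spcZero]
  by_cases h : i' = k ∨ j' = k
  · simp [h]
  · simp only [h, if_false]
    rw [not_or] at h
    have hne : s(i', j') ≠ s(i, k) := by
      intro heq
      have hk : k ∈ s(i', j') := by rw [heq]; exact Sym2.mem_mk_right i k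
      rw [Sym2.mem_iff] at hk
      rcases hk with hk | hk
      · exact h.1 hk.symm
      · exact h.2 hk.symm
    simp only [spcY, spcEps, Function.update_of_ne hne]

theorem spc_c_injective (k : Fin m) : Function.Injective (fun i : Fin m => s(i, k)) := by
  intro i j h
  exact Sym2.congr_left.mp h

theorem spc_bitModel_var {p : ℝ} {π : Sym2 (Fin m) → ℝ} (hπ : BitModel p π) (e : Sym2 (Fin m)) :
    π e * (1 - π e) = p * (1 - p) := by
  rcases hπ.val e with h | h <;> rw [h] <;> ring

theorem spc_bitModel_prob {p : ℝ} (hp0 : 0 < p) (hp1 : p < 1) {π : Sym2 (Fin m) → ℝ}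
    (hπ : BitModel p π) : IsProbArray π := by
  intro e
  rcases hπ.val e with h | h <;> rw [h] <;> constructor <;> linarith

/-- second moment of `q_k - μ_k`. -/
theorem spc_q_var {p : ℝ} (hp0 : 0 < p) (hp1 : p < 1) {π : Sym2 (Fin m) → ℝ} (hπ : BitModel p π)
    {η : ℝ} (hη : 0 < η) (k : Fin m) :
    exq π (fun s => (spcCol k (spcY π s) ⬝ᵥ
          (spcRes η (spcZero k (spcY π s))).mulVec (spcCol k (spcY π s))
        - p * (1 - p) * ((spcRes η (spcZero k (spcY π s))).trace - 1 / η ^ 2)) ^ 2)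
      ≤ m / η ^ 4 := by
  have hP := spc_bitModel_prob hp0 hp1 hπ
  set S : (Sym2 (Fin m) → Bool) → Matrix (Fin m) (Fin m) ℝ :=
    fun s => spcZero k (spcRes η (spcZero k (spcY π s))) with hS
  have hsymm : ∀ s, (S s).IsSymm := fun s =>
    spcZero_isSymm' (spcRes_isSymm hη (spcZero_isSymm (spcY_isSymm π s) k)) k
  have hind : ∀ s i b, S (Function.update s ((fun i : Fin m => s(i, k)) i) b) = S s := by
    intro s i b
    simp only [hS, spcZero_spcY_update]
  have hvar := spc_quad_var hP (fun i : Fin m => s(i, k)) (spc_c_injective k) S hsymm hind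
  have e1 : (fun s => (spcCol k (spcY π s) ⬝ᵥ
          (spcRes η (spcZero k (spcY π s))).mulVec (spcCol k (spcY π s))
        - p * (1 - p) * ((spcRes η (spcZero k (spcY π s))).trace - 1 / η ^ 2)) ^ 2)
      = fun s => (∑ i, ∑ j, spcEps π s(i, k) s * spcEps π s(j, k) s * S s i j
        - ∑ i, π s(i, k) * (1 - π s(i, k)) * S s i i) ^ 2 := by
    funext s
    rw [spc_q_eq]
    congr 2
    simp only [spc_bitModel_var hπ, ← Finset.mul_sum, hS]
    rw [spc_trace_spcZero, spcRes_zero_diag hη (spcY_isSymm π s) k]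
  rw [e1]
  refine hvar.trans ?_
  have hle : ∀ s, spcFrob (S s) ≤ m / η ^ 4 := by
    intro s
    refine (spcFrob_spcZero_le k _).trans ?_
    have := spcRes_frob_le hη (spcZero_isSymm (spcY_isSymm π s) k)
    simpa using this
  refine (spc_exq_mono hP hle).trans ?_
  rw [spc_exq_const]

/-- first absolute moment of `q_k - μ_k`. -/
theorem spc_q_abs {p : ℝ} (hp0 : 0 < p) (hp1 : p < 1) {π : Sym2 (Fin m) → ℝ} (hπ : BitModel p π)
    {η : ℝ} (hη : 0 < η) (k : Fin m) :
    exq π (fun s => |spcCol k (spcY π s) ⬝ᵥ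
          (spcRes η (spcZero k (spcY π s))).mulVec (spcCol k (spcY π s))
        - p * (1 - p) * ((spcRes η (spcZero k (spcY π s))).trace - 1 / η ^ 2)|)
      ≤ Real.sqrt m / η ^ 2 := by
  have hP := spc_bitModel_prob hp0 hp1 hπ
  have h1 := spc_exq_sq_le hP (fun s => |spcCol k (spcY π s) ⬝ᵥ
          (spcRes η (spcZero k (spcY π s))).mulVec (spcCol k (spcY π s))
        - p * (1 - p) * ((spcRes η (spcZero k (spcY π s))).trace - 1 / η ^ 2)|)
  simp only [sq_abs] at h1
  have h2 := h1.trans (spc_q_var hp0 hp1 hπ hη k)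
  have h3 : (m : ℝ) / η ^ 4 = (Real.sqrt m / η ^ 2) ^ 2 := by
    rw [div_pow, Real.sq_sqrt (Nat.cast_nonneg m)]; ring
  rw [h3] at h2
  exact abs_le_of_sq_le_sq' h2 (by positivity) |>.2

/-- **Expected trace of the resolvent**: `σ² (E T)² ≤ m/η² + m √m/η⁴`. -/
theorem spc_exp_trace {p : ℝ} (hp0 : 0 < p) (hp1 : p < 1) {π : Sym2 (Fin m) → ℝ} (hπ : BitModel p π)
    {η : ℝ} (hη : 0 < η) (hση : p * (1 - p) ≤ η ^ 2) :
    p * (1 - p) * (exq π (fun s => (spcRes η (spcY π s)).trace)) ^ 2
      ≤ m / η ^ 2 + 1 / η ^ 2 * (m * (Real.sqrt m / η ^ 2)) := by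
  have hP := spc_bitModel_prob hp0 hp1 hπ
  have hσ0 : 0 ≤ p * (1 - p) := mul_nonneg hp0.le (by linarith)
  have h1 := spc_exq_sq_le hP (fun s => (spcRes η (spcY π s)).trace)
  have h2 : ∀ s, p * (1 - p) * (spcRes η (spcY π s)).trace ^ 2 ≤ m / η ^ 2 + 1 / η ^ 2 *
      ∑ k, |spcCol k (spcY π s) ⬝ᵥ (spcRes η (spcZero k (spcY π s))).mulVec (spcCol k (spcY π s))
          - p * (1 - p) * ((spcRes η (spcZero k (spcY π s))).trace - 1 / η ^ 2)| := by
    intro s
    have := spc_selfconsistent hη hσ0 hση (spcY_isSymm π s)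
    simpa using this
  have h3 := spc_exq_mono hP h2
  rw [spc_exq_const_mul, spc_exq_add, spc_exq_const, spc_exq_const_mul, spc_exq_sum] at h3
  have h4 : ∑ k : Fin m, exq π (fun s => |spcCol k (spcY π s) ⬝ᵥ
          (spcRes η (spcZero k (spcY π s))).mulVec (spcCol k (spcY π s))
        - p * (1 - p) * ((spcRes η (spcZero k (spcY π s))).trace - 1 / η ^ 2)|)
      ≤ m * (Real.sqrt m / η ^ 2) := by
    have := Finset.sum_le_sum fun k (_ : k ∈ (Finset.univ : Finset (Fin m))) =>
      spc_q_abs hp0 hp1 hπ hη k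
    simpa using this
  have h5 : 0 ≤ 1 / η ^ 2 := by positivity
  have h6 := mul_le_mul_of_nonneg_left h4 h5
  have h7 := mul_le_mul_of_nonneg_left h1 hσ0
  linarith

end Claimed.Agent.R293
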