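/-
R293 / TalCore.lean  (owner: helper54).  Package TYP-TAL, part 1.
Talagrand / Maurey convex concentration on the Bernoulli cube, infimum-convolution form.
For every `f : (Fin n → Bool) → ℝ` and every product Bernoulli law:
    `E exp (Qf) * E exp (-f) ≤ 1`,
`Qf x = min_ν [∑_y ν y f y + (1/4) ∑_i (ν {y | y i ≠ x i})²]` (`ν` a probability vector on the cube).
Induction on the number of coordinates, using the two sections of `f`.  No sorry.
-/
import Claimed.Agent.R293.Model

set_option autoImplicit false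
set_option linter.unusedSectionVars false

namespace Claimed.Agent.R293

open Finset

/-! ### scalar lemmas -/

theorem tal_exp_quarter_lt : Real.exp (1 / 4) < 13 / 10 := by
  have h1 : Real.exp (1 / 4) ^ 4 = Real.exp 1 := by
    rw [← Real.exp_nat_mul]; norm_num
  have h2 : Real.exp 1 < 2.7182818286 := Real.exp_one_lt_d9
  by_contra hcon
  have hcon := not_lt.mp hcon
  have h3 : (13 / 10 : ℝ) ^ 4 ≤ Real.exp (1 / 4) ^ 4 := by gcongr
  rw [h1] at h3
  norm_num at h3 h2
  linarith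

theorem tal_exp_neg_half_le : Real.exp (-(1 / 2)) ≤ 2 / 3 := by
  rw [Real.exp_neg]
  have h : (1 : ℝ) / 2 + 1 ≤ Real.exp (1 / 2) := Real.add_one_le_exp _
  rw [inv_le_comm₀ (Real.exp_pos _) (by norm_num)]
  linarith

theorem tal_scalar_small (s : ℝ) (h0 : 0 ≤ s) (h1 : s ≤ 1 / 2) :
    Real.exp (s - s ^ 2) + Real.exp (-s) ≤ 2 := by
  have hu0 : 0 ≤ s - s ^ 2 := by nlinarith
  have hu1 : s - s ^ 2 ≤ 1 := by nlinarith
  have e1 := Real.exp_bound' hu0 hu1 (n := 3) (by norm_num)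
  have e2 := Real.exp_bound (x := -s) (by rw [abs_neg, abs_of_nonneg h0]; linarith) (n := 3) (by norm_num)
  simp only [Finset.sum_range_succ, Finset.sum_range_zero, Nat.factorial] at e1 e2
  rw [abs_neg, abs_of_nonneg h0] at e2
  have e3 := (abs_le.mp e2).2
  norm_num at e1 e3
  have hs3 : 0 ≤ s ^ 3 := by positivity
  have hq : (s - s ^ 2) ^ 3 ≤ s ^ 3 := by
    apply pow_le_pow_left₀ hu0; nlinarith
  nlinarith [mul_nonneg hs3 h0, mul_nonneg hs3 (sub_nonneg.mpr h1)]

theorem tal_scalar (s : ℝ) (h0 : 0 ≤ s) :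
    ∃ lam : ℝ, 0 ≤ lam ∧ lam ≤ 1 ∧ Real.exp (lam * s + (1 - lam) ^ 2 / 4) ≤ 2 - Real.exp (-s) := by
  rcases le_or_gt s (1 / 2) with h1 | h1
  · refine ⟨1 - 2 * s, by linarith, by linarith, ?_⟩
    have := tal_scalar_small s h0 h1
    have e : (1 - 2 * s) * s + (1 - (1 - 2 * s)) ^ 2 / 4 = s - s ^ 2 := by ring
    rw [e]; linarith
  · refine ⟨0, le_refl _, by norm_num, ?_⟩
    have a1 := tal_exp_quarter_lt
    have a2 := tal_exp_neg_half_le
    have a3 : Real.exp (-s) ≤ Real.exp (-(1 / 2)) := Real.exp_le_exp.mpr (by linarith)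
    have e : (0 : ℝ) * s + (1 - 0) ^ 2 / 4 = 1 / 4 := by ring
    rw [e]; linarith


/-! ### basic facts on `bern`, `exq`, `prb` -/

section Basic
variable {κ : Type*} [Fintype κ] [DecidableEq κ]

theorem tal_bern_nonneg {π : κ → ℝ} (hπ : IsProbArray π) (s : κ → Bool) : 0 ≤ bern π s := by
  unfold bern
  apply Finset.prod_nonneg
  intro k _
  split_ifs
  · exact (hπ k).1
  · linarith [(hπ k).2]

theorem tal_bern_sum (π : κ → ℝ) : ∑ s, bern π s = 1 := by
  unfold bern
  have := Finset.prod_univ_sum (fun _ : κ => (Finset.univ : Finset Bool))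
    (fun k b => if b then π k else 1 - π k)
  rw [Fintype.piFinset_univ] at this
  rw [← this]
  simp

theorem tal_exq_mono {π : κ → ℝ} (hπ : IsProbArray π) {f g : (κ → Bool) → ℝ}
    (h : ∀ s, f s ≤ g s) : exq π f ≤ exq π g := by
  unfold exq
  exact Finset.sum_le_sum fun s _ => mul_le_mul_of_nonneg_left (h s) (tal_bern_nonneg hπ s)

theorem tal_exq_const (π : κ → ℝ) (c : ℝ) : exq π (fun _ => c) = c := by
  unfold exq
  rw [← Finset.sum_mul, tal_bern_sum, one_mul]

theorem tal_exq_add (π : κ → ℝ) (f g : (κ → Bool) → ℝ) :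
    exq π (fun s => f s + g s) = exq π f + exq π g := by
  unfold exq
  rw [← Finset.sum_add_distrib]
  exact Finset.sum_congr rfl fun s _ => by ring

theorem tal_exq_mul_left (π : κ → ℝ) (c : ℝ) (f : (κ → Bool) → ℝ) :
    exq π (fun s => c * f s) = c * exq π f := by
  unfold exq
  rw [Finset.mul_sum]
  exact Finset.sum_congr rfl fun s _ => by ring

theorem tal_exq_mul_right (π : κ → ℝ) (c : ℝ) (f : (κ → Bool) → ℝ) :
    exq π (fun s => f s * c) = exq π f * c := by
  unfold exq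
  rw [Finset.sum_mul]
  exact Finset.sum_congr rfl fun s _ => by ring

theorem tal_exq_pos {π : κ → ℝ} (hπ : IsProbArray π) {f : (κ → Bool) → ℝ}
    (h : ∀ s, 0 < f s) : 0 < exq π f := by
  unfold exq
  have hex : ∃ s, 0 < bern π s := by
    by_contra hcon
    have h0 : ∀ s, bern π s = 0 := fun s =>
      le_antisymm (not_lt.mp fun hs => hcon ⟨s, hs⟩) (tal_bern_nonneg hπ s)
    have := tal_bern_sum π
    simp [h0] at this
  obtain ⟨s0, hs0⟩ := hex
  exact Finset.sum_pos' (fun s _ => mul_nonneg (tal_bern_nonneg hπ s) (h s).le)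
    ⟨s0, Finset.mem_univ _, mul_pos hs0 (h s0)⟩

end Basic

/-! ### splitting off the first coordinate -/

section Split
variable {n : ℕ}

theorem tal_sum_cons (h : (Fin (n + 1) → Bool) → ℝ) :
    ∑ y, h y = ∑ z : Fin n → Bool, h (Fin.cons true z) + ∑ z : Fin n → Bool, h (Fin.cons false z) := by
  rw [← (Fin.consEquiv (fun _ => Bool)).sum_comp, Fintype.sum_prod_type, Fintype.sum_bool]
  rfl

theorem tal_bern_cons (π : Fin (n + 1) → ℝ) (b : Bool) (z : Fin n → Bool) :
    bern π (Fin.cons b z) = (if b then π 0 else 1 - π 0) * bern (fun k => π k.succ) z := by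
  unfold bern
  rw [Fin.prod_univ_succ]
  simp

theorem tal_exq_cons (π : Fin (n + 1) → ℝ) (h : (Fin (n + 1) → Bool) → ℝ) :
    exq π h = π 0 * exq (fun k => π k.succ) (fun z => h (Fin.cons true z))
      + (1 - π 0) * exq (fun k => π k.succ) (fun z => h (Fin.cons false z)) := by
  unfold exq
  rw [tal_sum_cons, Finset.mul_sum, Finset.mul_sum]
  congr 1 <;> refine Finset.sum_congr rfl fun z _ => ?_
  · rw [tal_bern_cons]; simp [mul_assoc]
  · rw [tal_bern_cons]; simp [mul_assoc]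

end Split



/-! ### the convexified infimum convolution -/

section Cost
variable {κ : Type*} [Fintype κ] [DecidableEq κ]

/-- cost of the probability vector `ν` seen from the point `x`. -/
noncomputable def talCost (f : (κ → Bool) → ℝ) (x : κ → Bool) (ν : (κ → Bool) → ℝ) : ℝ :=
  ∑ y, ν y * f y + (∑ i, (∑ y, ν y * (if x i = y i then 0 else 1)) ^ 2) / 4

theorem tal_exists_min (f : (κ → Bool) → ℝ) (x : κ → Bool) :
    ∃ ν ∈ stdSimplex ℝ (κ → Bool), ∀ ν' ∈ stdSimplex ℝ (κ → Bool),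
      talCost f x ν ≤ talCost f x ν' := by
  have hne : (stdSimplex ℝ (κ → Bool)).Nonempty := ⟨Pi.single x 1, single_mem_stdSimplex ℝ x⟩
  have hc : Continuous (talCost f x) := by unfold talCost; fun_prop
  obtain ⟨ν, hν, hmin⟩ := (isCompact_stdSimplex ℝ (κ → Bool)).exists_isMinOn hne hc.continuousOn
  exact ⟨ν, hν, fun ν' hν' => hmin hν'⟩

/-- `Qf x = min_ν [∑ ν f + (1/4) ∑_i (ν {y | y i ≠ x i})²]`. -/
noncomputable def talQ (f : (κ → Bool) → ℝ) (x : κ → Bool) : ℝ :=
  talCost f x (Classical.choose (tal_exists_min f x))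

theorem tal_Q_le (f : (κ → Bool) → ℝ) (x : κ → Bool) {ν : (κ → Bool) → ℝ}
    (hν : ν ∈ stdSimplex ℝ (κ → Bool)) : talQ f x ≤ talCost f x ν :=
  (Classical.choose_spec (tal_exists_min f x)).2 ν hν

theorem tal_Q_eq (f : (κ → Bool) → ℝ) (x : κ → Bool) :
    ∃ ν ∈ stdSimplex ℝ (κ → Bool), talQ f x = talCost f x ν :=
  ⟨_, (Classical.choose_spec (tal_exists_min f x)).1, rfl⟩

theorem tal_Q_le_self (f : (κ → Bool) → ℝ) (x : κ → Bool) : talQ f x ≤ f x := by
  refine (tal_Q_le f x (single_mem_stdSimplex ℝ x)).trans (le_of_eq ?_)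
  unfold talCost
  have h1 : ∑ y, (Pi.single x (1 : ℝ) : (κ → Bool) → ℝ) y * f y = f x := by
    rw [Finset.sum_eq_single x]
    · simp
    · intro y _ hy; simp [Pi.single_eq_of_ne hy]
    · intro h; exact absurd (Finset.mem_univ x) h
  have h2 : ∀ i, ∑ y, (Pi.single x (1 : ℝ) : (κ → Bool) → ℝ) y * (if x i = y i then 0 else 1) = 0 := by
    intro i
    apply Finset.sum_eq_zero
    intro y _
    by_cases hy : y = x
    · subst hy; simp
    · simp [Pi.single_eq_of_ne hy]
  rw [h1]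
  simp only [h2]
  simp

end Cost

section Step
variable {n : ℕ}

theorem tal_mixsum (b : Bool) (lam : ℝ) (ν1 ν2 : (Fin n → Bool) → ℝ)
    (h : (Fin (n + 1) → Bool) → ℝ) :
    ∑ y : Fin (n + 1) → Bool,
      (if y 0 = b then lam * ν1 (Fin.tail y) else (1 - lam) * ν2 (Fin.tail y)) * h y
      = lam * ∑ z, ν1 z * h (Fin.cons b z) + (1 - lam) * ∑ z, ν2 z * h (Fin.cons (!b) z) := by
  rw [tal_sum_cons, Finset.mul_sum, Finset.mul_sum]
  cases b
  · simp [mul_assoc, add_comm]
  · simp [mul_assoc]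

theorem tal_Q_step (f : (Fin (n + 1) → Bool) → ℝ) (b : Bool) (z : Fin n → Bool) (lam : ℝ)
    (h0 : 0 ≤ lam) (h1 : lam ≤ 1) :
    talQ f (Fin.cons b z) ≤ lam * talQ (fun z' => f (Fin.cons b z')) z
      + (1 - lam) * talQ (fun z' => f (Fin.cons (!b) z')) z + (1 - lam) ^ 2 / 4 := by
  obtain ⟨ν1, hν1, e1⟩ := tal_Q_eq (fun z' => f (Fin.cons b z')) z
  obtain ⟨ν2, hν2, e2⟩ := tal_Q_eq (fun z' => f (Fin.cons (!b) z')) z
  rw [e1, e2]
  set ν : (Fin (n + 1) → Bool) → ℝ :=
    fun y => if y 0 = b then lam * ν1 (Fin.tail y) else (1 - lam) * ν2 (Fin.tail y) with hνdef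
  have hmix : ∀ h : (Fin (n + 1) → Bool) → ℝ, ∑ y, ν y * h y
      = lam * ∑ z, ν1 z * h (Fin.cons b z) + (1 - lam) * ∑ z, ν2 z * h (Fin.cons (!b) z) :=
    fun h => tal_mixsum b lam ν1 ν2 h
  have hν : ν ∈ stdSimplex ℝ (Fin (n + 1) → Bool) := by
    constructor
    · intro y
      simp only [hνdef]
      split_ifs
      · exact mul_nonneg h0 (hν1.1 _)
      · exact mul_nonneg (by linarith) (hν2.1 _)
    · have := hmix (fun _ => 1)
      simp only [mul_one] at this
      rw [this, hν1.2, hν2.2]; ring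
  refine (tal_Q_le f _ hν).trans ?_
  unfold talCost
  rw [hmix f, Fin.sum_univ_succ]
  have c0 : ∑ y, ν y * (if (Fin.cons b z : Fin (n + 1) → Bool) 0 = y 0 then (0 : ℝ) else 1)
      = 1 - lam := by
    rw [hmix]
    simp [hν2.2]
  have cs : ∀ i : Fin n,
      ∑ y, ν y * (if (Fin.cons b z : Fin (n + 1) → Bool) i.succ = y i.succ then (0 : ℝ) else 1)
      = lam * ∑ y, ν1 y * (if z i = y i then 0 else 1)
        + (1 - lam) * ∑ y, ν2 y * (if z i = y i then 0 else 1) := by
    intro i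
    rw [hmix]
    simp
  rw [c0]
  simp only [cs]
  have hsq : ∑ i : Fin n, (lam * ∑ y, ν1 y * (if z i = y i then (0 : ℝ) else 1)
        + (1 - lam) * ∑ y, ν2 y * (if z i = y i then 0 else 1)) ^ 2
      ≤ lam * ∑ i : Fin n, (∑ y, ν1 y * (if z i = y i then (0 : ℝ) else 1)) ^ 2
        + (1 - lam) * ∑ i : Fin n, (∑ y, ν2 y * (if z i = y i then (0 : ℝ) else 1)) ^ 2 := by
    rw [Finset.mul_sum, Finset.mul_sum, ← Finset.sum_add_distrib]
    refine Finset.sum_le_sum fun i _ => ?_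
    generalize (∑ y, ν1 y * (if z i = y i then (0 : ℝ) else 1)) = a
    generalize (∑ y, ν2 y * (if z i = y i then (0 : ℝ) else 1)) = c
    nlinarith [mul_nonneg (mul_nonneg h0 (sub_nonneg.mpr h1)) (sq_nonneg (a - c))]
  linarith

end Step

/-! ### the induction -/

theorem tal_combine (wa wb Ha Hb Ua Ub : ℝ) (hwa : 0 ≤ wa) (hwb : 0 ≤ wb) (hw : wa + wb = 1)
    (hUa : 0 < Ua) (hUb : 0 < Ub) (hHa : Ha ≤ (2 - Ua / Ub) / Ub) (hHb : Hb ≤ 1 / Ub) :
    (wa * Ha + wb * Hb) * (wa * Ua + wb * Ub) ≤ 1 := by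
  set r := Ua / Ub with hr
  have hr0 : 0 < r := div_pos hUa hUb
  have hUa' : Ua = r * Ub := by rw [hr]; field_simp
  have h1 : wa * Ha + wb * Hb ≤ (wa * (2 - r) + wb) / Ub := by
    have e : (wa * (2 - r) + wb) / Ub = wa * ((2 - r) / Ub) + wb * (1 / Ub) := by ring
    rw [e]
    exact add_le_add (mul_le_mul_of_nonneg_left hHa hwa) (mul_le_mul_of_nonneg_left hHb hwb)
  have h2 : 0 ≤ wa * Ua + wb * Ub := by positivity
  calc (wa * Ha + wb * Hb) * (wa * Ua + wb * Ub)
      ≤ (wa * (2 - r) + wb) / Ub * (wa * Ua + wb * Ub) := mul_le_mul_of_nonneg_right h1 h2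
    _ = (wa * (2 - r) + wb) * (wa * r + wb) := by rw [hUa']; field_simp
    _ ≤ 1 := by
        have hwb' : wb = 1 - wa := by linarith
        subst hwb'
        nlinarith [sq_nonneg (wa * r + (1 - wa) - 1)]

section Claim
variable {κ : Type*} [Fintype κ] [DecidableEq κ]

theorem tal_claim2 {π : κ → ℝ} (hπ : IsProbArray π) (q1 q2 h : (κ → Bool) → ℝ) (Ua Ub : ℝ)
    (hUa : 0 < Ua) (hUb : 0 < Ub) (hle : Ua ≤ Ub)
    (hG1 : exq π (fun z => Real.exp (q1 z)) * Ua ≤ 1)
    (hG2 : exq π (fun z => Real.exp (q2 z)) * Ub ≤ 1)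
    (hstep : ∀ lam : ℝ, 0 ≤ lam → lam ≤ 1 → ∀ z,
      h z ≤ lam * q1 z + (1 - lam) * q2 z + (1 - lam) ^ 2 / 4) :
    exq π (fun z => Real.exp (h z)) ≤ (2 - Ua / Ub) / Ub := by
  set s := Real.log Ub - Real.log Ua with hs
  have hs0 : 0 ≤ s := sub_nonneg.mpr (Real.log_le_log hUa hle)
  have hes : Real.exp (-s) = Ua / Ub := by
    rw [hs, neg_sub, Real.exp_sub, Real.exp_log hUa, Real.exp_log hUb]
  obtain ⟨lam, l0, l1, hlam⟩ := tal_scalar s hs0
  rw [hes] at hlam
  set K := Real.exp (-Real.log Ub + (lam * s + (1 - lam) ^ 2 / 4)) with hK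
  have hK0 : 0 ≤ K := (Real.exp_pos _).le
  have hKle : K ≤ (2 - Ua / Ub) / Ub := by
    rw [hK, Real.exp_add, Real.exp_neg, Real.exp_log hUb, div_eq_inv_mul (2 - Ua / Ub) Ub]
    exact mul_le_mul_of_nonneg_left hlam (inv_nonneg.mpr hUb.le)
  have hpt : ∀ z, Real.exp (h z)
      ≤ (lam * (Real.exp (q1 z) * Ua) + (1 - lam) * (Real.exp (q2 z) * Ub)) * K := by
    intro z
    have e1 : lam * q1 z + (1 - lam) * q2 z + (1 - lam) ^ 2 / 4
        = (lam * (q1 z + Real.log Ua) + (1 - lam) * (q2 z + Real.log Ub))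
          + (-Real.log Ub + (lam * s + (1 - lam) ^ 2 / 4)) := by
      rw [hs]; ring
    have e2 : Real.exp (lam * (q1 z + Real.log Ua) + (1 - lam) * (q2 z + Real.log Ub))
        ≤ lam * Real.exp (q1 z + Real.log Ua) + (1 - lam) * Real.exp (q2 z + Real.log Ub) := by
      have := convexOn_exp.2 (Set.mem_univ (q1 z + Real.log Ua))
        (Set.mem_univ (q2 z + Real.log Ub)) l0 (sub_nonneg.mpr l1) (by ring)
      simpa [smul_eq_mul] using this
    rw [Real.exp_add (q1 z), Real.exp_add (q2 z), Real.exp_log hUa, Real.exp_log hUb] at e2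
    calc Real.exp (h z) ≤ Real.exp (lam * q1 z + (1 - lam) * q2 z + (1 - lam) ^ 2 / 4) :=
          Real.exp_le_exp.mpr (hstep lam l0 l1 z)
      _ = Real.exp (lam * (q1 z + Real.log Ua) + (1 - lam) * (q2 z + Real.log Ub)) * K := by
          rw [e1, Real.exp_add]
      _ ≤ _ := mul_le_mul_of_nonneg_right e2 hK0
  have hE := tal_exq_mono hπ hpt
  rw [tal_exq_mul_right, tal_exq_add, tal_exq_mul_left, tal_exq_mul_left, tal_exq_mul_right,
    tal_exq_mul_right] at hE
  have hsum : lam * (exq π (fun z => Real.exp (q1 z)) * Ua)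
      + (1 - lam) * (exq π (fun z => Real.exp (q2 z)) * Ub) ≤ 1 := by
    nlinarith [mul_le_mul_of_nonneg_left hG1 l0,
      mul_le_mul_of_nonneg_left hG2 (sub_nonneg.mpr l1)]
  calc exq π (fun z => Real.exp (h z)) ≤ _ := hE
    _ ≤ 1 * K := mul_le_mul_of_nonneg_right hsum hK0
    _ ≤ _ := by rw [one_mul]; exact hKle

end Claim

theorem tal_tau_fin : ∀ (n : ℕ) (π : Fin n → ℝ), IsProbArray π → ∀ f : (Fin n → Bool) → ℝ,
    exq π (fun s => Real.exp (talQ f s)) * exq π (fun s => Real.exp (-f s)) ≤ 1 := by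
  intro n
  induction n with
  | zero =>
    intro π _ f
    have hq : ∀ h : (Fin 0 → Bool) → ℝ, exq π h = h default := by
      intro h
      simp only [exq, bern, Finset.univ_eq_empty, Finset.prod_empty, one_mul]
      rw [Fintype.sum_unique]
      exact congrArg h (Subsingleton.elim _ _)
    rw [hq, hq, ← Real.exp_add]
    have := tal_Q_le_self f default
    rw [← Real.exp_zero]
    exact Real.exp_le_exp.mpr (by linarith)
  | succ n ih =>
    intro π hπ f
    set π' : Fin n → ℝ := fun k => π k.succ with hπ'def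
    have hπ' : IsProbArray π' := fun k => hπ k.succ
    set fs : Bool → (Fin n → Bool) → ℝ := fun b z => f (Fin.cons b z) with hfs
    set U : Bool → ℝ := fun b => exq π' (fun z => Real.exp (-fs b z)) with hU
    set H : Bool → ℝ := fun b => exq π' (fun z => Real.exp (talQ f (Fin.cons b z))) with hH
    have hUpos : ∀ b, 0 < U b := fun b => tal_exq_pos hπ' fun z => Real.exp_pos _
    have hIH : ∀ b, exq π' (fun z => Real.exp (talQ (fs b) z)) * U b ≤ 1 := fun b => ih π' hπ' (fs b)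
    have hH1 : ∀ b, H b ≤ 1 / U b := by
      intro b
      rw [le_div_iff₀ (hUpos b)]
      refine le_trans (mul_le_mul_of_nonneg_right ?_ (hUpos b).le) (hIH b)
      refine tal_exq_mono hπ' fun z => Real.exp_le_exp.mpr ?_
      have := tal_Q_step f b z 1 (by norm_num) (le_refl _)
      simpa using this
    have hH2 : ∀ b, U b ≤ U (!b) → H b ≤ (2 - U b / U (!b)) / U (!b) := by
      intro b hb
      exact tal_claim2 hπ' (talQ (fs b)) (talQ (fs (!b))) (fun z => talQ f (Fin.cons b z))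
        (U b) (U (!b)) (hUpos b) (hUpos _) hb (hIH b) (hIH _)
        (fun lam l0 l1 z => tal_Q_step f b z lam l0 l1)
    rw [tal_exq_cons, tal_exq_cons]
    change (π 0 * H true + (1 - π 0) * H false) * (π 0 * U true + (1 - π 0) * U false) ≤ 1
    have w1 : 0 ≤ π 0 := (hπ 0).1
    have w0 : 0 ≤ 1 - π 0 := by linarith [(hπ 0).2]
    rcases le_total (U true) (U false) with hle | hle
    · exact tal_combine (π 0) (1 - π 0) (H true) (H false) (U true) (U false) w1 w0 (by ring)
        (hUpos _) (hUpos _) (hH2 true hle) (hH1 false)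
    · have := tal_combine (1 - π 0) (π 0) (H false) (H true) (U false) (U true) w0 w1 (by ring)
        (hUpos _) (hUpos _) (hH2 false hle) (hH1 true)
      linarith [this, add_comm ((1 - π 0) * H false) (π 0 * H true),
        add_comm ((1 - π 0) * U false) (π 0 * U true)]

end Claimed.Agent.R293
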