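/-
R293 / Tal.lean  (owner: helper54).  Package TYP-TAL, part 2.
Transport of `tal_tau_fin` to an arbitrary finite index type, and the consequences for convex
Lipschitz functions of independent bits: sub-Gaussian moment generating function and tails
AROUND THE MEAN (`tal_mgf`, `tal_upper`, `tal_lower`, `tal_two_sided`).  No sorry.
-/
import Claimed.Agent.R293.TalCore

set_option autoImplicit false
set_option linter.unusedSectionVars false

namespace Claimed.Agent.R293

open Finset

section Transport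
variable {κ : Type*} [Fintype κ] [DecidableEq κ] {ι : Type*} [Fintype ι] [DecidableEq ι]

/-- reindexing of bit patterns along `e : κ ≃ ι`. -/
def talPhi (e : κ ≃ ι) : (κ → Bool) ≃ (ι → Bool) := Equiv.arrowCongr e (Equiv.refl Bool)

theorem talPhi_apply (e : κ ≃ ι) (s : κ → Bool) (j : ι) : talPhi e s j = s (e.symm j) := rfl

theorem talPhi_symm_apply (e : κ ≃ ι) (s : ι → Bool) (k : κ) : (talPhi e).symm s k = s (e k) := rfl

theorem tal_bern_phi (e : κ ≃ ι) (π : κ → ℝ) (s : ι → Bool) :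
    bern π ((talPhi e).symm s) = bern (fun j => π (e.symm j)) s := by
  unfold bern
  rw [← Equiv.prod_comp e]
  refine Finset.prod_congr rfl fun k _ => ?_
  rw [talPhi_symm_apply]
  show _ = if s (e k) = true then π (e.symm (e k)) else 1 - π (e.symm (e k))
  rw [Equiv.symm_apply_apply]

theorem tal_exq_phi (e : κ ≃ ι) (π : κ → ℝ) (h : (κ → Bool) → ℝ) :
    exq π h = exq (fun j => π (e.symm j)) (fun s => h ((talPhi e).symm s)) := by
  unfold exq
  rw [← Equiv.sum_comp (talPhi e).symm]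
  exact Finset.sum_congr rfl fun s _ => by rw [tal_bern_phi]

theorem tal_cost_phi (e : κ ≃ ι) (f : (κ → Bool) → ℝ) (x : κ → Bool) (ν : (ι → Bool) → ℝ) :
    talCost f x (fun y => ν (talPhi e y))
      = talCost (fun s => f ((talPhi e).symm s)) (talPhi e x) ν := by
  unfold talCost
  congr 1
  · rw [← Equiv.sum_comp (talPhi e)]
    simp
  · congr 1
    rw [← Equiv.sum_comp e]
    refine Finset.sum_congr rfl fun i _ => ?_
    congr 1
    rw [← Equiv.sum_comp (talPhi e)]
    simp [talPhi_apply]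

theorem tal_Q_phi (e : κ ≃ ι) (f : (κ → Bool) → ℝ) (x : κ → Bool) :
    talQ f x ≤ talQ (fun s => f ((talPhi e).symm s)) (talPhi e x) := by
  obtain ⟨ν, hν, hq⟩ := tal_Q_eq (fun s => f ((talPhi e).symm s)) (talPhi e x)
  rw [hq, ← tal_cost_phi]
  apply tal_Q_le
  refine ⟨fun y => hν.1 _, ?_⟩
  rw [Equiv.sum_comp (talPhi e) ν]
  exact hν.2

/-- **Talagrand--Maurey**: `E exp (Qf) * E exp (-f) ≤ 1` for every `f` on the Bernoulli cube. -/
theorem tal_tau {π : κ → ℝ} (hπ : IsProbArray π) (f : (κ → Bool) → ℝ) :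
    exq π (fun s => Real.exp (talQ f s)) * exq π (fun s => Real.exp (-f s)) ≤ 1 := by
  set e := Fintype.equivFin κ with he
  have hπ' : IsProbArray (fun j => π (e.symm j)) := fun j => hπ _
  have h := tal_tau_fin _ _ hπ' (fun s => f ((talPhi e).symm s))
  have h1 : exq π (fun s => Real.exp (talQ f s))
      ≤ exq (fun j => π (e.symm j)) (fun s => Real.exp (talQ (fun s => f ((talPhi e).symm s)) s)) := by
    rw [tal_exq_phi e]
    refine tal_exq_mono hπ' fun s => Real.exp_le_exp.mpr ?_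
    have := tal_Q_phi e f ((talPhi e).symm s)
    simpa using this
  have h2 : exq π (fun s => Real.exp (-f s))
      = exq (fun j => π (e.symm j)) (fun s => Real.exp (-f ((talPhi e).symm s))) := tal_exq_phi e _ _
  rw [h2]
  exact le_trans (mul_le_mul_of_nonneg_right h1 (tal_exq_pos hπ' fun s => Real.exp_pos _).le) h

end Transport

section Convex
variable {κ : Type*} [Fintype κ] [DecidableEq κ]

theorem tal_abs_bitVec_sub (x y : κ → Bool) (k : κ) :
    |bitVec x k - bitVec y k| = if x k = y k then 0 else 1 := by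
  unfold bitVec
  cases x k <;> cases y k <;> simp

/-- lower bound of the infimum convolution of a convex Lipschitz function. -/
theorem tal_Q_ge {C : Set (κ → ℝ)} {F : (κ → ℝ) → ℝ} {L : ℝ} (hC : ∀ s : κ → Bool, bitVec s ∈ C)
    (hF : ConvexOn ℝ C F) (hL : 0 ≤ L)
    (hLip : ∀ x ∈ C, ∀ y ∈ C, F x - F y ≤ L * Real.sqrt (∑ k, (x k - y k) ^ 2))
    {lam : ℝ} (hlam : 0 ≤ lam) (x : κ → Bool) :
    lam * F (bitVec x) - lam ^ 2 * L ^ 2 ≤ talQ (fun s => lam * F (bitVec s)) x := by
  obtain ⟨ν, hν, hq⟩ := tal_Q_eq (fun s => lam * F (bitVec s)) x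
  rw [hq]
  unfold talCost
  set D : ℝ := ∑ i, (∑ y, ν y * (if x i = y i then (0 : ℝ) else 1)) ^ 2 with hD
  have hD0 : 0 ≤ D := Finset.sum_nonneg fun i _ => sq_nonneg _
  set v : κ → ℝ := ∑ y, ν y • bitVec y with hv
  have hvC : v ∈ C := hF.1.sum_mem (fun y _ => hν.1 y) hν.2 (fun y _ => hC y)
  have hJ : F v ≤ ∑ y, ν y * F (bitVec y) := by
    have := hF.map_sum_le (t := Finset.univ) (w := ν) (p := fun y => bitVec y)
      (fun y _ => hν.1 y) hν.2 (fun y _ => hC y)
    simpa [smul_eq_mul] using this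
  have hdist : ∑ k, (bitVec x k - v k) ^ 2 ≤ D := by
    refine Finset.sum_le_sum fun k _ => ?_
    have e1 : bitVec x k - v k = ∑ y, ν y * (bitVec x k - bitVec y k) := by
      have : v k = ∑ y, ν y * bitVec y k := by
        rw [hv]; simp [Finset.sum_apply]
      rw [this]
      simp only [mul_sub]
      rw [Finset.sum_sub_distrib, ← Finset.sum_mul, hν.2, one_mul]
    have e2 : |bitVec x k - v k| ≤ ∑ y, ν y * (if x k = y k then (0 : ℝ) else 1) := by
      rw [e1]
      refine (Finset.abs_sum_le_sum_abs _ _).trans (le_of_eq ?_)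
      refine Finset.sum_congr rfl fun y _ => ?_
      rw [abs_mul, abs_of_nonneg (hν.1 y), tal_abs_bitVec_sub]
    exact sq_le_sq' (by linarith [(abs_le.mp e2).1]) (abs_le.mp e2).2
  have hlip := hLip _ (hC x) _ hvC
  have hsq : Real.sqrt (∑ k, (bitVec x k - v k) ^ 2) ≤ Real.sqrt D := Real.sqrt_le_sqrt hdist
  set r := Real.sqrt D with hr
  have hr0 : 0 ≤ r := Real.sqrt_nonneg _
  have hrD : r ^ 2 = D := Real.sq_sqrt hD0
  have h1 : F (bitVec x) - L * r ≤ ∑ y, ν y * F (bitVec y) := by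
    have := mul_le_mul_of_nonneg_left hsq hL
    linarith
  have h2 : ∑ y, ν y * (lam * F (bitVec y)) = lam * ∑ y, ν y * F (bitVec y) := by
    rw [Finset.mul_sum]
    exact Finset.sum_congr rfl fun y _ => by ring
  rw [h2, ← hrD]
  have h3 := mul_le_mul_of_nonneg_left h1 hlam
  nlinarith [sq_nonneg (r / 2 - lam * L)]

/-- Jensen for the exponential. -/
theorem tal_exp_exq_le {π : κ → ℝ} (hπ : IsProbArray π) (g : (κ → Bool) → ℝ) :
    Real.exp (exq π g) ≤ exq π (fun s => Real.exp (g s)) := by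
  have := convexOn_exp.map_sum_le (t := Finset.univ) (w := bern π) (p := g)
    (fun s _ => tal_bern_nonneg hπ s) (tal_bern_sum π) (fun s _ => Set.mem_univ _)
  simpa [exq, smul_eq_mul] using this

/-- product form: `E exp (λF) * E exp (-λF) ≤ exp (λ² L²)` for `λ ≥ 0`. -/
theorem tal_mgf_prod {π : κ → ℝ} (hπ : IsProbArray π) {C : Set (κ → ℝ)} {F : (κ → ℝ) → ℝ} {L : ℝ}
    (hC : ∀ s : κ → Bool, bitVec s ∈ C) (hF : ConvexOn ℝ C F) (hL : 0 ≤ L)
    (hLip : ∀ x ∈ C, ∀ y ∈ C, F x - F y ≤ L * Real.sqrt (∑ k, (x k - y k) ^ 2))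
    {lam : ℝ} (hlam : 0 ≤ lam) :
    exq π (fun s => Real.exp (lam * F (bitVec s))) * exq π (fun s => Real.exp (-(lam * F (bitVec s))))
      ≤ Real.exp (lam ^ 2 * L ^ 2) := by
  have h := tal_tau hπ (fun s => lam * F (bitVec s))
  have h1 : exq π (fun s => Real.exp (lam * F (bitVec s))) * Real.exp (-(lam ^ 2 * L ^ 2))
      ≤ exq π (fun s => Real.exp (talQ (fun s => lam * F (bitVec s)) s)) := by
    rw [← tal_exq_mul_right]
    refine tal_exq_mono hπ fun s => ?_
    rw [← Real.exp_add]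
    refine Real.exp_le_exp.mpr ?_
    have := tal_Q_ge hC hF hL hLip hlam s
    linarith
  have hpos : 0 ≤ exq π (fun s => Real.exp (-(lam * F (bitVec s)))) :=
    (tal_exq_pos hπ fun s => Real.exp_pos _).le
  have h2 := le_trans (mul_le_mul_of_nonneg_right h1 hpos) h
  have h3 : exq π (fun s => Real.exp (lam * F (bitVec s)))
      * exq π (fun s => Real.exp (-(lam * F (bitVec s))))
      = (exq π (fun s => Real.exp (lam * F (bitVec s))) * Real.exp (-(lam ^ 2 * L ^ 2))
        * exq π (fun s => Real.exp (-(lam * F (bitVec s))))) * Real.exp (lam ^ 2 * L ^ 2) := by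
    have : Real.exp (-(lam ^ 2 * L ^ 2)) * Real.exp (lam ^ 2 * L ^ 2) = 1 := by
      rw [← Real.exp_add]; simp
    calc _ = exq π (fun s => Real.exp (lam * F (bitVec s)))
          * exq π (fun s => Real.exp (-(lam * F (bitVec s))))
          * (Real.exp (-(lam ^ 2 * L ^ 2)) * Real.exp (lam ^ 2 * L ^ 2)) := by rw [this, mul_one]
      _ = _ := by ring
  rw [h3]
  calc _ ≤ 1 * Real.exp (lam ^ 2 * L ^ 2) := mul_le_mul_of_nonneg_right h2 (Real.exp_pos _).le
    _ = _ := one_mul _

/-- **sub-Gaussian moment generating function around the mean**, all real `λ`. -/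
theorem tal_mgf {π : κ → ℝ} (hπ : IsProbArray π) {C : Set (κ → ℝ)} {F : (κ → ℝ) → ℝ} {L : ℝ}
    (hC : ∀ s : κ → Bool, bitVec s ∈ C) (hF : ConvexOn ℝ C F) (hL : 0 ≤ L)
    (hLip : ∀ x ∈ C, ∀ y ∈ C, F x - F y ≤ L * Real.sqrt (∑ k, (x k - y k) ^ 2)) (lam : ℝ) :
    exq π (fun s => Real.exp (lam * (F (bitVec s) - exq π (fun s => F (bitVec s)))))
      ≤ Real.exp (lam ^ 2 * L ^ 2) := by
  set m := exq π (fun s => F (bitVec s)) with hm
  have hsplit : ∀ c : ℝ, exq π (fun s => Real.exp (c * (F (bitVec s) - m)))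
      = exq π (fun s => Real.exp (c * F (bitVec s))) * Real.exp (-(c * m)) := by
    intro c
    rw [← tal_exq_mul_right]
    congr 1
    funext s
    rw [← Real.exp_add]; congr 1; ring
  rcases le_total 0 lam with h0 | h0
  · have hp := tal_mgf_prod hπ hC hF hL hLip h0
    have hj := tal_exp_exq_le hπ (fun s => -(lam * F (bitVec s)))
    have e : exq π (fun s => -(lam * F (bitVec s))) = -(lam * m) := by
      have : (fun s : κ → Bool => -(lam * F (bitVec s))) = fun s => (-lam) * F (bitVec s) := by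
        funext s; ring
      rw [this, tal_exq_mul_left]; ring
    rw [e] at hj
    rw [hsplit]
    exact le_trans (mul_le_mul_of_nonneg_left hj (tal_exq_pos hπ fun s => Real.exp_pos _).le) hp
  · have h0' : 0 ≤ -lam := by linarith
    have hp := tal_mgf_prod hπ hC hF hL hLip h0'
    have hj := tal_exp_exq_le hπ (fun s => (-lam) * F (bitVec s))
    rw [tal_exq_mul_left] at hj
    rw [hsplit]
    have e1 : (fun s : κ → Bool => Real.exp (-(-lam * F (bitVec s))))
        = fun s => Real.exp (lam * F (bitVec s)) := by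
      funext s; congr 1; ring
    rw [e1] at hp
    have e2 : -(lam * m) = -lam * m := by ring
    have e3 : (-lam) ^ 2 = lam ^ 2 := by ring
    rw [e3] at hp
    rw [e2]
    refine le_trans ?_ hp
    rw [mul_comm]
    exact mul_le_mul_of_nonneg_right hj (tal_exq_pos hπ fun s => Real.exp_pos _).le

/-- Markov-type bound. -/
theorem tal_prb_le_exq {π : κ → ℝ} (hπ : IsProbArray π) (E : Set (κ → Bool)) (g : (κ → Bool) → ℝ)
    (hg0 : ∀ s, 0 ≤ g s) (hg1 : ∀ s ∈ E, 1 ≤ g s) : prb π E ≤ exq π g := by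
  unfold prb exq
  refine Finset.sum_le_sum fun s _ => ?_
  by_cases hs : s ∈ E
  · rw [Set.indicator_of_mem hs]
    have := mul_le_mul_of_nonneg_left (hg1 s hs) (tal_bern_nonneg hπ s)
    linarith
  · rw [Set.indicator_of_notMem hs]
    exact mul_nonneg (tal_bern_nonneg hπ s) (hg0 s)

/-- **upper tail around the mean.** -/
theorem tal_upper {π : κ → ℝ} (hπ : IsProbArray π) {C : Set (κ → ℝ)} {F : (κ → ℝ) → ℝ} {L : ℝ}
    (hC : ∀ s : κ → Bool, bitVec s ∈ C) (hF : ConvexOn ℝ C F) (hL : 0 < L)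
    (hLip : ∀ x ∈ C, ∀ y ∈ C, F x - F y ≤ L * Real.sqrt (∑ k, (x k - y k) ^ 2))
    {t : ℝ} (ht : 0 ≤ t) :
    prb π {s | exq π (fun s => F (bitVec s)) + t ≤ F (bitVec s)}
      ≤ Real.exp (-(t ^ 2 / (4 * L ^ 2))) := by
  set m := exq π (fun s => F (bitVec s)) with hm
  set lam := t / (2 * L ^ 2) with hlam
  have hlam0 : 0 ≤ lam := by positivity
  have h1 := tal_prb_le_exq hπ {s | m + t ≤ F (bitVec s)}
    (fun s => Real.exp (lam * (F (bitVec s) - m)) * Real.exp (-(lam * t)))
    (fun s => by positivity)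
    (fun s hs => by
      rw [← Real.exp_add]
      apply Real.one_le_exp
      have hs' : m + t ≤ F (bitVec s) := hs
      nlinarith [mul_le_mul_of_nonneg_left hs' hlam0])
  rw [tal_exq_mul_right] at h1
  have h2 := tal_mgf hπ hC hF hL.le hLip lam
  refine h1.trans ((mul_le_mul_of_nonneg_right h2 (Real.exp_pos _).le).trans (le_of_eq ?_))
  rw [← Real.exp_add]
  congr 1
  rw [hlam]; field_simp; ring

/-- **lower tail around the mean.** -/
theorem tal_lower {π : κ → ℝ} (hπ : IsProbArray π) {C : Set (κ → ℝ)} {F : (κ → ℝ) → ℝ} {L : ℝ}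
    (hC : ∀ s : κ → Bool, bitVec s ∈ C) (hF : ConvexOn ℝ C F) (hL : 0 < L)
    (hLip : ∀ x ∈ C, ∀ y ∈ C, F x - F y ≤ L * Real.sqrt (∑ k, (x k - y k) ^ 2))
    {t : ℝ} (ht : 0 ≤ t) :
    prb π {s | F (bitVec s) ≤ exq π (fun s => F (bitVec s)) - t}
      ≤ Real.exp (-(t ^ 2 / (4 * L ^ 2))) := by
  set m := exq π (fun s => F (bitVec s)) with hm
  set lam := t / (2 * L ^ 2) with hlam
  have hlam0 : 0 ≤ lam := by positivity
  have h1 := tal_prb_le_exq hπ {s | F (bitVec s) ≤ m - t}
    (fun s => Real.exp ((-lam) * (F (bitVec s) - m)) * Real.exp (-(lam * t)))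
    (fun s => by positivity)
    (fun s hs => by
      rw [← Real.exp_add]
      apply Real.one_le_exp
      have hs' : F (bitVec s) ≤ m - t := hs
      nlinarith [mul_le_mul_of_nonneg_left hs' hlam0])
  rw [tal_exq_mul_right] at h1
  have h2 := tal_mgf hπ hC hF hL.le hLip (-lam)
  refine h1.trans ((mul_le_mul_of_nonneg_right h2 (Real.exp_pos _).le).trans (le_of_eq ?_))
  rw [← Real.exp_add]
  congr 1
  rw [hlam]; field_simp; ring

end Convex

end Claimed.Agent.R293
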