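/-
R293 / SpcConc.lean (owner helper202).  Package SPC, assembly part 2: expectation and concentration of the trace of
the tent function of the centred bit matrix; deterministic passage to `SmallSpec`.
-/
import Claimed.Agent.R293.SpcExp
import Claimed.Agent.R293.SpcCount
import Claimed.Agent.R293.Tal

set_option autoImplicit false

namespace Claimed.Agent.R293

open Finset Matrix

variable {m : ℕ}

theorem spc_herm {n : Type*} {A : Matrix n n ℝ} (h : A.IsSymm) : A.IsHermitian := by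
  unfold Matrix.IsHermitian
  rw [Matrix.conjTranspose_eq_transpose_of_trivial]
  exact h

theorem spc_meanMat_isSymm (y : Sym2 (Fin m) → ℝ) : (meanMat y).IsSymm := by
  ext i j
  simp [meanMat, Matrix.transpose_apply, Sym2.eq_swap]

/-! ### Expectation of the tent trace -/

theorem spcTr_mono {n : Type*} [Fintype n] [DecidableEq n] {g h : ℝ → ℝ} (hgh : ∀ x, g x ≤ h x)
    (A : Matrix n n ℝ) : spcTr g A ≤ spcTr h A := by
  unfold spcTr
  split_ifs
  · exact Finset.sum_le_sum fun i _ => hgh _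
  · exact le_refl _

theorem spcTr_const_mul {n : Type*} [Fintype n] [DecidableEq n] (c : ℝ) (g : ℝ → ℝ)
    (A : Matrix n n ℝ) : spcTr (fun x => c * g x) A = c * spcTr g A := by
  unfold spcTr
  split_ifs
  · rw [Finset.mul_sum]
  · simp

theorem spc_tent_le_trace {δ : ℝ} (hδ : 0 < δ) {Y : Matrix (Fin m) (Fin m) ℝ} (hY : Y.IsSymm) :
    spcTr (spcTent δ) Y ≤ 2 * δ ^ 2 * (spcRes δ Y).trace := by
  rw [spcRes_trace_eq hδ hY, ← spcTr_const_mul]
  exact spcTr_mono (fun x => spcTent_le_lorentz hδ x) Y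

theorem spc_exp_tent {π : Sym2 (Fin m) → ℝ} (hP : IsProbArray π) {δ : ℝ} (hδ : 0 < δ) :
    exq π (fun s => spcTr (spcTent δ) (spcY π s))
      ≤ 2 * δ ^ 2 * exq π (fun s => (spcRes δ (spcY π s)).trace) := by
  rw [← spc_exq_const_mul]
  exact spc_exq_mono hP fun s => spc_tent_le_trace hδ (spcY_isSymm π s)

/-! ### Convexity and Lipschitz property in the independent coordinates -/

/-- trace function of the centred matrix as a function of the (real) coordinates. -/
noncomputable def spcF (g : ℝ → ℝ) (π : Sym2 (Fin m) → ℝ) (y : Sym2 (Fin m) → ℝ) : ℝ :=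
  spcTr g (meanMat (fun e => y e - π e))

theorem spcF_bitVec (g : ℝ → ℝ) (π : Sym2 (Fin m) → ℝ) (s : Sym2 (Fin m) → Bool) :
    spcF g π (bitVec s) = spcTr g (spcY π s) := by
  rw [spcF, spcY_eq_meanMat]

theorem spcF_convex (g g' : ℝ → ℝ) (hg : ∀ x y, g y + g' y * (x - y) ≤ g x) (π : Sym2 (Fin m) → ℝ) :
    ConvexOn ℝ Set.univ (spcF g π) := by
  refine ⟨convex_univ, ?_⟩
  intro x _ y _ a b ha hb hab
  have h := spc_tr_convex g g' hg (spc_herm (spc_meanMat_isSymm (fun e => x e - π e)))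
    (spc_herm (spc_meanMat_isSymm (fun e => y e - π e))) ha hb hab
  have e : meanMat (fun e => (a • x + b • y) e - π e)
      = a • meanMat (fun e => x e - π e) + b • meanMat (fun e => y e - π e) := by
    ext i j
    simp only [meanMat, Pi.add_apply, Pi.smul_apply, smul_eq_mul, Matrix.add_apply, Matrix.smul_apply]
    have : π s(i, j) = (a + b) * π s(i, j) := by rw [hab, one_mul]
    linear_combination (-1 : ℝ) * this
  simp only [spcF, smul_eq_mul]
  rw [e]
  exact h

theorem spcF_lip (g g' : ℝ → ℝ) (hg : ∀ x y, g y + g' y * (x - y) ≤ g x) {c : ℝ} (hc0 : 0 ≤ c)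
    (hc : ∀ y, |g' y| ≤ c) (π : Sym2 (Fin m) → ℝ) (x y : Sym2 (Fin m) → ℝ) :
    spcF g π x - spcF g π y ≤ c * Real.sqrt (2 * m) * Real.sqrt (∑ k, (x k - y k) ^ 2) := by
  have h := spc_tr_lipschitz g g' hg c hc (spc_herm (spc_meanMat_isSymm (fun e => x e - π e)))
    (spc_herm (spc_meanMat_isSymm (fun e => y e - π e)))
  have h1 := (le_abs_self _).trans h
  have e : spcFrob (meanMat (fun e => x e - π e) - meanMat (fun e => y e - π e))
      ≤ 2 * ∑ k, (x k - y k) ^ 2 := by
    have := spc_sum_sym2_le (fun e : Sym2 (Fin m) => (x e - y e) ^ 2) (fun e => sq_nonneg _)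
    refine le_trans (le_of_eq ?_) this
    unfold spcFrob
    apply Finset.sum_congr rfl; intro i _
    apply Finset.sum_congr rfl; intro j _
    simp only [meanMat, Matrix.sub_apply]
    ring
  have h2 : Real.sqrt (spcFrob (meanMat (fun e => x e - π e) - meanMat (fun e => y e - π e)))
      ≤ Real.sqrt 2 * Real.sqrt (∑ k, (x k - y k) ^ 2) := by
    rw [← Real.sqrt_mul (by norm_num : (0 : ℝ) ≤ 2)]
    exact Real.sqrt_le_sqrt e
  simp only [Fintype.card_fin] at h1
  have h3 : 0 ≤ c * Real.sqrt m := by positivity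
  calc spcF g π x - spcF g π y
      ≤ c * Real.sqrt m * Real.sqrt (spcFrob (meanMat (fun e => x e - π e) - meanMat (fun e => y e - π e))) := h1
    _ ≤ c * Real.sqrt m * (Real.sqrt 2 * Real.sqrt (∑ k, (x k - y k) ^ 2)) :=
        mul_le_mul_of_nonneg_left h2 h3
    _ = c * Real.sqrt (2 * m) * Real.sqrt (∑ k, (x k - y k) ^ 2) := by
        rw [Real.sqrt_mul (by norm_num : (0 : ℝ) ≤ 2)]; ring

/-! ### Concentration of the tent trace -/

theorem spcTr_tent_eq (δ : ℝ) {Y : Matrix (Fin m) (Fin m) ℝ} (hY : Y.IsSymm) :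
    spcTr (spcTent δ) Y = m - spcTr (spcG1 δ) Y + spcTr (spcG2 δ) Y := by
  have hH := spc_herm hY
  rw [spcTr_of_isHermitian _ hH, spcTr_of_isHermitian _ hH, spcTr_of_isHermitian _ hH]
  simp only [spcTent_eq, Finset.sum_add_distrib, Finset.sum_sub_distrib, Finset.sum_const,
    Finset.card_univ, Fintype.card_fin, nsmul_eq_mul, mul_one]

theorem spc_sign_div_abs_le {δ : ℝ} (hδ : 0 < δ) (y : ℝ) : |(SignType.sign y : ℝ) / δ| ≤ 1 / δ := by
  rw [abs_div, abs_of_pos hδ]
  apply div_le_div_of_nonneg_right _ hδ.le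
  rcases lt_trichotomy y 0 with h | h | h
  · simp [sign_neg h]
  · simp [h]
  · simp [sign_pos h]

theorem spc_tent_conc {π : Sym2 (Fin m) → ℝ} (hP : IsProbArray π) {δ : ℝ} (hδ : 0 < δ) (hm : 0 < m)
    {t : ℝ} (ht : 0 ≤ t) :
    prb π {s | exq π (fun s => spcTr (spcTent δ) (spcY π s)) + 2 * t < spcTr (spcTent δ) (spcY π s)}
      ≤ 2 * Real.exp (-(t ^ 2 * δ ^ 2 / (8 * m))) := by
  have hmR : (0 : ℝ) < m := by exact_mod_cast hm
  set L : ℝ := 1 / δ * Real.sqrt (2 * m) with hL
  have hLpos : 0 < L := by positivity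
  have hL2 : L ^ 2 = 2 * m / δ ^ 2 := by
    rw [hL, mul_pow, Real.sq_sqrt (by positivity)]; field_simp
  have hexp : t ^ 2 / (4 * L ^ 2) = t ^ 2 * δ ^ 2 / (8 * m) := by
    rw [hL2]; field_simp; ring
  have hc0 : (0 : ℝ) ≤ 1 / δ := by positivity
  -- the two convex functions
  have hconv1 := spcF_convex (spcG1 δ) (fun y => (SignType.sign y : ℝ) / δ)
    (fun x y => spcG1_subgradient hδ x y) π
  have hlip1 := spcF_lip (spcG1 δ) (fun y => (SignType.sign y : ℝ) / δ)
    (fun x y => spcG1_subgradient hδ x y) hc0 (fun y => spc_sign_div_abs_le hδ y) π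
  have hconv2 := spcF_convex (spcG2 δ) (fun y => if δ < |y| then (SignType.sign y : ℝ) / δ else 0)
    (fun x y => spcG2_subgradient hδ x y) π
  have hlip2 := spcF_lip (spcG2 δ) (fun y => if δ < |y| then (SignType.sign y : ℝ) / δ else 0)
    (fun x y => spcG2_subgradient hδ x y) hc0
    (fun y => by
      split_ifs
      · exact spc_sign_div_abs_le hδ y
      · simpa using hc0) π
  have hlow := tal_lower hP (C := Set.univ) (fun s => Set.mem_univ _) hconv1 hLpos
    (fun x _ y _ => hlip1 x y) ht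
  have hup := tal_upper hP (C := Set.univ) (fun s => Set.mem_univ _) hconv2 hLpos
    (fun x _ y _ => hlip2 x y) ht
  rw [hexp] at hlow hup
  simp only [spcF_bitVec] at hlow hup
  have hE : exq π (fun s => spcTr (spcTent δ) (spcY π s))
      = m - exq π (fun s => spcTr (spcG1 δ) (spcY π s)) + exq π (fun s => spcTr (spcG2 δ) (spcY π s)) := by
    have : (fun s => spcTr (spcTent δ) (spcY π s))
        = fun s => ((m : ℝ) - spcTr (spcG1 δ) (spcY π s)) + spcTr (spcG2 δ) (spcY π s) := by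
      funext s; exact spcTr_tent_eq δ (spcY_isSymm π s)
    rw [this, spc_exq_add, spc_exq_sub, spc_exq_const]
  have hsub : {s | exq π (fun s => spcTr (spcTent δ) (spcY π s)) + 2 * t < spcTr (spcTent δ) (spcY π s)}
      ⊆ {s | spcTr (spcG1 δ) (spcY π s) ≤ exq π (fun s => spcTr (spcG1 δ) (spcY π s)) - t}
        ∪ {s | exq π (fun s => spcTr (spcG2 δ) (spcY π s)) + t ≤ spcTr (spcG2 δ) (spcY π s)} := by
    intro s hs
    have hs' : exq π (fun s => spcTr (spcTent δ) (spcY π s)) + 2 * t < spcTr (spcTent δ) (spcY π s) := hs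
    rw [hE, spcTr_tent_eq δ (spcY_isSymm π s)] at hs'
    by_contra hcon
    rw [Set.mem_union, not_or] at hcon
    have h1 : ¬ (spcTr (spcG1 δ) (spcY π s) ≤ exq π (fun s => spcTr (spcG1 δ) (spcY π s)) - t) := hcon.1
    have h2 : ¬ (exq π (fun s => spcTr (spcG2 δ) (spcY π s)) + t ≤ spcTr (spcG2 δ) (spcY π s)) := hcon.2
    rw [not_le] at h1 h2
    linarith
  refine (spc_prb_mono hP hsub).trans ((spc_prb_union_le hP _ _).trans ?_)
  linarith

/-! ### Deterministic passage to subspaces -/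

theorem spc_count_le_tent {δ : ℝ} (hδ : 0 < δ) {Y : Matrix (Fin m) (Fin m) ℝ} (hY : Y.IsHermitian) :
    ((univ.filter fun i => |hY.eigenvalues i| ≤ δ / 2).card : ℝ) ≤ 2 * spcTr (spcTent δ) Y := by
  rw [spcTr_of_isHermitian _ hY]
  have h1 : ∑ i ∈ univ.filter (fun i => |hY.eigenvalues i| ≤ δ / 2), (1 / 2 : ℝ)
      ≤ ∑ i ∈ univ.filter (fun i => |hY.eigenvalues i| ≤ δ / 2), spcTent δ (hY.eigenvalues i) := by
    apply Finset.sum_le_sum
    intro i hi
    exact spcTent_ge_half hδ (Finset.mem_filter.mp hi).2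
  have h2 : ∑ i ∈ univ.filter (fun i => |hY.eigenvalues i| ≤ δ / 2), spcTent δ (hY.eigenvalues i)
      ≤ ∑ i, spcTent δ (hY.eigenvalues i) :=
    Finset.sum_le_sum_of_subset_of_nonneg (Finset.filter_subset _ _)
      (fun i _ _ => spcTent_nonneg δ _)
  rw [Finset.sum_const, nsmul_eq_mul] at h1
  linarith

/-- If the tent trace of the centred matrix is at most `c`, every subspace on which `|B v| ≤ (δ/2)|v|` has
dimension at most `2c + rank (E B)`. -/
theorem spc_finrank_le_of_tent {π : Sym2 (Fin m) → ℝ} (s : Sym2 (Fin m) → Bool) {δ c : ℝ} (hδ : 0 < δ)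
    (hc : spcTr (spcTent δ) (spcY π s) ≤ c) (V : Submodule ℝ (Fin m → ℝ))
    (hV : ∀ v ∈ V, ∑ i, ((toR (bitMat s)).mulVec v i) ^ 2 ≤ (δ / 2) ^ 2 * ∑ i, (v i) ^ 2) :
    (Module.finrank ℝ V : ℝ) ≤ 2 * c + (meanMat π).rank := by
  have hH := spc_herm (spcY_isSymm π s)
  set V' := V ⊓ LinearMap.ker (meanMat π).mulVecLin with hV'
  have h1 := spc_finrank_inf_ker (meanMat π) V
  have h2 : Module.finrank ℝ V' ≤ (univ.filter fun i => |hH.eigenvalues i| ≤ δ / 2).card := by
    apply spc_finrank_le_count hH (by positivity) V'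
    intro v hv
    have hvV : v ∈ V := hv.1
    have hvK : (meanMat π).mulVec v = 0 := by
      have : v ∈ LinearMap.ker (meanMat π).mulVecLin := hv.2
      rwa [LinearMap.mem_ker, Matrix.mulVecLin_apply] at this
    have e : (spcY π s).mulVec v = (toR (bitMat s)).mulVec v := by
      rw [spcY_eq, Matrix.sub_mulVec, hvK, sub_zero]
    rw [e]
    exact hV v hvV
  have h3 := spc_count_le_tent hδ hH
  have h4 : (Module.finrank ℝ V : ℝ) ≤ (Module.finrank ℝ V' : ℝ) + (meanMat π).rank := by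
    exact_mod_cast h1
  have h5 : (Module.finrank ℝ V' : ℝ) ≤ ((univ.filter fun i => |hH.eigenvalues i| ≤ δ / 2).card : ℝ) := by
    exact_mod_cast h2
  linarith

end Claimed.Agent.R293
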