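/-
R293 / SpcMain.lean (owner helper202).  Package SPC, final assembly: paper B, Proposition 5.10
(`StSmallSpectrum p` for every `0 < p < 1`).
-/
import Claimed.Agent.R293.SpcConc

set_option autoImplicit false

namespace Claimed.Agent.R293

open Finset Matrix Filter

/-- in the reference range `m ≥ N/2` as soon as `N ≥ 16`. -/
theorem spc_inRange_half {N m : ℕ} (hN : 16 ≤ N) (h : InRange N m) : (N : ℝ) / 2 ≤ m := by
  have hN' : (16 : ℝ) ≤ N := by exact_mod_cast hN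
  have hNpos : (0 : ℝ) < N := by linarith
  have h1 : (2 : ℝ) ≤ (N : ℝ) ^ ((3 : ℝ) / 10) := by
    have h16 : (2 : ℝ) ≤ (16 : ℝ) ^ ((3 : ℝ) / 10) := by
      have e : (16 : ℝ) = 2 ^ (4 : ℝ) := by norm_num
      rw [e, ← Real.rpow_mul (by norm_num)]
      calc (2 : ℝ) = 2 ^ (1 : ℝ) := (Real.rpow_one 2).symm
        _ ≤ 2 ^ ((4 : ℝ) * (3 / 10)) := Real.rpow_le_rpow_of_exponent_le (by norm_num) (by norm_num)
    exact h16.trans (Real.rpow_le_rpow (by norm_num) hN' (by norm_num))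
  have h2 : (N : ℝ) ^ ((7 : ℝ) / 10) * (N : ℝ) ^ ((3 : ℝ) / 10) = N := by
    rw [← Real.rpow_add hNpos]; norm_num
  have h3 : 0 ≤ (N : ℝ) ^ ((7 : ℝ) / 10) := Real.rpow_nonneg hNpos.le _
  have h4 : (N : ℝ) ^ ((7 : ℝ) / 10) * 2 ≤ N := by
    calc _ ≤ (N : ℝ) ^ ((7 : ℝ) / 10) * (N : ℝ) ^ ((3 : ℝ) / 10) := mul_le_mul_of_nonneg_left h1 h3
      _ = N := h2
  have := h.1
  linarith

/-- the bound on the expectation of the tent trace, `δ = w₀ √m`, `w₀ = ξ σ²/32`. -/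
theorem spc_exp_tent_le {m : ℕ} {p : ℝ} (hp0 : 0 < p) (hp1 : p < 1) {π : Sym2 (Fin m) → ℝ}
    (hπ : BitModel p π) {ξ : ℝ} (hξ : 0 < ξ) (hm : 0 < m)
    (hm1 : p * (1 - p) ≤ (ξ * (p * (1 - p)) / 32) ^ 2 * m)
    (hm2 : 1 ≤ (ξ * (p * (1 - p)) / 32) ^ 2 * Real.sqrt m) :
    exq π (fun s => spcTr (spcTent (ξ * (p * (1 - p)) / 32 * Real.sqrt m)) (spcY π s)) ≤ ξ * m / 8 := by
  have hP := spc_bitModel_prob hp0 hp1 hπ
  set σ2 := p * (1 - p) with hσ2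
  have hσpos : 0 < σ2 := mul_pos hp0 (by linarith)
  have hσle : σ2 ≤ 1 := by rw [hσ2]; nlinarith
  set w0 := ξ * σ2 / 32 with hw0
  have hw0pos : 0 < w0 := by positivity
  have hmR : (0 : ℝ) < m := by exact_mod_cast hm
  set r := Real.sqrt m with hr
  have hrpos : 0 < r := Real.sqrt_pos.mpr hmR
  have hr2 : r ^ 2 = m := Real.sq_sqrt hmR.le
  set δ := w0 * r with hδ
  have hδpos : 0 < δ := by positivity
  have hδ2 : δ ^ 2 = w0 ^ 2 * m := by rw [hδ, mul_pow, hr2]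
  have h1 := spc_exp_trace hp0 hp1 hπ hδpos (by rw [hδ2]; exact hm1)
  have h2 := spc_exp_tent hP hδpos (m := m)
  set ET := exq π (fun s => (spcRes δ (spcY π s)).trace) with hET
  -- bound of the right-hand side
  have h3 : (m : ℝ) / δ ^ 2 + 1 / δ ^ 2 * (m * (r / δ ^ 2)) ≤ 2 / w0 ^ 2 := by
    rw [hδ2]
    have e1 : (m : ℝ) / (w0 ^ 2 * m) = 1 / w0 ^ 2 := by field_simp
    have e2 : 1 / (w0 ^ 2 * m) * (m * (r / (w0 ^ 2 * m))) = 1 / w0 ^ 2 * (1 / (w0 ^ 2 * r)) := by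
      rw [← hr2]; field_simp
    rw [e1, e2]
    have h4 : 1 / (w0 ^ 2 * r) ≤ 1 := by
      rw [div_le_one (by positivity)]; exact hm2
    have h5 : 0 ≤ 1 / w0 ^ 2 := by positivity
    have := mul_le_mul_of_nonneg_left h4 h5
    have e3 : 2 / w0 ^ 2 = 1 / w0 ^ 2 + 1 / w0 ^ 2 * 1 := by ring
    rw [e3]; linarith
  have h6 : σ2 * ET ^ 2 ≤ 2 / w0 ^ 2 := h1.trans h3
  -- square of the bound
  have h7 : (2 * δ ^ 2 * ET) ^ 2 ≤ (ξ * m / 8) ^ 2 := by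
    have e4 : (2 * δ ^ 2 * ET) ^ 2 = 4 * (w0 ^ 2 * m) ^ 2 / σ2 * (σ2 * ET ^ 2) := by
      rw [hδ2]; field_simp; ring
    rw [e4]
    have h8 : 0 ≤ 4 * (w0 ^ 2 * m) ^ 2 / σ2 := by positivity
    refine (mul_le_mul_of_nonneg_left h6 h8).trans ?_
    have e5 : 4 * (w0 ^ 2 * m) ^ 2 / σ2 * (2 / w0 ^ 2) = 8 * w0 ^ 2 / σ2 * (m : ℝ) ^ 2 := by
      field_simp; ring
    rw [e5]
    have e6 : 8 * w0 ^ 2 / σ2 = ξ ^ 2 * σ2 / 128 := by
      rw [hw0]; field_simp; ring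
    rw [e6]
    have h9 : ξ ^ 2 * σ2 / 128 ≤ ξ ^ 2 / 64 := by
      have h91 : ξ ^ 2 * σ2 ≤ ξ ^ 2 * 1 := mul_le_mul_of_nonneg_left hσle (by positivity)
      have h92 : 0 ≤ ξ ^ 2 := by positivity
      linarith
    have h10 : (0 : ℝ) ≤ (m : ℝ) ^ 2 := by positivity
    calc ξ ^ 2 * σ2 / 128 * (m : ℝ) ^ 2 ≤ ξ ^ 2 / 64 * (m : ℝ) ^ 2 := mul_le_mul_of_nonneg_right h9 h10
      _ = (ξ * m / 8) ^ 2 := by ring
  have h11 := (abs_le_of_sq_le_sq' h7 (by positivity)).2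
  exact h2.trans h11

/-- the estimate for fixed `N`, `m`, `π`. -/
theorem spc_fixed {N m : ℕ} {p : ℝ} (hp0 : 0 < p) (hp1 : p < 1) {π : Sym2 (Fin m) → ℝ}
    (hπ : BitModel p π) {ξ : ℝ} (hξ : 0 < ξ) (hm : 0 < m)
    (hm1 : p * (1 - p) ≤ (ξ * (p * (1 - p)) / 32) ^ 2 * m)
    (hm2 : 1 ≤ (ξ * (p * (1 - p)) / 32) ^ 2 * Real.sqrt m)
    (hmN : m ≤ N) (hN4 : (N : ℝ) ≤ 4 * m) (hNξ : 4 ≤ ξ * N) :
    prb π {s | (bitMat s).det ≠ 0 ∧ ¬ SmallSpec (ξ * (p * (1 - p)) / 32 / 4) ξ N m (bitMat s)}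
      ≤ 2 * Real.exp (-(ξ ^ 2 * (ξ * (p * (1 - p)) / 32) ^ 2 * (m : ℝ) ^ 2 / 2048)) := by
  have hP := spc_bitModel_prob hp0 hp1 hπ
  have hE := spc_exp_tent_le hp0 hp1 hπ hξ hm hm1 hm2
  set w0 := ξ * (p * (1 - p)) / 32 with hw0
  have hw0pos : 0 < w0 := by
    have : 0 < p * (1 - p) := mul_pos hp0 (by linarith)
    positivity
  have hmR : (0 : ℝ) < m := by exact_mod_cast hm
  set r := Real.sqrt m with hr
  have hrpos : 0 < r := Real.sqrt_pos.mpr hmR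
  have hr2 : r ^ 2 = m := Real.sq_sqrt hmR.le
  set δ := w0 * r with hδ
  have hδpos : 0 < δ := by positivity
  have hδ2 : δ ^ 2 = w0 ^ 2 * m := by rw [hδ, mul_pow, hr2]
  have ht : (0 : ℝ) ≤ ξ * m / 16 := by positivity
  have hconc := spc_tent_conc hP hδpos hm ht
  have hexp : (ξ * m / 16) ^ 2 * δ ^ 2 / (8 * m) = ξ ^ 2 * w0 ^ 2 * (m : ℝ) ^ 2 / 2048 := by
    rw [hδ2]; field_simp; ring
  rw [hexp] at hconc
  refine (spc_prb_mono hP ?_).trans hconc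
  intro s hs
  by_contra hcon
  have hcon' : ¬ (exq π (fun s => spcTr (spcTent δ) (spcY π s)) + 2 * (ξ * m / 16)
      < spcTr (spcTent δ) (spcY π s)) := hcon
  rw [not_lt] at hcon'
  apply hs.2
  intro V hV
  have hc : spcTr (spcTent δ) (spcY π s) ≤ ξ * m / 4 := by linarith
  have hV' : ∀ v ∈ V, ∑ i, ((toR (bitMat s)).mulVec v i) ^ 2 ≤ (δ / 2) ^ 2 * ∑ i, (v i) ^ 2 := by
    intro v hv
    refine (hV v hv).trans ?_
    apply mul_le_mul_of_nonneg_right _ (Finset.sum_nonneg fun i _ => sq_nonneg _)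
    have e1 : (δ / 2) ^ 2 = w0 ^ 2 * m / 4 := by rw [div_pow, hδ2]; norm_num
    have e2 : (w0 / 4) ^ 2 * N = w0 ^ 2 * N / 16 := by ring
    rw [e1, e2]
    have : w0 ^ 2 * N ≤ w0 ^ 2 * (4 * m) := mul_le_mul_of_nonneg_left hN4 (by positivity)
    linarith
  have h1 := spc_finrank_le_of_tent s hδpos hc V hV'
  have h2 : ((meanMat π).rank : ℝ) ≤ 2 := by exact_mod_cast hπ.rank_le
  have h3 : (m : ℝ) ≤ N := by exact_mod_cast hmN
  have h4 : ξ * m ≤ ξ * N := mul_le_mul_of_nonneg_left h3 hξ.le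
  linarith

/-- **Paper B, Proposition 5.10** (small-spectrum bound). -/
theorem spc_smallSpectrum {p : ℝ} (hp0 : 0 < p) (hp1 : p < 1) : StSmallSpectrum p := by
  intro ξ hξ
  have hσpos : 0 < p * (1 - p) := mul_pos hp0 (by linarith)
  set w0 := ξ * (p * (1 - p)) / 32 with hw0
  have hw0pos : 0 < w0 := by positivity
  refine ⟨w0 / 4, by positivity, ?_⟩
  intro A
  set c0 := ξ ^ 2 * w0 ^ 2 / 8192 with hc0
  have hc0pos : 0 < c0 := by positivity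
  -- thresholds
  have hev : ∀ᶠ N : ℕ in atTop, (16 : ℝ) ≤ N ∧ 2 * (p * (1 - p)) / w0 ^ 2 ≤ N ∧
      2 * (1 / w0 ^ 2) ^ 2 ≤ N ∧ 4 / ξ ≤ N ∧ (|A| + 1) / c0 ≤ N := by
    have h := fun c : ℝ => (tendsto_natCast_atTop_atTop (R := ℝ)).eventually_ge_atTop c
    filter_upwards [h 16, h (2 * (p * (1 - p)) / w0 ^ 2), h (2 * (1 / w0 ^ 2) ^ 2), h (4 / ξ),
      h ((|A| + 1) / c0)] with N h1 h2 h3 h4 h5
    exact ⟨h1, h2, h3, h4, h5⟩
  filter_upwards [hev] with N hN m hm π hπ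
  obtain ⟨h16, hN1, hN2, hN3, hN4⟩ := hN
  have h16' : 16 ≤ N := by exact_mod_cast h16
  have hhalf := spc_inRange_half h16' hm
  have hNpos : (0 : ℝ) < N := by linarith
  have hmR : (0 : ℝ) < m := by linarith
  have hmpos : 0 < m := by exact_mod_cast hmR
  have hm1 : p * (1 - p) ≤ w0 ^ 2 * m := by
    rw [div_le_iff₀ (by positivity)] at hN1
    nlinarith [sq_nonneg w0]
  have hm2 : 1 ≤ w0 ^ 2 * Real.sqrt m := by
    have h1 : (1 / w0 ^ 2) ^ 2 ≤ m := by linarith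
    have h2 : 1 / w0 ^ 2 ≤ Real.sqrt m := Real.le_sqrt_of_sq_le h1
    rw [div_le_iff₀ (by positivity)] at h2
    linarith
  have hNξ : 4 ≤ ξ * N := by
    rw [div_le_iff₀ hξ] at hN3; linarith
  have hfix := spc_fixed hp0 hp1 hπ hξ hmpos hm1 hm2 hm.2 (by linarith) hNξ
  rw [← hw0] at hfix
  refine hfix.trans ?_
  -- numerical comparison
  have hlog2 : Real.log 2 ≤ 1 := by
    have := Real.log_two_lt_d9; linarith
  have hlog2pos : 0 < Real.log 2 := Real.log_pos (by norm_num)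
  have e1 : (2 : ℝ) ^ (-(A * N)) = Real.exp (-(A * N) * Real.log 2) := by
    rw [Real.rpow_def_of_pos (by norm_num)]; ring_nf
  have e2 : (2 : ℝ) = Real.exp (Real.log 2) := (Real.exp_log (by norm_num)).symm
  rw [e1]
  conv_lhs => rw [e2]
  rw [← Real.exp_add, Real.exp_le_exp]
  have h5 : c0 * (N : ℝ) ^ 2 ≤ ξ ^ 2 * w0 ^ 2 * (m : ℝ) ^ 2 / 2048 := by
    have h6 : ((N : ℝ) / 2) ^ 2 ≤ (m : ℝ) ^ 2 := pow_le_pow_left₀ (by positivity) hhalf 2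
    have h7 : 0 ≤ ξ ^ 2 * w0 ^ 2 / 2048 := by positivity
    have := mul_le_mul_of_nonneg_left h6 h7
    rw [hc0]
    calc ξ ^ 2 * w0 ^ 2 / 8192 * (N : ℝ) ^ 2 = ξ ^ 2 * w0 ^ 2 / 2048 * ((N : ℝ) / 2) ^ 2 := by ring
      _ ≤ ξ ^ 2 * w0 ^ 2 / 2048 * (m : ℝ) ^ 2 := this
      _ = _ := by ring
  have h8 : (|A| + 1) * N ≤ c0 * (N : ℝ) ^ 2 := by
    rw [div_le_iff₀ hc0pos] at hN4
    have := mul_le_mul_of_nonneg_right hN4 hNpos.le
    calc (|A| + 1) * N ≤ N * c0 * N := this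
      _ = c0 * (N : ℝ) ^ 2 := by ring
  have h9 : A * N * Real.log 2 ≤ |A| * N := by
    have h10 : A * N ≤ |A| * N := mul_le_mul_of_nonneg_right (le_abs_self A) hNpos.le
    have h11 : 0 ≤ |A| * N := by positivity
    calc A * N * Real.log 2 ≤ |A| * N * Real.log 2 := mul_le_mul_of_nonneg_right h10 hlog2pos.le
      _ ≤ |A| * N * 1 := mul_le_mul_of_nonneg_left hlog2 h11
      _ = |A| * N := mul_one _
  have h12 : (1 : ℝ) ≤ N := by linarith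
  have h13 : (|A| + 1) * N = |A| * N + N := by ring
  have h14 : -(A * N) * Real.log 2 = -(A * N * Real.log 2) := by ring
  rw [h14]
  linarith

end Claimed.Agent.R293
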