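/-
R293 / PairFinal.lean  (owner: helper205).  PAIR IS CLOSED: all leaves of `PairLeaves.lean` are theorems, and
**B Proposition 5.1** (`StStatic`) follows from the two outputs of DISC (`StColoring`, `StPairDet`); every other input
(RM, LAT, COV, INT, SPC, PATH-ALG) is discharged here.  No sorry.
-/
import Claimed.Agent.R293.PairMain
import Claimed.Agent.R293.PairLat
import Claimed.Agent.R293.PairReal
import Claimed.Agent.R293.PairLayerBit
import Claimed.Agent.R293.PairHeightTwo
import Claimed.Agent.R293.PairCB
import Claimed.Agent.R293.PairSpecGram
import Claimed.Agent.R293.PairSetup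
import Claimed.Agent.R293.PairDiffSpan
import Claimed.Agent.R293.PairLatBound
import Claimed.Agent.R293.PairRadRank
import Claimed.Agent.R293.PairClass
import Claimed.Agent.R293.PairNullStab
import Claimed.Agent.R293.PairPerp
import Claimed.Agent.R293.CrkBlock
import Claimed.Agent.R293.PairCoordBasis
import Claimed.Agent.R293.PairFixed
import Claimed.Agent.R293.PairInvRank
import Claimed.Agent.R293.CovUncond
import Claimed.Agent.R293.IntMain
import Claimed.Agent.R293.SpcMain
import Claimed.Agent.R293.PathLayer
import Claimed.Agent.R293.PathIndex

set_option autoImplicit false

namespace Claimed.Agent.R293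

theorem pair_leavesOK : PairLeavesOK where
  scale := pair_scale
  layerBit := pair_layerBit
  costAbs := pair_costAbs
  heightTwo := pair_heightTwo
  cb := pair_cb
  wgram := pair_wgram
  specGram := pair_specGram
  setup := pair_setup
  diffSpan := pair_diffSpan
  latBound := pair_latBound
  radRank := pair_radRank
  rankCast := pair_rankCast
  cls := pair_class
  arith := pair_arith
  nullStab := pair_nullStab
  perpDist := pair_perpDist
  dualRad := pair_dualRad
  crkBlock := crk_block
  coordBasis := pair_coordBasis
  fixed := pair_fixed
  invRank := pair_invRank

/-- **B Theorem 4.1**, unconditional. -/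
theorem pair_smallInt_final : StSmallInt := int_main rm_ball_final rmTau_ok cov_cover_final

/-- **B Proposition 5.1** from the two outputs of DISC. -/
theorem pair_static_of_disc (hCol : StColoring) (hPD : StPairDet) : StStatic :=
  pair_main pair_leavesOK hCol hPD pair_robustImage_final pair_robustHeight_final cov_cover_final
    pair_smallInt_final (fun _ hp0 hp => spc_smallSpectrum hp0 (by linarith))
    path_layerTotal path_layerSupport path_indexDet path_hadamardBit

end Claimed.Agent.R293
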