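/-
R293 / PathCount.lean  (owner: helper296).  Leaf PATH-A9: `path_count : StPathCount`.
A permutation of `Fin m` which is increasing on the first `m - M` positions is determined by its values on the last `M`
positions.
-/
import Claimed.Agent.R293.PathIface

set_option autoImplicit false

namespace Claimed.Agent.R293

theorem pathc_not_lt {m M : ℕ} {σ τ : Equiv.Perm (Fin m)} (hτ : τ ∈ pathPerms m M)
    (h : ∀ j : Fin m, m ≤ (j : ℕ) + M → σ j = τ j) (j : Fin m)
    (ih : ∀ i : Fin m, i < j → σ i = τ i) : ¬ σ j < τ j := by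
  intro hlt
  have hi : τ (τ.symm (σ j)) = σ j := τ.apply_symm_apply _
  set i := τ.symm (σ j) with hidef
  rcases lt_trichotomy i j with hij | hij | hij
  · have h1 : σ i = σ j := by rw [ih i hij, hi]
    exact absurd (σ.injective h1) hij.ne
  · rw [hij] at hi
    exact absurd hi hlt.ne'
  · by_cases hiM : (i : ℕ) + M < m
    · have h1 := hτ j i hij hiM
      rw [hi] at h1
      exact lt_asymm hlt h1
    · have h1 : σ i = σ j := by rw [h i (not_lt.1 hiM), hi]
      exact absurd (σ.injective h1) hij.ne'

/-- two path permutations which agree on the last `M` positions are equal -/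
theorem pathc_eq_of_agree {m M : ℕ} {σ τ : Equiv.Perm (Fin m)} (hσ : σ ∈ pathPerms m M)
    (hτ : τ ∈ pathPerms m M) (h : ∀ j : Fin m, m ≤ (j : ℕ) + M → σ j = τ j) : σ = τ := by
  have key : ∀ (n : ℕ) (j : Fin m), (j : ℕ) = n → σ j = τ j := by
    intro n
    induction n using Nat.strong_induction_on with
    | _ n ih =>
      intro j hj
      have ih' : ∀ i : Fin m, i < j → σ i = τ i := fun i hij =>
        ih i (by rw [← hj]; exact hij) i rfl
      have h1 := pathc_not_lt hτ h j ih'
      have h2 := pathc_not_lt hσ (fun j hj => (h j hj).symm) j (fun i hi => (ih' i hi).symm)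
      exact le_antisymm (not_lt.1 h2) (not_lt.1 h1)
  exact Equiv.ext fun j => key j j rfl

theorem path_count : StPathCount := by
  intro m M hm
  classical
  let Ψ : Equiv.Perm (Fin m) → (Fin M → Fin m) := fun σ t =>
    if h : (t : ℕ) < m then σ ⟨m - 1 - t, by omega⟩ else ⟨0, hm⟩
  have hcard : Fintype.card (Fin M → Fin m) = m ^ M := by simp
  rw [← hcard, ← Finset.card_univ]
  refine Finset.card_le_card_of_injOn Ψ (fun _ _ => Finset.mem_univ _) ?_
  intro σ hσ τ hτ hΨ
  have hσ' : σ ∈ pathPerms m M := (Finset.mem_filter.1 hσ).2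
  have hτ' : τ ∈ pathPerms m M := (Finset.mem_filter.1 hτ).2
  refine pathc_eq_of_agree hσ' hτ' fun j hj => ?_
  have hjm := j.2
  have ht : m - 1 - (j : ℕ) < M := by omega
  have h1 := congrFun hΨ ⟨m - 1 - (j : ℕ), ht⟩
  have h2 : m - 1 - (j : ℕ) < m := by omega
  simp only [Ψ, h2, dif_pos] at h1
  have h3 : (⟨m - 1 - (m - 1 - (j : ℕ)), by omega⟩ : Fin m) = j := by
    apply Fin.ext
    simp only
    omega
  rwa [h3] at h1

end Claimed.Agent.R293
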