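/-
R293 / PathDissoc.lean (owner: helper96).  Leaf PATH-C1: dissociation and a lattice constraint
(paper B, Lemma 6.4).
-/
import Claimed.Agent.R293.PathLayer
import Claimed.Agent.R293.LatGram
import Claimed.Agent.R293.ProbMarg

set_option autoImplicit false

namespace Claimed.Agent.R293

open scoped BigOperators

/-- if `det (A X) ≠ 0` then some maximal minor of `A` does not vanish. -/
theorem pathz_exists_minor {j k : ℕ} (A : Matrix (Fin j) (Fin k) ℤ) (X : Matrix (Fin k) (Fin j) ℤ)
    (h : (A * X).det ≠ 0) : ∃ τ : Fin j → Fin k, (A.submatrix id τ).det ≠ 0 := by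
  by_contra hcon
  push Not at hcon
  apply h
  rw [← Matrix.det_transpose, Matrix.transpose_mul]
  have e1 : (X.transpose * A.transpose)
      = fun t => ∑ a, X a t • A.transpose a := by
    funext t b
    simp [Matrix.mul_apply, Finset.sum_apply]
  change Matrix.detRowAlternating (X.transpose * A.transpose) = 0
  rw [e1]
  have e2 := (Matrix.detRowAlternating (n := Fin j) (R := ℤ)).toMultilinearMap.map_sum
    (fun (t : Fin j) (a : Fin k) => X a t • A.transpose a)
  rw [AlternatingMap.coe_multilinearMap] at e2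
  rw [e2]
  refine Finset.sum_eq_zero fun r _ => ?_
  have e3 := (Matrix.detRowAlternating (n := Fin j) (R := ℤ)).toMultilinearMap.map_smul_univ
    (fun t => X (r t) t) (fun t => A.transpose (r t))
  rw [AlternatingMap.coe_multilinearMap] at e3
  rw [e3]
  have e4 : (Matrix.detRowAlternating (n := Fin j) (R := ℤ)) (fun t => A.transpose (r t))
      = (A.submatrix id r).det := by
    rw [← Matrix.det_transpose]
    rfl
  rw [e4, hcon r, smul_zero]

/-- Hadamard's inequality for an integer matrix with bounded entries. -/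
theorem pathz_hadamard {j : ℕ} (D : Matrix (Fin j) (Fin j) ℤ) (N : ℕ) (h : ∀ a b, |D a b| ≤ N) :
    ((D.det.natAbs : ℝ)) ^ 2 ≤ ((j : ℝ) * (N : ℝ) ^ 2) ^ j := by
  let c : Fin j → EuclideanSpace ℝ (Fin j) := fun b => WithLp.toLp 2 (fun a => (D a b : ℝ))
  have h1 := lat_gramDet_le_prod c
  have e1 : gramDet c = ((D.det.natAbs : ℝ)) ^ 2 := by
    have hg : Matrix.gram ℝ c = (D.map (Int.cast : ℤ → ℝ)).transpose * D.map (Int.cast : ℤ → ℝ) := by
      ext b b'
      simp only [Matrix.gram_apply, c, PiLp.inner_apply, Matrix.mul_apply, Matrix.transpose_apply,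
        Matrix.map_apply, RCLike.inner_apply, conj_trivial]
      exact Finset.sum_congr rfl fun a _ => mul_comm _ _
    have hd : (D.map (Int.cast : ℤ → ℝ)).det = (D.det : ℝ) := by
      have := (Int.castRingHom ℝ).map_det D
      simpa [RingHom.mapMatrix_apply] using this.symm
    rw [gramDet, hg, Matrix.det_mul, Matrix.det_transpose, hd, Nat.cast_natAbs, Int.cast_abs, sq_abs,
      sq]
  rw [e1] at h1
  refine h1.trans ?_
  have h2 : ∀ b, ‖c b‖ ^ 2 ≤ (j : ℝ) * (N : ℝ) ^ 2 := by
    intro b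
    rw [EuclideanSpace.real_norm_sq_eq]
    calc ∑ a, ((D a b : ℤ) : ℝ) ^ 2 ≤ ∑ _a : Fin j, (N : ℝ) ^ 2 := by
          refine Finset.sum_le_sum fun a _ => ?_
          have : |((D a b : ℤ) : ℝ)| ≤ (N : ℝ) := by exact_mod_cast h a b
          exact sq_le_sq' (by linarith [abs_le.mp this]) (abs_le.mp this).2
      _ = (j : ℝ) * (N : ℝ) ^ 2 := by simp
  calc ∏ i, ‖c i‖ ^ 2 ≤ ∏ _i : Fin j, ((j : ℝ) * (N : ℝ) ^ 2) :=
        Finset.prod_le_prod (fun i _ => by positivity) fun i _ => h2 i
    _ = ((j : ℝ) * (N : ℝ) ^ 2) ^ j := by simp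

/-- `K` contains no nonzero vector with entries in `{-1,0,1}` supported in `J`
(the coordinate images `g_i`, `i ∈ J`, in `ℤ^k/K` are dissociated). -/
def pathzDis {k : ℕ} (K : AddSubgroup (Fin k → ℤ)) (J : Finset (Fin k)) : Prop :=
  ∀ c : Fin k → ℤ, (∀ i, |c i| ≤ 1) → (∀ i, i ∉ J → c i = 0) → c ∈ K → c = 0

theorem pathz_exists_max {k : ℕ} (K : AddSubgroup (Fin k → ℤ)) :
    ∃ J : Finset (Fin k), pathzDis K J ∧ ∀ i, i ∉ J → ¬ pathzDis K (insert i J) := by
  classical
  have hne : (Finset.univ.filter (fun J : Finset (Fin k) => pathzDis K J)).Nonempty := by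
    refine ⟨∅, ?_⟩
    rw [Finset.mem_filter]
    refine ⟨Finset.mem_univ _, fun c _ h0 _ => ?_⟩
    funext i
    exact h0 i (Finset.notMem_empty i)
  obtain ⟨J, hJ, hmax⟩ := Finset.exists_max_image _ Finset.card hne
  refine ⟨J, (Finset.mem_filter.mp hJ).2, fun i hi hdis => ?_⟩
  have := hmax (insert i J) (Finset.mem_filter.mpr ⟨Finset.mem_univ _, hdis⟩)
  rw [Finset.card_insert_of_notMem hi] at this
  omega

theorem pathz_prb_le {k : ℕ} (K : AddSubgroup (Fin k → ℤ)) (J : Finset (Fin k))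
    (hJ : pathzDis K J) {b : ℝ} {ρ : Fin k → ℝ} (hρ : IsProbArray ρ)
    (hb : ∀ i, ρ i ≤ b ∧ 1 - ρ i ≤ b) :
    prb ρ {z | bitVecZ z ∈ K} ≤ b ^ J.card := by
  refine pb_prb_le_of_cond hρ (J : Set (Fin k)) _ fun s => ?_
  refine pb_prb_mix_le_pow hρ hb J _ s fun x x' hx hx' i hi => ?_
  have hc := hJ (bitVecZ (pbMix (J : Set (Fin k)) x s) - bitVecZ (pbMix (J : Set (Fin k)) x' s))
    ?_ ?_ (K.sub_mem hx hx')
  · have h1 := congrFun hc i
    have hi' : i ∈ (J : Set (Fin k)) := hi
    simp only [Pi.sub_apply, bitVecZ, pbMix_of_mem hi', Pi.zero_apply] at h1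
    cases hx1 : x i <;> cases hx2 : x' i <;> simp [hx1, hx2] at h1 ⊢
  · intro a
    simp only [Pi.sub_apply, bitVecZ]
    split_ifs <;> simp
  · intro a ha
    have ha' : a ∉ (J : Set (Fin k)) := ha
    simp only [Pi.sub_apply, bitVecZ, pbMix_of_notMem ha', sub_self]

theorem pathz_coeff {k : ℕ} (K : AddSubgroup (Fin k → ℤ)) (J : Finset (Fin k))
    (hJ : pathzDis K J) (hmax : ∀ i, i ∉ J → ¬ pathzDis K (insert i J)) (i : Fin k) :
    ∃ r : Fin k → ℤ, (∀ a, |r a| ≤ 1) ∧ (∀ a, a ∉ J → r a = 0) ∧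
      (Pi.single i 1 - r ∈ K) ∧ (i ∈ J → r = Pi.single i 1) := by
  by_cases hi : i ∈ J
  · refine ⟨Pi.single i 1, fun a => ?_, fun a ha => ?_, by simp [K.zero_mem], fun _ => rfl⟩
    · by_cases hai : a = i
      · subst hai; simp
      · simp [Pi.single_eq_of_ne hai]
    · have hai : a ≠ i := fun h => ha (h ▸ hi)
      exact Pi.single_eq_of_ne hai _
  · have h1 := hmax i hi
    unfold pathzDis at h1
    push Not at h1
    obtain ⟨c, hc1, hc2, hcK, hc0⟩ := h1
    have hci : c i ≠ 0 := by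
      intro h0
      apply hc0
      refine hJ c hc1 (fun a ha => ?_) hcK
      by_cases hai : a = i
      · rw [hai, h0]
      · exact hc2 a (by simp [hai, ha])
    have hci' : c i = 1 ∨ c i = -1 := by
      have := abs_le.mp (hc1 i)
      omega
    rcases hci' with h1 | h1
    · refine ⟨Pi.single i 1 - c, fun a => ?_, fun a ha => ?_, by simpa using hcK,
        fun h => absurd h hi⟩
      · by_cases hai : a = i
        · subst hai; simp [h1]
        · simpa [Pi.single_eq_of_ne hai] using hc1 a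
      · by_cases hai : a = i
        · subst hai; simp [h1]
        · simp [Pi.single_eq_of_ne hai, hc2 a (by simp [hai, ha])]
    · refine ⟨Pi.single i 1 + c, fun a => ?_, fun a ha => ?_, by simpa using hcK,
        fun h => absurd h hi⟩
      · by_cases hai : a = i
        · subst hai; simp [h1]
        · simpa [Pi.single_eq_of_ne hai] using hc1 a
      · by_cases hai : a = i
        · subst hai; simp [h1]
        · simp [Pi.single_eq_of_ne hai, hc2 a (by simp [hai, ha])]

theorem pathz_mem_colLat {k : ℕ} (C : Matrix (Fin k) (Fin k) ℤ) (y : Fin k → ℤ) :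
    C.mulVec y ∈ colLat C := by
  simp only [colLat, Submodule.mem_toAddSubgroup, LinearMap.mem_range]
  exact ⟨y, rfl⟩

theorem pathz_exists_of_mem_colLat {k : ℕ} {C : Matrix (Fin k) (Fin k) ℤ} {z : Fin k → ℤ}
    (hz : z ∈ colLat C) : ∃ y, C.mulVec y = z := by
  simp only [colLat, Submodule.mem_toAddSubgroup, LinearMap.mem_range] at hz
  exact hz

/-- the index of `K` is bounded through a maximal dissociated set. -/
theorem pathz_index_le (hIdx : StIndexDet) {N k : ℕ} (hkN : k ≤ N) (C : Matrix (Fin k) (Fin k) ℤ)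
    (hC : IsBitMatrix C) (hdet : C.det ≠ 0) (K : AddSubgroup (Fin k → ℤ)) (hCK : colLat C ≤ K)
    (J : Finset (Fin k)) (hJ : pathzDis K J) (hmax : ∀ i, i ∉ J → ¬ pathzDis K (insert i J)) :
    (K.index : ℝ) ^ 2 ≤ ((J.card : ℝ) * (N : ℝ) ^ 2) ^ J.card := by
  choose r hr1 hr2 hr3 hr4 using pathz_coeff K J hJ hmax
  let Rm : Matrix (Fin k) (Fin k) ℤ := Matrix.of fun a i => r i a
  have hR : ∀ x : Fin k → ℤ, x - Rm.mulVec x ∈ K := by
    intro x
    have e : x - Rm.mulVec x = ∑ i, x i • (Pi.single i 1 - r i) := by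
      funext a
      simp only [Pi.sub_apply, Matrix.mulVec, dotProduct, Rm, Matrix.of_apply, Finset.sum_apply,
        Pi.smul_apply, smul_eq_mul, mul_sub, Finset.sum_sub_distrib, Pi.single_apply]
      congr 1
      · simp
      · exact Finset.sum_congr rfl fun i _ => mul_comm _ _
    rw [e]
    exact K.sum_mem fun i _ => K.zsmul_mem (hr3 i) _
  have hRsupp : ∀ (x : Fin k → ℤ) (a : Fin k), a ∉ J → Rm.mulVec x a = 0 := by
    intro x a ha
    simp only [Matrix.mulVec, dotProduct, Rm, Matrix.of_apply, hr2 _ a ha, zero_mul,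
      Finset.sum_const_zero]
  set j := J.card with hj
  let σ : Fin j ↪o Fin k := J.orderEmbOfFin rfl
  have hσmem : ∀ t, σ t ∈ J := fun t => Finset.orderEmbOfFin_mem J rfl t
  have hσsurj : ∀ a ∈ J, ∃ t, σ t = a := by
    intro a ha
    have : a ∈ Set.range σ := by
      rw [Finset.range_orderEmbOfFin J rfl]
      exact ha
    exact this
  let Ext : Matrix (Fin k) (Fin j) ℤ := (1 : Matrix (Fin k) (Fin k) ℤ).submatrix id σ
  let ext : (Fin j → ℤ) →+ (Fin k → ℤ) := (Matrix.mulVecLin Ext).toAddMonoidHom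
  have hext_apply : ∀ w, ext w = Ext.mulVec w := fun w => rfl
  have hext : ∀ z : Fin k → ℤ, (∀ a, a ∉ J → z a = 0) → ext (z ∘ σ) = z := by
    intro z hz
    funext a
    rw [hext_apply]
    simp only [Matrix.mulVec, dotProduct, Ext, Matrix.submatrix_apply, id_eq, Function.comp_apply,
      Matrix.one_apply]
    by_cases ha : a ∈ J
    · obtain ⟨t0, rfl⟩ := hσsurj a ha
      rw [Finset.sum_eq_single t0]
      · simp
      · intro t _ ht
        have : σ t0 ≠ σ t := fun h => ht (σ.injective h).symm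
        simp [this]
      · intro h
        exact absurd (Finset.mem_univ _) h
    · rw [hz a ha]
      refine Finset.sum_eq_zero fun t _ => ?_
      have : a ≠ σ t := fun h => ha (h ▸ hσmem t)
      simp [this]
  have htop : ext.range ⊔ K = ⊤ := by
    rw [eq_top_iff]
    intro x _
    have e : x = ext ((Rm.mulVec x) ∘ σ) + (x - Rm.mulVec x) := by
      rw [hext _ (hRsupp x)]
      abel
    rw [e]
    exact AddSubgroup.add_mem_sup ⟨_, rfl⟩ (hR x)
  have hindex : (K.comap ext).index = K.index := by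
    rw [AddSubgroup.index_comap, ← AddSubgroup.relIndex_sup_right, htop,
      AddSubgroup.relIndex_top_right]
  -- the matrices
  let A : Matrix (Fin j) (Fin k) ℤ := (Rm * C).submatrix σ id
  let X : Matrix (Fin k) (Fin j) ℤ := (Matrix.adjugate C).submatrix id σ
  have hRσ : Rm.submatrix σ σ = 1 := by
    ext t u
    simp only [Matrix.submatrix_apply, Rm, Matrix.of_apply, hr4 _ (hσmem u), Pi.single_apply,
      Matrix.one_apply, σ.injective.eq_iff]
  have hAX : A * X = C.det • (1 : Matrix (Fin j) (Fin j) ℤ) := by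
    have e1 : A * X = (Rm * C * Matrix.adjugate C).submatrix σ σ :=
      (Matrix.submatrix_mul _ _ σ id σ Function.bijective_id).symm
    rw [e1, Matrix.mul_assoc, Matrix.mul_adjugate, Matrix.mul_smul, Matrix.mul_one, ← hRσ]
    rfl
  have hAXdet : (A * X).det ≠ 0 := by
    rw [hAX, Matrix.det_smul, Matrix.det_one, mul_one]
    exact pow_ne_zero _ hdet
  obtain ⟨τ, hτ⟩ := pathz_exists_minor A X hAXdet
  set D : Matrix (Fin j) (Fin j) ℤ := A.submatrix id τ with hD
  have hDK : colLat D ≤ K.comap ext := by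
    intro u hu
    obtain ⟨w, rfl⟩ := pathz_exists_of_mem_colLat hu
    rw [AddSubgroup.mem_comap]
    let y : Fin k → ℤ := ((1 : Matrix (Fin k) (Fin k) ℤ).submatrix id τ).mulVec w
    have e1 : D = A * (1 : Matrix (Fin k) (Fin k) ℤ).submatrix id τ := by
      have := Matrix.submatrix_mul (Rm * C) (1 : Matrix (Fin k) (Fin k) ℤ) σ id τ
        Function.bijective_id
      rw [Matrix.mul_one] at this
      exact this
    have e2 : D.mulVec w = ((Rm * C).mulVec y) ∘ σ := by
      rw [e1, ← Matrix.mulVec_mulVec]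
      rfl
    rw [e2, ← Matrix.mulVec_mulVec, hext _ (hRsupp _)]
    have hc : C.mulVec y ∈ K := hCK (pathz_mem_colLat C y)
    have e3 : Rm.mulVec (C.mulVec y) = C.mulVec y - (C.mulVec y - Rm.mulVec (C.mulVec y)) := by
      abel
    rw [e3]
    exact K.sub_mem hc (hR _)
  have hdvd : K.index ∣ D.det.natAbs := by
    rw [← hindex, ← hIdx j D]
    exact AddSubgroup.index_dvd_of_le hDK
  have hle : K.index ≤ D.det.natAbs :=
    Nat.le_of_dvd (Nat.pos_of_ne_zero (Int.natAbs_ne_zero.mpr hτ)) hdvd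
  have hentry : ∀ a b, |D a b| ≤ (N : ℤ) := by
    intro t u
    simp only [hD, A, Matrix.submatrix_apply, id_eq, Matrix.mul_apply, Rm, Matrix.of_apply]
    calc |∑ a, r a (σ t) * C a (τ u)| ≤ ∑ a, |r a (σ t) * C a (τ u)| :=
          Finset.abs_sum_le_sum_abs _ _
      _ ≤ ∑ _a : Fin k, (1 : ℤ) := by
          refine Finset.sum_le_sum fun a _ => ?_
          rw [abs_mul]
          have h1 := hr1 a (σ t)
          have h2 : |C a (τ u)| ≤ 1 := by
            rcases hC.2 a (τ u) with h | h <;> simp [h]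
          calc |r a (σ t)| * |C a (τ u)| ≤ 1 * 1 :=
                mul_le_mul h1 h2 (abs_nonneg _) (by norm_num)
            _ = 1 := by norm_num
      _ = (k : ℤ) := by simp
      _ ≤ (N : ℤ) := by exact_mod_cast hkN
  calc (K.index : ℝ) ^ 2 ≤ (D.det.natAbs : ℝ) ^ 2 := by
        have : (K.index : ℝ) ≤ (D.det.natAbs : ℝ) := by exact_mod_cast hle
        gcongr
    _ ≤ ((j : ℝ) * (N : ℝ) ^ 2) ^ j := pathz_hadamard D N hentry

/-- **B Lemma 6.4** (dissociation and a lattice constraint). -/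
theorem path_dissoc (hIdx : StIndexDet) : StDissoc := by
  intro N k hN hkN C hC hdet K hCK b ρ hρ hb hb1 q hq hidx
  obtain ⟨J, hJ, hmax⟩ := pathz_exists_max K
  have h1 := pathz_prb_le K J hJ hρ hb
  have h2 := pathz_index_le hIdx hkN C hC hdet K hCK J hJ hmax
  set j := J.card with hj
  have hjk : j ≤ k := by
    have := Finset.card_le_univ J
    simpa using this
  have hjN : j ≤ N := hjk.trans hkN
  have hN1 : (1 : ℝ) < N := by exact_mod_cast hN
  have hN0 : (0 : ℝ) < N := by linarith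
  have h3 : (N : ℝ) ^ (2 * q * N) ≤ (N : ℝ) ^ ((3 * j : ℕ) : ℝ) := by
    calc (N : ℝ) ^ (2 * q * N) = ((N : ℝ) ^ (q * N)) ^ 2 := by
          rw [← Real.rpow_natCast, ← Real.rpow_mul hN0.le]
          congr 1
          push_cast
          ring
      _ ≤ (K.index : ℝ) ^ 2 := by
          have : 0 ≤ (N : ℝ) ^ (q * N) := Real.rpow_nonneg hN0.le _
          gcongr
      _ ≤ ((j : ℝ) * (N : ℝ) ^ 2) ^ j := h2
      _ ≤ ((N : ℝ) * (N : ℝ) ^ 2) ^ j := by
          have : (j : ℝ) ≤ N := by exact_mod_cast hjN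
          gcongr
      _ = (N : ℝ) ^ ((3 * j : ℕ) : ℝ) := by
          rw [Real.rpow_natCast, pow_mul]
          congr 1
          ring
  have h4 : 2 * q * N ≤ ((3 * j : ℕ) : ℝ) := (Real.rpow_le_rpow_left_iff hN1).mp h3
  push_cast at h4
  rcases Nat.eq_zero_or_pos k with hk0 | hkpos
  · have hj0 : j = 0 := by omega
    rw [hj0] at h1 h4
    have h5 : 2 * q * N / 3 = 0 := by
      have : 0 ≤ 2 * q * N := by positivity
      have : 2 * q * N = 0 := by
        simp only [Nat.cast_zero, mul_zero] at h4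
        linarith
      rw [this, zero_div]
    rw [h5, Real.rpow_zero]
    simpa using h1
  · have hb0 : 0 < b := by
      have := hb ⟨0, hkpos⟩
      linarith [this.1, this.2]
    calc prb ρ {z | bitVecZ z ∈ K} ≤ b ^ j := h1
      _ = b ^ (j : ℝ) := (Real.rpow_natCast b j).symm
      _ ≤ b ^ (2 * q * N / 3) := Real.rpow_le_rpow_of_exponent_ge hb0 hb1 (by linarith)

end Claimed.Agent.R293
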