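/-
R293 / PathBasic.lean  (owner: helper144).  Basic API for the definitions of PathDefs.lean.  Prefix `pathb`.  No sorry.
-/
import Claimed.Agent.R293.PathIface

set_option autoImplicit false

namespace Claimed.Agent.R293

open scoped BigOperators

/-! ### natMat, lead, leadCol -/

section Lead
variable {m : ℕ}

theorem pathb_natMat_of_lt (B : Matrix (Fin m) (Fin m) ℤ) {i j : ℕ} (hi : i < m) (hj : j < m) :
    natMat B i j = B ⟨i, hi⟩ ⟨j, hj⟩ := by
  simp [natMat, hi, hj]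

theorem pathb_natMat_of_not (B : Matrix (Fin m) (Fin m) ℤ) {i j : ℕ} (h : ¬ (i < m ∧ j < m)) :
    natMat B i j = 0 := by
  simp [natMat, h]

theorem pathb_natMat_symm {B : Matrix (Fin m) (Fin m) ℤ} (hB : B.IsSymm) (i j : ℕ) :
    natMat B i j = natMat B j i := by
  by_cases h : i < m ∧ j < m
  · rw [pathb_natMat_of_lt B h.1 h.2, pathb_natMat_of_lt B h.2 h.1]
    exact (hB.apply _ _).symm
  · rw [pathb_natMat_of_not B h, pathb_natMat_of_not B (fun h' => h ⟨h'.2, h'.1⟩)]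

theorem pathb_lead_apply (B : Matrix (Fin m) (Fin m) ℤ) (k : ℕ) (i j : Fin k) :
    lead B k i j = natMat B i j := rfl

theorem pathb_leadCol_apply (B : Matrix (Fin m) (Fin m) ℤ) (k a : ℕ) (i : Fin k) :
    leadCol B k a i = natMat B i a := rfl

theorem pathb_natMat_lead (B : Matrix (Fin m) (Fin m) ℤ) {n i j : ℕ} (hi : i < n) (hj : j < n) :
    natMat (lead B n) i j = natMat B i j := by
  rw [pathb_natMat_of_lt _ hi hj]; rfl

theorem pathb_lead_lead (B : Matrix (Fin m) (Fin m) ℤ) {k n : ℕ} (h : k ≤ n) :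
    lead (lead B n) k = lead B k := by
  funext i j
  exact pathb_natMat_lead B (lt_of_lt_of_le i.2 h) (lt_of_lt_of_le j.2 h)

theorem pathb_leadCol_lead (B : Matrix (Fin m) (Fin m) ℤ) {k n a : ℕ} (h : k ≤ n) (ha : a < n) :
    leadCol (lead B n) k a = leadCol B k a := by
  funext i
  exact pathb_natMat_lead B (lt_of_lt_of_le i.2 h) ha

theorem pathb_leadColB_lead (B : Matrix (Fin m) (Fin m) ℤ) {k n a : ℕ} (h : k ≤ n) (ha : a < n) :
    leadColB (lead B n) k a = leadColB B k a := by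
  funext i
  simp only [leadColB]
  rw [pathb_natMat_lead B (lt_of_lt_of_le i.2 h) ha]

theorem pathb_lead_self (B : Matrix (Fin m) (Fin m) ℤ) : lead B m = B := by
  funext i j
  exact pathb_natMat_of_lt B i.2 j.2

theorem pathb_lead_eq_submatrix (B : Matrix (Fin m) (Fin m) ℤ) {k : ℕ} (h : k ≤ m) :
    lead B k = B.submatrix (Fin.castLE h) (Fin.castLE h) := by
  funext i j
  exact pathb_natMat_of_lt B (lt_of_lt_of_le i.2 h) (lt_of_lt_of_le j.2 h)

theorem pathb_lead_isSymm {B : Matrix (Fin m) (Fin m) ℤ} (hB : B.IsSymm) (k : ℕ) :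
    (lead B k).IsSymm := by
  refine Matrix.IsSymm.ext fun i j => ?_
  exact pathb_natMat_symm hB _ _

theorem pathb_natMat_bit {B : Matrix (Fin m) (Fin m) ℤ} (hB : IsBitMatrix B) (i j : ℕ) :
    natMat B i j = 0 ∨ natMat B i j = 1 := by
  by_cases h : i < m ∧ j < m
  · rw [pathb_natMat_of_lt B h.1 h.2]; exact hB.2 _ _
  · left; exact pathb_natMat_of_not B h

theorem pathb_lead_isBit {B : Matrix (Fin m) (Fin m) ℤ} (hB : IsBitMatrix B) (k : ℕ) :
    IsBitMatrix (lead B k) :=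
  ⟨pathb_lead_isSymm hB.1 k, fun i j => pathb_natMat_bit hB i j⟩

theorem pathb_bitVecZ_leadColB {B : Matrix (Fin m) (Fin m) ℤ} (hB : IsBitMatrix B) (k a : ℕ) :
    bitVecZ (leadColB B k a) = leadCol B k a := by
  funext i
  simp only [bitVecZ, leadColB, leadCol]
  rcases pathb_natMat_bit hB i a with h | h <;> simp [h]

theorem pathb_bitMat_isBit (s : Sym2 (Fin m) → Bool) : IsBitMatrix (bitMat s) := by
  refine ⟨Matrix.IsSymm.ext fun i j => ?_, fun i j => ?_⟩
  · simp only [bitMat, Sym2.eq_swap]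
  · simp only [bitMat]
    split_ifs
    · right; rfl
    · left; rfl

theorem pathb_lead_bitMat (s : Sym2 (Fin m) → Bool) {k : ℕ} (h : k ≤ m) :
    lead (bitMat s) k = bitMat (s ∘ Sym2.map (Fin.castLE h)) := by
  rw [pathb_lead_eq_submatrix _ h]; rfl

theorem pathb_submatrix_bitMat (s : Sym2 (Fin m) → Bool) (σ : Equiv.Perm (Fin m)) :
    (bitMat s).submatrix σ σ = bitMat (s ∘ Sym2.map σ) := rfl

theorem pathb_submatrix_isBit {B : Matrix (Fin m) (Fin m) ℤ} (hB : IsBitMatrix B)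
    (σ : Equiv.Perm (Fin m)) : IsBitMatrix (B.submatrix σ σ) :=
  ⟨hB.1.submatrix σ, fun _ _ => hB.2 _ _⟩

theorem pathb_preLat_zero (B : Matrix (Fin m) (Fin m) ℤ) (k : ℕ) :
    preLat B k 0 = colLat (lead B k) := by simp [preLat]

theorem pathb_preLat_one (B : Matrix (Fin m) (Fin m) ℤ) (k : ℕ) :
    preLat B k 1 = addVec (colLat (lead B k)) (leadCol B k k) := by simp [preLat]

theorem pathb_colLat_le_preLat (B : Matrix (Fin m) (Fin m) ℤ) (k i : ℕ) :
    colLat (lead B k) ≤ preLat B k i := by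
  unfold preLat
  split_ifs
  · exact le_rfl
  · exact le_sup_left

end Lead

/-! ### widths and node sizes -/

section Node
variable {H : ℕ}

theorem pathb_wdt_of_lt (w : Fin H → Bool) {u : ℕ} (h : u < H) :
    wdt w u = 1 ∨ wdt w u = 2 := by
  simp only [wdt, h, dif_pos]
  split_ifs
  · right; rfl
  · left; rfl

theorem pathb_wdt_of_ge (w : Fin H → Bool) {u : ℕ} (h : H ≤ u) : wdt w u = 0 := by
  simp [wdt, not_lt.2 h]

theorem pathb_wdt_le_two (w : Fin H → Bool) (u : ℕ) : wdt w u ≤ 2 := by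
  by_cases h : u < H
  · rcases pathb_wdt_of_lt w h with h' | h' <;> omega
  · rw [pathb_wdt_of_ge w (not_lt.1 h)]; omega

theorem pathb_sum_wdt_le (w : Fin H → Bool) (t : ℕ) :
    ∑ u ∈ Finset.Ico t H, wdt w u ≤ 2 * (H - t) := by
  calc ∑ u ∈ Finset.Ico t H, wdt w u ≤ ∑ _u ∈ Finset.Ico t H, 2 :=
        Finset.sum_le_sum fun u _ => pathb_wdt_le_two w u
    _ = 2 * (H - t) := by simp [mul_comm]

theorem pathb_nodeSize_top (m : ℕ) (w : Fin H → Bool) : nodeSize m w H = m := by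
  simp [nodeSize]

theorem pathb_nodeSize_le (m : ℕ) (w : Fin H → Bool) (t : ℕ) : nodeSize m w t ≤ m :=
  Nat.sub_le _ _

theorem pathb_le_nodeSize (m : ℕ) (w : Fin H → Bool) (t : ℕ) : m ≤ nodeSize m w t + 2 * (H - t) := by
  have := pathb_sum_wdt_le w t
  unfold nodeSize
  omega

theorem pathb_nodeSize_succ {m : ℕ} (w : Fin H → Bool) (hm : 2 * H ≤ m) {t : ℕ} (ht : t < H) :
    nodeSize m w (t + 1) = nodeSize m w t + wdt w t := by
  have h1 : ∑ u ∈ Finset.Ico t H, wdt w u = wdt w t + ∑ u ∈ Finset.Ico (t + 1) H, wdt w u :=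
    Finset.sum_eq_sum_Ico_succ_bot ht _
  have h2 := pathb_sum_wdt_le w t
  unfold nodeSize
  omega

theorem pathb_node_top {m : ℕ} (B : Matrix (Fin m) (Fin m) ℤ) (w : Fin H → Bool) (N s : ℕ) :
    matW N s (node B w H) = matW N s B := by
  have h : ∀ n : ℕ, n = m → matW N s (lead B n) = matW N s B := by
    intro n hn
    subst hn
    rw [pathb_lead_self]
  exact h _ (pathb_nodeSize_top m w)

end Node

/-! ### weights -/

theorem pathb_nu_nonneg (N l : ℕ) : 0 ≤ nu N l := by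
  unfold nu
  exact div_nonneg (Real.log_natCast_nonneg l) (mul_nonneg (Nat.cast_nonneg N) (Real.log_natCast_nonneg N))

section Weights
variable {k : ℕ}

theorem pathb_retWge_nonneg (N h : ℕ) (K : AddSubgroup (Fin k → ℤ)) (v : Fin k → ℤ) :
    0 ≤ retWge N h K v := by
  unfold retWge
  refine Finset.sum_nonneg fun x _ => ?_
  split_ifs
  · exact pathb_nu_nonneg N x.1
  · exact le_rfl

theorem pathb_retWge_anti (N : ℕ) {h h' : ℕ} (hh : h ≤ h') (K : AddSubgroup (Fin k → ℤ))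
    (v : Fin k → ℤ) : retWge N h' K v ≤ retWge N h K v := by
  unfold retWge
  refine Finset.sum_le_sum fun x _ => ?_
  by_cases h1 : LatRetained K v x.1 x.2 ∧ h' ≤ latLayer K x.1 x.2
  · rw [if_pos h1, if_pos ⟨h1.1, hh.trans h1.2⟩]
  · rw [if_neg h1]
    split_ifs
    · exact pathb_nu_nonneg N x.1
    · exact le_rfl

theorem pathb_retWge_le_retW (N h : ℕ) (K : AddSubgroup (Fin k → ℤ)) (v : Fin k → ℤ) :
    retWge N h K v ≤ retW N K v :=
  pathb_retWge_anti N (Nat.zero_le h) K v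

theorem pathb_heavyW_nonneg (N : ℕ) (K : AddSubgroup (Fin k → ℤ)) (v : Fin k → ℤ) :
    0 ≤ heavyW N K v := by
  unfold heavyW
  refine Finset.sum_nonneg fun x _ => ?_
  split_ifs
  · exact mul_nonneg (Nat.cast_nonneg _) (pathb_nu_nonneg N x.1)
  · exact le_rfl

/-- a column contributes at most `Q_hi / θ` to the weight of the retained layers of height `≥ θ ≥ R - 1`. -/
theorem pathb_mul_retWge_le_heavyW (N : ℕ) {θ : ℕ} (hθ : scaleR N - 1 ≤ θ)
    (K : AddSubgroup (Fin k → ℤ)) (v : Fin k → ℤ) : (θ : ℝ) * retWge N θ K v ≤ heavyW N K v := by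
  unfold retWge heavyW
  rw [Finset.mul_sum]
  refine Finset.sum_le_sum fun x _ => ?_
  by_cases h1 : LatRetained K v x.1 x.2 ∧ θ ≤ latLayer K x.1 x.2
  · rw [if_pos h1, if_pos ⟨h1.1, hθ.trans h1.2⟩]
    exact mul_le_mul_of_nonneg_right (by exact_mod_cast h1.2) (pathb_nu_nonneg N x.1)
  · rw [if_neg h1, mul_zero]
    split_ifs
    · exact mul_nonneg (Nat.cast_nonneg _) (pathb_nu_nonneg N x.1)
    · exact le_rfl

end Weights

section MatW

theorem pathb_tailW_nonneg (G : Type*) [AddCommGroup G] (N s : ℕ) : 0 ≤ tailW G N s := by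
  unfold tailW layerSum
  exact Finset.sum_nonneg fun x _ => mul_nonneg (Nat.cast_nonneg _) (pathb_nu_nonneg N x.1)

theorem pathb_tailW_anti (G : Type*) [AddCommGroup G] (N : ℕ) {s s' : ℕ} (h : s ≤ s') :
    tailW G N s' ≤ tailW G N s := by
  unfold tailW layerSum
  refine Finset.sum_le_sum fun x _ => mul_le_mul_of_nonneg_right ?_ (pathb_nu_nonneg N x.1)
  show ((layer G x.1 x.2 - s' : ℕ) : ℝ) ≤ ((layer G x.1 x.2 - s : ℕ) : ℝ)
  exact_mod_cast Nat.sub_le_sub_left h _

end MatW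

end Claimed.Agent.R293
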