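/-
R293 / PathStep.lean  (owner: helper246).  Leaf PATH-A8, part 1: linear algebra of one step of a gated path
(A Lemma 7.1 = B Lemma 6.1) and invariance of admissible columns under simultaneous permutations
(`path_admPerm : StAdmPerm`).  Prefix `pathe`.  No sorry.
-/
import Claimed.Agent.R293.PathBasic

set_option autoImplicit false
set_option linter.unusedSectionVars false

namespace Claimed.Agent.R293

open Finset
open scoped BigOperators

/-! ### admissible columns and simultaneous permutations -/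

section Perm

variable {k : ℕ}

theorem pathe_det_toR (B : Matrix (Fin k) (Fin k) ℤ) : (toR B).det = (B.det : ℝ) :=
  (Int.cast_det B).symm

theorem pathe_det_toR_ne_zero {B : Matrix (Fin k) (Fin k) ℤ} : (toR B).det ≠ 0 ↔ B.det ≠ 0 := by
  rw [pathe_det_toR]
  exact Int.cast_ne_zero

theorem pathe_inv_mulVec_perm (B : Matrix (Fin k) (Fin k) ℤ) (ρ : Equiv.Perm (Fin k))
    (x : Fin k → ℝ) :
    (toR (B.submatrix ρ ρ))⁻¹.mulVec (x ∘ ρ) = ((toR B)⁻¹.mulVec x) ∘ ρ := by
  have h1 : toR (B.submatrix ρ ρ) = (toR B).submatrix ρ ρ := rfl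
  rw [h1, Matrix.inv_submatrix_equiv, Matrix.submatrix_mulVec_equiv]
  congr 2
  funext i
  simp

theorem pathe_isAdmCol_perm (L0 : ℝ) (N : ℕ) (B : Matrix (Fin k) (Fin k) ℤ)
    (ρ : Equiv.Perm (Fin k)) (z : Fin k → Bool) :
    IsAdmCol L0 N (B.submatrix ρ ρ) (z ∘ ρ) ↔ IsAdmCol L0 N B z := by
  have h0 : bitVec (z ∘ ρ) = bitVec z ∘ ρ := rfl
  unfold IsAdmCol
  rw [h0, pathe_inv_mulVec_perm, comp_equiv_dotProduct_comp_equiv]
  have h2 : ∑ i, (((toR B)⁻¹.mulVec (bitVec z)) ∘ ρ) i ^ 2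
      = ∑ i, ((toR B)⁻¹.mulVec (bitVec z)) i ^ 2 :=
    Equiv.sum_comp ρ fun i => ((toR B)⁻¹.mulVec (bitVec z)) i ^ 2
  rw [h2]

/-- invariance of the number of admissible columns under simultaneous permutations. -/
theorem path_admPerm : StAdmPerm := by
  intro L0 N m B σ
  unfold admCount
  refine Nat.card_congr (Equiv.subtypeEquiv (Equiv.arrowCongr σ (Equiv.refl Bool)) fun z => ?_)
  have h := pathe_isAdmCol_perm L0 N B σ (z ∘ σ.symm)
  have h1 : (z ∘ σ.symm) ∘ σ = z := by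
    funext i
    simp
  rw [h1] at h
  rw [h]
  rfl

end Perm

/-! ### deleting one index -/

theorem pathe_det_castSucc_ne_zero {k : ℕ} (A : Matrix (Fin (k + 1)) (Fin (k + 1)) ℝ)
    (h : A⁻¹ (Fin.last k) (Fin.last k) ≠ 0) :
    (A.submatrix Fin.castSucc Fin.castSucc).det ≠ 0 := by
  intro h0
  apply h
  rw [Matrix.inv_def, Matrix.smul_apply, Matrix.adjugate_fin_succ_eq_det_submatrix,
    Fin.succAbove_last, h0]
  simp

/-! ### deleting two indices -/

section Two

variable {ι ι' : Type*} [Fintype ι] [DecidableEq ι] [Fintype ι'] [DecidableEq ι']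

/-- data of the width-two step: `M = A⁻¹` has zero diagonal at `a`, `b` and `M a b = M b a = κ ≠ 0`;
`e` enumerates the other indices. -/
structure PatheTwo (A M : Matrix ι ι ℝ) (e : ι' → ι) (a b : ι) (κ : ℝ) : Prop where
  mul : A * M = 1
  symm : A.IsSymm
  inj : Function.Injective e
  ne : a ≠ b
  nea : ∀ i, e i ≠ a
  neb : ∀ i, e i ≠ b
  sum : ∀ f : ι → ℝ, ∑ i, f i = ∑ i', f (e i') + f a + f b
  kap : κ ≠ 0
  aa : M a a = 0
  bb : M b b = 0
  ab : M a b = κ
  ba : M b a = κ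

variable {A M : Matrix ι ι ℝ} {e : ι' → ι} {a b : ι} {κ : ℝ}

theorem PatheTwo.swap (h : PatheTwo A M e a b κ) : PatheTwo A M e b a κ where
  mul := h.mul
  symm := h.symm
  inj := h.inj
  ne := h.ne.symm
  nea := h.neb
  neb := h.nea
  sum := fun f => by rw [h.sum f]; ring
  kap := h.kap
  aa := h.bb
  bb := h.aa
  ab := h.ba
  ba := h.ab

theorem PatheTwo.det_ne_zero (h : PatheTwo A M e a b κ) : (A.submatrix e e).det ≠ 0 := by
  intro hdet
  obtain ⟨x, hx0, hx⟩ := Matrix.exists_mulVec_eq_zero_iff.2 hdet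
  set X : ι → ℝ := Function.extend e x 0 with hXdef
  have hXe : ∀ i, X (e i) = x i := fun i => h.inj.extend_apply x 0 i
  have hXa : X a = 0 :=
    Function.extend_apply' _ _ _ (by rintro ⟨i, hi⟩; exact h.nea i hi)
  have hXb : X b = 0 :=
    Function.extend_apply' _ _ _ (by rintro ⟨i, hi⟩; exact h.neb i hi)
  set y : ι → ℝ := A.mulVec X with hy
  have hye : ∀ i, y (e i) = 0 := by
    intro i
    have h1 := congrFun hx i
    simp only [Matrix.mulVec, dotProduct, Matrix.submatrix_apply, Pi.zero_apply] at h1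
    rw [hy]
    simp only [Matrix.mulVec, dotProduct]
    rw [h.sum, hXa, hXb, mul_zero, mul_zero, add_zero, add_zero]
    simpa only [hXe] using h1
  have hMA : M * A = 1 := mul_eq_one_comm.1 h.mul
  have hX : ∀ i, X i = M i a * y a + M i b * y b := by
    intro i
    have h1 : X = M.mulVec y := by rw [hy, Matrix.mulVec_mulVec, hMA, Matrix.one_mulVec]
    have h2 := congrFun h1 i
    rw [h2]
    simp only [Matrix.mulVec, dotProduct]
    rw [h.sum]
    simp only [hye, mul_zero, sum_const_zero, zero_add]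
  have hyb : y b = 0 := by
    have h1 := hX a
    rw [hXa, h.aa, h.ab, zero_mul, zero_add] at h1
    exact (mul_eq_zero.1 h1.symm).resolve_left h.kap
  have hya : y a = 0 := by
    have h1 := hX b
    rw [hXb, h.bb, h.ba, zero_mul, add_zero] at h1
    exact (mul_eq_zero.1 h1.symm).resolve_left h.kap
  apply hx0
  funext i
  rw [← hXe i, hX, hya, hyb]
  simp

theorem PatheTwo.mulVec_eq (h : PatheTwo A M e a b κ) :
    (A.submatrix e e).mulVec (fun i => M (e i) b) = fun i => -κ * A (e i) a := by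
  funext i
  have h1 : (A * M) (e i) b = 0 := by
    rw [h.mul, Matrix.one_apply_ne (h.neb i)]
  rw [Matrix.mul_apply, h.sum, h.ab, h.bb, mul_zero, add_zero] at h1
  simp only [Matrix.mulVec, dotProduct, Matrix.submatrix_apply]
  linarith

theorem PatheTwo.inv_mulVec (h : PatheTwo A M e a b κ) :
    (A.submatrix e e)⁻¹.mulVec (fun i => A (e i) a) = fun i => -(M (e i) b / κ) := by
  have hu : IsUnit (A.submatrix e e).det := isUnit_iff_ne_zero.2 h.det_ne_zero
  have h1 : (fun i => A (e i) a) = (A.submatrix e e).mulVec (fun i => -(M (e i) b / κ)) := by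
    have h2 : (fun i => -(M (e i) b / κ)) = (-κ⁻¹) • (fun i => M (e i) b) := by
      funext i
      simp only [Pi.smul_apply, smul_eq_mul]
      ring
    rw [h2, Matrix.mulVec_smul, h.mulVec_eq]
    funext i
    simp only [Pi.smul_apply, smul_eq_mul]
    field_simp [h.kap]
  rw [h1, Matrix.mulVec_mulVec, Matrix.nonsing_inv_mul _ hu, Matrix.one_mulVec]

theorem PatheTwo.dot_eq (h : PatheTwo A M e a b κ) :
    (fun i => A (e i) a) ⬝ᵥ (A.submatrix e e)⁻¹.mulVec (fun i => A (e i) a) = A a a := by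
  rw [h.inv_mulVec]
  have h1 : (A * M) a b = 0 := by
    rw [h.mul, Matrix.one_apply_ne h.ne]
  rw [Matrix.mul_apply, h.sum, h.ab, h.bb, mul_zero, add_zero] at h1
  have h2 : ∑ i, A (e i) a * M (e i) b = -(A a a * κ) := by
    have h3 : ∑ i, A (e i) a * M (e i) b = ∑ i, A a (e i) * M (e i) b :=
      sum_congr rfl fun i _ => by rw [h.symm.apply]
    rw [h3]
    linarith
  simp only [dotProduct]
  have h4 : ∑ i, A (e i) a * -(M (e i) b / κ) = -(∑ i, A (e i) a * M (e i) b) / κ := by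
    rw [← sum_neg_distrib, sum_div]
    refine sum_congr rfl fun i _ => ?_
    ring
  rw [h4, h2]
  field_simp [h.kap]

theorem PatheTwo.sum_sq_le (h : PatheTwo A M e a b κ) (hmax : ∀ i j, |M i j| ≤ |κ|) :
    ∑ i, ((A.submatrix e e)⁻¹.mulVec (fun i => A (e i) a) i) ^ 2 ≤ Fintype.card ι' := by
  rw [h.inv_mulVec]
  have h1 : ∀ i ∈ (univ : Finset ι'), (-(M (e i) b / κ)) ^ 2 ≤ (1 : ℝ) := by
    intro i _
    rw [neg_sq, div_pow, div_le_one (by have := h.kap; positivity), ← sq_abs, ← sq_abs κ]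
    exact pow_le_pow_left₀ (abs_nonneg _) (hmax _ _) 2
  calc ∑ i, (-(M (e i) b / κ)) ^ 2 ≤ ∑ _i : ι', (1 : ℝ) := sum_le_sum h1
    _ = Fintype.card ι' := by simp

end Two

/-! ### permutations of `Fin m` fixing the positions `≥ k` -/

section Fix

variable {m : ℕ}

/-- `σ` fixes all positions `≥ k`. -/
def PatheFix (k : ℕ) (σ : Equiv.Perm (Fin m)) : Prop := ∀ i : Fin m, k ≤ (i : ℕ) → σ i = i

/-- `σ` is increasing on the positions `< k`. -/
def PatheInc (k : ℕ) (σ : Equiv.Perm (Fin m)) : Prop :=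
  ∀ i j : Fin m, i < j → (j : ℕ) < k → σ i < σ j

theorem PatheFix.lt {k : ℕ} {σ : Equiv.Perm (Fin m)} (h : PatheFix k σ) {i : Fin m}
    (hi : (i : ℕ) < k) : (σ i : ℕ) < k := by
  by_contra hc
  have h1 : σ (σ i) = σ i := h (σ i) (not_lt.1 hc)
  have h2 : σ i = i := σ.injective h1
  rw [h2] at hc
  exact hc hi

theorem PatheFix.mono {k k' : ℕ} {σ : Equiv.Perm (Fin m)} (h : PatheFix k σ) (hk : k ≤ k') :
    PatheFix k' σ := fun i hi => h i (hk.trans hi)

theorem PatheInc.mono {k k' : ℕ} {σ : Equiv.Perm (Fin m)} (h : PatheInc k' σ) (hk : k ≤ k') :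
    PatheInc k σ := fun i j hij hj => h i j hij (lt_of_lt_of_le hj hk)

theorem PatheFix.one (k : ℕ) : PatheFix k (1 : Equiv.Perm (Fin m)) := fun _ _ => rfl

theorem PatheInc.one (k : ℕ) : PatheInc k (1 : Equiv.Perm (Fin m)) := fun _ _ h _ => h

theorem PatheFix.mul {k : ℕ} {σ τ : Equiv.Perm (Fin m)} (hσ : PatheFix k σ) (hτ : PatheFix k τ) :
    PatheFix k (σ * τ) := fun i hi => by
  rw [Equiv.Perm.mul_apply, hτ i hi, hσ i hi]

theorem PatheInc.mul {k j : ℕ} {σ τ : Equiv.Perm (Fin m)} (hσ : PatheInc k σ)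
    (hτ : PatheInc j τ) (hfix : PatheFix k τ) (hjk : j ≤ k) : PatheInc j (σ * τ) := by
  intro i i' hii hi'
  rw [Equiv.Perm.mul_apply, Equiv.Perm.mul_apply]
  exact hσ _ _ (hτ i i' hii hi') (hfix.lt (lt_of_lt_of_le hi' hjk))

/-- restriction of `σ` to the first `k` positions. -/
noncomputable def patheRes (σ : Equiv.Perm (Fin m)) (k : ℕ) (hk : k ≤ m) (h : PatheFix k σ) :
    Equiv.Perm (Fin k) :=
  Equiv.ofBijective (fun i : Fin k => (⟨σ (Fin.castLE hk i), h.lt i.2⟩ : Fin k))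
    (Finite.injective_iff_bijective.1 fun i j hij => by
      have h1 : (σ (Fin.castLE hk i) : ℕ) = σ (Fin.castLE hk j) :=
        congrArg (fun t : Fin k => (t : ℕ)) hij
      have h2 : Fin.castLE hk i = Fin.castLE hk j := σ.injective (Fin.ext h1)
      exact Fin.castLE_injective hk h2)

theorem patheRes_val (σ : Equiv.Perm (Fin m)) (k : ℕ) (hk : k ≤ m) (h : PatheFix k σ) (i : Fin k) :
    (patheRes σ k hk h i : ℕ) = σ (Fin.castLE hk i) := rfl

theorem pathe_natMat_submatrix (B : Matrix (Fin m) (Fin m) ℤ) (σ : Equiv.Perm (Fin m)) {i j : ℕ}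
    (hi : i < m) (hj : j < m) :
    natMat (B.submatrix σ σ) i j = natMat B (σ ⟨i, hi⟩) (σ ⟨j, hj⟩) := by
  rw [pathb_natMat_of_lt _ hi hj, pathb_natMat_of_lt B (σ ⟨i, hi⟩).2 (σ ⟨j, hj⟩).2]
  rfl

theorem pathe_lead_submatrix (B : Matrix (Fin m) (Fin m) ℤ) (σ : Equiv.Perm (Fin m)) (k : ℕ)
    (hk : k ≤ m) (h : PatheFix k σ) :
    lead (B.submatrix σ σ) k = (lead B k).submatrix (patheRes σ k hk h) (patheRes σ k hk h) := by
  funext i j
  show natMat (B.submatrix σ σ) i j = natMat B (patheRes σ k hk h i) (patheRes σ k hk h j)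
  rw [pathe_natMat_submatrix B σ (lt_of_lt_of_le i.2 hk) (lt_of_lt_of_le j.2 hk)]
  rfl

theorem pathe_leadColB_submatrix (B : Matrix (Fin m) (Fin m) ℤ) (σ : Equiv.Perm (Fin m)) (k : ℕ)
    (hk : k ≤ m) (h : PatheFix k σ) {c : ℕ} (hc : k ≤ c) (hcm : c < m) :
    leadColB (B.submatrix σ σ) k c = leadColB B k c ∘ patheRes σ k hk h := by
  funext i
  show decide (natMat (B.submatrix σ σ) i c = 1) = decide (natMat B (patheRes σ k hk h i) c = 1)
  rw [pathe_natMat_submatrix B σ (lt_of_lt_of_le i.2 hk) hcm, h ⟨c, hcm⟩ hc]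
  rfl

theorem pathe_det_lead_submatrix (B : Matrix (Fin m) (Fin m) ℤ) (σ : Equiv.Perm (Fin m)) (k : ℕ)
    (hk : k ≤ m) (h : PatheFix k σ) : (lead (B.submatrix σ σ) k).det = (lead B k).det := by
  rw [pathe_lead_submatrix B σ k hk h, Matrix.det_submatrix_equiv_self]

theorem pathe_gate_submatrix (L0 : ℝ) (N : ℕ) (B : Matrix (Fin m) (Fin m) ℤ)
    (σ : Equiv.Perm (Fin m)) (k : ℕ) (hk : k + 2 ≤ m) (h : PatheFix k σ) :
    Gate L0 N (B.submatrix σ σ) k ↔ Gate L0 N B k := by
  have hk' : k ≤ m := by omega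
  unfold Gate
  rw [pathe_lead_submatrix B σ k hk' h, pathe_leadColB_submatrix B σ k hk' h le_rfl (by omega),
    pathe_leadColB_submatrix B σ k hk' h (Nat.le_succ k) (by omega), pathe_isAdmCol_perm,
    pathe_isAdmCol_perm]

/-! ### moving one index to the last position -/

/-- move position `a` to position `k - 1`, keeping the order of the others. -/
def patheMvFun (k a i : ℕ) : ℕ :=
  if i < a then i else if i + 1 < k then i + 1 else if i < k then a else i

theorem patheMvFun_lt {k a i : ℕ} (hk : k ≤ m) (ha : a < k) (hi : i < m) :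
    patheMvFun k a i < m := by
  unfold patheMvFun
  split_ifs <;> omega

theorem patheMvFun_inj {k a i j : ℕ} (h : patheMvFun k a i = patheMvFun k a j) :
    i = j := by
  unfold patheMvFun at h
  split_ifs at h <;> omega

theorem pathe_exists_mv {k : ℕ} (hk : k ≤ m) (a : Fin m) (ha : (a : ℕ) < k) :
    ∃ τ : Equiv.Perm (Fin m), PatheFix k τ ∧ PatheInc (k - 1) τ ∧
      ∀ c : Fin m, (c : ℕ) + 1 = k → τ c = a := by
  let τ : Equiv.Perm (Fin m) :=
    Equiv.ofBijective (fun i : Fin m => (⟨patheMvFun k a i, patheMvFun_lt hk ha i.2⟩ : Fin m))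
      (Finite.injective_iff_bijective.1 fun i j hij =>
        Fin.ext (patheMvFun_inj (congrArg (fun t : Fin m => (t : ℕ)) hij)))
  have hτ : ∀ i : Fin m, (τ i : ℕ) = patheMvFun k a i := fun _ => rfl
  refine ⟨τ, ?_, ?_, ?_⟩
  · intro i hi
    apply Fin.ext
    rw [hτ]
    unfold patheMvFun
    split_ifs <;> omega
  · intro i j hij hj
    have hij' : (i : ℕ) < j := hij
    show (τ i : ℕ) < τ j
    rw [hτ, hτ]
    unfold patheMvFun
    split_ifs <;> omega
  · intro c hc
    apply Fin.ext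
    rw [hτ]
    unfold patheMvFun
    split_ifs <;> omega

end Fix

end Claimed.Agent.R293
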