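/-
R293 / PathExists.lean  (owner: helper246).  Leaf PATH-A8, part 2: one step of a gated path
(A Lemma 7.1 = B Lemma 6.1) for leading minors, and its iteration `path_exists : StPathExists`.
Prefix `pathe`.  No sorry.
-/
import Claimed.Agent.R293.PathStep

set_option autoImplicit false
set_option linter.unusedSectionVars false

namespace Claimed.Agent.R293

open Finset
open scoped BigOperators

variable {m : ℕ}

/-! ### one step, the deleted indices being the last ones -/

theorem pathe_step_one_last {k : ℕ} (B : Matrix (Fin m) (Fin m) ℤ)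
    (h : (toR (lead B (k + 1)))⁻¹ (Fin.last k) (Fin.last k) ≠ 0) : (lead B k).det ≠ 0 := by
  have h1 := pathe_det_castSucc_ne_zero _ h
  have h2 : (toR (lead B (k + 1))).submatrix Fin.castSucc Fin.castSucc = toR (lead B k) := rfl
  rw [h2] at h1
  exact pathe_det_toR_ne_zero.1 h1

theorem pathe_bitVec_leadColB {B : Matrix (Fin m) (Fin m) ℤ} (hB : IsBitMatrix B) (k c : ℕ) :
    bitVec (leadColB B k c) = fun i : Fin k => ((natMat B i c : ℤ) : ℝ) := by
  funext i
  simp only [bitVec, leadColB]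
  rcases pathb_natMat_bit hB i c with h | h <;> simp [h]

theorem pathe_toR_isSymm {k : ℕ} {C : Matrix (Fin k) (Fin k) ℤ} (hC : C.IsSymm) :
    (toR C).IsSymm := hC.map _

theorem pathe_inv_symm {k : ℕ} {A : Matrix (Fin k) (Fin k) ℝ} (hA : A.IsSymm) (i j : Fin k) :
    A⁻¹ i j = A⁻¹ j i := by
  have h : (A⁻¹).transpose = A⁻¹ := by rw [Matrix.transpose_nonsing_inv, hA.eq]
  calc A⁻¹ i j = (A⁻¹).transpose j i := rfl
    _ = A⁻¹ j i := by rw [h]

theorem pathe_step_two_last (L0 : ℝ) (hL0 : 1 ≤ L0) (N : ℕ) {k : ℕ} (hkN : k ≤ N)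
    {B : Matrix (Fin m) (Fin m) ℤ} (hB : IsBitMatrix B) (hdet : (lead B (k + 2)).det ≠ 0)
    (κ : ℝ) (hκ : κ ≠ 0)
    (haa : (toR (lead B (k + 2)))⁻¹ (Fin.castSucc (Fin.last k)) (Fin.castSucc (Fin.last k)) = 0)
    (hbb : (toR (lead B (k + 2)))⁻¹ (Fin.last (k + 1)) (Fin.last (k + 1)) = 0)
    (hab : (toR (lead B (k + 2)))⁻¹ (Fin.castSucc (Fin.last k)) (Fin.last (k + 1)) = κ)
    (hmax : ∀ i j, |(toR (lead B (k + 2)))⁻¹ i j| ≤ |κ|) :
    (lead B k).det ≠ 0 ∧ Gate L0 N B k := by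
  set A : Matrix (Fin (k + 2)) (Fin (k + 2)) ℝ := toR (lead B (k + 2)) with hA
  have hAsymm : A.IsSymm := pathe_toR_isSymm (pathb_lead_isSymm hB.1 (k + 2))
  have hdetA : A.det ≠ 0 := pathe_det_toR_ne_zero.2 hdet
  let e : Fin k → Fin (k + 2) := fun i => Fin.castSucc (Fin.castSucc i)
  have hT : PatheTwo A A⁻¹ e (Fin.castSucc (Fin.last k)) (Fin.last (k + 1)) κ :=
    { mul := Matrix.mul_nonsing_inv A (isUnit_iff_ne_zero.2 hdetA)
      symm := hAsymm
      inj := fun i j hij => by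
        have : (e i : ℕ) = e j := congrArg Fin.val hij
        exact Fin.ext this
      ne := by
        intro h
        have := congrArg Fin.val h
        simp at this
      nea := by
        intro i h
        have h1 : (e i : ℕ) = k := congrArg Fin.val h
        have h2 : (e i : ℕ) = i := rfl
        have := i.2
        omega
      neb := by
        intro i h
        have h1 : (e i : ℕ) = k + 1 := congrArg Fin.val h
        have h2 : (e i : ℕ) = i := rfl
        have := i.2
        omega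
      sum := fun f => by rw [Fin.sum_univ_castSucc, Fin.sum_univ_castSucc]
      kap := hκ
      aa := haa
      bb := hbb
      ab := hab
      ba := by rw [pathe_inv_symm hAsymm, hab] }
  have hsub : A.submatrix e e = toR (lead B k) := rfl
  have hcolA : (fun i => A (e i) (Fin.castSucc (Fin.last k))) = bitVec (leadColB B k k) := by
    rw [pathe_bitVec_leadColB hB]
    rfl
  have hcolB : (fun i => A (e i) (Fin.last (k + 1))) = bitVec (leadColB B k (k + 1)) := by
    rw [pathe_bitVec_leadColB hB]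
    rfl
  have hbound : (Fintype.card (Fin k) : ℝ) ≤ L0 ^ 2 * N := by
    rw [Fintype.card_fin]
    have h1 : (k : ℝ) ≤ N := by exact_mod_cast hkN
    have h2 : (1 : ℝ) ≤ L0 ^ 2 := one_le_pow₀ hL0
    have h3 : (0 : ℝ) ≤ N := Nat.cast_nonneg N
    nlinarith
  have hbit : ∀ i j : Fin (k + 2), A i j = 0 ∨ A i j = 1 := by
    intro i j
    have h1 : A i j = ((natMat B i j : ℤ) : ℝ) := rfl
    rcases pathb_natMat_bit hB i j with h | h <;> simp [h1, h]
  refine ⟨?_, ?_, ?_⟩
  · have h1 := hT.det_ne_zero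
    rw [hsub] at h1
    exact pathe_det_toR_ne_zero.1 h1
  · have h1 := hT.dot_eq
    have h2 := hT.sum_sq_le hmax
    rw [hsub, hcolA] at h1 h2
    exact ⟨by rw [h1]; exact hbit _ _, h2.trans hbound⟩
  · have h1 := hT.swap.dot_eq
    have h2 := hT.swap.sum_sq_le hmax
    rw [hsub, hcolB] at h1 h2
    exact ⟨by rw [h1]; exact hbit _ _, h2.trans hbound⟩

/-! ### one step in general position -/

theorem pathe_inv_lead_submatrix (B : Matrix (Fin m) (Fin m) ℤ) (τ : Equiv.Perm (Fin m)) (k : ℕ)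
    (hk : k ≤ m) (h : PatheFix k τ) (i j : Fin k) :
    (toR (lead (B.submatrix τ τ) k))⁻¹ i j
      = (toR (lead B k))⁻¹ (patheRes τ k hk h i) (patheRes τ k hk h j) := by
  rw [pathe_lead_submatrix B τ k hk h]
  have h1 : toR ((lead B k).submatrix (patheRes τ k hk h) (patheRes τ k hk h))
      = (toR (lead B k)).submatrix (patheRes τ k hk h) (patheRes τ k hk h) := rfl
  rw [h1, Matrix.inv_submatrix_equiv]
  rfl

theorem pathe_step (L0 : ℝ) (hL0 : 1 ≤ L0) (N : ℕ) (hmN : m ≤ N)
    {B : Matrix (Fin m) (Fin m) ℤ} (hB : IsBitMatrix B) {k : ℕ} (hk : k ≤ m) (hk1 : 1 ≤ k)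
    (hdet : (lead B k).det ≠ 0) :
    ∃ (τ : Equiv.Perm (Fin m)) (wd : ℕ), (wd = 1 ∨ wd = 2) ∧ wd ≤ k ∧ PatheFix k τ ∧
      PatheInc (k - wd) τ ∧ (lead (B.submatrix τ τ) (k - wd)).det ≠ 0 ∧
      (wd = 2 → Gate L0 N (B.submatrix τ τ) (k - wd)) := by
  by_cases hdiag : ∃ a : Fin k, (toR (lead B k))⁻¹ a a ≠ 0
  · -- width one
    obtain ⟨a, ha⟩ := hdiag
    obtain ⟨k', rfl⟩ : ∃ k', k = k' + 1 := ⟨k - 1, by omega⟩
    obtain ⟨τ, hfix, hinc, hlast⟩ := pathe_exists_mv hk (Fin.castLE hk a) a.2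
    refine ⟨τ, 1, Or.inl rfl, hk1, hfix, hinc, ?_, fun h => absurd h (by norm_num)⟩
    rw [Nat.add_sub_cancel]
    apply pathe_step_one_last
    rw [pathe_inv_lead_submatrix B τ (k' + 1) hk hfix]
    have h1 : patheRes τ (k' + 1) hk hfix (Fin.last k') = a := by
      apply Fin.ext
      rw [patheRes_val, hlast (Fin.castLE hk (Fin.last k')) rfl]
      rfl
    rw [h1]
    exact ha
  · -- width two
    push Not at hdiag
    set A : Matrix (Fin k) (Fin k) ℝ := toR (lead B k) with hA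
    have hdetA : A.det ≠ 0 := pathe_det_toR_ne_zero.2 hdet
    have hAM : A * A⁻¹ = 1 := Matrix.mul_nonsing_inv A (isUnit_iff_ne_zero.2 hdetA)
    have hne : (univ : Finset (Fin k × Fin k)).Nonempty :=
      ⟨(⟨0, hk1⟩, ⟨0, hk1⟩), mem_univ _⟩
    obtain ⟨⟨a, b⟩, -, hmax⟩ := exists_max_image univ (fun x : Fin k × Fin k => |A⁻¹ x.1 x.2|) hne
    have hmax' : ∀ i j, |A⁻¹ i j| ≤ |A⁻¹ a b| := fun i j => hmax (i, j) (mem_univ _)
    have hκ : A⁻¹ a b ≠ 0 := by
      intro h0
      have hz : A⁻¹ = 0 := by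
        ext i j
        have := hmax' i j
        rw [h0, abs_zero] at this
        exact abs_nonpos_iff.1 this
      rw [hz, mul_zero] at hAM
      have := congrFun (congrFun hAM ⟨0, hk1⟩) ⟨0, hk1⟩
      simp at this
    have hab : a ≠ b := by
      intro h
      apply hκ
      rw [h]
      exact hdiag b
    have hab' : (a : ℕ) ≠ b := fun h => hab (Fin.ext h)
    obtain ⟨k', rfl⟩ : ∃ k', k = k' + 2 := ⟨k - 2, by have := a.2; have := b.2; omega⟩
    obtain ⟨τ1, hfix1, hinc1, hlast1⟩ := pathe_exists_mv hk (Fin.castLE hk b) b.2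
    set a' : Fin m := τ1.symm (Fin.castLE hk a) with ha'
    have hτa' : τ1 a' = Fin.castLE hk a := by rw [ha', Equiv.apply_symm_apply]
    have ha'lt : (a' : ℕ) < k' + 1 := by
      by_contra hc
      rcases Nat.lt_or_ge (a' : ℕ) (k' + 2) with h1 | h1
      · have h2 : (a' : ℕ) + 1 = k' + 2 := by omega
        have h3 := hlast1 a' h2
        rw [hτa'] at h3
        exact hab (Fin.castLE_injective hk h3)
      · have h3 := hfix1 a' h1
        rw [hτa'] at h3
        have h4 : (a : ℕ) = a' := congrArg Fin.val h3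
        have := a.2
        omega
    have hk2 : k' + 1 ≤ m := by omega
    obtain ⟨τ2, hfix2, hinc2, hlast2⟩ := pathe_exists_mv hk2 a' ha'lt
    obtain ⟨τ, hτ⟩ : ∃ τ : Equiv.Perm (Fin m), τ = τ1 * τ2 := ⟨_, rfl⟩
    have hfix : PatheFix (k' + 2) τ := by
      rw [hτ]
      exact hfix1.mul (hfix2.mono (Nat.le_succ _))
    have hinc : PatheInc k' τ := by
      have h1 : PatheInc (k' + 1) τ1 := hinc1
      have h2 : PatheInc k' τ2 := hinc2
      rw [hτ]
      exact h1.mul h2 hfix2 (Nat.le_succ _)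
    refine ⟨τ, 2, Or.inr rfl, by omega, hfix, hinc, ?_⟩
    have hra : patheRes τ (k' + 2) hk hfix (Fin.castSucc (Fin.last k')) = a := by
      apply Fin.ext
      rw [patheRes_val, hτ, Equiv.Perm.mul_apply,
        hlast2 (Fin.castLE hk (Fin.castSucc (Fin.last k'))) rfl, hτa']
      rfl
    have hrb : patheRes τ (k' + 2) hk hfix (Fin.last (k' + 1)) = b := by
      apply Fin.ext
      rw [patheRes_val, hτ, Equiv.Perm.mul_apply,
        hfix2 (Fin.castLE hk (Fin.last (k' + 1))) (le_refl _),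
        hlast1 (Fin.castLE hk (Fin.last (k' + 1))) rfl]
      rfl
    have hB1 : IsBitMatrix (B.submatrix τ τ) := pathb_submatrix_isBit hB _
    have hdet1 : (lead (B.submatrix τ τ) (k' + 2)).det ≠ 0 := by
      rw [pathe_det_lead_submatrix B _ _ hk hfix]
      exact hdet
    have hres := pathe_step_two_last L0 hL0 N (k := k') (by omega) hB1 hdet1 (A⁻¹ a b) hκ
      (by rw [pathe_inv_lead_submatrix B _ _ hk hfix, hra]; exact hdiag a)
      (by rw [pathe_inv_lead_submatrix B _ _ hk hfix, hrb]; exact hdiag b)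
      (by rw [pathe_inv_lead_submatrix B _ _ hk hfix, hra, hrb])
      (fun i j => by rw [pathe_inv_lead_submatrix B _ _ hk hfix]; exact hmax' _ _)
    rw [Nat.add_sub_cancel]
    exact ⟨hres.1, fun _ => hres.2⟩

/-! ### iteration -/

/-- gated path of leading minors ending at the leading minor of size `k`. -/
def PatheGP (L0 : ℝ) (N : ℕ) (B : Matrix (Fin m) (Fin m) ℤ) (k : ℕ) {H : ℕ} (w : Fin H → Bool) :
    Prop :=
  (∀ t ≤ H, (lead B (nodeSize k w t)).det ≠ 0) ∧
    ∀ t < H, wdt w t = 2 → Gate L0 N B (nodeSize k w t)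

/-- append one step to a word of widths. -/
def patheSnoc {H : ℕ} (w : Fin H → Bool) (b : Bool) : Fin (H + 1) → Bool :=
  fun u => if h : (u : ℕ) < H then w ⟨u, h⟩ else b

theorem pathe_wdt_snoc_lt {H : ℕ} (w : Fin H → Bool) (b : Bool) {u : ℕ} (hu : u < H) :
    wdt (patheSnoc w b) u = wdt w u := by
  simp [wdt, patheSnoc, hu, Nat.lt_succ_of_lt hu]

theorem pathe_wdt_snoc_top {H : ℕ} (w : Fin H → Bool) (b : Bool) :
    wdt (patheSnoc w b) H = if b then 2 else 1 := by
  simp [wdt, patheSnoc]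

theorem pathe_nodeSize_snoc {H : ℕ} (k : ℕ) (w : Fin H → Bool) (b : Bool) {t : ℕ} (ht : t ≤ H) :
    nodeSize k (patheSnoc w b) t = nodeSize (k - (if b then 2 else 1)) w t := by
  unfold nodeSize
  rw [Finset.sum_Ico_succ_top ht, pathe_wdt_snoc_top,
    Finset.sum_congr rfl fun u hu => pathe_wdt_snoc_lt w b (Finset.mem_Ico.1 hu).2]
  omega

theorem pathe_exists_aux (L0 : ℝ) (hL0 : 1 ≤ L0) (N : ℕ) (hmN : m ≤ N) (H : ℕ) :
    ∀ B : Matrix (Fin m) (Fin m) ℤ, IsBitMatrix B → ∀ k : ℕ, k ≤ m → 2 * H ≤ k →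
      (lead B k).det ≠ 0 →
      ∃ σ : Equiv.Perm (Fin m), PatheFix k σ ∧ PatheInc (k - 2 * H) σ ∧
        ∃ w : Fin H → Bool, PatheGP L0 N (B.submatrix σ σ) k w := by
  induction H with
  | zero =>
    intro B hB k hk _ hdet
    refine ⟨1, PatheFix.one k, PatheInc.one _, Fin.elim0, ?_, ?_⟩
    · intro t ht
      have ht0 : t = 0 := by omega
      subst ht0
      have h1 : nodeSize k (Fin.elim0 : Fin 0 → Bool) 0 = k := pathb_nodeSize_top k _
      rw [h1]
      exact hdet
    · intro t ht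
      omega
  | succ H ih =>
    intro B hB k hk hH hdet
    obtain ⟨τ, wd, hwd, hwdk, hfixτ, hincτ, hdetτ, hgate⟩ :=
      pathe_step L0 hL0 N hmN hB hk (by omega) hdet
    have hwd2 : wd ≤ 2 := by rcases hwd with h | h <;> omega
    have hB1 := pathb_submatrix_isBit hB τ
    obtain ⟨σ', hfix', hinc', w', hGP⟩ :=
      ih (B.submatrix τ τ) hB1 (k - wd) (by omega) (by omega) hdetτ
    obtain ⟨σ, hσ⟩ : ∃ σ : Equiv.Perm (Fin m), σ = τ * σ' := ⟨_, rfl⟩
    have hsub : B.submatrix σ σ = (B.submatrix τ τ).submatrix σ' σ' := by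
      rw [hσ]
      rfl
    have hfix : PatheFix k σ := by
      rw [hσ]
      exact hfixτ.mul (hfix'.mono (Nat.sub_le _ _))
    have hinc : PatheInc (k - 2 * (H + 1)) σ := by
      rw [hσ]
      exact (hincτ.mul hinc' hfix' (Nat.sub_le _ _)).mono (by omega)
    have hb : (if decide (wd = 2) then 2 else 1) = wd := by
      rcases hwd with h | h <;> simp [h]
    refine ⟨σ, hfix, hinc, patheSnoc w' (decide (wd = 2)), ?_, ?_⟩
    · intro t ht
      rcases Nat.lt_or_ge t (H + 1) with h1 | h1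
      · rw [pathe_nodeSize_snoc k w' _ (Nat.lt_succ_iff.1 h1), hb, hsub]
        exact hGP.1 t (Nat.lt_succ_iff.1 h1)
      · have ht' : t = H + 1 := le_antisymm ht h1
        rw [ht', pathb_nodeSize_top, pathe_det_lead_submatrix B σ k hk hfix]
        exact hdet
    · intro t ht hw
      rcases Nat.lt_or_ge t H with h1 | h1
      · rw [pathe_nodeSize_snoc k w' _ h1.le, hb, hsub]
        rw [pathe_wdt_snoc_lt w' _ h1] at hw
        exact hGP.2 t h1 hw
      · have ht' : t = H := le_antisymm (Nat.lt_succ_iff.1 ht) h1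
        rw [ht', pathe_wdt_snoc_top, hb] at hw
        rw [ht', pathe_nodeSize_snoc k w' _ le_rfl, hb, pathb_nodeSize_top, hsub,
          pathe_gate_submatrix L0 N _ σ' (k - wd) (by omega) hfix']
        exact hgate hw

/-- **A Lemma 7.1 = B Lemma 6.1 iterated**: gated paths exist. -/
theorem path_exists : StPathExists := by
  intro L0 hL0 N m H hmN hH B hB hdet
  have hdet' : (lead B m).det ≠ 0 := by
    rw [pathb_lead_self]
    exact hdet
  obtain ⟨σ, -, hinc, w, hGP⟩ := pathe_exists_aux L0 hL0 N hmN H B hB m le_rfl hH hdet'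
  refine ⟨σ, ?_, w, hGP⟩
  intro i j hij hj
  exact hinc i j hij (by omega)

end Claimed.Agent.R293
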