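/-
R293 / PathAsymp.lean  (owner: helper144).  Elementary asymptotic facts shared by the assemblies of PATH.  Prefix `patha`.
-/
import Claimed.Agent.R293.PathBasic

set_option autoImplicit false

namespace Claimed.Agent.R293

open Filter

/-- `log N ≤ c N^r` eventually. -/
theorem patha_log_le {c r : ℝ} (hc : 0 < c) (hr : 0 < r) :
    ∀ᶠ N : ℕ in atTop, Real.log N ≤ c * (N : ℝ) ^ r := by
  have h := (isLittleO_log_rpow_atTop hr).bound hc
  have h2 := tendsto_natCast_atTop_atTop (R := ℝ) |>.eventually h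
  filter_upwards [h2] with N hN
  have h3 : 0 ≤ (N : ℝ) ^ r := Real.rpow_nonneg (Nat.cast_nonneg N) r
  rw [Real.norm_of_nonneg h3] at hN
  exact (le_abs_self _).trans hN

/-- `N^s ≤ c N^r` eventually, for `s < r`. -/
theorem patha_rpow_le {c r s : ℝ} (hc : 0 < c) (hsr : s < r) :
    ∀ᶠ N : ℕ in atTop, (N : ℝ) ^ s ≤ c * (N : ℝ) ^ r := by
  have h1 : Tendsto (fun N : ℕ => (N : ℝ) ^ (r - s)) atTop atTop :=
    (tendsto_rpow_atTop (sub_pos.2 hsr)).comp tendsto_natCast_atTop_atTop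
  filter_upwards [h1.eventually_ge_atTop (1 / c), eventually_ge_atTop 1] with N hN hN1
  have hNpos : (0 : ℝ) < N := by exact_mod_cast hN1
  have h2 : (N : ℝ) ^ r = (N : ℝ) ^ (r - s) * (N : ℝ) ^ s := by
    rw [← Real.rpow_add hNpos]; congr 1; ring
  rw [h2, ← mul_assoc]
  have h3 : 1 ≤ c * (N : ℝ) ^ (r - s) := by
    have := mul_le_mul_of_nonneg_left hN hc.le
    rwa [mul_one_div_cancel hc.ne'] at this
  have h4 : 0 ≤ (N : ℝ) ^ s := Real.rpow_nonneg hNpos.le s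
  nlinarith

/-- `N^s log N ≤ c N^r` eventually, for `s < r`. -/
theorem patha_rpow_mul_log_le {c r s : ℝ} (hc : 0 < c) (hsr : s < r) :
    ∀ᶠ N : ℕ in atTop, (N : ℝ) ^ s * Real.log N ≤ c * (N : ℝ) ^ r := by
  filter_upwards [patha_log_le hc (sub_pos.2 hsr), eventually_ge_atTop 1] with N hN hN1
  have hNpos : (0 : ℝ) < N := by exact_mod_cast hN1
  have h2 : (N : ℝ) ^ r = (N : ℝ) ^ s * (N : ℝ) ^ (r - s) := by
    rw [← Real.rpow_add hNpos]; congr 1; ring
  have h4 : 0 ≤ (N : ℝ) ^ s := Real.rpow_nonneg hNpos.le s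
  calc (N : ℝ) ^ s * Real.log N ≤ (N : ℝ) ^ s * (c * (N : ℝ) ^ (r - s)) :=
        mul_le_mul_of_nonneg_left hN h4
    _ = c * (N : ℝ) ^ r := by rw [h2]; ring

theorem patha_pathLen_le_four {N : ℕ} (hN : 1 ≤ N) : (pathLen N : ℝ) ≤ 4 * (N : ℝ) ^ ((3 : ℝ) / 5) := by
  have h1 : (1 : ℝ) ≤ (N : ℝ) ^ ((3 : ℝ) / 5) :=
    Real.one_le_rpow (by exact_mod_cast hN) (by norm_num)
  have h2 : (⌈(N : ℝ) ^ ((3 : ℝ) / 5)⌉₊ : ℝ) < (N : ℝ) ^ ((3 : ℝ) / 5) + 1 :=
    Nat.ceil_lt_add_one (by linarith)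
  unfold pathLen
  push_cast
  linarith

/-- `pathLen N ≤ c N^r` eventually for `r > 3/5`. -/
theorem patha_pathLen_le_rpow {c r : ℝ} (hc : 0 < c) (hr : (3 : ℝ) / 5 < r) :
    ∀ᶠ N : ℕ in atTop, (pathLen N : ℝ) ≤ c * (N : ℝ) ^ r := by
  filter_upwards [patha_rpow_le (c := c / 4) (by positivity) hr, eventually_ge_atTop 1] with N hN hN1
  have := patha_pathLen_le_four hN1
  linarith

/-- `pathLen N * log N ≤ c N^r` eventually for `r > 3/5`. -/
theorem patha_pathLen_mul_log_le {c r : ℝ} (hc : 0 < c) (hr : (3 : ℝ) / 5 < r) :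
    ∀ᶠ N : ℕ in atTop, (pathLen N : ℝ) * Real.log N ≤ c * (N : ℝ) ^ r := by
  filter_upwards [patha_rpow_mul_log_le (c := c / 4) (by positivity) hr, eventually_ge_atTop 1]
    with N hN hN1
  have h1 := patha_pathLen_le_four hN1
  have h2 : 0 ≤ Real.log N := Real.log_natCast_nonneg N
  nlinarith

/-- the paths fit: `a * pathLen N + b ≤ N` eventually. -/
theorem patha_pathLen_fit (a b : ℕ) : ∀ᶠ N : ℕ in atTop, a * pathLen N + b ≤ N := by
  have hc : (0 : ℝ) < 1 / (2 * (a + 1)) := by positivity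
  filter_upwards [patha_pathLen_le_rpow (r := 1) hc (by norm_num), eventually_ge_atTop (2 * b)]
    with N hN hNb
  rw [Real.rpow_one] at hN
  have h1 : (a : ℝ) * pathLen N ≤ N / 2 := by
    have h0 : (0 : ℝ) ≤ pathLen N := Nat.cast_nonneg _
    have h3 : ((a : ℝ) + 1) * pathLen N ≤ (a + 1) * (1 / (2 * (a + 1)) * N) :=
      mul_le_mul_of_nonneg_left hN (by positivity)
    have h4 : ((a : ℝ) + 1) * (1 / (2 * (a + 1)) * N) = N / 2 := by
      field_simp
    nlinarith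
  have h2 : (b : ℝ) ≤ N / 2 := by
    have : ((2 * b : ℕ) : ℝ) ≤ N := by exact_mod_cast hNb
    push_cast at this
    linarith
  have : ((a * pathLen N + b : ℕ) : ℝ) ≤ N := by
    push_cast
    linarith
  exact_mod_cast this

/-- all sizes met along a path lie in the reference range. -/
theorem patha_inRange (a b : ℕ) : ∀ᶠ N : ℕ in atTop, ∀ k : ℕ, N ≤ k + a * pathLen N + b → k ≤ N →
    InRange N k := by
  filter_upwards [patha_pathLen_le_rpow (c := 1 / (2 * (a + 1))) (r := 7 / 10) (by positivity)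
      (by norm_num),
    patha_rpow_le (c := 1 / (2 * (b + 1))) (s := 0) (r := 7 / 10) (by positivity) (by norm_num)]
    with N hN hNb k hk hkN
  refine ⟨?_, hkN⟩
  rw [Real.rpow_zero] at hNb
  set X : ℝ := (N : ℝ) ^ ((7 : ℝ) / 10) with hX
  have hX0 : 0 ≤ X := Real.rpow_nonneg (Nat.cast_nonneg N) _
  have h1 : (a : ℝ) * pathLen N ≤ X / 2 := by
    have h0 : (0 : ℝ) ≤ pathLen N := Nat.cast_nonneg _
    have h3 : ((a : ℝ) + 1) * pathLen N ≤ (a + 1) * (1 / (2 * (a + 1)) * X) :=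
      mul_le_mul_of_nonneg_left hN (by positivity)
    have h4 : ((a : ℝ) + 1) * (1 / (2 * (a + 1)) * X) = X / 2 := by
      field_simp
    nlinarith
  have h2 : (b : ℝ) ≤ X / 2 := by
    have h3 : ((b : ℝ) + 1) * 1 ≤ (b + 1) * (1 / (2 * (b + 1)) * X) :=
      mul_le_mul_of_nonneg_left hNb (by positivity)
    have h4 : ((b : ℝ) + 1) * (1 / (2 * (b + 1)) * X) = X / 2 := by
      field_simp
    linarith
  have h5 : ((N : ℕ) : ℝ) ≤ ((k + a * pathLen N + b : ℕ) : ℝ) := by exact_mod_cast hk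
  push_cast at h5
  linarith

/-- `N^{a H} 2^{b H} ≤ 2^{e N}` eventually. -/
theorem patha_count (a b : ℕ) {e : ℝ} (he : 0 < e) : ∀ᶠ N : ℕ in atTop,
    (N : ℝ) ^ (a * pathLen N) * (2 : ℝ) ^ (b * pathLen N) ≤ (2 : ℝ) ^ (e * N) := by
  have hl2 : 0 < Real.log 2 := Real.log_pos (by norm_num)
  filter_upwards [patha_pathLen_mul_log_le (c := e * Real.log 2 / (2 * (a + 1))) (r := 1) (by positivity)
      (by norm_num),
    patha_pathLen_le_rpow (c := e / (2 * (b + 1))) (r := 1) (by positivity) (by norm_num),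
    eventually_ge_atTop 1] with N h1 h2 hN1
  rw [Real.rpow_one] at h1 h2
  have hNpos : (0 : ℝ) < N := by exact_mod_cast hN1
  have hH0 : (0 : ℝ) ≤ pathLen N := Nat.cast_nonneg _
  have hlog0 : 0 ≤ Real.log N := Real.log_natCast_nonneg N
  -- write everything as powers of two
  have e1 : (N : ℝ) ^ (a * pathLen N) = (2 : ℝ) ^ ((a * pathLen N : ℕ) * (Real.log N / Real.log 2)) := by
    have h0 : (N : ℝ) = (2 : ℝ) ^ (Real.log N / Real.log 2) := by
      rw [Real.rpow_def_of_pos (by norm_num), mul_div_cancel₀ _ hl2.ne', Real.exp_log hNpos]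
    conv_lhs => rw [h0]
    rw [← Real.rpow_natCast, ← Real.rpow_mul (by norm_num), mul_comm]
  have e2 : (2 : ℝ) ^ (b * pathLen N) = (2 : ℝ) ^ (((b * pathLen N : ℕ) : ℝ)) := by
    rw [Real.rpow_natCast]
  rw [e1, e2, ← Real.rpow_add (by norm_num)]
  refine Real.rpow_le_rpow_of_exponent_le (by norm_num) ?_
  push_cast
  have h3 : (a : ℝ) * pathLen N * (Real.log N / Real.log 2) ≤ e * N / 2 := by
    have h4 : ((a : ℝ) + 1) * (pathLen N * Real.log N) ≤
        (a + 1) * (e * Real.log 2 / (2 * (a + 1)) * N) := mul_le_mul_of_nonneg_left h1 (by positivity)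
    have h5 : ((a : ℝ) + 1) * (e * Real.log 2 / (2 * (a + 1)) * N) = e * N / 2 * Real.log 2 := by
      field_simp
    have h6 : (a : ℝ) * (pathLen N * Real.log N) ≤ e * N / 2 * Real.log 2 := by
      have : 0 ≤ (pathLen N : ℝ) * Real.log N := mul_nonneg hH0 hlog0
      nlinarith
    rw [mul_assoc, ← mul_div_assoc, ← mul_div_assoc, div_le_iff₀ hl2]
    exact h6
  have h7 : (b : ℝ) * pathLen N ≤ e * N / 2 := by
    have h4 : ((b : ℝ) + 1) * pathLen N ≤ (b + 1) * (e / (2 * (b + 1)) * N) :=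
      mul_le_mul_of_nonneg_left h2 (by positivity)
    have h5 : ((b : ℝ) + 1) * (e / (2 * (b + 1)) * N) = e * N / 2 := by
      field_simp
    nlinarith
  linarith

theorem patha_cA_pos {p : ℝ} (hp0 : 0 < p) (hp1 : p < 1) : 0 < cA p := by
  unfold cA
  have : Real.logb 2 (1 - p) < 0 := Real.logb_neg (by norm_num) (by linarith) (by linarith)
  linarith

/-- `(1-p)^x = 2^{-a x}`. -/
theorem patha_rpow_one_sub {p : ℝ} (hp1 : p < 1) (x : ℝ) : (1 - p) ^ x = (2 : ℝ) ^ (-(cA p * x)) := by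
  have h : (1 - p) = (2 : ℝ) ^ (Real.logb 2 (1 - p)) :=
    (Real.rpow_logb (by norm_num) (by norm_num) (by linarith)).symm
  conv_lhs => rw [h]
  rw [← Real.rpow_mul (by norm_num)]
  congr 1
  unfold cA
  ring

theorem patha_pow_one_sub {p : ℝ} (hp1 : p < 1) (k : ℕ) : (1 - p) ^ k = (2 : ℝ) ^ (-(cA p * k)) := by
  rw [← Real.rpow_natCast, patha_rpow_one_sub hp1]

/-- `(1-p)^k ≤ 2^{-(a - e) N}` eventually, uniformly for `k ∈ I_N`. -/
theorem patha_pow_one_sub_le {p : ℝ} (hp0 : 0 < p) (hp1 : p < 1) {e : ℝ} (he : 0 < e) :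
    ∀ᶠ N : ℕ in atTop, ∀ k : ℕ, InRange N k → (1 - p) ^ k ≤ (2 : ℝ) ^ (-((cA p - e) * N)) := by
  have ha := patha_cA_pos hp0 hp1
  filter_upwards [patha_rpow_le (c := e / cA p) (s := 7 / 10) (r := 1) (by positivity) (by norm_num)]
    with N hN k hk
  rw [Real.rpow_one] at hN
  rw [patha_pow_one_sub hp1]
  refine Real.rpow_le_rpow_of_exponent_le (by norm_num) ?_
  have h1 := hk.1
  have h2 : cA p * (N : ℝ) ^ ((7 : ℝ) / 10) ≤ e * N := by
    have := mul_le_mul_of_nonneg_left hN ha.le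
    have h3 : cA p * (e / cA p * N) = e * N := by field_simp
    linarith
  nlinarith

theorem patha_ell_tendstoR : Tendsto (fun N : ℕ => ell N) atTop atTop :=
  Real.tendsto_log_atTop.comp (Real.tendsto_log_atTop.comp tendsto_natCast_atTop_atTop)

theorem patha_scaleR_ge (N : ℕ) : ell N ^ 2 ≤ (scaleR N : ℝ) := Nat.le_ceil _

theorem patha_scaleR_tendstoR : Tendsto (fun N : ℕ => (scaleR N : ℝ)) atTop atTop := by
  refine tendsto_atTop_mono (fun N => patha_scaleR_ge N) ?_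
  exact (tendsto_pow_atTop (by norm_num)).comp patha_ell_tendstoR

theorem patha_scaleR_le {N : ℕ} (h : 1 ≤ ell N) : (scaleR N : ℝ) ≤ 2 * ell N ^ 2 := by
  have h1 : (scaleR N : ℝ) < ell N ^ 2 + 1 := Nat.ceil_lt_add_one (by positivity)
  nlinarith

/-- `ℓ^{-20} ≤ σ` eventually. -/
theorem patha_sigma_ge : ∀ᶠ N : ℕ in atTop, ell N ^ (-(20 : ℝ)) ≤ scaleSigma N := by
  filter_upwards [patha_ell_tendstoR.eventually_ge_atTop 2] with N hN
  have h1 := patha_scaleR_le (N := N) (by linarith)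
  have hpos : 0 < ell N := by linarith
  have hR : 0 < (scaleR N : ℝ) := lt_of_lt_of_le (by positivity) (patha_scaleR_ge N)
  unfold scaleSigma
  rw [Real.rpow_neg hpos.le]
  have h20 : ell N ^ (20 : ℝ) = ell N ^ (20 : ℕ) := by
    rw [← Real.rpow_natCast]; norm_num
  rw [h20]
  apply inv_anti₀ (by positivity)
  calc (scaleR N : ℝ) ^ 6 ≤ (2 * ell N ^ 2) ^ 6 := pow_le_pow_left₀ hR.le h1 6
    _ = 64 * ell N ^ 12 := by ring
    _ ≤ ell N ^ 8 * ell N ^ 12 := by
        apply mul_le_mul_of_nonneg_right _ (by positivity)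
        calc (64 : ℝ) ≤ 2 ^ 8 := by norm_num
          _ ≤ ell N ^ 8 := pow_le_pow_left₀ (by norm_num) hN 8
    _ = ell N ^ 20 := by ring

end Claimed.Agent.R293
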