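/-
R293 / PathFixed.lean  (owner: helper144).  PATH-P8: the fixed-path bound `StFixedPath`
(B Section 6.4: Lemmas 6.6, 6.7 + (6.15) + gate cost).  Prefix `pathf`.
-/
import Claimed.Agent.R293.PathIface
import Claimed.Agent.R293.PathAsymp

set_option autoImplicit false

namespace Claimed.Agent.R293

open Filter

theorem pathf_nodeSize_mono {H : ℕ} (m : ℕ) (w : Fin H → Bool) {t t' : ℕ} (h : t ≤ t') :
    nodeSize m w t ≤ nodeSize m w t' := by
  unfold nodeSize
  have : ∑ u ∈ Finset.Ico t' H, wdt w u ≤ ∑ u ∈ Finset.Ico t H, wdt w u :=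
    Finset.sum_le_sum_of_subset (Finset.Ico_subset_Ico_left h)
  omega

/-- `N^a ≤ 2^{e N}` eventually. -/
theorem pathf_pow_le (a : ℕ) {e : ℝ} (he : 0 < e) : ∀ᶠ N : ℕ in atTop, (N : ℝ) ^ a ≤ (2 : ℝ) ^ (e * N) := by
  have hl2 : 0 < Real.log 2 := Real.log_pos (by norm_num)
  filter_upwards [patha_log_le (c := e * Real.log 2 / (a + 1)) (r := 1) (by positivity) one_pos,
    eventually_ge_atTop 1] with N h1 hN1
  rw [Real.rpow_one] at h1
  have hNpos : (0 : ℝ) < N := by exact_mod_cast hN1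
  have hlog0 : 0 ≤ Real.log N := Real.log_natCast_nonneg N
  rw [← Real.log_le_log_iff (by positivity) (by positivity), Real.log_pow, Real.log_rpow (by norm_num)]
  have h2 : ((a : ℝ) + 1) * Real.log N ≤ (a + 1) * (e * Real.log 2 / (a + 1) * N) :=
    mul_le_mul_of_nonneg_left h1 (by positivity)
  have h3 : ((a : ℝ) + 1) * (e * Real.log 2 / (a + 1) * N) = e * N * Real.log 2 := by
    field_simp
  nlinarith

/-- **PATH-P8**: the fixed-path bound. -/
theorem path_fixedPath (hHT : StHighTail) (hW : StWindow) (hTC : StTwoCostly) (hGC : StGateCost) :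
    StFixedPath := by
  classical
  intro p hp0 hp1 L0 hL0 e0 he0 α hα0 hαe hα1 ζ hζ
  have hp1' : p ≤ 1 := by linarith
  have hp1'' : p < 1 := by linarith
  -- the auxiliary threshold
  obtain ⟨η, hη0, hη1, hη4⟩ : ∃ η : ℝ, 0 < η ∧ η < 1 ∧ 4 * η < ζ := by
    refine ⟨min (ζ / 5) (1 / 2), lt_min (by positivity) (by norm_num), ?_, ?_⟩
    · exact lt_of_le_of_lt (min_le_right _ _) (by norm_num)
    · have := min_le_left (ζ / 5) (1 / 2 : ℝ)
      linarith
  obtain ⟨c, hc, hHT'⟩ := hHT p hp0 hp1 η hη0 hη1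
  have hW' := hW ζ hζ η hη0 hη4
  have hTC' := hTC p hp0 hp1 e0 he0 α hα0 hαe hα1
  have hRbig : ∀ᶠ N : ℕ in atTop, 2 * cA p / c ≤ (scaleR N : ℝ) :=
    patha_scaleR_tendstoR.eventually_ge_atTop _
  have he2 : 0 < e0 / 2 := by positivity
  have h3big : ∀ᶠ N : ℕ in atTop, (3 : ℝ) ≤ (2 : ℝ) ^ (e0 / 2 * N) := by
    filter_upwards [pathf_pow_le 1 he2, eventually_ge_atTop 3] with N h hN
    rw [pow_one] at h
    have : (3 : ℝ) ≤ N := by exact_mod_cast hN
    linarith
  filter_upwards [hHT', hW', hTC', hRbig, patha_pathLen_fit 2 2, patha_inRange 2 1,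
    patha_pow_one_sub_le hp0 hp1'' (e := e0 / 4) (by positivity), pathf_pow_le 2 he2, h3big] with
    N hHT hW hTC hRbig hfit hrange hpow hN2 h3 m hm π hπ
  have hP := pb_bitModel_isProbArray hp0.le hp1' hπ
  set H := pathLen N with hH
  intro w
  have hmN : m ≤ N := by omega
  have h2H : 2 * H ≤ m := by omega
  have hHN : H ≤ N := by omega
  have hN0 : (0 : ℝ) ≤ N := Nat.cast_nonneg N
  have hIR : ∀ t : ℕ, InRange N (nodeSize m w t) := by
    intro t
    refine hrange _ ?_ ((pathb_nodeSize_le m w t).trans hmN)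
    have := pathb_le_nodeSize m w t
    omega
  -- the three families of events
  set HT : Set (Sym2 (Fin m) → Bool) :=
    {s | (∀ t ≤ H, (node (bitMat s) w t).det ≠ 0 ∧ CorankOK N (node (bitMat s) w t)) ∧
          ∃ t0 : ℕ, H ≤ t0 + 5 * scaleR N ∧ t0 ≤ H ∧
            η < matW N (scaleR N) (node (bitMat s) w t0)} with hHTdef
  set TC : ℕ × ℕ → Set (Sym2 (Fin m) → Bool) := fun x =>
    {s | CostlyEv α N (bitMat s) (nodeSize m w x.1) (wdt w x.1) ∧
      CostlyEv α N (bitMat s) (nodeSize m w x.2) (wdt w x.2)} with hTCdef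
  set GC : ℕ → Set (Sym2 (Fin m) → Bool) := fun t =>
    {s | (admCount L0 N (lead (bitMat s) (nodeSize m w t)) : ℝ) ≤ (2 : ℝ) ^ (e0 * N) ∧
      Gate L0 N (bitMat s) (nodeSize m w t)} with hGCdef
  set I2 : Finset (ℕ × ℕ) := (Finset.range H ×ˢ Finset.range H).filter (fun x => x.1 < x.2) with hI2
  set I1 : Finset ℕ := (Finset.range H).filter (fun t => wdt w t = 2) with hI1
  have hcover : {s : Sym2 (Fin m) → Bool | PathA L0 e0 α ζ N (bitMat s) w ∧
      ζ < matW N 2 (node (bitMat s) w H)} ⊆ HT ∪ ((⋃ x ∈ I2, TC x) ∪ ⋃ t ∈ I1, GC t) := by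
    rintro s ⟨⟨hgp, hgood⟩, hζW⟩
    by_cases hht : s ∈ HT
    · exact Or.inl hht
    refine Or.inr ?_
    have hsmall : ∀ t : ℕ, H ≤ t + 5 * scaleR N → t ≤ H →
        matW N (scaleR N) (node (bitMat s) w t) ≤ η := by
      intro t ht1 ht2
      by_contra hlt
      exact hht ⟨fun t' ht' => ⟨hgp.1 t' ht', (hgood t' ht').2.1⟩, t, ht1, ht2, not_le.1 hlt⟩
    rcases hW m hm (bitMat s) (pathb_bitMat_isBit s) w hgp.1 hsmall hζW with
      ⟨r, t, -, hrt, htH, hcr, hct⟩ | ⟨t, -, htH, hw2, hWt⟩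
    · left
      simp only [Set.mem_iUnion]
      refine ⟨(r, t), Finset.mem_filter.2 ⟨Finset.mem_product.2 ⟨Finset.mem_range.2 (hrt.trans htH),
        Finset.mem_range.2 htH⟩, hrt⟩, ?_, ?_⟩
      · exact ⟨hgp.1 r (hrt.trans htH).le, (hgood r (hrt.trans htH).le).1, hcr⟩
      · exact ⟨hgp.1 t htH.le, (hgood t htH.le).1, hct⟩
    · right
      simp only [Set.mem_iUnion]
      exact ⟨t, Finset.mem_filter.2 ⟨Finset.mem_range.2 htH, hw2⟩,
        (hgood t htH.le).2.2 hWt, hgp.2 t htH hw2⟩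
  -- numerics
  set X : ℝ := (2 : ℝ) ^ (-((2 * cA p - 4 * e0) * N)) with hX
  set Y : ℝ := (2 : ℝ) ^ (e0 / 2 * N) with hY
  have hX0 : 0 < X := by positivity
  have hY0 : 0 < Y := by positivity
  have bHT : prb π HT ≤ X := by
    refine (hHT m hm π hπ w).trans ?_
    refine Real.rpow_le_rpow_of_exponent_le (by norm_num) ?_
    have h1 : 2 * cA p ≤ c * scaleR N := by
      rw [div_le_iff₀ hc] at hRbig
      linarith
    have h2 : 2 * cA p * N ≤ c * scaleR N * N := mul_le_mul_of_nonneg_right h1 hN0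
    nlinarith
  have bTC : ∀ x ∈ I2, prb π (TC x) ≤ X := by
    intro x hx
    obtain ⟨hx1, hx2⟩ := Finset.mem_filter.1 hx
    obtain ⟨hr, ht⟩ := Finset.mem_product.1 hx1
    rw [Finset.mem_range] at hr ht
    have hwr := pathb_wdt_of_lt w hr
    have hwt := pathb_wdt_of_lt w ht
    have h1 : nodeSize m w x.1 + wdt w x.1 ≤ nodeSize m w x.2 := by
      rw [← pathb_nodeSize_succ w h2H hr]
      exact pathf_nodeSize_mono m w hx2
    have h2 : nodeSize m w x.2 + wdt w x.2 ≤ m := by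
      rw [← pathb_nodeSize_succ w h2H ht]
      exact pathb_nodeSize_le m w _
    have h3 := hTC m π hπ (nodeSize m w x.1) (wdt w x.1) (nodeSize m w x.2) (wdt w x.2)
      (hIR _) (hIR _) (by omega) (by omega) (by omega) (by omega) h1 h2
    refine h3.trans (le_of_eq ?_)
    rw [← Real.rpow_natCast, ← Real.rpow_mul (by norm_num), hX]
    congr 1
    push_cast
    ring
  have bGC : ∀ t ∈ I1, prb π (GC t) ≤ X := by
    intro t ht
    obtain ⟨ht1, ht2⟩ := Finset.mem_filter.1 ht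
    rw [Finset.mem_range] at ht1
    have h2 : nodeSize m w t + 2 ≤ m := by
      rw [← ht2, ← pathb_nodeSize_succ w h2H ht1]
      exact pathb_nodeSize_le m w _
    have h3 := hGC p hp0 hp1 L0 N m π hπ (nodeSize m w t) h2 ((2 : ℝ) ^ (e0 * N)) (by positivity)
    refine h3.trans ?_
    have h4 := hpow _ (hIR t)
    have h5 : (2 : ℝ) ^ (e0 * N) * (1 - p) ^ nodeSize m w t ≤
        (2 : ℝ) ^ (e0 * N) * (2 : ℝ) ^ (-((cA p - e0 / 4) * N)) :=
      mul_le_mul_of_nonneg_left h4 (by positivity)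
    have h6 : 0 ≤ (2 : ℝ) ^ (e0 * N) * (1 - p) ^ nodeSize m w t :=
      mul_nonneg (by positivity) (pow_nonneg (by linarith) _)
    refine (pow_le_pow_left₀ h6 h5 2).trans ?_
    rw [← Real.rpow_add (by norm_num), ← Real.rpow_natCast, ← Real.rpow_mul (by norm_num), hX]
    refine Real.rpow_le_rpow_of_exponent_le (by norm_num) ?_
    push_cast
    nlinarith
  have cI2 : (I2.card : ℝ) ≤ Y := by
    have h1 : I2.card ≤ H * H := by
      refine (Finset.card_filter_le _ _).trans ?_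
      rw [Finset.card_product, Finset.card_range]
    have h2 : H * H ≤ N * N := Nat.mul_le_mul hHN hHN
    calc (I2.card : ℝ) ≤ ((N * N : ℕ) : ℝ) := by exact_mod_cast h1.trans h2
      _ = (N : ℝ) ^ 2 := by push_cast; ring
      _ ≤ Y := hN2
  have cI1 : (I1.card : ℝ) ≤ Y := by
    have h1 : I1.card ≤ H := by
      refine (Finset.card_filter_le _ _).trans ?_
      rw [Finset.card_range]
    have hN1 : 1 ≤ N := by omega
    have h2 : H ≤ N * N := hHN.trans (Nat.le_mul_of_pos_left N hN1)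
    calc (I1.card : ℝ) ≤ ((N * N : ℕ) : ℝ) := by exact_mod_cast h1.trans h2
      _ = (N : ℝ) ^ 2 := by push_cast; ring
      _ ≤ Y := hN2
  have u2 := pb_prb_biUnion_le_card_mul hP I2 TC bTC
  have u1 := pb_prb_biUnion_le_card_mul hP I1 GC bGC
  have ht1 := pb_prb_mono hP hcover
  have ht2 := pb_prb_union_le hP HT ((⋃ x ∈ I2, TC x) ∪ ⋃ t ∈ I1, GC t)
  have ht3 := pb_prb_union_le hP (⋃ x ∈ I2, TC x) (⋃ t ∈ I1, GC t)
  have hfin : Y * Y * X = (2 : ℝ) ^ (-((2 * cA p - 5 * e0) * N)) := by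
    rw [hX, hY, ← Real.rpow_add (by norm_num), ← Real.rpow_add (by norm_num)]
    congr 1
    ring
  rw [← hfin]
  have v2 : (I2.card : ℝ) * X ≤ Y * X := mul_le_mul_of_nonneg_right cI2 hX0.le
  have v1 : (I1.card : ℝ) * X ≤ Y * X := mul_le_mul_of_nonneg_right cI1 hX0.le
  have hYX : 0 < Y * X := by positivity
  have v3 : X ≤ Y * X := by nlinarith
  have v4 : 3 * (Y * X) ≤ Y * (Y * X) := mul_le_mul_of_nonneg_right h3 hYX.le
  have v5 : Y * Y * X = Y * (Y * X) := by ring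
  rw [v5]
  refine le_trans ht1 ?_
  linarith

end Claimed.Agent.R293
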