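/-
R293 / PathCol.lean  (owner: helper271).  Package PATH, common core of the probabilistic leaves
P2, P6, P7: the bits `{s(r,a) : r < k}` of one bordering column, freeness of everything that only
depends on a leading minor of size `≤ a`, and the conditional law of the column.  Prefix `pathc`.
-/
import Claimed.Agent.R293.PathBasic

set_option autoImplicit false

namespace Claimed.Agent.R293

open scoped BigOperators

section Col
variable {m : ℕ}

/-- the bits of column `a` in the rows `< k`. -/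
def pathcSet (m k a : ℕ) : Set (Sym2 (Fin m)) :=
  {e | ∃ i j : Fin m, e = s(i, j) ∧ (i : ℕ) < k ∧ (j : ℕ) = a}

/-- row `r < k` ↦ the bit at `(r, a)`. -/
def pathcEmb {k a : ℕ} (hk : k ≤ a) (ha : a < m) (r : Fin k) : Sym2 (Fin m) :=
  s(⟨r, (r.2.trans_le hk).trans ha⟩, ⟨a, ha⟩)

theorem pathcEmb_injective {k a : ℕ} (hk : k ≤ a) (ha : a < m) :
    Function.Injective (pathcEmb hk ha) := by
  intro r r' h
  unfold pathcEmb at h
  rw [Sym2.eq_iff] at h
  rcases h with ⟨h1, -⟩ | ⟨h1, -⟩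
  · exact Fin.ext (by simpa using h1)
  · have h2 : (r : ℕ) = a := by simpa using h1
    have := r.2
    omega

theorem pathcEmb_mem {k a : ℕ} (hk : k ≤ a) (ha : a < m) (r : Fin k) :
    pathcEmb hk ha r ∈ pathcSet m k a :=
  ⟨_, _, rfl, r.2, rfl⟩

theorem pathc_notMem {k a : ℕ} {i j : Fin m}
    (h : ¬ (((i : ℕ) < k ∧ (j : ℕ) = a) ∨ ((j : ℕ) < k ∧ (i : ℕ) = a))) :
    s(i, j) ∉ pathcSet m k a := by
  rintro ⟨i', j', he, h1, h2⟩
  rw [Sym2.eq_iff] at he
  rcases he with ⟨rfl, rfl⟩ | ⟨rfl, rfl⟩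
  · exact h (Or.inl ⟨h1, h2⟩)
  · exact h (Or.inr ⟨h1, h2⟩)

theorem pathc_natMat_bitMat (s : Sym2 (Fin m) → Bool) {i j : ℕ} (hi : i < m) (hj : j < m) :
    natMat (bitMat s) i j = if s s(⟨i, hi⟩, ⟨j, hj⟩) then 1 else 0 := by
  rw [pathb_natMat_of_lt _ hi hj]
  rfl

/-- entries outside the column are not touched by resampling. -/
theorem pathc_natMat_mix {k a : ℕ} (x s : Sym2 (Fin m) → Bool) {i j : ℕ}
    (h : ¬ ((i < k ∧ j = a) ∨ (j < k ∧ i = a))) :
    natMat (bitMat (pbMix (pathcSet m k a) x s)) i j = natMat (bitMat s) i j := by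
  by_cases hij : i < m ∧ j < m
  · rw [pathc_natMat_bitMat _ hij.1 hij.2, pathc_natMat_bitMat _ hij.1 hij.2,
      pbMix_of_notMem (pathc_notMem (i := ⟨i, hij.1⟩) (j := ⟨j, hij.2⟩) h)]
  · rw [pathb_natMat_of_not _ hij, pathb_natMat_of_not _ hij]

/-- leading minors of size `≤ a` are not touched by resampling column `a`. -/
theorem pathc_lead_mix {k a n : ℕ} (hn : n ≤ a) (x s : Sym2 (Fin m) → Bool) :
    lead (bitMat (pbMix (pathcSet m k a) x s)) n = lead (bitMat s) n := by
  funext i j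
  refine pathc_natMat_mix x s ?_
  have := i.2
  have := j.2
  omega

/-- the resampled column. -/
theorem pathc_leadColB_mix {k a : ℕ} (hk : k ≤ a) (ha : a < m) (x s : Sym2 (Fin m) → Bool) :
    leadColB (bitMat (pbMix (pathcSet m k a) x s)) k a = x ∘ pathcEmb hk ha := by
  funext r
  simp only [leadColB, Function.comp]
  rw [pathc_natMat_bitMat _ ((r.2.trans_le hk).trans ha) ha]
  have h1 : pbMix (pathcSet m k a) x s s(⟨r, (r.2.trans_le hk).trans ha⟩, ⟨a, ha⟩)
      = x (pathcEmb hk ha r) := pbMix_of_mem (pathcEmb_mem hk ha r) x s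
  rw [h1]
  cases x (pathcEmb hk ha r) <;> simp

theorem pathc_leadCol_mix {k a : ℕ} (hk : k ≤ a) (ha : a < m) (x s : Sym2 (Fin m) → Bool) :
    leadCol (bitMat (pbMix (pathcSet m k a) x s)) k a = bitVecZ (x ∘ pathcEmb hk ha) := by
  rw [← pathb_bitVecZ_leadColB (pathb_bitMat_isBit _), pathc_leadColB_mix hk ha]

/-- whatever factors through a leading minor of size `n ≤ a` is free of the bits of column `a`. -/
theorem pathc_free {β : Sort*} {n a : ℕ} (k : ℕ) (hn : n ≤ a) (f : Matrix (Fin m) (Fin m) ℤ → β)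
    (g : Matrix (Fin n) (Fin n) ℤ → β) (h : ∀ B, f B = g (lead B n)) :
    pbFree (pathcSet m k a) (fun s => f (bitMat s)) := by
  intro x s
  simp only [h, pathc_lead_mix hn]

theorem pathc_freeSet {n a : ℕ} (k : ℕ) (hn : n ≤ a) (P : Matrix (Fin m) (Fin m) ℤ → Prop)
    (g : Matrix (Fin n) (Fin n) ℤ → Prop) (h : ∀ B, P B ↔ g (lead B n)) :
    pbFreeSet (pathcSet m k a) {s | P (bitMat s)} :=
  (pathc_free k hn P g fun B => propext (h B)).setOf

/-- the law of a column in the bit model. -/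
theorem pathc_colModel {p : ℝ} {π : Sym2 (Fin m) → ℝ} (hπ : BitModel p π) {k a : ℕ} (hk : k ≤ a)
    (ha : a < m) : ColModel p (π ∘ pathcEmb hk ha) := fun _ => hπ.val _

/-- **conditional law of the column** (expectations). -/
theorem pathc_exq_col (π : Sym2 (Fin m) → ℝ) {k a : ℕ} (hk : k ≤ a) (ha : a < m)
    (F : (Fin k → Bool) → ℝ) (s : Sym2 (Fin m) → Bool) :
    exq π (fun x => F (leadColB (bitMat (pbMix (pathcSet m k a) x s)) k a))
      = exq (π ∘ pathcEmb hk ha) F := by
  rw [← pb_exq_comp π (pathcEmb_injective hk ha)]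
  exact pb_exq_congr π fun x => by rw [pathc_leadColB_mix hk ha]

/-- **conditional law of the column** (probabilities). -/
theorem pathc_prb_col (π : Sym2 (Fin m) → ℝ) {k a : ℕ} (hk : k ≤ a) (ha : a < m)
    (E : Set (Fin k → Bool)) (s : Sym2 (Fin m) → Bool) :
    prb π {x | leadColB (bitMat (pbMix (pathcSet m k a) x s)) k a ∈ E}
      = prb (π ∘ pathcEmb hk ha) E := by
  rw [← pb_prb_comp π (pathcEmb_injective hk ha)]
  congr 1
  ext x
  simp only [Set.mem_ofPred_eq, pathc_leadColB_mix hk ha]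

end Col

/-! ### the objects of PathDefs only depend on leading minors -/

section Dep
variable {m : ℕ}

theorem pathc_preLat_lead (B : Matrix (Fin m) (Fin m) ℤ) {k i n : ℕ} (h : k + i ≤ n) :
    preLat (lead B n) k i = preLat B k i := by
  unfold preLat
  by_cases hi : i = 0
  · rw [if_pos hi, if_pos hi, pathb_lead_lead B (by omega)]
  · rw [if_neg hi, if_neg hi, pathb_lead_lead B (by omega), pathb_leadCol_lead B (by omega) (by omega)]

theorem pathc_qTilde_lead (N : ℕ) (η : ℝ) (B : Matrix (Fin m) (Fin m) ℤ) {k i n : ℕ}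
    (h : k + i < n) : qTilde N η (lead B n) k i = qTilde N η B k i := by
  unfold qTilde
  rw [pathb_lead_lead B (by omega), pathc_preLat_lead B (by omega),
    pathb_leadCol_lead B (by omega) h]

theorem pathc_costlyCol_lead (N : ℕ) (B : Matrix (Fin m) (Fin m) ℤ) {k i n : ℕ}
    (h : k + i < n) : CostlyCol N (lead B n) k i ↔ CostlyCol N B k i := by
  unfold CostlyCol
  rw [pathc_preLat_lead B (by omega), pathb_leadCol_lead B (by omega) h]

theorem pathc_costly_lead (N : ℕ) (B : Matrix (Fin m) (Fin m) ℤ) {k wd n : ℕ}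
    (h : k + wd ≤ n) : Costly N (lead B n) k wd ↔ Costly N B k wd := by
  unfold Costly
  constructor
  · rintro ⟨i, hi, hc⟩
    exact ⟨i, hi, (pathc_costlyCol_lead N B (by omega)).1 hc⟩
  · rintro ⟨i, hi, hc⟩
    exact ⟨i, hi, (pathc_costlyCol_lead N B (by omega)).2 hc⟩

theorem pathc_costlyEv_lead (α : ℝ) (N : ℕ) (B : Matrix (Fin m) (Fin m) ℤ) {k wd n : ℕ}
    (h : k + wd ≤ n) : CostlyEv α N (lead B n) k wd ↔ CostlyEv α N B k wd := by
  unfold CostlyEv
  rw [pathb_lead_lead B (by omega), pathc_costly_lead N B h]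

end Dep

end Claimed.Agent.R293
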