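/-
R293 / PathGate.lean  (owner: helper271).  Package PATH, leaf P7: the cost of a width-two gate
(B Lemma 6.3, last assertion).  Prefix `pathj`.
-/
import Claimed.Agent.R293.PathCol

set_option autoImplicit false

namespace Claimed.Agent.R293

open scoped BigOperators

section Gate
variable {m : ℕ}

/-- conditional probability that the column `a` is admissible for the leading minor of size `k`. -/
theorem pathj_cond {p : ℝ} (hp0 : 0 < p) (hp : p ≤ 1 / 2) (L0 : ℝ) (N : ℕ)
    {π : Sym2 (Fin m) → ℝ} (hπ : BitModel p π) {k a : ℕ} (hk : k ≤ a) (ha : a < m) {T : ℝ}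
    (s : Sym2 (Fin m) → Bool) (hs : (admCount L0 N (lead (bitMat s) k) : ℝ) ≤ T) :
    prb π {x | pbMix (pathcSet m k a) x s ∈
        {s | IsAdmCol L0 N (lead (bitMat s) k) (leadColB (bitMat s) k a)}} ≤ T * (1 - p) ^ k := by
  have hP : IsProbArray π := pb_bitModel_isProbArray hp0.le (by linarith) hπ
  have hb := pb_bitModel_atom_le hp hπ
  have h1 : {x | pbMix (pathcSet m k a) x s ∈
        {s | IsAdmCol L0 N (lead (bitMat s) k) (leadColB (bitMat s) k a)}}
      = {x | x ∘ pathcEmb hk ha ∈ {z | IsAdmCol L0 N (lead (bitMat s) k) z}} := by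
    ext x
    simp only [Set.mem_ofPred_eq, pathc_lead_mix hk, pathc_leadColB_mix hk ha]
  rw [h1]
  refine (pb_prb_comp_le_card_mul hP hb (pathcEmb_injective hk ha) _).trans ?_
  rw [Fintype.card_fin]
  have h2 : (0 : ℝ) ≤ (1 - p) ^ k := pow_nonneg (by linarith) k
  exact mul_le_mul_of_nonneg_right hs h2

end Gate

/-- **B Lemma 6.3, last assertion.** -/
theorem path_gateCost : StGateCost := by
  intro p hp0 hp L0 N m π hπ k hk T hT
  have hP : IsProbArray π := pb_bitModel_isProbArray hp0.le (by linarith) hπ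
  have hc0 : 0 ≤ T * (1 - p) ^ k := mul_nonneg hT (pow_nonneg (by linarith) k)
  set F : Set (Sym2 (Fin m) → Bool) := {s | (admCount L0 N (lead (bitMat s) k) : ℝ) ≤ T} with hF
  set E1 : Set (Sym2 (Fin m) → Bool) :=
    {s | IsAdmCol L0 N (lead (bitMat s) k) (leadColB (bitMat s) k k)} with hE1
  set E2 : Set (Sym2 (Fin m) → Bool) :=
    {s | IsAdmCol L0 N (lead (bitMat s) k) (leadColB (bitMat s) k (k + 1))} with hE2
  have hset : {s | (admCount L0 N (lead (bitMat s) k) : ℝ) ≤ T ∧ Gate L0 N (bitMat s) k}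
      = E2 ∩ (E1 ∩ F) := by
    ext s
    simp only [hF, hE1, hE2, Gate, Set.mem_ofPred_eq, Set.mem_inter_iff]
    tauto
  have hfF : ∀ a, k ≤ a → pbFreeSet (pathcSet m k a) F := fun a ha =>
    pathc_freeSet k ha (fun B => (admCount L0 N (lead B k) : ℝ) ≤ T)
      (fun C => (admCount L0 N C : ℝ) ≤ T) fun B => Iff.rfl
  have hfE1 : pbFreeSet (pathcSet m k (k + 1)) E1 :=
    pathc_freeSet k le_rfl (fun B => IsAdmCol L0 N (lead B k) (leadColB B k k))
      (fun C => IsAdmCol L0 N (lead C k) (leadColB C k k)) fun B => by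
        rw [pathb_lead_lead B (Nat.le_succ k), pathb_leadColB_lead B (Nat.le_succ k) (Nat.lt_succ_self k)]
  have h2 : prb π (E2 ∩ (E1 ∩ F)) ≤ T * (1 - p) ^ k * prb π (E1 ∩ F) :=
    pb_prb_inter_le hP (pathcSet m k (k + 1)) E2 (hfE1.inter (hfF _ (Nat.le_succ k)))
      fun s hs => pathj_cond hp0 hp L0 N hπ (Nat.le_succ k) (by omega) s hs.2
  have h1 : prb π (E1 ∩ F) ≤ T * (1 - p) ^ k * prb π F :=
    pb_prb_inter_le hP (pathcSet m k k) E1 (hfF _ le_rfl)
      fun s hs => pathj_cond hp0 hp L0 N hπ le_rfl (by omega) s hs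
  have h0 : prb π F ≤ 1 := pb_prb_le_one hP F
  rw [hset, sq]
  calc prb π (E2 ∩ (E1 ∩ F)) ≤ T * (1 - p) ^ k * prb π (E1 ∩ F) := h2
    _ ≤ T * (1 - p) ^ k * (T * (1 - p) ^ k * prb π F) := mul_le_mul_of_nonneg_left h1 hc0
    _ ≤ T * (1 - p) ^ k * (T * (1 - p) ^ k * 1) := by gcongr
    _ = _ := by ring

end Claimed.Agent.R293
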