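/-
R293 / PathHeavyCost.lean  (owner: helper211).  PATH-C6: cost of heavy retained layers (B Lemma 6.5) and the one-column
exponential moment (B (6.12)).  Prefix `pathx`.
-/
import Claimed.Agent.R293.PathIface
import Claimed.Agent.R293.PathBasic
import Claimed.Agent.R293.PathIndex
import Claimed.Agent.R293.PathLayer

set_option autoImplicit false

namespace Claimed.Agent.R293

open Filter
open scoped BigOperators

/-! ### constants and column models -/

theorem pathx_cA_pos {p : ℝ} (hp0 : 0 < p) (hp1 : p ≤ 1 / 2) : 0 < cA p := by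
  unfold cA
  have : Real.logb 2 (1 - p) < 0 := Real.logb_neg (by norm_num) (by linarith) (by linarith)
  linarith

theorem pathx_one_sub_rpow {p : ℝ} (hp1 : p < 1) (x : ℝ) :
    (1 - p) ^ x = (2 : ℝ) ^ (-(cA p * x)) := by
  have h : (2 : ℝ) ^ (Real.logb 2 (1 - p)) = 1 - p :=
    Real.rpow_logb (by norm_num) (by norm_num) (by linarith)
  conv_lhs => rw [← h]
  rw [← Real.rpow_mul (by norm_num)]
  congr 1
  unfold cA
  ring

theorem pathx_colModel_prob {p : ℝ} (hp0 : 0 < p) (hp1 : p ≤ 1 / 2) {k : ℕ} {ρ : Fin k → ℝ}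
    (h : ColModel p ρ) : IsProbArray ρ := by
  intro i
  rcases h i with hi | hi <;> rw [hi] <;> constructor <;> linarith

theorem pathx_colModel_atom {p : ℝ} (hp1 : p ≤ 1 / 2) {k : ℕ} {ρ : Fin k → ℝ}
    (h : ColModel p ρ) (i : Fin k) : ρ i ≤ 1 - p ∧ 1 - ρ i ≤ 1 - p := by
  rcases h i with hi | hi <;> rw [hi] <;> constructor <;> linarith

/-! ### index and weights -/

theorem pathx_index_ne_zero {N k : ℕ} {C : Matrix (Fin k) (Fin k) ℤ} {K : AddSubgroup (Fin k → ℤ)}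
    (h : LatOK N k C K) : K.index ≠ 0 := by
  obtain ⟨_, _, hdet, hle⟩ := h
  intro h0
  have h1 := AddSubgroup.index_dvd_of_le hle
  rw [h0, zero_dvd_iff, pathi_index_of_det_ne_zero hdet] at h1
  exact hdet (Int.natAbs_eq_zero.1 h1)

theorem pathx_NlogN_pos {N : ℕ} (hN : 2 ≤ N) : 0 < (N : ℝ) * Real.log N := by
  have h1 : (1 : ℝ) < N := by exact_mod_cast hN
  exact mul_pos (by linarith) (Real.log_pos h1)

theorem pathx_nu_mul {N : ℕ} (hN : 2 ≤ N) (l : ℕ) :
    nu N l * ((N : ℝ) * Real.log N) = Real.log l := by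
  unfold nu
  exact div_mul_cancel₀ _ (pathx_NlogN_pos hN).ne'

/-- `N^{q(D) N} = ∏_{(l,j) ∈ D} l^{k(l,j)}`. -/
theorem pathx_rpow_maskQ {N k : ℕ} (hN : 2 ≤ N) (K : AddSubgroup (Fin k → ℤ))
    (D : Finset (ℕ × ℕ)) (hD : ∀ x ∈ D, 0 < x.1) :
    (N : ℝ) ^ (maskQ N K D * N) = ((∏ x ∈ D, x.1 ^ latLayer K x.1 x.2 : ℕ) : ℝ) := by
  have hNpos : (0 : ℝ) < N := by
    have : (2 : ℝ) ≤ N := by exact_mod_cast hN
    linarith
  rw [Real.rpow_def_of_pos hNpos]
  have h1 : Real.log N * (maskQ N K D * N) = ∑ x ∈ D, (latLayer K x.1 x.2 : ℝ) * Real.log x.1 := by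
    unfold maskQ
    rw [Finset.sum_mul, Finset.mul_sum]
    refine Finset.sum_congr rfl fun x _ => ?_
    rw [← pathx_nu_mul hN x.1]
    ring
  rw [h1, Real.exp_sum]
  push_cast
  refine Finset.prod_congr rfl fun x hx => ?_
  have hx0 : (0 : ℝ) < x.1 := by exact_mod_cast hD x hx
  rw [mul_comm, Real.exp_mul, Real.exp_log hx0, Real.rpow_natCast]

/-- `Q_hi ≤ 1/2`. -/
theorem pathx_heavyW_le_half (hT : StLayerTotal) (hI : StIndexDet) (hH : StHadamardBit) {N k : ℕ}
    (hN : 2 ≤ N) {C : Matrix (Fin k) (Fin k) ℤ} {K : AddSubgroup (Fin k → ℤ)} (hOK : LatOK N k C K)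
    (v : Fin k → ℤ) : heavyW N K v ≤ 1 / 2 := by
  have hidx := pathx_index_ne_zero hOK
  have : Finite ((Fin k → ℤ) ⧸ K) := pathl_finite_quot hidx
  have hpos := pathx_NlogN_pos hN
  have hNpos : (0 : ℝ) < N := by
    have : (2 : ℝ) ≤ N := by exact_mod_cast hN
    linarith
  have h1 : heavyW N K v ≤ ∑ x ∈ latIndex K, (latLayer K x.1 x.2 : ℝ) * nu N x.1 := by
    unfold heavyW
    refine Finset.sum_le_sum fun x _ => ?_
    split_ifs
    · exact le_rfl
    · exact mul_nonneg (Nat.cast_nonneg _) (pathb_nu_nonneg N x.1)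
  have h2 : (∑ x ∈ latIndex K, (latLayer K x.1 x.2 : ℝ) * nu N x.1) * ((N : ℝ) * Real.log N)
      = Real.log (K.index : ℝ) := by
    have h := hT ((Fin k → ℤ) ⧸ K)
    rw [Finset.sum_mul]
    refine Eq.trans (Finset.sum_congr rfl fun x _ => ?_) h
    rw [mul_assoc, pathx_nu_mul hN]
  have h3 : Real.log (K.index : ℝ) ≤ (N : ℝ) / 2 * Real.log N := by
    obtain ⟨hr, hbit, hdet, hle⟩ := hOK
    have hd := AddSubgroup.index_dvd_of_le hle
    have hC0 : (colLat C).index ≠ 0 := by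
      rw [hI k C]
      exact Int.natAbs_ne_zero.2 hdet
    have h4 : K.index ≤ (colLat C).index := Nat.le_of_dvd (Nat.pos_of_ne_zero hC0) hd
    have h5 : ((colLat C).index : ℝ) ≤ (N : ℝ) ^ ((N : ℝ) / 2) := by
      rw [hI k C]
      exact hH N k (by exact_mod_cast hr.2) C hbit
    have h6 : (K.index : ℝ) ≤ (N : ℝ) ^ ((N : ℝ) / 2) := le_trans (by exact_mod_cast h4) h5
    have h7 : (0 : ℝ) < K.index := by exact_mod_cast Nat.pos_of_ne_zero hidx
    calc Real.log (K.index : ℝ) ≤ Real.log ((N : ℝ) ^ ((N : ℝ) / 2)) := Real.log_le_log h7 h6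
      _ = (N : ℝ) / 2 * Real.log N := Real.log_rpow hNpos _
  have h8 : heavyW N K v * ((N : ℝ) * Real.log N) ≤ 1 / 2 * ((N : ℝ) * Real.log N) := by
    calc heavyW N K v * ((N : ℝ) * Real.log N)
        ≤ (∑ x ∈ latIndex K, (latLayer K x.1 x.2 : ℝ) * nu N x.1) * ((N : ℝ) * Real.log N) :=
          mul_le_mul_of_nonneg_right h1 hpos.le
      _ = Real.log (K.index : ℝ) := h2
      _ ≤ (N : ℝ) / 2 * Real.log N := h3
      _ = 1 / 2 * ((N : ℝ) * Real.log N) := by ring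
  exact le_of_mul_le_mul_right h8 hpos

/-! ### B Lemma 6.5 -/

/-- one mask. -/
theorem pathx_mask_cost (hRet : StRetLat) (hDis : StDissoc) {p : ℝ} (hp0 : 0 < p) (hp1 : p ≤ 1 / 2)
    {N k : ℕ} (hN : 2 ≤ N) {C : Matrix (Fin k) (Fin k) ℤ} {K : AddSubgroup (Fin k → ℤ)}
    (hOK : LatOK N k C K) {ρ : Fin k → ℝ} (hρ : ColModel p ρ) {q : ℝ} (hq0 : 0 ≤ q)
    {D : Finset (ℕ × ℕ)} (hD : IsMask K D) (hqD : q ≤ maskQ N K D) :
    prb ρ {z | MaskRetained K (bitVecZ z) D} ≤ (2 : ℝ) ^ (-(2 * cA p / 3 * q * N)) := by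
  have hprob := pathx_colModel_prob hp0 hp1 hρ
  obtain ⟨KD, hKle, hKidx, hKmem⟩ := hRet k K (pathx_index_ne_zero hOK) D hD
  have hN1 : (1 : ℝ) ≤ N := by
    have : (2 : ℝ) ≤ N := by exact_mod_cast hN
    linarith
  have hDpos : ∀ x ∈ D, 0 < x.1 := fun x hx =>
    (pathl_prime_of_mem_layerIndex _ (hD.1 hx)).pos
  have hidx : (N : ℝ) ^ (q * N) ≤ (KD.index : ℝ) := by
    rw [hKidx, ← pathx_rpow_maskQ hN K D hDpos]
    exact Real.rpow_le_rpow_of_exponent_le hN1
      (mul_le_mul_of_nonneg_right hqD (by linarith))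
  obtain ⟨hr, hbit, hdet, hle⟩ := hOK
  have h := hDis N k hN (by exact_mod_cast hr.2) C hbit hdet KD (hle.trans hKle) (1 - p) ρ hprob
    (pathx_colModel_atom hp1 hρ) (by linarith) q hq0 hidx
  calc prb ρ {z | MaskRetained K (bitVecZ z) D} ≤ prb ρ {z | bitVecZ z ∈ KD} :=
        pb_prb_mono hprob fun z hz => hKmem _ hz
    _ ≤ (1 - p) ^ (2 * q * N / 3) := h
    _ = (2 : ℝ) ^ (-(2 * cA p / 3 * q * N)) := by
        rw [pathx_one_sub_rpow (by linarith)]
        congr 1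
        ring

/-- **B Lemma 6.5**. -/
theorem path_heavyCost (hCov : StHeavyCover) (hRet : StRetLat) (hDis : StDissoc) : StHeavyCost := by
  intro p hp0 hp1 η hη0 hη1 c hc
  have hεpos : 0 < 2 * cA p / 3 - c := by linarith
  filter_upwards [hCov η hη0 hη1 (2 * cA p / 3 - c) hεpos, eventually_ge_atTop 2] with N hN hN2
  intro k C K hOK ρ hρ q hq1 hq2
  obtain ⟨Ds, hcard, hDs, hcover⟩ := hN k C K hOK q hq1 hq2
  have hprob := pathx_colModel_prob hp0 hp1 hρ
  have hlog : 0 ≤ Real.log N := Real.log_natCast_nonneg N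
  have hq0 : 0 ≤ q := le_trans (by positivity) hq1
  have hsub : {z | q ≤ heavyW N K (bitVecZ z) ∧ heavyW N K (bitVecZ z) < 2 * q}
      ⊆ ⋃ D ∈ Ds, {z | MaskRetained K (bitVecZ z) D} := by
    rintro z ⟨hz1, hz2⟩
    obtain ⟨D, hD, hret⟩ := hcover _ hz1 hz2
    simp only [Set.mem_iUnion]
    exact ⟨D, hD, hret⟩
  calc prb ρ {z | q ≤ heavyW N K (bitVecZ z) ∧ heavyW N K (bitVecZ z) < 2 * q}
      ≤ prb ρ (⋃ D ∈ Ds, {z | MaskRetained K (bitVecZ z) D}) := pb_prb_mono hprob hsub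
    _ ≤ (Ds.card : ℝ) * (2 : ℝ) ^ (-(2 * cA p / 3 * q * N)) :=
        pb_prb_biUnion_le_card_mul hprob _ _ fun D hD =>
          pathx_mask_cost hRet hDis hp0 hp1 hN2 hOK hρ hq0 (hDs D hD).1 (hDs D hD).2
    _ ≤ (2 : ℝ) ^ ((2 * cA p / 3 - c) * q * N) * (2 : ℝ) ^ (-(2 * cA p / 3 * q * N)) :=
        mul_le_mul_of_nonneg_right hcard (by positivity)
    _ = (2 : ℝ) ^ (-(c * q * N)) := by
        rw [← Real.rpow_add (by norm_num)]
        congr 1
        ring

/-! ### asymptotics -/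

theorem pathx_eventually_root (U0 : ℝ) : ∀ᶠ N : ℕ in atTop, U0 ≤ (N : ℝ) ^ ((1 : ℝ) / 4) :=
  ((tendsto_rpow_atTop (by norm_num : (0 : ℝ) < 1 / 4)).comp
    tendsto_natCast_atTop_atTop).eventually_ge_atTop U0

/-- facts about `u = N^{1/4}`. -/
theorem pathx_root_facts {N : ℕ} (hN : 2 ≤ N) :
    (N : ℝ) = ((N : ℝ) ^ ((1 : ℝ) / 4)) ^ 4 ∧ (N : ℝ) ^ ((1 : ℝ) / 2) = ((N : ℝ) ^ ((1 : ℝ) / 4)) ^ 2 ∧
      Real.log N ≤ 4 * (N : ℝ) ^ ((1 : ℝ) / 4) ∧ 0 < Real.log N := by
  have hN0 : (0 : ℝ) ≤ N := Nat.cast_nonneg N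
  have hN1 : (1 : ℝ) < N := by exact_mod_cast hN
  refine ⟨?_, ?_, ?_, Real.log_pos hN1⟩
  · rw [← Real.rpow_natCast, ← Real.rpow_mul hN0]
    norm_num
  · rw [← Real.rpow_natCast, ← Real.rpow_mul hN0]
    norm_num
  · have h := Real.log_le_rpow_div hN0 (by norm_num : (0 : ℝ) < 1 / 4)
    calc Real.log N ≤ (N : ℝ) ^ ((1 : ℝ) / 4) / (1 / 4) := h
      _ = 4 * (N : ℝ) ^ ((1 : ℝ) / 4) := by ring

theorem pathx_asymp1 (a : ℝ) (ha : 0 < a) : ∀ᶠ N : ℕ in atTop,
    (N : ℝ) * (2 : ℝ) ^ (-(a * N / Real.log N)) ≤ (2 : ℝ) ^ (-((N : ℝ) ^ ((1 : ℝ) / 2))) := by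
  filter_upwards [eventually_ge_atTop 2, pathx_eventually_root 1, pathx_eventually_root (36 / a)]
    with N hN hu1 hu2
  obtain ⟨e4, e2, hlog, hlogpos⟩ := pathx_root_facts hN
  set u : ℝ := (N : ℝ) ^ ((1 : ℝ) / 4) with hu
  have hNpos : (0 : ℝ) < N := by
    have : (2 : ℝ) ≤ N := by exact_mod_cast hN
    linarith
  have hN2 : (N : ℝ) = (2 : ℝ) ^ (Real.logb 2 N) :=
    (Real.rpow_logb (by norm_num) (by norm_num) hNpos).symm
  have hl2 : (1 : ℝ) / 2 ≤ Real.log 2 := by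
    have := Real.log_two_gt_d9
    linarith
  have hl2pos : (0 : ℝ) < Real.log 2 := by linarith
  have hlogb : Real.logb 2 N ≤ 8 * u := by
    unfold Real.logb
    rw [div_le_iff₀ hl2pos]
    nlinarith
  have hupos : 0 < u := by linarith
  have hmain : a * u ^ 3 / 4 ≤ a * N / Real.log N := by
    rw [le_div_iff₀ hlogpos]
    have h1 : a * u ^ 3 / 4 * Real.log N ≤ a * u ^ 3 / 4 * (4 * u) :=
      mul_le_mul_of_nonneg_left hlog (by positivity)
    calc a * u ^ 3 / 4 * Real.log N ≤ a * u ^ 3 / 4 * (4 * u) := h1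
      _ = a * u ^ 4 := by ring
      _ = a * N := by rw [← e4]
  have hau : 36 ≤ a * u := by
    rw [div_le_iff₀ ha] at hu2
    linarith
  have hfin : 8 * u + u ^ 2 ≤ a * u ^ 3 / 4 := by
    have h1 : 8 * u ≤ 8 * u ^ 2 := by nlinarith
    have h2 : 36 * u ^ 2 ≤ a * u * u ^ 2 := mul_le_mul_of_nonneg_right hau (by positivity)
    nlinarith
  calc (N : ℝ) * (2 : ℝ) ^ (-(a * N / Real.log N))
      = (2 : ℝ) ^ (Real.logb 2 N + -(a * N / Real.log N)) := by
        rw [Real.rpow_add (by norm_num), ← hN2]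
    _ ≤ (2 : ℝ) ^ (-((N : ℝ) ^ ((1 : ℝ) / 2))) := by
        apply Real.rpow_le_rpow_of_exponent_le (by norm_num)
        rw [e2]
        linarith

theorem pathx_asymp2 (η : ℝ) (hη : 0 < η) : ∀ᶠ N : ℕ in atTop, 50 * Real.log N / η ≤ N := by
  filter_upwards [eventually_ge_atTop 2, pathx_eventually_root 1, pathx_eventually_root (200 / η)]
    with N hN hu1 hu2
  obtain ⟨e4, _, hlog, _⟩ := pathx_root_facts hN
  set u : ℝ := (N : ℝ) ^ ((1 : ℝ) / 4) with hu
  rw [div_le_iff₀ hη]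
  rw [div_le_iff₀ hη] at hu2
  have hupos : 0 < u := by linarith
  have h1 : u ≤ u ^ 3 := by nlinarith [mul_pos hupos hupos]
  have h2 : 200 * u ≤ u ^ 3 * η * u := by
    have : u * η ≤ u ^ 3 * η := mul_le_mul_of_nonneg_right h1 hη.le
    nlinarith
  calc 50 * Real.log N ≤ 50 * (4 * u) := by linarith
    _ = 200 * u := by ring
    _ ≤ u ^ 3 * η * u := h2
    _ = u ^ 4 * η := by ring
    _ = N * η := by rw [← e4]

/-! ### B (6.12) -/

/-- **B (6.12)**: the one-column exponential moment. -/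
theorem path_heavyMoment1 (hCost : StHeavyCost) (hT : StLayerTotal) (hI : StIndexDet)
    (hH : StHadamardBit) : StHeavyMoment1 := by
  intro p hp0 hp1 η hη0 hη1
  have hcA := pathx_cA_pos hp0 hp1
  refine ⟨cA p / 6, by positivity, ?_⟩
  have hc' : cA p / 2 < 2 * cA p / 3 := by linarith
  filter_upwards [hCost p hp0 hp1 η hη0 hη1 (cA p / 2) hc', eventually_ge_atTop 2,
    pathx_asymp1 (cA p * η / 600) (by positivity), pathx_asymp2 η hη0] with N hN hN2 hA1 hA2
  intro k C K hOK ρ hρ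
  classical
  have hprob := pathx_colModel_prob hp0 hp1 hρ
  have hN1 : (1 : ℝ) < N := by exact_mod_cast hN2
  have hNpos : (0 : ℝ) < N := by linarith
  have hlogpos : 0 < Real.log N := Real.log_pos hN1
  set qm : ℝ := η / (100 * Real.log N) with hqm
  have hqmpos : 0 < qm := by positivity
  set hW : (Fin k → Bool) → ℝ := fun z => heavyW N K (bitVecZ z) with hhW
  have hWhalf : ∀ z, hW z ≤ 1 / 2 := fun z => pathx_heavyW_le_half hT hI hH hN2 hOK _
  set q : ℕ → ℝ := fun j => 2 ^ j * qm with hq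
  set E : ℕ → Set (Fin k → Bool) := fun j => {z | q j ≤ hW z ∧ hW z < 2 * q j} with hE
  set A : ℕ → ℝ := fun j => (2 : ℝ) ^ (2 * (cA p / 6) * N * q j) with hA
  have hApos : ∀ j, 0 < A j := fun j => Real.rpow_pos_of_pos (by norm_num) _
  -- pointwise bound
  have hpt : ∀ z, (2 : ℝ) ^ (cA p / 6 * N * (if qm ≤ hW z then hW z else 0))
      ≤ 1 + ∑ j ∈ Finset.range N, A j * (E j).indicator (fun _ => (1 : ℝ)) z := by
    intro z
    have hnn : ∀ j ∈ Finset.range N, 0 ≤ A j * (E j).indicator (fun _ => (1 : ℝ)) z :=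
      fun j _ => mul_nonneg (hApos j).le (Set.indicator_nonneg (fun _ _ => zero_le_one) z)
    by_cases hz : qm ≤ hW z
    · rw [if_pos hz]
      have hx1 : 1 ≤ hW z / qm := by rwa [le_div_iff₀ hqmpos, one_mul]
      obtain ⟨j, hj1, hj2⟩ := exists_nat_pow_near hx1 (one_lt_two : (1 : ℝ) < 2)
      rw [le_div_iff₀ hqmpos] at hj1
      rw [div_lt_iff₀ hqmpos] at hj2
      have hzE : z ∈ E j := ⟨hj1, by rw [hq]; simp only; rw [pow_succ] at hj2; linarith⟩
      have hjN : j ∈ Finset.range N := by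
        rw [Finset.mem_range]
        have h1 : (j : ℝ) < 2 ^ j := by exact_mod_cast Nat.lt_two_pow_self
        have h2 : (2 : ℝ) ^ j * qm ≤ 1 / 2 := hj1.trans (hWhalf z)
        have h3 : (2 : ℝ) ^ j ≤ 50 * Real.log N / η := by
          rw [le_div_iff₀ hη0]
          have : (2 : ℝ) ^ j * qm * (100 * Real.log N) = 2 ^ j * η := by
            rw [hqm]
            field_simp
          nlinarith
        have h4 : (j : ℝ) < N := by linarith
        exact_mod_cast h4
      have h5 : (2 : ℝ) ^ (cA p / 6 * N * hW z) ≤ A j := by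
        apply Real.rpow_le_rpow_of_exponent_le (by norm_num)
        have h6 : hW z ≤ 2 * q j := hzE.2.le
        have h7 : 0 ≤ cA p / 6 * N := by positivity
        calc cA p / 6 * N * hW z ≤ cA p / 6 * N * (2 * q j) := mul_le_mul_of_nonneg_left h6 h7
          _ = 2 * (cA p / 6) * N * q j := by ring
      have h8 : A j * (E j).indicator (fun _ => (1 : ℝ)) z
          ≤ ∑ j ∈ Finset.range N, A j * (E j).indicator (fun _ => (1 : ℝ)) z :=
        Finset.single_le_sum hnn hjN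
      rw [Set.indicator_of_mem hzE, mul_one] at h8
      linarith
    · rw [if_neg hz, mul_zero, Real.rpow_zero]
      linarith [Finset.sum_nonneg hnn]
  -- each scale
  have hscale : ∀ j, A j * prb ρ (E j) ≤ (2 : ℝ) ^ (-(cA p * η / 600 * N / Real.log N)) := by
    intro j
    have hqj : qm ≤ q j := by
      have : (1 : ℝ) ≤ 2 ^ j := one_le_pow₀ (by norm_num)
      calc qm = 1 * qm := (one_mul _).symm
        _ ≤ 2 ^ j * qm := mul_le_mul_of_nonneg_right this hqmpos.le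
    by_cases hj : q j ≤ 1 / 2
    · have h1 := hN k C K hOK ρ hρ (q j) hqj hj
      calc A j * prb ρ (E j) ≤ A j * (2 : ℝ) ^ (-(cA p / 2 * q j * N)) :=
            mul_le_mul_of_nonneg_left h1 (hApos j).le
        _ = (2 : ℝ) ^ (-(cA p / 6 * N * q j)) := by
            rw [hA]
            simp only
            rw [← Real.rpow_add (by norm_num)]
            congr 1
            ring
        _ ≤ (2 : ℝ) ^ (-(cA p * η / 600 * N / Real.log N)) := by
            apply Real.rpow_le_rpow_of_exponent_le (by norm_num)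
            have h2 : cA p * η / 600 * N / Real.log N = cA p / 6 * N * qm := by
              rw [hqm]
              field_simp
              ring
            rw [h2]
            have h3 : 0 ≤ cA p / 6 * N := by positivity
            linarith [mul_le_mul_of_nonneg_left hqj h3]
    · have hempty : E j = ∅ := by
        ext z
        simp only [hE, Set.mem_ofPred_eq, Set.mem_empty_iff_false, iff_false]
        rintro ⟨hz1, _⟩
        exact hj (hz1.trans (hWhalf z))
      rw [hempty, pb_prb_empty, mul_zero]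
      positivity
  calc exq ρ (fun z => (2 : ℝ) ^ (cA p / 6 * N * (if qm ≤ hW z then hW z else 0)))
      ≤ exq ρ (fun z => 1 + ∑ j ∈ Finset.range N, A j * (E j).indicator (fun _ => (1 : ℝ)) z) :=
        pb_exq_mono hprob hpt
    _ = 1 + ∑ j ∈ Finset.range N, A j * prb ρ (E j) := by
        rw [pb_exq_add, pb_exq_const, pb_exq_sum]
        congr 1
        refine Finset.sum_congr rfl fun j _ => ?_
        rw [pb_exq_const_mul, ← pb_prb_eq_exq]
    _ ≤ 1 + ∑ _j ∈ Finset.range N, (2 : ℝ) ^ (-(cA p * η / 600 * N / Real.log N)) := by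
        have := Finset.sum_le_sum (s := Finset.range N) fun j _ => hscale j
        linarith
    _ = 1 + (N : ℝ) * (2 : ℝ) ^ (-(cA p * η / 600 * N / Real.log N)) := by
        rw [Finset.sum_const, Finset.card_range, nsmul_eq_mul]
    _ ≤ 1 + (2 : ℝ) ^ (-((N : ℝ) ^ ((1 : ℝ) / 2))) := by linarith

end Claimed.Agent.R293
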