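/-
R293 / PathCoverLib.lean (owner: helper250).  Common tools for the leaves PATH-C3 (retention cover)
and PATH-C4 (heavy cover): counting small subsets, total weight of the layers, weights at large
primes, asymptotics of the scales.  Prefix `pathcv_`.
-/
import Claimed.Agent.R293.PathIface
import Claimed.Agent.R293.PathBasic
import Claimed.Agent.R293.PathLayer

set_option autoImplicit false

namespace Claimed.Agent.R293

open Filter Topology
open scoped BigOperators

/-! ### counting -/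

theorem pathcv_card_small_subsets {α : Type*} [DecidableEq α] (E : Finset α) (M : ℕ)
    (δ : ℝ) (h0 : 0 < δ) (h1 : δ ≤ 1) :
    ((E.powerset.filter (fun L => L.card ≤ M)).card : ℝ) ≤ (1 + δ) ^ E.card * (δ ^ M)⁻¹ := by
  have key : ((E.powerset.filter (fun L => L.card ≤ M)).card : ℝ) * δ ^ M ≤ (1 + δ) ^ E.card := by
    calc ((E.powerset.filter (fun L => L.card ≤ M)).card : ℝ) * δ ^ M
        = ∑ _L ∈ E.powerset.filter (fun L => L.card ≤ M), δ ^ M := by
          rw [Finset.sum_const, nsmul_eq_mul]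
      _ ≤ ∑ L ∈ E.powerset.filter (fun L => L.card ≤ M), δ ^ L.card := by
          refine Finset.sum_le_sum fun L hL => ?_
          exact pow_le_pow_of_le_one h0.le h1 (Finset.mem_filter.1 hL).2
      _ ≤ ∑ L ∈ E.powerset, δ ^ L.card :=
          Finset.sum_le_sum_of_subset_of_nonneg (Finset.filter_subset _ _)
            fun L _ _ => by positivity
      _ = (1 + δ) ^ E.card := by
          have := Finset.sum_pow_mul_eq_add_pow δ 1 E
          simp only [one_pow, mul_one] at this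
          rw [this, add_comm]
  have hpos : 0 < δ ^ M := by positivity
  rw [← div_eq_mul_inv, le_div_iff₀ hpos]
  exact key

/-! ### weights -/

section Weights

variable {N k : ℕ} {C : Matrix (Fin k) (Fin k) ℤ} {K : AddSubgroup (Fin k → ℤ)}

theorem pathcv_index_ne_zero (hI : StIndexDet) (hOK : LatOK N k C K) : K.index ≠ 0 := by
  obtain ⟨-, -, hdet, hle⟩ := hOK
  have h1 : (colLat C).index ≠ 0 := by
    rw [hI k C]
    exact Int.natAbs_ne_zero.2 hdet
  exact fun h0 => h1 (Nat.eq_zero_of_zero_dvd (h0 ▸ AddSubgroup.index_dvd_of_le hle))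

theorem pathcv_index_le (hI : StIndexDet) (hH : StHadamardBit) (hOK : LatOK N k C K) :
    (K.index : ℝ) ≤ (N : ℝ) ^ ((N : ℝ) / 2) := by
  obtain ⟨hr, hbit, hdet, hle⟩ := hOK
  have h1 : (colLat C).index ≠ 0 := by
    rw [hI k C]
    exact Int.natAbs_ne_zero.2 hdet
  have h2 : K.index ≤ (colLat C).index :=
    Nat.le_of_dvd (Nat.pos_of_ne_zero h1) (AddSubgroup.index_dvd_of_le hle)
  have h3 := hH N k hr.2 C hbit
  rw [← hI k C] at h3
  exact (Nat.cast_le.2 h2).trans h3

/-- B (5.1): the total weight of all layers is at most `1/2`. -/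
theorem pathcv_total (hT : StLayerTotal) (hI : StIndexDet) (hH : StHadamardBit) (hN : 2 ≤ N)
    (hOK : LatOK N k C K) :
    ∑ x ∈ latIndex K, (latLayer K x.1 x.2 : ℝ) * nu N x.1 ≤ 1 / 2 := by
  have hne := pathcv_index_ne_zero hI hOK
  have hfin : Finite ((Fin k → ℤ) ⧸ K) := pathl_finite_quot hne
  have h1 := hT ((Fin k → ℤ) ⧸ K)
  have hcard : Nat.card ((Fin k → ℤ) ⧸ K) = K.index := rfl
  rw [hcard] at h1
  have hNpos : (0 : ℝ) < N := by positivity
  have hlog : 0 < Real.log N := Real.log_pos (by exact_mod_cast hN)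
  have h2 : ∑ x ∈ latIndex K, (latLayer K x.1 x.2 : ℝ) * nu N x.1
      = Real.log K.index / (N * Real.log N) := by
    rw [← h1, Finset.sum_div]
    refine Finset.sum_congr rfl fun x _ => ?_
    unfold nu
    rw [mul_div_assoc]
  rw [h2, div_le_iff₀ (by positivity)]
  have h3 : Real.log K.index ≤ Real.log ((N : ℝ) ^ ((N : ℝ) / 2)) :=
    Real.log_le_log (by exact_mod_cast Nat.pos_of_ne_zero hne) (pathcv_index_le hI hH hOK)
  rw [Real.log_rpow hNpos] at h3
  linarith

theorem pathcv_nu_large (hN : 2 ≤ N) {l : ℕ} (hl : N < l ^ 2) : 1 / (2 * (N : ℝ)) ≤ nu N l := by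
  have hNpos : (0 : ℝ) < N := by positivity
  have hlog : 0 < Real.log N := Real.log_pos (by exact_mod_cast hN)
  have h1 : Real.log N ≤ 2 * Real.log l := by
    have : (N : ℝ) ≤ (l : ℝ) ^ 2 := by exact_mod_cast hl.le
    have h2 := Real.log_le_log hNpos this
    rwa [Real.log_pow] at h2
  unfold nu
  rw [div_le_div_iff₀ (by positivity) (by positivity)]
  nlinarith

end Weights

/-! ### scales -/

theorem pathcv_ell_tendsto : Tendsto ell atTop atTop :=
  Real.tendsto_log_atTop.comp (Real.tendsto_log_atTop.comp tendsto_natCast_atTop_atTop)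

theorem pathcv_sq_le_scaleR (N : ℕ) : ell N ^ 2 ≤ (scaleR N : ℝ) := Nat.le_ceil _

theorem pathcv_scaleR_tendsto : Tendsto (fun N => (scaleR N : ℝ)) atTop atTop := by
  refine tendsto_atTop_mono pathcv_sq_le_scaleR ?_
  exact (tendsto_pow_atTop (two_ne_zero)).comp pathcv_ell_tendsto

theorem pathcv_sigma_tendsto : Tendsto scaleSigma atTop (𝓝 0) := by
  unfold scaleSigma
  exact ((tendsto_pow_atTop (by norm_num : (6 : ℕ) ≠ 0)).comp pathcv_scaleR_tendsto).inv_tendsto_atTop

theorem pathcv_sigma_nonneg (N : ℕ) : 0 ≤ scaleSigma N := by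
  unfold scaleSigma
  positivity

/-- `N^{4/5} ≤ c N` eventually. -/
theorem pathcv_pow_le (c : ℝ) (hc : 0 < c) :
    ∀ᶠ N : ℕ in atTop, (N : ℝ) ^ ((4 : ℝ) / 5) ≤ c * N := by
  have h1 : Tendsto (fun N : ℕ => (N : ℝ) ^ ((1 : ℝ) / 5)) atTop atTop :=
    (tendsto_rpow_atTop (by norm_num)).comp tendsto_natCast_atTop_atTop
  filter_upwards [h1.eventually_ge_atTop (1 / c), eventually_gt_atTop 0] with N hN hpos
  have hNpos : (0 : ℝ) < N := by exact_mod_cast hpos
  have h2 : (N : ℝ) = (N : ℝ) ^ ((4 : ℝ) / 5) * (N : ℝ) ^ ((1 : ℝ) / 5) := by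
    rw [← Real.rpow_add hNpos]
    norm_num
  have h3 : 0 < (N : ℝ) ^ ((4 : ℝ) / 5) := Real.rpow_pos_of_pos hNpos _
  have h4 : 1 ≤ c * (N : ℝ) ^ ((1 : ℝ) / 5) := by
    rw [div_le_iff₀ hc] at hN
    linarith
  calc (N : ℝ) ^ ((4 : ℝ) / 5) = (N : ℝ) ^ ((4 : ℝ) / 5) * 1 := (mul_one _).symm
    _ ≤ (N : ℝ) ^ ((4 : ℝ) / 5) * (c * (N : ℝ) ^ ((1 : ℝ) / 5)) :=
        mul_le_mul_of_nonneg_left h4 h3.le
    _ = c * ((N : ℝ) ^ ((4 : ℝ) / 5) * (N : ℝ) ^ ((1 : ℝ) / 5)) := by ring
    _ = c * N := by rw [← h2]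

end Claimed.Agent.R293
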