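/-
R293 / PathHeavyCover.lean (owner: helper250).  Leaf PATH-C4: cover of `{Q_hi ∈ [q,2q)}` by
`2^{ε q N}` masks with `q(D) ≥ q` (proof of B Lemma 6.5).  Prefix `pathh_`.
-/
import Claimed.Agent.R293.PathCoverLib

set_option autoImplicit false

namespace Claimed.Agent.R293

open Filter Topology
open scoped BigOperators

/-! ### asymptotics -/

/-- `N^{4/5} ≤ c N / log N` eventually. -/
theorem pathh_pow_le (c : ℝ) (hc : 0 < c) :
    ∀ᶠ N : ℕ in atTop, (N : ℝ) ^ ((4 : ℝ) / 5) ≤ c / Real.log N * N := by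
  have h0 : ∀ᶠ x : ℝ in atTop, ‖Real.log x‖ ≤ c * ‖x ^ ((1 : ℝ) / 5)‖ :=
    (isLittleO_log_rpow_atTop (by norm_num : (0 : ℝ) < 1 / 5)).bound hc
  have h1 := tendsto_natCast_atTop_atTop (R := ℝ) |>.eventually h0
  filter_upwards [h1, eventually_ge_atTop 2] with N hN hN2
  have hNpos : (0 : ℝ) < N := by positivity
  have hlog : 0 < Real.log N := Real.log_pos (by exact_mod_cast hN2)
  have h2 : (N : ℝ) = (N : ℝ) ^ ((4 : ℝ) / 5) * (N : ℝ) ^ ((1 : ℝ) / 5) := by
    rw [← Real.rpow_add hNpos]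
    norm_num
  have h3 : 0 < (N : ℝ) ^ ((4 : ℝ) / 5) := Real.rpow_pos_of_pos hNpos _
  have h4 : 0 < (N : ℝ) ^ ((1 : ℝ) / 5) := Real.rpow_pos_of_pos hNpos _
  rw [Real.norm_of_nonneg hlog.le, Real.norm_of_nonneg h4.le] at hN
  rw [div_mul_eq_mul_div, le_div_iff₀ hlog]
  calc (N : ℝ) ^ ((4 : ℝ) / 5) * Real.log N
      ≤ (N : ℝ) ^ ((4 : ℝ) / 5) * (c * (N : ℝ) ^ ((1 : ℝ) / 5)) :=
        mul_le_mul_of_nonneg_left hN h3.le
    _ = c * ((N : ℝ) ^ ((4 : ℝ) / 5) * (N : ℝ) ^ ((1 : ℝ) / 5)) := by ring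
    _ = c * N := by rw [← h2]

/-- `1 + 4 log (100 log N / η) ≤ c (R - 1)` eventually. -/
theorem pathh_log_le (η : ℝ) (hη : 0 < η) (c : ℝ) (hc : 0 < c) :
    ∀ᶠ N : ℕ in atTop, 2 ≤ scaleR N ∧
      1 + 4 * Real.log (100 * Real.log N / η) ≤ c * ((scaleR N : ℝ) - 1) := by
  set a : ℝ := 1 + 4 * Real.log (100 / η) with ha
  have e1 := pathcv_ell_tendsto.eventually_ge_atTop 2
  have e2 := pathcv_ell_tendsto.eventually_ge_atTop ((4 + |a| + c) / c)
  filter_upwards [e1, e2, eventually_ge_atTop 3] with N h1 h2 hN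
  have hlog : 0 < Real.log N := Real.log_pos (by exact_mod_cast (by omega : 1 < N))
  have hR := pathcv_sq_le_scaleR N
  set t := ell N with ht
  constructor
  · have : (2 : ℝ) ≤ (scaleR N : ℝ) := by nlinarith
    exact_mod_cast this
  · have h3 : Real.log (100 * Real.log N / η) = Real.log (100 / η) + t := by
      have : 100 * Real.log N / η = 100 / η * Real.log N := by ring
      rw [this, Real.log_mul (by positivity) hlog.ne']
      rfl
    rw [h3]
    rw [div_le_iff₀ hc] at h2
    have h4 : a ≤ |a| := le_abs_self a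
    have h5 : 0 ≤ |a| := abs_nonneg a
    have h6 : (4 + |a| + c) * t ≤ c * t ^ 2 := by nlinarith
    have h7 : 4 * t + |a| + c ≤ (4 + |a| + c) * t := by nlinarith
    have h8 : c * t ^ 2 ≤ c * (scaleR N : ℝ) := mul_le_mul_of_nonneg_left hR hc.le
    have : 1 + 4 * (Real.log (100 / η) + t) = a + 4 * t := by rw [ha]; ring
    rw [this]
    linarith

section Core

variable {N k : ℕ} {K : AddSubgroup (Fin k → ℤ)}

open Classical in
theorem pathh_heavyW_eq (v : Fin k → ℤ) :
    heavyW N K v = maskQ N K ((latIndex K).filter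
      (fun x => LatRetained K v x.1 x.2 ∧ scaleR N - 1 ≤ latLayer K x.1 x.2)) := by
  unfold heavyW maskQ
  rw [Finset.sum_filter]

/-- a set of layers of height `≥ r` at large primes: cardinality against weight. -/
theorem pathh_card_le (hN : 2 ≤ N) (r : ℕ) (L : Finset (ℕ × ℕ))
    (hL : ∀ x ∈ L, N < x.1 ^ 2 ∧ r ≤ latLayer K x.1 x.2) :
    (L.card : ℝ) * ((r : ℝ) / (2 * N)) ≤ maskQ N K L := by
  unfold maskQ
  calc (L.card : ℝ) * ((r : ℝ) / (2 * N)) = ∑ _x ∈ L, (r : ℝ) / (2 * N) := by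
        rw [Finset.sum_const, nsmul_eq_mul]
    _ ≤ ∑ x ∈ L, (latLayer K x.1 x.2 : ℝ) * nu N x.1 := by
        refine Finset.sum_le_sum fun x hx => ?_
        obtain ⟨hx1, hx2⟩ := hL x hx
        have h5 := pathcv_nu_large hN hx1
        have h6 : (r : ℝ) ≤ (latLayer K x.1 x.2 : ℝ) := by exact_mod_cast hx2
        calc (r : ℝ) / (2 * N) = (r : ℝ) * (1 / (2 * (N : ℝ))) := by ring
          _ ≤ (latLayer K x.1 x.2 : ℝ) * nu N x.1 :=
              mul_le_mul h6 h5 (by positivity) (Nat.cast_nonneg _)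

theorem pathh_maskQ_mono {D D' : Finset (ℕ × ℕ)} (h : D ⊆ D') : maskQ N K D ≤ maskQ N K D' := by
  unfold maskQ
  exact Finset.sum_le_sum_of_subset_of_nonneg h
    fun x _ _ => mul_nonneg (Nat.cast_nonneg _) (pathb_nu_nonneg N x.1)

end Core

open Classical in
/-- **PATH-C4.** -/
theorem path_heavyCover (hSP : StSmallPattern) (hT : StLayerTotal) (hI : StIndexDet)
    (hH : StHadamardBit) : StHeavyCover := by
  intro η hη hη1 ε hε
  have hlog2 : 0 < Real.log 2 := Real.log_pos one_lt_two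
  have e1 := pathh_pow_le (ε / 2 * (η / 100)) (by positivity)
  have e2 := pathh_log_le η hη (ε / 2 * Real.log 2) (by positivity)
  filter_upwards [hSP, e1, e2, eventually_ge_atTop 3] with N hSPN h1 h2 hN3 k C K hOK q hq hq2
  obtain ⟨hR2, h2⟩ := h2
  obtain ⟨Ps, hPs, hPsv⟩ := hSPN k C K hOK
  have hN : 2 ≤ N := by omega
  have hNpos : (0 : ℝ) < N := by positivity
  have hlog : 0 < Real.log N := Real.log_pos (by exact_mod_cast (by omega : 1 < N))
  have hq0 : 0 < q := lt_of_lt_of_le (by positivity) hq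
  set r := scaleR N - 1 with hr
  have hr1 : 1 ≤ r := by omega
  have hrR : (r : ℝ) = (scaleR N : ℝ) - 1 := by
    rw [hr, Nat.cast_sub (by omega)]
    simp
  have hrpos : (0 : ℝ) < r := by exact_mod_cast hr1
  rw [← hrR] at h2
  set E := (latIndex K).filter (fun x => N < x.1 ^ 2 ∧ r ≤ latLayer K x.1 x.2) with hE
  set M := ⌊4 * q * N / r⌋₊ with hM
  set cand := Ps ×ˢ (E.powerset.filter (fun L => L.card ≤ M)) with hcand
  set Ds := (cand.image (fun SL => SL.1.filter (fun x => r ≤ latLayer K x.1 x.2) ∪ SL.2)).filter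
    (fun D => IsMask K D ∧ q ≤ maskQ N K D) with hDs
  have htot := pathcv_total hT hI hH hN hOK
  have hEcard : (E.card : ℝ) ≤ N / r := by
    have h4 := pathh_card_le (K := K) hN r E fun x hx => (Finset.mem_filter.1 hx).2
    have h5 : maskQ N K E ≤ 1 / 2 :=
      (pathh_maskQ_mono (Finset.filter_subset _ _)).trans htot
    have h6 := h4.trans h5
    rw [le_div_iff₀ hrpos]
    rw [mul_div_assoc', div_le_iff₀ (by positivity)] at h6
    linarith
  refine ⟨Ds, ?_, ?_, ?_⟩
  · have hc1 : (Ds.card : ℝ)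
        ≤ (Ps.card : ℝ) * ((E.powerset.filter (fun L => L.card ≤ M)).card : ℝ) := by
      have : Ds.card ≤ cand.card := (Finset.card_filter_le _ _).trans Finset.card_image_le
      rw [hcand, Finset.card_product] at this
      exact_mod_cast this
    have hc3 := pathcv_card_small_subsets E M q hq0 (by linarith)
    have hc4 : (1 + q) ^ E.card ≤ Real.exp (q * (N / r)) := by
      calc (1 + q) ^ E.card ≤ (Real.exp q) ^ E.card :=
            pow_le_pow_left₀ (by linarith) (by linarith [Real.add_one_le_exp q]) _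
        _ = Real.exp (E.card * q) := (Real.exp_nat_mul q E.card).symm
        _ ≤ Real.exp (q * (N / r)) := by
            refine Real.exp_le_exp.2 ?_
            rw [mul_comm]
            exact mul_le_mul_of_nonneg_left hEcard hq0.le
    set Λ := Real.log (100 * Real.log N / η) with hΛ
    have hΛq : -Real.log q ≤ Λ := by
      rw [← Real.log_inv]
      refine Real.log_le_log (inv_pos.2 hq0) ?_
      rw [inv_le_comm₀ hq0 (by positivity)]
      refine le_trans (le_of_eq ?_) hq
      rw [inv_div]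
    have hlogq : 0 ≤ -Real.log q := by
      have := Real.log_nonpos hq0.le (by linarith)
      linarith
    have hMle : (M : ℝ) ≤ 4 * q * N / r := Nat.floor_le (by positivity)
    have hc5 : (q ^ M)⁻¹ ≤ Real.exp (4 * q * N / r * Λ) := by
      have : (q ^ M)⁻¹ = Real.exp (M * -Real.log q) := by
        rw [mul_neg, Real.exp_neg, Real.exp_nat_mul, Real.exp_log hq0]
      rw [this]
      refine Real.exp_le_exp.2 ?_
      exact mul_le_mul hMle hΛq hlogq (by positivity)
    have hc6 : (2 : ℝ) ^ ((N : ℝ) ^ ((4 : ℝ) / 5))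
        = Real.exp (Real.log 2 * (N : ℝ) ^ ((4 : ℝ) / 5)) := Real.rpow_def_of_pos two_pos _
    have hc7 : (2 : ℝ) ^ (ε * q * N) = Real.exp (Real.log 2 * (ε * q * N)) :=
      Real.rpow_def_of_pos two_pos _
    calc (Ds.card : ℝ)
        ≤ (Ps.card : ℝ) * ((E.powerset.filter (fun L => L.card ≤ M)).card : ℝ) := hc1
      _ ≤ Real.exp (Real.log 2 * (N : ℝ) ^ ((4 : ℝ) / 5))
            * (Real.exp (q * (N / r)) * Real.exp (4 * q * N / r * Λ)) := by
          rw [← hc6]
          refine mul_le_mul hPs (hc3.trans ?_) (Nat.cast_nonneg _) (by positivity)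
          exact mul_le_mul hc4 hc5 (by positivity) (by positivity)
      _ = Real.exp (Real.log 2 * (N : ℝ) ^ ((4 : ℝ) / 5)
            + (q * (N / r) + 4 * q * N / r * Λ)) := by
          rw [Real.exp_add, Real.exp_add]
      _ ≤ (2 : ℝ) ^ (ε * q * N) := by
          rw [hc7]
          refine Real.exp_le_exp.2 ?_
          have h5 : (N : ℝ) ^ ((4 : ℝ) / 5) ≤ ε / 2 * q * N := by
            refine h1.trans ?_
            have : ε / 2 * (η / 100) / Real.log N = ε / 2 * (η / (100 * Real.log N)) := by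
              field_simp
            rw [this]
            have h6 : ε / 2 * (η / (100 * Real.log N)) ≤ ε / 2 * q :=
              mul_le_mul_of_nonneg_left hq (by positivity)
            exact mul_le_mul_of_nonneg_right h6 hNpos.le
          have h6 : q * (N / r) + 4 * q * N / r * Λ = q * N * ((1 + 4 * Λ) / r) := by
            field_simp
          have h7 : (1 + 4 * Λ) / r ≤ ε / 2 * Real.log 2 := by
            rw [div_le_iff₀ hrpos]
            exact h2
          have h8 : q * N * ((1 + 4 * Λ) / r) ≤ q * N * (ε / 2 * Real.log 2) :=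
            mul_le_mul_of_nonneg_left h7 (by positivity)
          have h9 : Real.log 2 * (N : ℝ) ^ ((4 : ℝ) / 5) ≤ Real.log 2 * (ε / 2 * q * N) :=
            mul_le_mul_of_nonneg_left h5 hlog2.le
          rw [h6]
          calc Real.log 2 * (N : ℝ) ^ ((4 : ℝ) / 5) + q * N * ((1 + 4 * Λ) / r)
              ≤ Real.log 2 * (ε / 2 * q * N) + q * N * (ε / 2 * Real.log 2) := add_le_add h9 h8
            _ = Real.log 2 * (ε * q * N) := by ring
  · intro D hD
    exact (Finset.mem_filter.1 hD).2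
  · intro v hv1 hv2
    set S := (latIndex K).filter (fun x => x.1 ^ 2 ≤ N ∧ LatRetained K v x.1 x.2) with hS
    set Lv := (latIndex K).filter
      (fun x => N < x.1 ^ 2 ∧ LatRetained K v x.1 x.2 ∧ r ≤ latLayer K x.1 x.2) with hLv
    set Dv := (latIndex K).filter
      (fun x => LatRetained K v x.1 x.2 ∧ r ≤ latLayer K x.1 x.2) with hDv
    have hSmem : S ∈ Ps := hPsv v
    have hheavy : heavyW N K v = maskQ N K Dv := pathh_heavyW_eq v
    have hunion : S.filter (fun x => r ≤ latLayer K x.1 x.2) ∪ Lv = Dv := by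
      ext x
      simp only [hS, hLv, hDv, Finset.mem_union, Finset.mem_filter]
      constructor
      · rintro (⟨⟨h0, -, h2⟩, h3⟩ | ⟨h0, -, h2, h3⟩) <;> exact ⟨h0, h2, h3⟩
      · rintro ⟨h0, h2, h3⟩
        rcases le_or_gt (x.1 ^ 2) N with h | h
        · exact Or.inl ⟨⟨h0, h, h2⟩, h3⟩
        · exact Or.inr ⟨h0, h, h2, h3⟩
    have hLvE : Lv ⊆ E := by
      intro x hx
      obtain ⟨hx0, hx1, -, hx3⟩ := Finset.mem_filter.1 hx
      exact Finset.mem_filter.2 ⟨hx0, hx1, hx3⟩
    have hLvDv : Lv ⊆ Dv := by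
      rw [← hunion]
      exact Finset.subset_union_right
    have hLvcard : Lv.card ≤ M := by
      have h4 := pathh_card_le (K := K) hN r Lv fun x hx =>
        ⟨(Finset.mem_filter.1 hx).2.1, (Finset.mem_filter.1 hx).2.2.2⟩
      have h5 : maskQ N K Lv < 2 * q := by
        refine lt_of_le_of_lt (pathh_maskQ_mono hLvDv) ?_
        rw [← hheavy]
        exact hv2
      have h6 := lt_of_le_of_lt h4 h5
      refine Nat.le_floor ?_
      rw [le_div_iff₀ hrpos]
      rw [mul_div_assoc', div_lt_iff₀ (by positivity)] at h6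
      linarith
    refine ⟨Dv, ?_, fun x hx => (Finset.mem_filter.1 hx).2.1⟩
    refine Finset.mem_filter.2 ⟨Finset.mem_image.2 ⟨(S, Lv), ?_, hunion⟩,
      ⟨Finset.filter_subset _ _, fun x hx => (Finset.mem_filter.1 hx).2.1.1⟩, ?_⟩
    · exact Finset.mem_product.2 ⟨hSmem, Finset.mem_filter.2
        ⟨Finset.mem_powerset.2 hLvE, hLvcard⟩⟩
    · rw [← hheavy]
      exact hv1

end Claimed.Agent.R293
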