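/-
R293 / PathAsym.lean  (owner: helper271).  Package PATH: asymptotic facts on the scales
`pathLen N`, `scaleR N`, `ell N` used by the probabilistic leaves.  Prefix `patha`.
-/
import Claimed.Agent.R293.PathBasic

set_option autoImplicit false

namespace Claimed.Agent.R293

open Filter Topology

theorem patha_pathLen_le (N : ℕ) : (pathLen N : ℝ) ≤ 2 * (N : ℝ) ^ ((3 : ℝ) / 5) + 2 := by
  unfold pathLen
  have h := Nat.ceil_lt_add_one (a := (N : ℝ) ^ ((3 : ℝ) / 5)) (by positivity)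
  push_cast
  linarith

theorem patha_rpow_tendsto {y : ℝ} (hy : 0 < y) :
    Tendsto (fun N : ℕ => (N : ℝ) ^ y) atTop atTop :=
  (tendsto_rpow_atTop hy).comp tendsto_natCast_atTop_atTop

/-- eventually `5 + 4 N^{3/5} ≤ N^{7/10}`. -/
theorem patha_eventually_pow : ∀ᶠ N : ℕ in atTop,
    5 + 4 * (N : ℝ) ^ ((3 : ℝ) / 5) ≤ (N : ℝ) ^ ((7 : ℝ) / 10) := by
  filter_upwards [(patha_rpow_tendsto (y := 1 / 10) (by norm_num)).eventually_ge_atTop 9,
    eventually_ge_atTop 1] with N h9 h1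
  have hN : (1 : ℝ) ≤ N := by exact_mod_cast h1
  have hx : (1 : ℝ) ≤ (N : ℝ) ^ ((3 : ℝ) / 5) := Real.one_le_rpow hN (by norm_num)
  have hy : (N : ℝ) ^ ((7 : ℝ) / 10) = (N : ℝ) ^ ((3 : ℝ) / 5) * (N : ℝ) ^ ((1 : ℝ) / 10) := by
    rw [← Real.rpow_add (by linarith)]
    norm_num
  rw [hy]
  nlinarith

/-- all sizes met along a path of `pathLen N` steps ending at size `m = N - 1` are in the
reference range. -/
theorem patha_eventually_range : ∀ᶠ N : ℕ in atTop, ∀ m : ℕ, m + 1 = N →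
    2 * pathLen N ≤ m ∧ ∀ k : ℕ, m ≤ k + 2 * pathLen N → k ≤ m → InRange N k := by
  filter_upwards [patha_eventually_pow, eventually_ge_atTop 1] with N hN h1
  intro m hm
  have hN1 : (1 : ℝ) ≤ N := by exact_mod_cast h1
  have hL := patha_pathLen_le N
  have hmN : (m : ℝ) + 1 = N := by exact_mod_cast hm
  have hy : (N : ℝ) ^ ((7 : ℝ) / 10) ≤ N := by
    calc (N : ℝ) ^ ((7 : ℝ) / 10) ≤ (N : ℝ) ^ (1 : ℝ) :=
          Real.rpow_le_rpow_of_exponent_le hN1 (by norm_num)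
      _ = N := Real.rpow_one _
  constructor
  · have : ((2 * pathLen N : ℕ) : ℝ) ≤ m := by
      push_cast
      linarith
    exact_mod_cast this
  · intro k hk hkm
    have hk' : (m : ℝ) ≤ k + 2 * pathLen N := by exact_mod_cast hk
    constructor
    · linarith
    · omega

theorem patha_nodeSize_inRange {N m H : ℕ}
    (h : ∀ k : ℕ, m ≤ k + 2 * H → k ≤ m → InRange N k) (w : Fin H → Bool) (t : ℕ) :
    InRange N (nodeSize m w t) := by
  refine h _ ?_ (pathb_nodeSize_le m w t)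
  have := pathb_le_nodeSize m w t
  omega

theorem patha_nodeSize_mono {H : ℕ} (m : ℕ) (w : Fin H → Bool) {t t' : ℕ} (h : t ≤ t') :
    nodeSize m w t ≤ nodeSize m w t' := by
  unfold nodeSize
  have : ∑ u ∈ Finset.Ico t' H, wdt w u ≤ ∑ u ∈ Finset.Ico t H, wdt w u :=
    Finset.sum_le_sum_of_subset (Finset.Ico_subset_Ico_left h)
  omega

/-- `N 2^{-√N} → 0`. -/
theorem patha_tendsto_mul_two_rpow :
    Tendsto (fun N : ℕ => (N : ℝ) * (2 : ℝ) ^ (-((N : ℝ) ^ ((1 : ℝ) / 2)))) atTop (𝓝 0) := by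
  have h1 := (tendsto_rpow_mul_exp_neg_mul_atTop_nhds_zero 2 (Real.log 2)
    (Real.log_pos (by norm_num))).comp (patha_rpow_tendsto (y := 1 / 2) (by norm_num))
  refine h1.congr fun N => ?_
  simp only [Function.comp]
  rw [← Real.rpow_mul (Nat.cast_nonneg N), Real.rpow_def_of_pos (by norm_num : (0 : ℝ) < 2)]
  norm_num

/-- `(1 + 2^{-√N})^{2 pathLen N} ≤ 2` eventually. -/
theorem patha_eventually_prod_le_two : ∀ᶠ N : ℕ in atTop,
    (1 + (2 : ℝ) ^ (-((N : ℝ) ^ ((1 : ℝ) / 2)))) ^ (2 * pathLen N) ≤ 2 := by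
  have h0 := patha_tendsto_mul_two_rpow.eventually_le_const (u := 1 / 16) (by norm_num)
  filter_upwards [h0, eventually_ge_atTop 1] with N hN h1
  have hN1 : (1 : ℝ) ≤ N := by exact_mod_cast h1
  set δ : ℝ := (2 : ℝ) ^ (-((N : ℝ) ^ ((1 : ℝ) / 2))) with hδ
  have hδ0 : 0 ≤ δ := by positivity
  have hL := patha_pathLen_le N
  have hx : (N : ℝ) ^ ((3 : ℝ) / 5) ≤ N := by
    calc (N : ℝ) ^ ((3 : ℝ) / 5) ≤ (N : ℝ) ^ (1 : ℝ) :=
          Real.rpow_le_rpow_of_exponent_le hN1 (by norm_num)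
      _ = N := Real.rpow_one _
  have hn : ((2 * pathLen N : ℕ) : ℝ) ≤ 8 * N := by
    push_cast
    linarith
  calc (1 + δ) ^ (2 * pathLen N) ≤ Real.exp δ ^ (2 * pathLen N) :=
        pow_le_pow_left₀ (by positivity) (by linarith [Real.add_one_le_exp δ]) _
    _ = Real.exp (((2 * pathLen N : ℕ) : ℝ) * δ) := by rw [← Real.exp_nat_mul]
    _ ≤ Real.exp (Real.log 2) := by
        apply Real.exp_le_exp.mpr
        have h2 := Real.log_two_gt_d9
        calc ((2 * pathLen N : ℕ) : ℝ) * δ ≤ 8 * N * δ := mul_le_mul_of_nonneg_right hn hδ0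
          _ = 8 * (N * δ) := by ring
          _ ≤ 8 * (1 / 16) := by gcongr
          _ ≤ Real.log 2 := by linarith
    _ = 2 := Real.exp_log (by norm_num)

theorem patha_ell_tendsto : Tendsto ell atTop atTop :=
  Real.tendsto_log_atTop.comp (Real.tendsto_log_atTop.comp tendsto_natCast_atTop_atTop)

theorem patha_scaleR_tendsto : Tendsto scaleR atTop atTop := by
  have h1 : Tendsto (fun N => ell N ^ 2) atTop atTop :=
    (tendsto_pow_atTop (by norm_num)).comp patha_ell_tendsto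
  exact tendsto_nat_ceil_atTop.comp h1

end Claimed.Agent.R293
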