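/-
R293 / PathHigh.lean  (owner: helper271).  Package PATH, leaf P4: small high-layer tails on the
terminal window (B Lemma 6.6), by Markov's inequality.  Prefix `pathu`.
-/
import Claimed.Agent.R293.PathAsym

set_option autoImplicit false

namespace Claimed.Agent.R293

open Filter
open scoped BigOperators

/-- **B Lemma 6.6.** -/
theorem path_highTail (hM : StHeavyMoment) (hD : StHighTailDet) : StHighTail := by
  intro p hp0 hp η hη0 hη1
  obtain ⟨c1, hc1, hev⟩ := hM p hp0 hp η hη0 hη1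
  refine ⟨c1 * η / 16, by positivity, ?_⟩
  filter_upwards [hev, hD η hη0 hη1, patha_scaleR_tendsto.eventually_ge_atTop 2,
    eventually_ge_atTop ⌈8 / (c1 * η)⌉₊] with N hN hDN hR hNbig
  intro m hm π hπ w
  have hP : IsProbArray π := pb_bitModel_isProbArray hp0.le (by linarith) hπ
  have hNr : 8 / (c1 * η) ≤ (N : ℝ) := (Nat.le_ceil _).trans (by exact_mod_cast hNbig)
  have hX : 8 ≤ c1 * η * N := by
    rw [div_le_iff₀ (by positivity)] at hNr
    linarith
  have hRr : (2 : ℝ) ≤ scaleR N := by exact_mod_cast hR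
  set a : ℝ := (2 : ℝ) ^ (c1 * N * (((scaleR N : ℝ) - 1) * η / 4)) with ha
  have ha0 : 0 < a := by positivity
  have hsub : {s : Sym2 (Fin m) → Bool | (∀ t ≤ pathLen N, (node (bitMat s) w t).det ≠ 0 ∧ CorankOK N (node (bitMat s) w t)) ∧
          ∃ t0 : ℕ, pathLen N ≤ t0 + 5 * scaleR N ∧ t0 ≤ pathLen N ∧
            η < matW N (scaleR N) (node (bitMat s) w t0)}
      ⊆ {s | a ≤ (2 : ℝ) ^ (c1 * N * totalQ N η (bitMat s) w)} := by
    rintro s ⟨h1, t0, h2, h3, h4⟩
    have h5 := hDN m hm (bitMat s) (pathb_bitMat_isBit s) w h1 t0 h2 h3 h4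
    simp only [Set.mem_ofPred_eq, ha]
    apply Real.rpow_le_rpow_of_exponent_le (by norm_num)
    exact mul_le_mul_of_nonneg_left h5 (by positivity)
  have hmk := pb_markov hP (f := fun s => (2 : ℝ) ^ (c1 * N * totalQ N η (bitMat s) w))
    (fun s => by positivity) ha0
  calc prb π _ ≤ prb π {s | a ≤ (2 : ℝ) ^ (c1 * N * totalQ N η (bitMat s) w)} :=
        pb_prb_mono hP hsub
    _ ≤ exq π (fun s => (2 : ℝ) ^ (c1 * N * totalQ N η (bitMat s) w)) / a := hmk
    _ ≤ 2 / a := by
        gcongr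
        exact hN m hm π hπ w
    _ = (2 : ℝ) ^ (1 - c1 * N * (((scaleR N : ℝ) - 1) * η / 4)) := by
        rw [Real.rpow_sub (by norm_num), Real.rpow_one]
    _ ≤ (2 : ℝ) ^ (-(c1 * η / 16 * N * scaleR N)) := by
        apply Real.rpow_le_rpow_of_exponent_le (by norm_num)
        have h16 : 16 ≤ c1 * η * N * (3 * (scaleR N : ℝ) - 4) := by nlinarith
        nlinarith

end Claimed.Agent.R293
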