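/-
R293 / PathHighDet.lean  (owner: helper118).  Leaf PATH-P3: `path_highTailDet : StTail1 → StTail2 → StLayerCorank → StHighTailDet`
(deterministic half of B Lemma 6.6 = B (6.14)).  Prefix `pathg`.
Iterate the tail recursion backwards from the node `t0`, threshold `s = R` + preceding widths, during `⌈N^{3/5}⌉` steps.
-/
import Claimed.Agent.R293.PathBasic

set_option autoImplicit false

namespace Claimed.Agent.R293

open Filter
open scoped BigOperators

/-! ### one column, one step -/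

section Step
variable {m : ℕ}

theorem pathg_qTilde_nonneg (N : ℕ) (η : ℝ) (B : Matrix (Fin m) (Fin m) ℤ) (k i : ℕ) :
    0 ≤ qTilde N η B k i := by
  unfold qTilde
  split_ifs
  · exact pathb_heavyW_nonneg _ _ _
  · exact le_rfl

theorem pathg_heavy_le (N : ℕ) (η : ℝ) (B : Matrix (Fin m) (Fin m) ℤ) (k i : ℕ)
    (hdet : (lead B k).det ≠ 0) (hq : 0 ≤ η / (100 * Real.log N)) :
    heavyW N (preLat B k i) (leadCol B k (k + i)) ≤ qTilde N η B k i + η / (100 * Real.log N) := by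
  unfold qTilde
  by_cases h : η / (100 * Real.log N) ≤ heavyW N (preLat B k i) (leadCol B k (k + i))
  · rw [if_pos ⟨hdet, h⟩]
    linarith
  · rw [if_neg (fun h' => h h'.2)]
    linarith [not_le.1 h]

theorem pathg_col (N : ℕ) (η : ℝ) (B : Matrix (Fin m) (Fin m) ℤ) (k i θ : ℕ)
    (hdet : (lead B k).det ≠ 0) (hq : 0 ≤ η / (100 * Real.log N)) (hθ : scaleR N - 1 ≤ θ)
    (hθ1 : 1 ≤ θ) :
    retWge N θ (preLat B k i) (leadCol B k (k + i)) ≤
      (qTilde N η B k i + η / (100 * Real.log N)) / θ := by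
  have h0 : (0 : ℝ) < θ := by exact_mod_cast hθ1
  rw [le_div_iff₀ h0, mul_comm]
  exact (pathb_mul_retWge_le_heavyW N hθ _ _).trans (pathg_heavy_le N η B k i hdet hq)

/-- one step of the tail recursion, with the charges expressed through `Q̃`. -/
theorem pathg_step (hT1 : StTail1) (hT2 : StTail2) (N : ℕ) (η : ℝ)
    (hq : 0 ≤ η / (100 * Real.log N)) {B : Matrix (Fin m) (Fin m) ℤ} (hB : B.IsSymm) (k h : ℕ)
    (hh : h = 1 ∨ h = 2) (hk : k + h ≤ m) (hd0 : (lead B k).det ≠ 0)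
    (hd1 : (lead B (k + h)).det ≠ 0) {s θ : ℕ} (hs : 2 ≤ s) (hθ : θ + h = s + 1)
    (hθR : scaleR N - 1 ≤ θ) (hθ1 : 1 ≤ θ) :
    matW N s (lead B (k + h)) ≤ matW N (s + h) (lead B k) +
      2 * ((∑ i ∈ Finset.range h, qTilde N η B k i + 2 * (η / (100 * Real.log N))) / θ) := by
  have h0 : (0 : ℝ) < θ := by exact_mod_cast hθ1
  rcases hh with rfl | rfl
  · obtain rfl : θ = s := by omega
    have h1 := hT1 N m B hB k hk hd0 hd1 θ hθ1
    have h2 := pathg_col N η B k 0 θ hd0 hq hθR hθ1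
    rw [Finset.sum_range_one]
    have h3 : (qTilde N η B k 0 + η / (100 * Real.log N)) / θ ≤
        (qTilde N η B k 0 + 2 * (η / (100 * Real.log N))) / θ :=
      div_le_div_of_nonneg_right (by linarith) h0.le
    have h4 : retWge N θ (preLat B k 0) (leadCol B k k) ≤
        (qTilde N η B k 0 + η / (100 * Real.log N)) / θ := h2
    linarith
  · obtain rfl : θ = s - 1 := by omega
    have h1 := hT2 N m B hB k hk hd0 hd1 s hs
    have h2 := pathg_col N η B k 0 (s - 1) hd0 hq hθR hθ1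
    have h3 := pathg_col N η B k 1 (s - 1) hd0 hq hθR hθ1
    have h4 : retWge N (s - 1) (preLat B k 0) (leadCol B k k) ≤
        (qTilde N η B k 0 + η / (100 * Real.log N)) / ((s - 1 : ℕ) : ℝ) := h2
    rw [Finset.sum_range_succ, Finset.sum_range_one]
    have h5 : (qTilde N η B k 0 + qTilde N η B k 1 + 2 * (η / (100 * Real.log N))) / ((s - 1 : ℕ) : ℝ)
        = (qTilde N η B k 0 + η / (100 * Real.log N)) / ((s - 1 : ℕ) : ℝ) +
          (qTilde N η B k 1 + η / (100 * Real.log N)) / ((s - 1 : ℕ) : ℝ) := by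
      rw [← add_div]
      congr 1
      ring
    rw [h5]
    linarith

/-- the tail vanishes above the corank bound. -/
theorem pathg_matW_zero (hLC : StLayerCorank) (N : ℕ) {k : ℕ} (C : Matrix (Fin k) (Fin k) ℤ)
    (hdet : C.det ≠ 0) (hC : CorankOK N C) {s : ℕ} (hs : (N : ℝ) ^ ((3 : ℝ) / 5) ≤ s) :
    matW N s C = 0 := by
  unfold matW tailW layerSum
  refine Finset.sum_eq_zero fun x hx => ?_
  have hp : x.1.Prime := Nat.prime_of_mem_primeFactors (Finset.mem_product.1 hx).1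
  have h1 := hLC k C hdet x.1 x.2 hp
  have h2 := hC x.1 hp
  have h3 : layer (DiscGroup C) x.1 x.2 ≤ s := by exact_mod_cast (h1.trans h2).trans hs
  simp [Nat.sub_eq_zero_of_le h3]

end Step

/-! ### iteration along the path -/

section Iter
variable {m H : ℕ}

/-- threshold reached at node `t` when going backwards from `t0`. -/
def pathgS (R : ℕ) (w : Fin H → Bool) (t0 t : ℕ) : ℕ := R + ∑ u ∈ Finset.Ico t t0, wdt w u

/-- `∑ Q̃` over the column tests of step `t`. -/
noncomputable def pathgQ (N : ℕ) (η : ℝ) (B : Matrix (Fin m) (Fin m) ℤ) (w : Fin H → Bool) (t : ℕ) : ℝ :=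
  ∑ i ∈ Finset.range (wdt w t), qTilde N η B (nodeSize m w t) i

theorem pathgQ_nonneg (N : ℕ) (η : ℝ) (B : Matrix (Fin m) (Fin m) ℤ) (w : Fin H → Bool) (t : ℕ) :
    0 ≤ pathgQ N η B w t :=
  Finset.sum_nonneg fun _ _ => pathg_qTilde_nonneg _ _ _ _ _

theorem pathgS_ge (R : ℕ) (w : Fin H → Bool) {t0 : ℕ} (ht0 : t0 ≤ H) (t : ℕ) :
    R + (t0 - t) ≤ pathgS R w t0 t := by
  unfold pathgS
  have : ∑ _u ∈ Finset.Ico t t0, 1 ≤ ∑ u ∈ Finset.Ico t t0, wdt w u := by
    refine Finset.sum_le_sum fun u hu => ?_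
    have hu' : u < H := lt_of_lt_of_le (Finset.mem_Ico.1 hu).2 ht0
    rcases pathb_wdt_of_lt w hu' with h | h <;> omega
  simp only [Finset.sum_const, Nat.card_Ico, smul_eq_mul, mul_one] at this
  omega

theorem pathgS_succ (R : ℕ) (w : Fin H → Bool) {t0 u : ℕ} (hu : u < t0) :
    pathgS R w t0 u = pathgS R w t0 (u + 1) + wdt w u := by
  unfold pathgS
  rw [Finset.sum_eq_sum_Ico_succ_bot hu]
  omega

theorem pathg_iter (hT1 : StTail1) (hT2 : StTail2) (N : ℕ) (η : ℝ)
    (hq : 0 ≤ η / (100 * Real.log N)) {B : Matrix (Fin m) (Fin m) ℤ} (hB : B.IsSymm)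
    (w : Fin H → Bool) (hm : 2 * H ≤ m) (hR : 2 ≤ scaleR N)
    (hdet : ∀ t ≤ H, (node B w t).det ≠ 0) {t0 : ℕ} (ht0 : t0 ≤ H) :
    ∀ d u : ℕ, u + d = t0 →
      matW N (scaleR N) (node B w t0) ≤ matW N (pathgS (scaleR N) w t0 u) (node B w u)
        + 2 / ((scaleR N : ℝ) - 1) * ∑ t ∈ Finset.Ico u t0, pathgQ N η B w t
        + 4 * (η / (100 * Real.log N)) * ∑ n ∈ Finset.range d, 1 / ((n : ℝ) + 1) := by
  intro d
  induction d with
  | zero =>
    intro u hu
    obtain rfl : u = t0 := by omega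
    simp [pathgS]
  | succ d ih =>
    intro u hu
    have ih' := ih (u + 1) (by omega)
    have hut : u < t0 := by omega
    have huH : u < H := lt_of_lt_of_le hut ht0
    set s := pathgS (scaleR N) w t0 (u + 1) with hs
    have hS : pathgS (scaleR N) w t0 u = s + wdt w u := pathgS_succ _ w hut
    have hsge : scaleR N + d ≤ s := by
      have := pathgS_ge (scaleR N) w ht0 (u + 1)
      omega
    have hw := pathb_wdt_of_lt w huH
    set h := wdt w u with hh
    set θ := s + 1 - h with hθ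
    have hθ' : θ + h = s + 1 := by omega
    have hθR : scaleR N - 1 ≤ θ := by omega
    have hθd : d + 1 ≤ θ := by omega
    have hsz := pathb_nodeSize_succ w hm huH
    have hle := pathb_nodeSize_le m w (u + 1)
    have hd0 : (lead B (nodeSize m w u)).det ≠ 0 := hdet u huH.le
    have hd1 : (lead B (nodeSize m w (u + 1))).det ≠ 0 := hdet (u + 1) huH
    have key : ∀ n : ℕ, n = nodeSize m w u + h → n ≤ m → (lead B n).det ≠ 0 →
        matW N s (lead B n) ≤ matW N (s + h) (lead B (nodeSize m w u)) +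
          2 * ((∑ i ∈ Finset.range h, qTilde N η B (nodeSize m w u) i
            + 2 * (η / (100 * Real.log N))) / θ) := by
      intro n hn hnm hdn
      subst hn
      exact pathg_step hT1 hT2 N η hq hB _ h hw hnm hd0 hdn (by omega) hθ' hθR (by omega)
    have hstep := key _ hsz hle hd1
    have hQ0 : 0 ≤ pathgQ N η B w u := pathgQ_nonneg N η B w u
    have hQdef : ∑ i ∈ Finset.range h, qTilde N η B (nodeSize m w u) i = pathgQ N η B w u := rfl
    rw [hQdef] at hstep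
    have hR1 : (0 : ℝ) < (scaleR N : ℝ) - 1 := by
      have : (2 : ℝ) ≤ scaleR N := by exact_mod_cast hR
      linarith
    have hθRr : (scaleR N : ℝ) - 1 ≤ θ := by
      have : scaleR N ≤ θ + 1 := by omega
      have : (scaleR N : ℝ) ≤ (θ : ℝ) + 1 := by exact_mod_cast this
      linarith
    have hθdr : (d : ℝ) + 1 ≤ θ := by exact_mod_cast hθd
    have hb1 : pathgQ N η B w u / θ ≤ pathgQ N η B w u / ((scaleR N : ℝ) - 1) :=
      div_le_div_of_nonneg_left hQ0 hR1 hθRr
    have hb2 : (η / (100 * Real.log N)) / θ ≤ (η / (100 * Real.log N)) / ((d : ℝ) + 1) :=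
      div_le_div_of_nonneg_left hq (by positivity) hθdr
    rw [Finset.sum_eq_sum_Ico_succ_bot hut, Finset.sum_range_succ, hS]
    have e1 : 2 * ((pathgQ N η B w u + 2 * (η / (100 * Real.log N))) / θ) =
        2 * (pathgQ N η B w u / θ) + 4 * ((η / (100 * Real.log N)) / θ) := by
      rw [add_div, mul_div_assoc]
      ring
    have e2 : 2 / ((scaleR N : ℝ) - 1) * (pathgQ N η B w u + ∑ t ∈ Finset.Ico (u + 1) t0, pathgQ N η B w t)
        = 2 * (pathgQ N η B w u / ((scaleR N : ℝ) - 1)) +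
          2 / ((scaleR N : ℝ) - 1) * ∑ t ∈ Finset.Ico (u + 1) t0, pathgQ N η B w t := by
      ring
    have e3 : 4 * (η / (100 * Real.log N)) * (∑ n ∈ Finset.range d, 1 / ((n : ℝ) + 1) + 1 / ((d : ℝ) + 1))
        = 4 * (η / (100 * Real.log N)) * ∑ n ∈ Finset.range d, 1 / ((n : ℝ) + 1) +
          4 * ((η / (100 * Real.log N)) / ((d : ℝ) + 1)) := by
      ring
    rw [e2, e3]
    rw [e1] at hstep
    have hstep' : matW N s (node B w (u + 1)) ≤ matW N (s + h) (node B w u) +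
        (2 * (pathgQ N η B w u / θ) + 4 * ((η / (100 * Real.log N)) / θ)) := hstep
    linarith

end Iter

/-! ### asymptotics -/

theorem pathg_eventually : ∀ᶠ N : ℕ in atTop,
    2 ≤ scaleR N ∧ 2 * pathLen N + 1 ≤ N ∧ 5 * scaleR N ≤ ⌈(N : ℝ) ^ ((3 : ℝ) / 5)⌉₊ ∧
      1 ≤ Real.log N := by
  have hX : Tendsto (fun N : ℕ => (N : ℝ) ^ ((1 : ℝ) / 5)) atTop atTop :=
    (tendsto_rpow_atTop (by norm_num)).comp tendsto_natCast_atTop_atTop
  have hlog : Tendsto (fun N : ℕ => Real.log N) atTop atTop :=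
    Real.tendsto_log_atTop.comp tendsto_natCast_atTop_atTop
  have hell : Tendsto (fun N : ℕ => ell N) atTop atTop := Real.tendsto_log_atTop.comp hlog
  filter_upwards [hX.eventually_ge_atTop 126, hell.eventually_ge_atTop 2,
    hlog.eventually_ge_atTop 1] with N hXN hellN hlogN
  have hN0 : (0 : ℝ) ≤ N := Nat.cast_nonneg N
  obtain ⟨X, hXdef⟩ : ∃ X : ℝ, X = (N : ℝ) ^ ((1 : ℝ) / 5) := ⟨_, rfl⟩
  rw [← hXdef] at hXN
  have hX3 : (N : ℝ) ^ ((3 : ℝ) / 5) = X ^ 3 := by
    rw [hXdef, ← Real.rpow_natCast, ← Real.rpow_mul hN0]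
    norm_num
  have hX5 : (N : ℝ) = X ^ 5 := by
    rw [hXdef, ← Real.rpow_natCast, ← Real.rpow_mul hN0]
    norm_num
  have hlogX : Real.log N ≤ 5 * X := by
    have := Real.log_le_rpow_div hN0 (by norm_num : (0 : ℝ) < 1 / 5)
    rw [← hXdef] at this
    linarith
  have hXpos : 0 < X := by linarith
  have hX2 : 15876 ≤ X ^ 2 := by nlinarith
  have hceil : (⌈(N : ℝ) ^ ((3 : ℝ) / 5)⌉₊ : ℝ) < X ^ 3 + 1 := by
    rw [← hX3]
    exact Nat.ceil_lt_add_one (by positivity)
  have hceil' : X ^ 3 ≤ (⌈(N : ℝ) ^ ((3 : ℝ) / 5)⌉₊ : ℝ) := by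
    rw [← hX3]
    exact Nat.le_ceil _
  refine ⟨?_, ?_, ?_, hlogN⟩
  · have h1 : ell N ^ 2 ≤ (scaleR N : ℝ) := Nat.le_ceil _
    have : (2 : ℝ) ≤ scaleR N := by nlinarith
    exact_mod_cast this
  · have h3 : 1 ≤ X ^ 3 := one_le_pow₀ (by linarith)
    have h4 : X ^ 3 * 9 ≤ X ^ 3 * X ^ 2 := mul_le_mul_of_nonneg_left (by linarith) (by positivity)
    have h5 : X ^ 5 = X ^ 3 * X ^ 2 := by ring
    have : ((2 * pathLen N + 1 : ℕ) : ℝ) ≤ N := by
      unfold pathLen
      push_cast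
      calc 2 * (2 * (⌈(N : ℝ) ^ ((3 : ℝ) / 5)⌉₊ : ℝ)) + 1 ≤ 4 * (X ^ 3 + 1) + 1 := by linarith
        _ ≤ X ^ 5 := by linarith
        _ = N := hX5.symm
    exact_mod_cast this
  · have h1 : (scaleR N : ℝ) < ell N ^ 2 + 1 := Nat.ceil_lt_add_one (by positivity)
    have h2 : ell N ≤ Real.log N := Real.log_le_self (by linarith)
    have h3 : ell N ^ 2 ≤ 25 * X ^ 2 := by nlinarith
    have h6 : X ^ 2 * 126 ≤ X ^ 2 * X := mul_le_mul_of_nonneg_left hXN (by positivity)
    have h7 : X ^ 3 = X ^ 2 * X := by ring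
    have h4 : (5 * scaleR N : ℝ) ≤ X ^ 3 := by linarith
    have h5 : ((5 * scaleR N : ℕ) : ℝ) ≤ (⌈(N : ℝ) ^ ((3 : ℝ) / 5)⌉₊ : ℝ) := by
      push_cast
      exact h4.trans hceil'
    exact_mod_cast h5

/-! ### the leaf -/

/-- **B (6.14)**: deterministic half of B Lemma 6.6. -/
theorem path_highTailDet (hT1 : StTail1) (hT2 : StTail2) (hLC : StLayerCorank) : StHighTailDet := by
  intro η hη0 hη1
  filter_upwards [pathg_eventually] with N hN m hm B hB w hnodes t0 ht0a ht0b hW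
  obtain ⟨hR, hfit, hJ, hlog⟩ := hN
  obtain ⟨J, hJdef⟩ : ∃ J : ℕ, J = ⌈(N : ℝ) ^ ((3 : ℝ) / 5)⌉₊ := ⟨_, rfl⟩
  rw [← hJdef] at hJ
  have hH : pathLen N = 2 * J := by rw [hJdef]; rfl
  have hL : 0 < Real.log N := by linarith
  have hq : 0 ≤ η / (100 * Real.log N) := by positivity
  have hmH : 2 * pathLen N ≤ m := by omega
  have hJt : J ≤ t0 := by omega
  have hit := pathg_iter hT1 hT2 N η hq hB.1 w hmH hR (fun t ht => (hnodes t ht).1) ht0b J (t0 - J)
    (by omega)
  have hS := pathgS_ge (scaleR N) w ht0b (t0 - J)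
  have hz : matW N (pathgS (scaleR N) w t0 (t0 - J)) (node B w (t0 - J)) = 0 := by
    apply pathg_matW_zero hLC N _ (hnodes _ (by omega)).1 (hnodes _ (by omega)).2
    have h1 : (N : ℝ) ^ ((3 : ℝ) / 5) ≤ J := by rw [hJdef]; exact Nat.le_ceil _
    have h2 : J ≤ pathgS (scaleR N) w t0 (t0 - J) := by omega
    have h3 : (J : ℝ) ≤ (pathgS (scaleR N) w t0 (t0 - J) : ℝ) := by exact_mod_cast h2
    exact h1.trans h3
  rw [hz, zero_add] at hit
  have hQ : ∑ t ∈ Finset.Ico (t0 - J) t0, pathgQ N η B w t ≤ totalQ N η B w := by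
    unfold totalQ
    apply Finset.sum_le_sum_of_subset_of_nonneg
    · intro t ht
      rw [Finset.mem_range]
      exact lt_of_lt_of_le (Finset.mem_Ico.1 ht).2 ht0b
    · intro t _ _
      exact pathgQ_nonneg N η B w t
  have hharm : ∑ n ∈ Finset.range J, 1 / ((n : ℝ) + 1) ≤ 1 + Real.log N := by
    have h1 := harmonic_le_one_add_log J
    have h2 : ((harmonic J : ℚ) : ℝ) = ∑ n ∈ Finset.range J, 1 / ((n : ℝ) + 1) := by
      simp [harmonic]
    rw [h2] at h1
    have hJpos : 0 < J := by omega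
    have hJN : J ≤ N := by omega
    have h3 : Real.log J ≤ Real.log N :=
      Real.log_le_log (by exact_mod_cast hJpos) (by exact_mod_cast hJN)
    linarith
  have hR1 : (0 : ℝ) < (scaleR N : ℝ) - 1 := by
    have : (2 : ℝ) ≤ scaleR N := by exact_mod_cast hR
    linarith
  have h4 : 4 * (η / (100 * Real.log N)) * ∑ n ∈ Finset.range J, 1 / ((n : ℝ) + 1) ≤ 8 * η / 100 := by
    calc 4 * (η / (100 * Real.log N)) * ∑ n ∈ Finset.range J, 1 / ((n : ℝ) + 1)
        ≤ 4 * (η / (100 * Real.log N)) * (2 * Real.log N) :=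
          mul_le_mul_of_nonneg_left (by linarith) (by positivity)
      _ = 8 * η / 100 := by
          field_simp
          ring
  have h5 : 2 / ((scaleR N : ℝ) - 1) * ∑ t ∈ Finset.Ico (t0 - J) t0, pathgQ N η B w t ≤
      2 / ((scaleR N : ℝ) - 1) * totalQ N η B w :=
    mul_le_mul_of_nonneg_left hQ (by positivity)
  have h6 : η * (92 / 100) < (2 * totalQ N η B w) / ((scaleR N : ℝ) - 1) := by
    have e : 2 / ((scaleR N : ℝ) - 1) * totalQ N η B w = (2 * totalQ N η B w) / ((scaleR N : ℝ) - 1) := by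
      ring
    rw [← e]
    linarith
  rw [lt_div_iff₀ hR1] at h6
  nlinarith

end Claimed.Agent.R293
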