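/-
R293 / PathMain.lean  (owner: helper144).  PATH-P9: assembly of `StColumn` (B Proposition 2.5) from the fixed-path bound.
Prefix `pathm`.
-/
import Claimed.Agent.R293.PathIface
import Claimed.Agent.R293.PathAsymp

set_option autoImplicit false

namespace Claimed.Agent.R293

open Filter

/-- conjunction of two typical properties. -/
theorem pathm_typically_and {p : ℝ} (hp0 : 0 ≤ p) (hp1 : p ≤ 1)
    {G1 G2 : ℕ → ∀ m : ℕ, Matrix (Fin m) (Fin m) ℤ → Prop}
    (h1 : Typically p G1) (h2 : Typically p G2) :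
    Typically p (fun N m B => G1 N m B ∧ G2 N m B) := by
  intro A
  filter_upwards [h1 (A + 1), h2 (A + 1), eventually_ge_atTop 1] with N h1 h2 hN m hm π hπ
  have hP := pb_bitModel_isProbArray hp0 hp1 hπ
  have hsub : {s : Sym2 (Fin m) → Bool | (bitMat s).det ≠ 0 ∧ ¬ (G1 N m (bitMat s) ∧ G2 N m (bitMat s))} ⊆
      {s | (bitMat s).det ≠ 0 ∧ ¬ G1 N m (bitMat s)} ∪ {s | (bitMat s).det ≠ 0 ∧ ¬ G2 N m (bitMat s)} := by
    rintro s ⟨hd, hn⟩
    by_cases hg : G1 N m (bitMat s)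
    · exact Or.inr ⟨hd, fun h => hn ⟨hg, h⟩⟩
    · exact Or.inl ⟨hd, hg⟩
  have h3 := (pb_prb_mono hP hsub).trans (pb_prb_union_le hP _ _)
  have h4 := h1 m hm π hπ
  have h5 := h2 m hm π hπ
  have h6 : (2 : ℝ) ^ (-((A + 1) * N)) ≤ (2 : ℝ) ^ (-(A * N)) / 2 := by
    rw [le_div_iff₀ (by norm_num)]
    calc (2 : ℝ) ^ (-((A + 1) * N)) * 2 = (2 : ℝ) ^ (-((A + 1) * N)) * (2 : ℝ) ^ (1 : ℝ) := by
          rw [Real.rpow_one]
      _ = (2 : ℝ) ^ (-((A + 1) * N) + 1) := by rw [Real.rpow_add (by norm_num)]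
      _ ≤ (2 : ℝ) ^ (-(A * N)) := by
          refine Real.rpow_le_rpow_of_exponent_le (by norm_num) ?_
          have : (1 : ℝ) ≤ N := by exact_mod_cast hN
          linarith
  linarith

/-- transport of a fixed-path event along a simultaneous permutation. -/
theorem pathm_prb_perm {m : ℕ} (π : Sym2 (Fin m) → ℝ) (σ : Equiv.Perm (Fin m))
    (P : Matrix (Fin m) (Fin m) ℤ → Prop) :
    prb π {s | P ((bitMat s).submatrix σ σ)} = prb (π ∘ Sym2.map σ) {t | P (bitMat t)} :=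
  pb_prb_submatrix π σ.injective {B | P B}

/-- **PATH-P9**: B Proposition 2.5. -/
theorem path_column (hSI : StSmallInt) (hPC : StPrimeCorank) (hSt : StStatic)
    (hTN : StTypicalNodes) (hFP : StFixedPath) (hPE : StPathExists) (hCnt : StPathCount)
    (hAP : StAdmPerm) : StColumn := by
  classical
  intro p hp0 hp1 L0 hL0
  refine ⟨1, one_pos, fun e0 he0 he1 => ?_⟩
  obtain ⟨ζ, hζ, hStat⟩ := hSt p hp0 hp1 L0 hL0 e0 he0
  have hp1' : p ≤ 1 := by linarith
  have hα0 : 0 < e0 / 2 := by positivity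
  have hαe : e0 / 2 < e0 := by linarith
  have hα1 : e0 / 2 < 1 := by linarith
  have hGood : Typically p (fun N k C => PathGood L0 e0 (e0 / 2) ζ N k C) :=
    pathm_typically_and hp0.le hp1' (hSI p hp0 hp1 20 (by norm_num) (e0 / 2) hα0 hα1)
      (pathm_typically_and hp0.le hp1' (hPC p hp0 hp1) hStat)
  have hTN' := hTN p hp0 hp1 _ hGood (2 * cA p)
  have hFP' := hFP p hp0 hp1 L0 hL0 e0 he0 (e0 / 2) hα0 hαe hα1 ζ hζ
  have hbig : ∀ᶠ N : ℕ in atTop, (1 : ℝ) ≤ 4 * e0 * N := by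
    have : Tendsto (fun N : ℕ => 4 * e0 * (N : ℝ)) atTop atTop :=
      tendsto_natCast_atTop_atTop.const_mul_atTop (by positivity)
    exact this.eventually_ge_atTop 1
  filter_upwards [hTN', hFP', patha_pathLen_fit 2 2, patha_count 2 1 he0, hbig] with
    N hTN hFP hfit hcount hbig m hm π hπ
  have hP := pb_bitModel_isProbArray hp0.le hp1' hπ
  set H := pathLen N with hH
  have hmN : m ≤ N := by omega
  have h2H : 2 * H ≤ m := by omega
  have hm1 : 1 ≤ m := by omega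
  -- the index set of paths
  set Sg : Finset (Equiv.Perm (Fin m)) :=
    Finset.univ.filter (fun σ : Equiv.Perm (Fin m) => σ ∈ pathPerms m (2 * H)) with hSg
  set Bad : Set (Sym2 (Fin m) → Bool) :=
    {s | ∃ σ ∈ pathPerms m (2 * H), ∃ k : ℕ, m ≤ k + 2 * H ∧ k ≤ m ∧
          (lead ((bitMat s).submatrix σ σ) k).det ≠ 0 ∧
          ¬ PathGood L0 e0 (e0 / 2) ζ N k (lead ((bitMat s).submatrix σ σ) k)} with hBad
  set Ev : Equiv.Perm (Fin m) × (Fin H → Bool) → Set (Sym2 (Fin m) → Bool) := fun x =>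
    {s | PathA L0 e0 (e0 / 2) ζ N ((bitMat s).submatrix x.1 x.1) x.2 ∧
      ζ < matW N 2 (node ((bitMat s).submatrix x.1 x.1) x.2 H)} with hEv
  have hcover : {s : Sym2 (Fin m) → Bool | (bitMat s).det ≠ 0 ∧
      (2 : ℝ) ^ (e0 * N) < (admCount L0 N (bitMat s) : ℝ)} ⊆
      Bad ∪ ⋃ x ∈ Sg ×ˢ (Finset.univ : Finset (Fin H → Bool)), Ev x := by
    rintro s ⟨hdet, hadm⟩
    obtain ⟨σ, hσ, w, hgp⟩ := hPE L0 hL0 N m H hmN h2H (bitMat s) (pathb_bitMat_isBit s) hdet
    by_cases hbad : s ∈ Bad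
    · exact Or.inl hbad
    · refine Or.inr ?_
      have hall : ∀ t ≤ H, PathGood L0 e0 (e0 / 2) ζ N (nodeSize m w t)
          (node ((bitMat s).submatrix σ σ) w t) := by
        intro t ht
        by_contra hng
        refine hbad ⟨σ, hσ, nodeSize m w t, ?_, pathb_nodeSize_le m w t, hgp.1 t ht, hng⟩
        have := pathb_le_nodeSize m w t
        omega
      simp only [Set.mem_iUnion]
      refine ⟨(σ, w), Finset.mem_product.2 ⟨Finset.mem_filter.2 ⟨Finset.mem_univ _, hσ⟩,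
        Finset.mem_univ _⟩, ⟨hgp, hall⟩, ?_⟩
      by_contra hle
      have htop := (hall H le_rfl).2.2 (not_lt.1 hle)
      -- the top node is the whole matrix
      have hcast : ∀ n : ℕ, n = m → admCount L0 N (lead ((bitMat s).submatrix σ σ) n) =
          admCount L0 N ((bitMat s).submatrix σ σ) := by
        intro n hn
        subst hn
        rw [pathb_lead_self]
      have h1 : admCount L0 N (node ((bitMat s).submatrix σ σ) w H) = admCount L0 N (bitMat s) := by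
        rw [← hAP L0 N m (bitMat s) σ]
        exact hcast _ (pathb_nodeSize_top m w)
      rw [h1] at htop
      exact absurd hadm (not_lt.2 htop)
  have hEvb : ∀ x ∈ Sg ×ˢ (Finset.univ : Finset (Fin H → Bool)),
      prb π (Ev x) ≤ (2 : ℝ) ^ (-((2 * cA p - 5 * e0) * N)) := by
    intro x _
    have h1 := pathm_prb_perm π x.1 (fun B => PathA L0 e0 (e0 / 2) ζ N B x.2 ∧
      ζ < matW N 2 (node B x.2 H))
    have h2 := hFP m hm (π ∘ Sym2.map x.1) (pb_bitModel_comp_map hπ x.1) x.2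
    calc prb π (Ev x) = _ := h1
      _ ≤ _ := h2
  have hcard : (((Sg ×ˢ (Finset.univ : Finset (Fin H → Bool))).card : ℕ) : ℝ) ≤ (2 : ℝ) ^ (e0 * N) := by
    rw [Finset.card_product]
    have h1 : Sg.card ≤ m ^ (2 * H) := hCnt m (2 * H) hm1
    have h2 : (Finset.univ : Finset (Fin H → Bool)).card = 2 ^ H := by
      simp [Finset.card_univ]
    rw [h2]
    push_cast
    refine le_trans ?_ hcount
    rw [one_mul]
    refine mul_le_mul_of_nonneg_right ?_ (by positivity)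
    calc (Sg.card : ℝ) ≤ ((m ^ (2 * H) : ℕ) : ℝ) := by exact_mod_cast h1
      _ = (m : ℝ) ^ (2 * H) := by push_cast; rfl
      _ ≤ (N : ℝ) ^ (2 * H) := pow_le_pow_left₀ (Nat.cast_nonneg m) (by exact_mod_cast hmN) _
  have hU := pb_prb_biUnion_le_card_mul hP (Sg ×ˢ (Finset.univ : Finset (Fin H → Bool))) Ev hEvb
  have hB : prb π Bad ≤ (2 : ℝ) ^ (-(2 * cA p * N)) := hTN m hm π hπ
  have htot := (pb_prb_mono hP hcover).trans (pb_prb_union_le hP _ _)
  -- numerics
  set X : ℝ := (2 : ℝ) ^ (-((2 * cA p - 6 * e0) * N)) with hX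
  have hN0 : (0 : ℝ) ≤ N := Nat.cast_nonneg N
  have n1 : (2 : ℝ) ^ (-(2 * cA p * N)) ≤ X := by
    refine Real.rpow_le_rpow_of_exponent_le (by norm_num) ?_
    nlinarith
  have n2 : (((Sg ×ˢ (Finset.univ : Finset (Fin H → Bool))).card : ℕ) : ℝ) *
      (2 : ℝ) ^ (-((2 * cA p - 5 * e0) * N)) ≤ X := by
    calc _ ≤ (2 : ℝ) ^ (e0 * N) * (2 : ℝ) ^ (-((2 * cA p - 5 * e0) * N)) :=
          mul_le_mul_of_nonneg_right hcard (by positivity)
      _ = X := by
          rw [← Real.rpow_add (by norm_num), hX]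
          congr 1
          ring
  have n3 : 2 * X ≤ (2 : ℝ) ^ (-((2 * cA p - 10 * e0) * N)) := by
    calc 2 * X = (2 : ℝ) ^ (1 : ℝ) * X := by rw [Real.rpow_one]
      _ = (2 : ℝ) ^ (1 + -((2 * cA p - 6 * e0) * N)) := by rw [hX, Real.rpow_add (by norm_num)]
      _ ≤ _ := by
          refine Real.rpow_le_rpow_of_exponent_le (by norm_num) ?_
          nlinarith
  linarith

end Claimed.Agent.R293
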