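/-
R293 / PathMoment.lean  (owner: helper271).  Package PATH, leaf P2: exponential moment of `∑ Q̃`
along a fixed path (B (6.13)).  Prefix `pathm`.
-/
import Claimed.Agent.R293.PathCol
import Claimed.Agent.R293.PathAsym

set_option autoImplicit false

namespace Claimed.Agent.R293

open Filter
open scoped BigOperators

/-- products over `range (2 n)` in pairs. -/
theorem pathm_prod_pairs (G : ℕ → ℝ) (n : ℕ) :
    ∏ j ∈ Finset.range (2 * n), G j = ∏ t ∈ Finset.range n, (G (2 * t) * G (2 * t + 1)) := by
  induction n with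
  | zero => simp
  | succ n ih =>
    rw [show 2 * (n + 1) = 2 * n + 1 + 1 by ring, Finset.prod_range_succ, Finset.prod_range_succ,
      Finset.prod_range_succ, ih]
    ring

section Core
variable {m H : ℕ}

/-- the one-column bound of `StHeavyMoment1` at a fixed `N`. -/
def PathmCol (p η c δ : ℝ) (N : ℕ) : Prop :=
  ∀ (k : ℕ) (C : Matrix (Fin k) (Fin k) ℤ) (K : AddSubgroup (Fin k → ℤ)), LatOK N k C K →
    ∀ ρ : Fin k → ℝ, ColModel p ρ →
      exq ρ (fun z => (2 : ℝ) ^ (c * N * (if η / (100 * Real.log N) ≤ heavyW N K (bitVecZ z)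
          then heavyW N K (bitVecZ z) else 0))) ≤ 1 + δ

/-- the factor of the column test number `j = 2 t + i`. -/
noncomputable def pathmG (N : ℕ) (η c : ℝ) (w : Fin H → Bool) (j : ℕ)
    (B : Matrix (Fin m) (Fin m) ℤ) : ℝ :=
  if j % 2 < wdt w (j / 2) then (2 : ℝ) ^ (c * N * qTilde N η B (nodeSize m w (j / 2)) (j % 2))
  else 1

theorem pathmG_pos (N : ℕ) (η c : ℝ) (w : Fin H → Bool) (j : ℕ) (B : Matrix (Fin m) (Fin m) ℤ) :
    0 < pathmG N η c w j B := by
  unfold pathmG
  split_ifs <;> positivity

theorem pathm_prod_eq (N : ℕ) (η c : ℝ) (w : Fin H → Bool) (B : Matrix (Fin m) (Fin m) ℤ) :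
    ∏ j ∈ Finset.range (2 * H), pathmG N η c w j B = (2 : ℝ) ^ (c * N * totalQ N η B w) := by
  rw [pathm_prod_pairs, totalQ, Finset.mul_sum, Real.rpow_sum_of_pos (by norm_num)]
  refine Finset.prod_congr rfl fun t ht => ?_
  have ht' : t < H := Finset.mem_range.1 ht
  have e1 : 2 * t / 2 = t := by omega
  have e2 : 2 * t % 2 = 0 := by omega
  have e3 : (2 * t + 1) / 2 = t := by omega
  have e4 : (2 * t + 1) % 2 = 1 := by omega
  unfold pathmG
  rw [e1, e2, e3, e4]
  rcases pathb_wdt_of_lt w ht' with h | h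
  · rw [h, if_pos (by norm_num), if_neg (by norm_num), mul_one]
    simp
  · rw [h, if_pos (by norm_num), if_pos (by norm_num), ← Real.rpow_add (by norm_num)]
    congr 1
    rw [Finset.sum_range_succ, Finset.sum_range_one]
    ring

/-- conditional expectation of one factor. -/
theorem pathm_cond {p η c δ : ℝ} {N : ℕ} (hδ : 0 ≤ δ) (hcol : PathmCol p η c δ N)
    {π : Sym2 (Fin m) → ℝ} (hπ : BitModel p π) {k i : ℕ} (hk : InRange N k) (hki : k + i < m)
    (s : Sym2 (Fin m) → Bool) :
    exq π (fun x => (2 : ℝ) ^ (c * N * qTilde N η (bitMat (pbMix (pathcSet m k (k + i)) x s)) k i))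
      ≤ 1 + δ := by
  have hle : k ≤ k + i := Nat.le_add_right k i
  have h2 : ∀ x, preLat (bitMat (pbMix (pathcSet m k (k + i)) x s)) k i = preLat (bitMat s) k i := by
    intro x
    rw [← pathc_preLat_lead _ (le_refl (k + i)), pathc_lead_mix (le_refl (k + i)),
      pathc_preLat_lead _ (le_refl (k + i))]
  by_cases hdet : (lead (bitMat s) k).det = 0
  · have h3 : ∀ x, (2 : ℝ) ^ (c * N * qTilde N η (bitMat (pbMix (pathcSet m k (k + i)) x s)) k i)
        = 1 := by
      intro x
      unfold qTilde
      rw [pathc_lead_mix hle, if_neg (fun h => h.1 hdet), mul_zero, Real.rpow_zero]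
    rw [pb_exq_congr π h3, pb_exq_const]
    linarith
  · have h3 : ∀ x, (2 : ℝ) ^ (c * N * qTilde N η (bitMat (pbMix (pathcSet m k (k + i)) x s)) k i)
        = (fun z => (2 : ℝ) ^ (c * N * (if η / (100 * Real.log N)
              ≤ heavyW N (preLat (bitMat s) k i) (bitVecZ z)
            then heavyW N (preLat (bitMat s) k i) (bitVecZ z) else 0))) (x ∘ pathcEmb hle hki) := by
      intro x
      unfold qTilde
      rw [pathc_lead_mix hle, h2, pathc_leadCol_mix hle hki]
      by_cases hthr : η / (100 * Real.log N)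
          ≤ heavyW N (preLat (bitMat s) k i) (bitVecZ (x ∘ pathcEmb hle hki))
      · simp only
        rw [if_pos ⟨hdet, hthr⟩, if_pos hthr]
      · simp only
        rw [if_neg (fun h => hthr h.2), if_neg hthr]
    rw [pb_exq_congr π h3, pb_exq_comp π (pathcEmb_injective hle hki)
      (fun z => (2 : ℝ) ^ (c * N * (if η / (100 * Real.log N)
              ≤ heavyW N (preLat (bitMat s) k i) (bitVecZ z)
            then heavyW N (preLat (bitMat s) k i) (bitVecZ z) else 0)))]
    exact hcol k (lead (bitMat s) k) (preLat (bitMat s) k i)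
      ⟨hk, pathb_lead_isBit (pathb_bitMat_isBit s) k, hdet, pathb_colLat_le_preLat _ k i⟩ _
      (pathc_colModel hπ _ _)

/-- **B (6.13)**, non-asymptotic form. -/
theorem pathm_core {p η c δ : ℝ} {N : ℕ} (hp0 : 0 < p) (hp : p ≤ 1 / 2) (hδ : 0 ≤ δ)
    (hcol : PathmCol p η c δ N) {π : Sym2 (Fin m) → ℝ} (hπ : BitModel p π) (w : Fin H → Bool)
    (hH : 2 * H ≤ m) (hR : ∀ t, InRange N (nodeSize m w t)) :
    exq π (fun s => (2 : ℝ) ^ (c * N * totalQ N η (bitMat s) w)) ≤ (1 + δ) ^ (2 * H) := by
  have hP : IsProbArray π := pb_bitModel_isProbArray hp0.le (by linarith) hπ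
  have hmain := pb_exq_prod_le_prod hP (2 * H)
    (fun j => pathcSet m (nodeSize m w (j / 2)) (nodeSize m w (j / 2) + j % 2))
    (fun j s => pathmG N η c w j (bitMat s)) (fun _ => 1 + δ)
    (fun j _ s => (pathmG_pos N η c w j _).le) ?_ ?_
  · rw [Finset.prod_const, Finset.card_range] at hmain
    refine le_trans (le_of_eq ?_) hmain
    exact pb_exq_congr π fun s => (pathm_prod_eq N η c w (bitMat s)).symm
  · -- freeness
    intro j hj j' hj'
    by_cases hcond : j' % 2 < wdt w (j' / 2)
    · have hlt : j' / 2 < H := by omega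
      have hn : nodeSize m w (j' / 2) + j' % 2 + 1 ≤ nodeSize m w (j / 2) + j % 2 := by
        rcases Nat.lt_or_ge (j' / 2) (j / 2) with h | h
        · have h1 := pathb_nodeSize_succ w hH hlt
          have h2 := patha_nodeSize_mono m w (Nat.succ_le_of_lt h)
          simp only [Nat.succ_eq_add_one] at h2
          omega
        · have h1 : j' / 2 = j / 2 := by omega
          rw [h1]
          omega
      refine pathc_free _ hn (fun B => pathmG N η c w j' B)
        (fun C => (2 : ℝ) ^ (c * N * qTilde N η C (nodeSize m w (j' / 2)) (j' % 2))) fun B => ?_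
      unfold pathmG
      rw [if_pos hcond, pathc_qTilde_lead N η B (Nat.lt_succ_self _)]
    · intro x s
      unfold pathmG
      simp only [if_neg hcond]
  · -- conditional expectations
    intro j hj s
    by_cases hcond : j % 2 < wdt w (j / 2)
    · have hlt : j / 2 < H := by omega
      have h1 := pathb_nodeSize_succ w hH hlt
      have h2 := pathb_nodeSize_le m w (j / 2 + 1)
      have h3 := pathm_cond (η := η) (c := c) hδ hcol hπ (hR (j / 2))
        (i := j % 2) (by omega) s
      refine le_trans (le_of_eq ?_) h3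
      refine pb_exq_congr π fun x => ?_
      unfold pathmG
      rw [if_pos hcond]
    · have : ∀ x, pathmG N η c w j (bitMat (pbMix
          (pathcSet m (nodeSize m w (j / 2)) (nodeSize m w (j / 2) + j % 2)) x s)) = 1 := by
        intro x
        unfold pathmG
        rw [if_neg hcond]
      rw [pb_exq_congr π this, pb_exq_const]
      linarith

end Core

/-- **B (6.13).** -/
theorem path_heavyMoment (h1 : StHeavyMoment1) : StHeavyMoment := by
  intro p hp0 hp η hη0 hη1
  obtain ⟨c, hc0, hev⟩ := h1 p hp0 hp η hη0 hη1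
  refine ⟨c, hc0, ?_⟩
  filter_upwards [hev, patha_eventually_range, patha_eventually_prod_le_two] with N hN hR h2
  intro m hm π hπ w
  obtain ⟨hH, hRange⟩ := hR m hm
  exact (pathm_core hp0 hp (by positivity) hN hπ w hH
    (patha_nodeSize_inRange hRange w)).trans h2

end Claimed.Agent.R293
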