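/-
Row 293 (S0541), package PATH, leaf P1: union bound over all nodes of all paths.  Owner helper78.
-/
import Claimed.Agent.R293.PathIface
import Claimed.Agent.R293.ProbMarg

set_option autoImplicit false

namespace Claimed.Agent.R293

open Filter Topology

theorem pathn_lead_eq {m k : ℕ} (hk : k ≤ m) (B : Matrix (Fin m) (Fin m) ℤ) :
    lead B k = B.submatrix (Fin.castLE hk) (Fin.castLE hk) := by
  funext i j
  unfold lead natMat
  rw [dif_pos ⟨lt_of_lt_of_le i.2 hk, lt_of_lt_of_le j.2 hk⟩]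
  rfl

/-- asymptotics. -/
theorem pathn_asymp : ∀ᶠ N : ℕ in atTop,
    (1 : ℝ) + 2 * pathLen N ≤ (N : ℝ) ^ ((7 : ℝ) / 10) ∧
      (N : ℝ) ^ (2 * pathLen N + 1) ≤ (2 : ℝ) ^ (N : ℝ) := by
  have hcast : Tendsto (fun N : ℕ => (N : ℝ)) atTop atTop := tendsto_natCast_atTop_atTop
  have h1 : ∀ᶠ N : ℕ in atTop, (9 : ℝ) ≤ (N : ℝ) ^ ((1 : ℝ) / 10) :=
    ((tendsto_rpow_atTop (by norm_num : (0 : ℝ) < 1 / 10)).comp hcast).eventually_ge_atTop 9
  have h2 : ∀ᶠ N : ℕ in atTop, (9 : ℝ) / Real.log 2 ≤ (N : ℝ) ^ ((1 : ℝ) / 5) :=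
    ((tendsto_rpow_atTop (by norm_num : (0 : ℝ) < 1 / 5)).comp hcast).eventually_ge_atTop _
  have h3 : ∀ᶠ N : ℕ in atTop, Real.log (N : ℝ) ≤ (N : ℝ) ^ ((1 : ℝ) / 5) := by
    have := (isLittleO_log_rpow_atTop (by norm_num : (0 : ℝ) < 1 / 5)).bound (by norm_num : (0:ℝ) < 1)
    have := hcast.eventually this
    filter_upwards [this, eventually_ge_atTop 1] with N hN hN1
    have hN1' : (1 : ℝ) ≤ N := by exact_mod_cast hN1
    rw [Real.norm_of_nonneg (Real.log_nonneg hN1'), Real.norm_of_nonneg (by positivity), one_mul] at hN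
    exact hN
  filter_upwards [h1, h2, h3, eventually_ge_atTop 1] with N a b c hN1
  have hN1' : (1 : ℝ) ≤ N := by exact_mod_cast hN1
  have hN0 : (0 : ℝ) < N := by linarith
  have hx : (1 : ℝ) ≤ (N : ℝ) ^ ((3 : ℝ) / 5) := Real.one_le_rpow hN1' (by norm_num)
  have hH : (pathLen N : ℝ) ≤ 2 * (N : ℝ) ^ ((3 : ℝ) / 5) + 2 := by
    unfold pathLen
    push_cast
    have := (Nat.ceil_lt_add_one (by positivity : (0 : ℝ) ≤ (N : ℝ) ^ ((3 : ℝ) / 5))).le
    linarith
  have hH9 : (1 : ℝ) + 2 * pathLen N ≤ 9 * (N : ℝ) ^ ((3 : ℝ) / 5) := by linarith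
  constructor
  · calc (1 : ℝ) + 2 * pathLen N ≤ 9 * (N : ℝ) ^ ((3 : ℝ) / 5) := hH9
      _ ≤ (N : ℝ) ^ ((1 : ℝ) / 10) * (N : ℝ) ^ ((3 : ℝ) / 5) := by gcongr
      _ = (N : ℝ) ^ ((7 : ℝ) / 10) := by rw [← Real.rpow_add hN0]; norm_num
  · have e1 : (N : ℝ) ^ (2 * pathLen N + 1)
        = Real.exp (Real.log N * ((2 * pathLen N + 1 : ℕ) : ℝ)) := by
      rw [← Real.rpow_natCast, Real.rpow_def_of_pos hN0]
    have e2 : (2 : ℝ) ^ (N : ℝ) = Real.exp (Real.log 2 * N) := Real.rpow_def_of_pos two_pos _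
    rw [e1, e2, Real.exp_le_exp]
    push_cast
    have hl2 : 0 < Real.log 2 := Real.log_pos one_lt_two
    have hlog0 : 0 ≤ Real.log (N : ℝ) := Real.log_nonneg hN1'
    calc Real.log N * (2 * (pathLen N : ℝ) + 1)
        ≤ (N : ℝ) ^ ((1 : ℝ) / 5) * (9 * (N : ℝ) ^ ((3 : ℝ) / 5)) := by
          apply mul_le_mul c (by linarith) (by positivity) (by positivity)
      _ = 9 * (N : ℝ) ^ ((4 : ℝ) / 5) := by
          rw [mul_left_comm, ← Real.rpow_add hN0]; norm_num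
      _ ≤ (Real.log 2 * (N : ℝ) ^ ((1 : ℝ) / 5)) * (N : ℝ) ^ ((4 : ℝ) / 5) := by
          rw [div_le_iff₀ hl2] at b
          have : (9 : ℝ) ≤ Real.log 2 * (N : ℝ) ^ ((1 : ℝ) / 5) := by linarith
          gcongr
      _ = Real.log 2 * N := by
          rw [mul_assoc, ← Real.rpow_add hN0]; norm_num

open Classical in
/-- **PATH-P1**: a typical property holds at all nonsingular nodes of all paths. -/
theorem path_typicalNodes (hCount : StPathCount) : StTypicalNodes := by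
  intro p hp0 hp1 Good hGood A
  filter_upwards [hGood (A + 1), pathn_asymp, eventually_ge_atTop 2] with N hN hasy hN2
  intro m hm π hπ
  obtain ⟨has1, has2⟩ := hasy
  have hπa : IsProbArray π := pb_bitModel_isProbArray hp0.le (by linarith) hπ
  have hm1 : 1 ≤ m := by omega
  set H := pathLen N with hH
  let T : Finset (Equiv.Perm (Fin m)) := Finset.univ.filter (fun σ => σ ∈ pathPerms m (2 * H))
  let E : Equiv.Perm (Fin m) × ℕ → Set (Sym2 (Fin m) → Bool) := fun x =>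
    {s | m ≤ x.2 + 2 * H ∧ x.2 ≤ m ∧ (lead ((bitMat s).submatrix x.1 x.1) x.2).det ≠ 0 ∧
      ¬ Good N x.2 (lead ((bitMat s).submatrix x.1 x.1) x.2)}
  have hsub : {s | ∃ σ ∈ pathPerms m (2 * H), ∃ k : ℕ, m ≤ k + 2 * H ∧ k ≤ m ∧
      (lead ((bitMat s).submatrix σ σ) k).det ≠ 0 ∧ ¬ Good N k (lead ((bitMat s).submatrix σ σ) k)}
      ⊆ ⋃ x ∈ T ×ˢ Finset.range (m + 1), E x := by
    rintro s ⟨σ, hσ, k, h1, h2, h3, h4⟩
    simp only [Set.mem_iUnion]
    refine ⟨(σ, k), ?_, h1, h2, h3, h4⟩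
    rw [Finset.mem_product]
    exact ⟨Finset.mem_filter.mpr ⟨Finset.mem_univ _, hσ⟩, Finset.mem_range.mpr (by simp; omega)⟩
  have hE : ∀ x ∈ T ×ˢ Finset.range (m + 1), prb π (E x) ≤ (2 : ℝ) ^ (-((A + 1) * N)) := by
    rintro ⟨σ, k⟩ -
    by_cases hk : m ≤ k + 2 * H ∧ k ≤ m
    · obtain ⟨hk1, hk2⟩ := hk
      have hinj : Function.Injective (σ ∘ Fin.castLE hk2) :=
        σ.injective.comp (Fin.castLE_injective hk2)
      have hEeq : E (σ, k) = {s | (bitMat s).submatrix (σ ∘ Fin.castLE hk2) (σ ∘ Fin.castLE hk2) ∈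
          {C : Matrix (Fin k) (Fin k) ℤ | C.det ≠ 0 ∧ ¬ Good N k C}} := by
        ext s
        simp only [E, Set.mem_ofPred_eq]
        rw [pathn_lead_eq hk2, Matrix.submatrix_submatrix]
        constructor
        · rintro ⟨-, -, h3, h4⟩; exact ⟨h3, h4⟩
        · rintro ⟨h3, h4⟩; exact ⟨hk1, hk2, h3, h4⟩
      rw [hEeq, pb_prb_submatrix π hinj]
      have hrange : InRange N k := by
        constructor
        · have e1 : (m : ℝ) ≤ k + 2 * H := by exact_mod_cast hk1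
          have e2 : (m : ℝ) + 1 = N := by exact_mod_cast hm
          linarith
        · omega
      exact hN k hrange _ (pb_bitModel_comp_map hπ _)
    · have : E (σ, k) = ∅ := by
        ext s
        simp only [E, Set.mem_ofPred_eq, Set.mem_empty_iff_false, iff_false]
        rintro ⟨h1, h2, -⟩
        exact hk ⟨h1, h2⟩
      rw [this, pb_prb_empty]
      positivity
  have hcardT : T.card ≤ m ^ (2 * H) := hCount m (2 * H) hm1
  calc prb π _ ≤ prb π (⋃ x ∈ T ×ˢ Finset.range (m + 1), E x) := pb_prb_mono hπa hsub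
    _ ≤ ((T ×ˢ Finset.range (m + 1)).card : ℝ) * (2 : ℝ) ^ (-((A + 1) * N)) :=
        pb_prb_biUnion_le_card_mul hπa _ E hE
    _ ≤ (N : ℝ) ^ (2 * H + 1) * (2 : ℝ) ^ (-((A + 1) * N)) := by
        apply mul_le_mul_of_nonneg_right _ (by positivity)
        rw [Finset.card_product, Finset.card_range]
        have : T.card * (m + 1) ≤ N ^ (2 * H + 1) := by
          rw [pow_succ, hm]
          apply Nat.mul_le_mul_right
          exact hcardT.trans (Nat.pow_le_pow_left (by omega) _)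
        exact_mod_cast this
    _ ≤ (2 : ℝ) ^ (N : ℝ) * (2 : ℝ) ^ (-((A + 1) * N)) := by gcongr
    _ = (2 : ℝ) ^ (-(A * N)) := by
        rw [← Real.rpow_add two_pos]
        congr 1
        ring

end Claimed.Agent.R293
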