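/-
R293 / PathPattern.lean  (owner: helper54).  Leaf PATH-C2:
`path_smallPattern : StLayerAnti → StLayerDrop → StLayerTotal → StIndexDet → StHadamardBit → StSmallPattern`  (B (6.8)).
On every plateau of the heights the retained layers form a prefix, so the retention pattern is determined by the
numbers of retained layers on the plateaus; plateaus `(l,h)` with `l ≤ √N` are counted by splitting at `h ≤ T`.
No sorry.
-/
import Claimed.Agent.R293.PathIface
import Claimed.Agent.R293.PathLayer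

set_option autoImplicit false

namespace Claimed.Agent.R293

open Filter Finset
open scoped BigOperators

/-! ### combinatorics of prefix-closed sets -/

/-- `S` is closed under passing to earlier layers of the same plateau. -/
def pathpClosed (κ : ℕ × ℕ → ℕ) (I S : Finset (ℕ × ℕ)) : Prop :=
  ∀ x ∈ S, ∀ y ∈ I, y.1 = x.1 → y.2 ≤ x.2 → κ y = κ x → y ∈ S

theorem pathp_sub_of_card (κ : ℕ × ℕ → ℕ) (I S S' : Finset (ℕ × ℕ)) (hS : S ⊆ I) (hS' : S' ⊆ I)
    (hc : pathpClosed κ I S) (hc' : pathpClosed κ I S')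
    (hcard : ∀ q : ℕ × ℕ, (S.filter (fun x => (x.1, κ x) = q)).card
      = (S'.filter (fun x => (x.1, κ x) = q)).card) : S ⊆ S' := by
  intro x hx
  by_contra hx'
  have hsub : S'.filter (fun y => (y.1, κ y) = (x.1, κ x))
      ⊆ (S.filter (fun y => (y.1, κ y) = (x.1, κ x))).erase x := by
    intro y hy
    rw [Finset.mem_filter] at hy
    obtain ⟨hyS', hykey⟩ := hy
    have h1 : y.1 = x.1 := (Prod.ext_iff.mp hykey).1
    have h2 : κ y = κ x := (Prod.ext_iff.mp hykey).2
    have hne : y ≠ x := fun h => hx' (h ▸ hyS')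
    have hlt : y.2 ≤ x.2 := by
      by_contra hcon
      exact hx' (hc' y hyS' x (hS hx) h1.symm (by omega) h2.symm)
    rw [Finset.mem_erase, Finset.mem_filter]
    exact ⟨hne, hc x hx y (hS' hyS') h1 hlt h2, hykey⟩
  have hxA : x ∈ S.filter (fun y => (y.1, κ y) = (x.1, κ x)) := by
    rw [Finset.mem_filter]; exact ⟨hx, rfl⟩
  have h3 := Finset.card_le_card hsub
  rw [Finset.card_erase_of_mem hxA, ← hcard] at h3
  have h4 : 0 < (S.filter (fun y => (y.1, κ y) = (x.1, κ x))).card := Finset.card_pos.mpr ⟨x, hxA⟩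
  omega

open Classical in
theorem pathp_count (κ : ℕ × ℕ → ℕ) (I : Finset (ℕ × ℕ)) :
    (I.powerset.filter (fun S => pathpClosed κ I S)).card
      ≤ (I.card + 1) ^ (I.image (fun x => (x.1, κ x))).card := by
  set P := I.image (fun x => (x.1, κ x)) with hP
  let Φ : Finset (ℕ × ℕ) → (P → Fin (I.card + 1)) := fun S q =>
    ⟨min (S.filter (fun x => (x.1, κ x) = q.1)).card I.card, by omega⟩
  have hinj : Set.InjOn Φ (I.powerset.filter (fun S => pathpClosed κ I S) : Finset _) := by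
    intro S hS S' hS' hΦ
    rw [Finset.mem_coe, Finset.mem_filter, Finset.mem_powerset] at hS hS'
    have hcard : ∀ q : ℕ × ℕ, (S.filter (fun x => (x.1, κ x) = q)).card
        = (S'.filter (fun x => (x.1, κ x) = q)).card := by
      intro q
      by_cases hq : q ∈ P
      · have h1 := congrFun hΦ ⟨q, hq⟩
        have h2 : min (S.filter (fun x => (x.1, κ x) = q)).card I.card
            = min (S'.filter (fun x => (x.1, κ x) = q)).card I.card := by
          simpa [Φ, Fin.ext_iff] using h1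
        have h3 : (S.filter (fun x => (x.1, κ x) = q)).card ≤ I.card :=
          Finset.card_le_card ((Finset.filter_subset _ _).trans hS.1)
        have h4 : (S'.filter (fun x => (x.1, κ x) = q)).card ≤ I.card :=
          Finset.card_le_card ((Finset.filter_subset _ _).trans hS'.1)
        omega
      · have e1 : S.filter (fun x => (x.1, κ x) = q) = ∅ := by
          apply Finset.filter_eq_empty_iff.mpr
          intro x hx hxq
          exact hq (hxq ▸ Finset.mem_image_of_mem _ (hS.1 hx))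
        have e2 : S'.filter (fun x => (x.1, κ x) = q) = ∅ := by
          apply Finset.filter_eq_empty_iff.mpr
          intro x hx hxq
          exact hq (hxq ▸ Finset.mem_image_of_mem _ (hS'.1 hx))
        rw [e1, e2]
    exact Finset.Subset.antisymm (pathp_sub_of_card κ I S S' hS.1 hS'.1 hS.2 hS'.2 hcard)
      (pathp_sub_of_card κ I S' S hS'.1 hS.1 hS'.2 hS.2 (fun q => (hcard q).symm))
  have h := Finset.card_le_card_of_injOn Φ (t := Finset.univ) (fun _ _ => Finset.mem_univ _) hinj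
  simpa [Finset.card_univ, Fintype.card_fun, Fintype.card_fin, Fintype.card_coe] using h

/-- number of plateaus: split at height `T`. -/
theorem pathp_keys (κ : ℕ × ℕ → ℕ) (I : Finset (ℕ × ℕ)) (s0 T : ℕ)
    (h1 : ∀ x ∈ I, 1 ≤ x.1 ∧ x.1 ≤ s0) (h2 : ∀ x ∈ I, 1 ≤ κ x) :
    T * (I.image (fun x => (x.1, κ x))).card ≤ T * (s0 * T) + ∑ x ∈ I, κ x := by
  classical
  set P := I.image (fun x => (x.1, κ x)) with hP
  have hsplit : P.card = (P.filter (fun q => q.2 ≤ T)).card + (P.filter (fun q => ¬ q.2 ≤ T)).card :=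
    (Finset.card_filter_add_card_filter_not (s := P) (fun q => q.2 ≤ T)).symm
  have hlow : (P.filter (fun q => q.2 ≤ T)).card ≤ s0 * T := by
    have hsub : P.filter (fun q => q.2 ≤ T) ⊆ Finset.Icc 1 s0 ×ˢ Finset.Icc 1 T := by
      intro q hq
      rw [Finset.mem_filter, hP, Finset.mem_image] at hq
      obtain ⟨⟨x, hx, rfl⟩, hqT⟩ := hq
      rw [Finset.mem_product, Finset.mem_Icc, Finset.mem_Icc]
      exact ⟨h1 x hx, h2 x hx, hqT⟩
    have := Finset.card_le_card hsub
    simpa [Finset.card_product] using this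
  have hsumP : ∑ q ∈ P, q.2 ≤ ∑ x ∈ I, κ x := by
    rw [← Finset.sum_fiberwise_of_maps_to (s := I) (t := P) (g := fun x => (x.1, κ x))
      (fun x hx => Finset.mem_image_of_mem _ hx)]
    refine Finset.sum_le_sum fun q hq => ?_
    rw [hP, Finset.mem_image] at hq
    obtain ⟨x, hx, rfl⟩ := hq
    have hxm : x ∈ I.filter (fun y => (y.1, κ y) = (x.1, κ x)) := by
      rw [Finset.mem_filter]; exact ⟨hx, rfl⟩
    exact Finset.single_le_sum (f := fun y => κ y) (fun _ _ => Nat.zero_le _) hxm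
  have hhigh : T * (P.filter (fun q => ¬ q.2 ≤ T)).card ≤ ∑ q ∈ P, q.2 := by
    calc T * (P.filter (fun q => ¬ q.2 ≤ T)).card
        = ∑ _q ∈ P.filter (fun q => ¬ q.2 ≤ T), T := by simp [mul_comm]
      _ ≤ ∑ q ∈ P.filter (fun q => ¬ q.2 ≤ T), q.2 := by
          refine Finset.sum_le_sum fun q hq => ?_
          rw [Finset.mem_filter] at hq
          omega
      _ ≤ ∑ q ∈ P, q.2 := Finset.sum_le_sum_of_subset (Finset.filter_subset _ _)
  rw [hsplit, Nat.mul_add]
  have := Nat.mul_le_mul_left T hlow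
  omega

/-! ### numerics -/

theorem pathp_ev_x : ∀ᶠ N : ℕ in atTop, (2 : ℝ) ≤ (N : ℝ) ^ ((1 : ℝ) / 40) :=
  ((tendsto_rpow_atTop (by norm_num : (0 : ℝ) < 1 / 40)).comp
    tendsto_natCast_atTop_atTop).eventually_ge_atTop 2

theorem pathp_ev_log : ∀ᶠ N : ℕ in atTop, Real.logb 2 N ≤ (N : ℝ) ^ ((1 : ℝ) / 40) / 3 := by
  have hl2 : 0 < Real.log 2 := Real.log_pos (by norm_num)
  have h := (isLittleO_log_rpow_atTop (by norm_num : (0 : ℝ) < 1 / 40)).def
    (by positivity : 0 < Real.log 2 / 3)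
  filter_upwards [tendsto_natCast_atTop_atTop.eventually h] with N hN
  have h1 : Real.log N ≤ Real.log 2 / 3 * (N : ℝ) ^ ((1 : ℝ) / 40) := by
    have h2 := (le_abs_self _).trans hN
    rwa [Real.norm_of_nonneg (Real.rpow_nonneg (Nat.cast_nonneg N) _)] at h2
  unfold Real.logb
  rw [div_le_iff₀ hl2]
  linarith

/-- the purely numerical part of the count. -/
theorem pathp_numeric : ∀ᶠ N : ℕ in atTop, ∀ c d Sg : ℕ,
    (Sg : ℝ) * Real.log 2 ≤ (N : ℝ) / 2 * Real.log N → c ≤ Sg →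
    ⌈(N : ℝ) ^ ((1 : ℝ) / 4)⌉₊ * d
      ≤ ⌈(N : ℝ) ^ ((1 : ℝ) / 4)⌉₊ * (Nat.sqrt N * ⌈(N : ℝ) ^ ((1 : ℝ) / 4)⌉₊) + Sg →
    (((c + 1) ^ d : ℕ) : ℝ) ≤ (2 : ℝ) ^ ((N : ℝ) ^ ((4 : ℝ) / 5)) := by
  filter_upwards [pathp_ev_x, pathp_ev_log, eventually_ge_atTop 2] with N hx hL hN2 c d Sg hSg hc hd
  have hN0 : (0 : ℝ) < N := by exact_mod_cast (by omega : 0 < N)
  set x := (N : ℝ) ^ ((1 : ℝ) / 40) with hxdef
  set L := Real.logb 2 N with hLdef
  have hx0 : 0 < x := by linarith
  have hpow : ∀ n : ℕ, x ^ n = (N : ℝ) ^ ((n : ℝ) / 40) := by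
    intro n
    rw [hxdef, ← Real.rpow_natCast, ← Real.rpow_mul hN0.le]
    congr 1; ring
  have hN40 : (N : ℝ) = x ^ 40 := by rw [hpow]; norm_num
  have h14 : (N : ℝ) ^ ((1 : ℝ) / 4) = x ^ 10 := by rw [hpow]; norm_num
  have h45 : (N : ℝ) ^ ((4 : ℝ) / 5) = x ^ 32 := by rw [hpow]; norm_num
  have hL0 : 0 ≤ L := Real.logb_nonneg (by norm_num) (by exact_mod_cast (by omega : 1 ≤ N))
  have hl2 : 0 < Real.log 2 := Real.log_pos (by norm_num)
  rw [h14] at hd
  set T := ⌈x ^ 10⌉₊ with hT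
  have hT1 : x ^ 10 ≤ (T : ℝ) := Nat.le_ceil _
  have hT2 : (T : ℝ) ≤ 2 * x ^ 10 := by
    have h1 : (T : ℝ) < x ^ 10 + 1 := Nat.ceil_lt_add_one (by positivity)
    have h2 : (1 : ℝ) ≤ x ^ 10 := one_le_pow₀ (by linarith)
    linarith
  have hT0 : (0 : ℝ) < T := lt_of_lt_of_le (by positivity) hT1
  have hs0 : (Nat.sqrt N : ℝ) ≤ x ^ 20 := by
    have h1 : (Nat.sqrt N : ℝ) ^ 2 ≤ (x ^ 20) ^ 2 := by
      have : (Nat.sqrt N) ^ 2 ≤ N := Nat.sqrt_le' N
      have h2 : ((Nat.sqrt N : ℝ)) ^ 2 ≤ N := by exact_mod_cast this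
      rw [← pow_mul]; norm_num; rw [← hN40]; exact h2
    exact (pow_le_pow_iff_left₀ (Nat.cast_nonneg _) (by positivity) (by norm_num)).mp h1
  have hSg' : (Sg : ℝ) ≤ x ^ 40 / 2 * L := by
    have : (Sg : ℝ) ≤ (N : ℝ) / 2 * Real.log N / Real.log 2 := by
      rw [le_div_iff₀ hl2]; exact hSg
    rw [hLdef, ← hN40]
    unfold Real.logb
    linarith [this, mul_div_assoc ((N : ℝ) / 2) (Real.log N) (Real.log 2)]
  -- bound for `d`
  have hdR : (T : ℝ) * d ≤ T * ((Nat.sqrt N : ℝ) * T) + Sg := by exact_mod_cast hd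
  have hd' : (d : ℝ) ≤ 2 * x ^ 30 + x ^ 30 * L / 2 := by
    have h1 : (T : ℝ) * d ≤ T * (2 * x ^ 30 + x ^ 30 * L / 2) := by
      have a1 : (Nat.sqrt N : ℝ) * T ≤ x ^ 20 * (2 * x ^ 10) :=
        mul_le_mul hs0 hT2 hT0.le (by positivity)
      have a2 : (T : ℝ) * ((Nat.sqrt N : ℝ) * T) ≤ T * (2 * x ^ 30) := by
        refine mul_le_mul_of_nonneg_left ?_ hT0.le
        calc (Nat.sqrt N : ℝ) * T ≤ x ^ 20 * (2 * x ^ 10) := a1
          _ = 2 * x ^ 30 := by ring
      have a3 : (Sg : ℝ) ≤ T * (x ^ 30 * L / 2) := by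
        have : x ^ 10 * (x ^ 30 * L / 2) ≤ T * (x ^ 30 * L / 2) :=
          mul_le_mul_of_nonneg_right hT1 (by positivity)
        calc (Sg : ℝ) ≤ x ^ 40 / 2 * L := hSg'
          _ = x ^ 10 * (x ^ 30 * L / 2) := by ring
          _ ≤ _ := this
      calc (T : ℝ) * d ≤ T * ((Nat.sqrt N : ℝ) * T) + Sg := hdR
        _ ≤ T * (2 * x ^ 30) + T * (x ^ 30 * L / 2) := add_le_add a2 a3
        _ = _ := by ring
    exact le_of_mul_le_mul_left h1 hT0
  -- bound for `c + 1`
  have hc1 : ((c : ℝ) + 1) ≤ (N : ℝ) ^ 2 := by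
    have h1 : (c : ℝ) ≤ x ^ 40 / 2 * L := le_trans (by exact_mod_cast hc) hSg'
    have h2 : x ^ 40 / 2 * L ≤ x ^ 40 / 2 * (x / 3) :=
      mul_le_mul_of_nonneg_left hL (by positivity)
    have h3 : (1 : ℝ) ≤ x ^ 40 := one_le_pow₀ (by linarith)
    have h4 : x ≤ x ^ 40 := by
      calc x = x ^ 1 := (pow_one x).symm
        _ ≤ x ^ 40 := pow_le_pow_right₀ (by linarith) (by norm_num)
    rw [hN40]
    nlinarith
  have hN2L : (N : ℝ) = (2 : ℝ) ^ L := (Real.rpow_logb (by norm_num) (by norm_num) hN0).symm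
  push_cast
  calc ((c : ℝ) + 1) ^ d ≤ ((N : ℝ) ^ 2) ^ d := pow_le_pow_left₀ (by positivity) hc1 d
    _ = (2 : ℝ) ^ (L * 2 * d) := by
        rw [Real.rpow_mul (by norm_num), Real.rpow_mul (by norm_num), ← hN2L, Real.rpow_natCast]
        norm_num
    _ ≤ (2 : ℝ) ^ ((N : ℝ) ^ ((4 : ℝ) / 5)) := by
        apply Real.rpow_le_rpow_of_exponent_le (by norm_num)
        rw [h45]
        have h1 : L * 2 * d ≤ L * 2 * (2 * x ^ 30 + x ^ 30 * L / 2) :=
          mul_le_mul_of_nonneg_left hd' (by positivity)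
        have h2 : L * 2 * (2 * x ^ 30 + x ^ 30 * L / 2) = (4 * L + L ^ 2) * x ^ 30 := by ring
        have h3 : 4 * L + L ^ 2 ≤ x ^ 2 := by nlinarith
        have h4 : (4 * L + L ^ 2) * x ^ 30 ≤ x ^ 2 * x ^ 30 :=
          mul_le_mul_of_nonneg_right h3 (by positivity)
        calc L * 2 * d ≤ _ := h1
          _ = _ := h2
          _ ≤ x ^ 2 * x ^ 30 := h4
          _ = x ^ 32 := by ring

/-! ### the group-theoretic input -/

section Inst
variable {k : ℕ}

theorem pathp_index_ne {K K' : AddSubgroup (Fin k → ℤ)} (h : K ≤ K') (hK : K.index ≠ 0) :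
    K'.index ≠ 0 :=
  ne_zero_of_dvd_ne_zero hK (AddSubgroup.index_dvd_of_le h)

theorem pathp_mem_latIndex {K : AddSubgroup (Fin k → ℤ)} {x : ℕ × ℕ} (hx : x ∈ latIndex K) :
    x.1.Prime ∧ 1 ≤ x.2 := by
  refine ⟨pathl_prime_of_mem_layerIndex _ hx, ?_⟩
  have hx' : x ∈ (Nat.card ((Fin k → ℤ) ⧸ K)).primeFactors ×ˢ
      Finset.Icc 1 (Nat.log 2 (Nat.card ((Fin k → ℤ) ⧸ K))) := hx
  rw [Finset.mem_product, Finset.mem_Icc] at hx'
  exact hx'.2.1

/-- retained layers form a prefix of every plateau. -/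
theorem pathp_retained_prefix (hAnti : StLayerAnti) (hDrop : StLayerDrop)
    {K : AddSubgroup (Fin k → ℤ)} (hK : K.index ≠ 0) (v : Fin k → ℤ) {l j j' : ℕ} (hl : l.Prime)
    (hj : 1 ≤ j) (hjj : j ≤ j') (hpos : 1 ≤ latLayer K l j) (heq : latLayer K l j = latLayer K l j')
    (hret : LatRetained K v l j') : LatRetained K v l j := by
  refine ⟨hpos, ?_⟩
  have hK' : (addVec K v).index ≠ 0 := pathp_index_ne le_sup_left hK
  haveI : Finite ((Fin k → ℤ) ⧸ addVec K v) := pathl_finite_quot hK'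
  have h1 : latLayer (addVec K v) l j' ≤ latLayer (addVec K v) l j :=
    hAnti ((Fin k → ℤ) ⧸ addVec K v) l hl j j' hj hjj
  have h2 := (hDrop k K hK v l j hl).1
  have h3 := hret.2
  omega

/-- total height of the positive layers. -/
theorem pathp_total (hTot : StLayerTotal) {K : AddSubgroup (Fin k → ℤ)} (hK : K.index ≠ 0)
    (I : Finset (ℕ × ℕ)) (hI : I ⊆ latIndex K) :
    ((∑ x ∈ I, latLayer K x.1 x.2 : ℕ) : ℝ) * Real.log 2 ≤ Real.log K.index := by
  haveI : Finite ((Fin k → ℤ) ⧸ K) := pathl_finite_quot hK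
  have h := hTot ((Fin k → ℤ) ⧸ K)
  have hcard : Nat.card ((Fin k → ℤ) ⧸ K) = K.index := rfl
  rw [hcard] at h
  rw [← h]
  push_cast
  rw [Finset.sum_mul]
  calc ∑ x ∈ I, (latLayer K x.1 x.2 : ℝ) * Real.log 2
      ≤ ∑ x ∈ I, (latLayer K x.1 x.2 : ℝ) * Real.log x.1 := by
        refine Finset.sum_le_sum fun x hx => ?_
        have hp := (pathp_mem_latIndex (hI hx)).1.two_le
        have : Real.log 2 ≤ Real.log x.1 :=
          Real.log_le_log (by norm_num) (by exact_mod_cast hp)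
        exact mul_le_mul_of_nonneg_left this (Nat.cast_nonneg _)
    _ ≤ ∑ x ∈ latIndex K, (latLayer K x.1 x.2 : ℝ) * Real.log x.1 := by
        refine Finset.sum_le_sum_of_subset_of_nonneg hI fun x hx _ => ?_
        have hp := (pathp_mem_latIndex hx).1.one_lt.le
        exact mul_nonneg (Nat.cast_nonneg _) (Real.log_nonneg (by exact_mod_cast hp))

end Inst

/-- **Leaf PATH-C2.** -/
theorem path_smallPattern (hAnti : StLayerAnti) (hDrop : StLayerDrop) (hTot : StLayerTotal)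
    (hIdx : StIndexDet) (hHad : StHadamardBit) : StSmallPattern := by
  classical
  filter_upwards [pathp_numeric, eventually_ge_atTop 2] with N hnum hN2 k C K hOK
  obtain ⟨hrange, hbit, hdet, hle⟩ := hOK
  have hkN : k ≤ N := hrange.2
  have hN0 : (0 : ℝ) < N := by exact_mod_cast (by omega : 0 < N)
  have hC : (colLat C).index ≠ 0 := by
    rw [hIdx k C]; exact Int.natAbs_ne_zero.mpr hdet
  have hK : K.index ≠ 0 := pathp_index_ne hle hC
  have hKle : (K.index : ℝ) ≤ (N : ℝ) ^ ((N : ℝ) / 2) := by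
    have h1 : K.index ≤ (colLat C).index :=
      Nat.le_of_dvd (Nat.pos_of_ne_zero hC) (AddSubgroup.index_dvd_of_le hle)
    have h2 := hHad N k hkN C hbit
    rw [← hIdx k C] at h2
    exact le_trans (by exact_mod_cast h1) h2
  set κ : ℕ × ℕ → ℕ := fun x => latLayer K x.1 x.2 with hκ
  set I := (latIndex K).filter (fun x => x.1 ^ 2 ≤ N ∧ 1 ≤ latLayer K x.1 x.2) with hI
  have hIsub : I ⊆ latIndex K := Finset.filter_subset _ _
  refine ⟨I.powerset.filter (fun S => pathpClosed κ I S), ?_, ?_⟩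
  · -- the count
    have h1 := pathp_count κ I
    have hlog : Real.log K.index ≤ (N : ℝ) / 2 * Real.log N := by
      have hpos : (0 : ℝ) < K.index := by exact_mod_cast Nat.pos_of_ne_zero hK
      calc Real.log K.index ≤ Real.log ((N : ℝ) ^ ((N : ℝ) / 2)) := Real.log_le_log hpos hKle
        _ = _ := Real.log_rpow hN0 _
    have hSg := (pathp_total hTot hK I hIsub).trans hlog
    have hc : I.card ≤ ∑ x ∈ I, κ x := by
      calc I.card = ∑ _x ∈ I, 1 := by simp
        _ ≤ ∑ x ∈ I, κ x := Finset.sum_le_sum fun x hx => (Finset.mem_filter.mp hx).2.2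
    have hd := pathp_keys κ I (Nat.sqrt N) ⌈(N : ℝ) ^ ((1 : ℝ) / 4)⌉₊
      (fun x hx => by
        have hx' := Finset.mem_filter.mp hx
        exact ⟨(pathp_mem_latIndex hx'.1).1.one_lt.le, Nat.le_sqrt'.mpr hx'.2.1⟩)
      (fun x hx => (Finset.mem_filter.mp hx).2.2)
    have h2 := hnum I.card _ _ hSg hc hd
    exact le_trans (by exact_mod_cast h1) h2
  · intro v
    rw [Finset.mem_filter, Finset.mem_powerset]
    constructor
    · intro x hx
      rw [Finset.mem_filter] at hx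
      rw [hI, Finset.mem_filter]
      exact ⟨hx.1, hx.2.1, hx.2.2.1⟩
    · intro x hx y hy h1 h2 h3
      rw [Finset.mem_filter] at hx
      rw [hI, Finset.mem_filter] at hy
      rw [Finset.mem_filter]
      refine ⟨hy.1, hy.2.1, ?_⟩
      have hy' := pathp_mem_latIndex hy.1
      have hret : LatRetained K v y.1 x.2 := by rw [h1]; exact hx.2.2
      have heq : latLayer K y.1 y.2 = latLayer K y.1 x.2 := by
        have : κ y = κ x := h3
        simp only [hκ] at this
        rw [this, h1]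
      exact pathp_retained_prefix hAnti hDrop hK v hy'.1 hy'.2 h2 hy.2.2 heq hret

end Claimed.Agent.R293
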