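/-
R293 / PathRetCost.lean  (owner: helper108).  PATH-C5: almost full cost of retention, one column (B Lemma 6.3).
`path_retCost : StRetCover → StRetLat → StRetCost`.  Prefix `pathw`.
-/
import Claimed.Agent.R293.PathHeavyCost
import Claimed.Agent.R293.PairReal

set_option autoImplicit false

namespace Claimed.Agent.R293

open Filter
open scoped BigOperators

/-- eventually `c N^{7/10} ≤ δ N`. -/
theorem pathw_ev_small (c δ : ℝ) (hδ : 0 < δ) :
    ∀ᶠ N : ℕ in atTop, c * (N : ℝ) ^ ((7 : ℝ) / 10) ≤ δ * N := by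
  have h : ∀ᶠ N : ℕ in atTop, c / δ ≤ (N : ℝ) ^ ((3 : ℝ) / 10) :=
    ((tendsto_rpow_atTop (by norm_num : (0 : ℝ) < 3 / 10)).comp
      tendsto_natCast_atTop_atTop).eventually_ge_atTop _
  filter_upwards [h, eventually_ge_atTop 1] with N hN hN1
  have hNpos : (0 : ℝ) < N := by exact_mod_cast hN1
  have e : (N : ℝ) = (N : ℝ) ^ ((3 : ℝ) / 10) * (N : ℝ) ^ ((7 : ℝ) / 10) := by
    rw [← Real.rpow_add hNpos]
    norm_num
  rw [div_le_iff₀ hδ] at hN
  calc c * (N : ℝ) ^ ((7 : ℝ) / 10)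
      ≤ ((N : ℝ) ^ ((3 : ℝ) / 10) * δ) * (N : ℝ) ^ ((7 : ℝ) / 10) :=
        mul_le_mul_of_nonneg_right hN (by positivity)
    _ = δ * ((N : ℝ) ^ ((3 : ℝ) / 10) * (N : ℝ) ^ ((7 : ℝ) / 10)) := by ring
    _ = δ * N := by rw [← e]

/-- one mask: the retaining columns lie in a lattice of large index, which meets the cube in few points. -/
theorem pathw_mask_cost (hRet : StRetLat) {p : ℝ} (hp0 : 0 < p) (hp1 : p ≤ 1 / 2) {α τ : ℝ}
    {N k : ℕ} (hN : 2 ≤ N) {C : Matrix (Fin k) (Fin k) ℤ} {K : AddSubgroup (Fin k → ℤ)}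
    (hOK : LatOK N k C K) (hSI : SmallInt α τ N k C) {ρ : Fin k → ℝ} (hρ : ColModel p ρ)
    {D : Finset (ℕ × ℕ)} (hD : IsMask K D) (hqD : τ ≤ maskQ N K D) :
    prb ρ {z | MaskRetained K (bitVecZ z) D} ≤ (2 : ℝ) ^ (α * N) * (1 - p) ^ k := by
  have hprob := pathx_colModel_prob hp0 hp1 hρ
  obtain ⟨KD, hKle, hKidx, hKmem⟩ := hRet k K (pathx_index_ne_zero hOK) D hD
  have hN1 : (1 : ℝ) ≤ N := by
    have : (2 : ℝ) ≤ N := by exact_mod_cast hN
    linarith
  have hDpos : ∀ x ∈ D, 0 < x.1 := fun x hx =>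
    (pathl_prime_of_mem_layerIndex _ (hD.1 hx)).pos
  have hidx : (N : ℝ) ^ (τ * N) ≤ (KD.index : ℝ) := by
    rw [hKidx, ← pathx_rpow_maskQ hN K D hDpos]
    exact Real.rpow_le_rpow_of_exponent_le hN1
      (mul_le_mul_of_nonneg_right hqD (by linarith))
  obtain ⟨hr, hbit, hdet, hle⟩ := hOK
  have hmem : ∀ y : Fin k → ℤ, C.mulVec y ∈ KD := fun y => hKle (hle ⟨y, rfl⟩)
  have hcard := hSI KD hmem hidx 0
  have hp' : (0 : ℝ) ≤ 1 - p := by linarith
  calc prb ρ {z | MaskRetained K (bitVecZ z) D} ≤ prb ρ {z | bitVecZ z ∈ KD} :=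
        pb_prb_mono hprob fun z hz => hKmem _ hz
    _ ≤ (Nat.card {z : Fin k → Bool | bitVecZ z ∈ KD} : ℝ) * (1 - p) ^ k :=
        pb_prb_le_card_mul ρ _ fun s _ => by
          simpa using pb_bern_le_pow hprob (pathx_colModel_atom hp1 hρ) s
    _ ≤ (2 : ℝ) ^ (α * N) * (1 - p) ^ k := by
        refine mul_le_mul_of_nonneg_right ?_ (pow_nonneg hp' k)
        have h0 : ∀ z : Fin k → Bool, bitVecZ z - 0 ∈ KD ↔ bitVecZ z ∈ KD := fun z => by
          rw [sub_zero]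
        have h1 : Nat.card {z : Fin k → Bool | bitVecZ z ∈ KD}
            = Nat.card {z : Fin k → Bool // bitVecZ z - 0 ∈ KD} :=
          Nat.card_congr (Equiv.subtypeEquivRight fun z => (h0 z).symm)
        rw [h1]
        exact hcard.le

/-- **B Lemma 6.3**, one column. -/
theorem path_retCost (hCov : StRetCover) (hRet : StRetLat) : StRetCost := by
  intro p hp0 hp1 α hα0 hα1 ε hε
  filter_upwards [hCov (ε / 2) (by linarith), eventually_ge_atTop 2, pair_scale.2.2.2,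
    pathw_ev_small (cA p) (ε / 2) (by linarith)] with N hN hN2 hsc hsm
  intro k C K hOK hSI ρ hρ
  obtain ⟨Ds, hcard, hDs, hcover⟩ := hN k C K hOK
  have hprob := pathx_colModel_prob hp0 hp1 hρ
  have hsub : {z | scaleSigma N ≤ retW N K (bitVecZ z)}
      ⊆ ⋃ D ∈ Ds, {z | MaskRetained K (bitVecZ z) D} := by
    intro z hz
    obtain ⟨D, hD, hret⟩ := hcover _ hz
    simp only [Set.mem_iUnion]
    exact ⟨D, hD, hret⟩
  have hk : (1 - p) ^ k ≤ (2 : ℝ) ^ (-(cA p * ((N : ℝ) - (N : ℝ) ^ ((7 : ℝ) / 10)))) := by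
    rw [← Real.rpow_natCast, pathx_one_sub_rpow (by linarith)]
    apply Real.rpow_le_rpow_of_exponent_le (by norm_num)
    have h1 := hOK.1.1
    have h2 := pathx_cA_pos hp0 hp1
    have h3 := mul_le_mul_of_nonneg_left h1 h2.le
    linarith
  calc prb ρ {z | scaleSigma N ≤ retW N K (bitVecZ z)}
      ≤ prb ρ (⋃ D ∈ Ds, {z | MaskRetained K (bitVecZ z) D}) := pb_prb_mono hprob hsub
    _ ≤ (Ds.card : ℝ) * ((2 : ℝ) ^ (α * N) * (1 - p) ^ k) :=
        pb_prb_biUnion_le_card_mul hprob _ _ fun D hD =>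
          pathw_mask_cost hRet hp0 hp1 hN2 hOK hSI hρ (hDs D hD).1 (hsc.trans (hDs D hD).2)
    _ ≤ (2 : ℝ) ^ (ε / 2 * N) * ((2 : ℝ) ^ (α * N)
          * (2 : ℝ) ^ (-(cA p * ((N : ℝ) - (N : ℝ) ^ ((7 : ℝ) / 10))))) := by
        refine mul_le_mul hcard ?_ ?_ (by positivity)
        · exact mul_le_mul_of_nonneg_left hk (by positivity)
        · have : (0 : ℝ) ≤ 1 - p := by linarith
          positivity
    _ = (2 : ℝ) ^ (ε / 2 * N + (α * N + -(cA p * ((N : ℝ) - (N : ℝ) ^ ((7 : ℝ) / 10))))) := by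
        rw [Real.rpow_add (by norm_num), Real.rpow_add (by norm_num)]
    _ ≤ (2 : ℝ) ^ (-((cA p - α - ε) * N)) := by
        apply Real.rpow_le_rpow_of_exponent_le (by norm_num)
        nlinarith

end Claimed.Agent.R293
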