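/-
R293 / PathRetCover.lean (owner: helper250).  Leaf PATH-C3: cover of `{retained weight ≥ σ}` by
`2^{εN}` masks of weight `≥ σ` (proof of B Lemma 6.3).  Prefix `pathv_`.
-/
import Claimed.Agent.R293.PathCoverLib

set_option autoImplicit false

namespace Claimed.Agent.R293

open Filter Topology
open scoped BigOperators

theorem pathv_two_rpow_pow (a : ℝ) (n : ℕ) : ((2 : ℝ) ^ a) ^ n = (2 : ℝ) ^ (a * n) := by
  rw [← Real.rpow_natCast, ← Real.rpow_mul (by norm_num)]

section Core

variable {N k : ℕ} {K : AddSubgroup (Fin k → ℤ)}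

open Classical in
theorem pathv_retW_eq (v : Fin k → ℤ) :
    retW N K v = ∑ x ∈ (latIndex K).filter (fun x => LatRetained K v x.1 x.2), nu N x.1 := by
  unfold retW retWge
  rw [Finset.sum_filter]
  refine Finset.sum_congr rfl fun x _ => ?_
  by_cases h : LatRetained K v x.1 x.2 <;> simp [h]

theorem pathv_maskQ_ge (D : Finset (ℕ × ℕ)) (hD : ∀ x ∈ D, 1 ≤ latLayer K x.1 x.2) :
    ∑ x ∈ D, nu N x.1 ≤ maskQ N K D := by
  unfold maskQ
  refine Finset.sum_le_sum fun x hx => ?_
  have h1 : (1 : ℝ) ≤ (latLayer K x.1 x.2 : ℝ) := by exact_mod_cast hD x hx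
  have h2 := pathb_nu_nonneg N x.1
  nlinarith

end Core

open Classical in
/-- **PATH-C3.** -/
theorem path_retCover (hSP : StSmallPattern) (hT : StLayerTotal) (hI : StIndexDet)
    (hH : StHadamardBit) : StRetCover := by
  intro ε hε
  -- the parameter `δ`
  set δ : ℝ := min 1 ((2 : ℝ) ^ (ε / 4) - 1) with hδ
  have hδ0 : 0 < δ :=
    lt_min one_pos (sub_pos.2 (Real.one_lt_rpow one_lt_two (by positivity)))
  have hδ1 : δ ≤ 1 := min_le_left _ _
  have hδ2 : 1 + δ ≤ (2 : ℝ) ^ (ε / 4) := by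
    have := min_le_right 1 ((2 : ℝ) ^ (ε / 4) - 1)
    linarith
  set c : ℝ := Real.logb 2 δ⁻¹ with hc
  have hc0 : 0 ≤ c := Real.logb_nonneg one_lt_two ((one_le_inv₀ hδ0).2 hδ1)
  have hc2 : δ⁻¹ = (2 : ℝ) ^ c :=
    (Real.rpow_logb (by norm_num) (by norm_num) (inv_pos.2 hδ0)).symm
  -- asymptotic conditions
  have e1 := pathcv_pow_le (ε / 4) (by positivity)
  have e2 : ∀ᶠ N : ℕ in atTop, 2 * scaleSigma N * c ≤ ε / 4 := by
    have h : Tendsto (fun N : ℕ => 2 * scaleSigma N * c) atTop (𝓝 (2 * 0 * c)) :=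
      (pathcv_sigma_tendsto.const_mul 2).mul_const c
    have h' : 2 * 0 * c < ε / 4 := by
      simp only [mul_zero, zero_mul]
      positivity
    exact (h.eventually (gt_mem_nhds h')).mono fun N hN => hN.le
  have e3 : ∀ᶠ N : ℕ in atTop, 2 * c ≤ ε / 4 * N := by
    have h : Tendsto (fun N : ℕ => ε / 4 * (N : ℝ)) atTop atTop :=
      tendsto_natCast_atTop_atTop.const_mul_atTop (by positivity)
    exact h.eventually_ge_atTop _
  filter_upwards [hSP, e1, e2, e3, eventually_ge_atTop 2] with N hSPN h1 h2 h3 hN k C K hOK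
  obtain ⟨Ps, hPs, hPsv⟩ := hSPN k C K hOK
  have hNpos : (0 : ℝ) < N := by positivity
  set σ := scaleSigma N with hσ
  have hσ0 : 0 ≤ σ := pathcv_sigma_nonneg N
  set Lg := (latIndex K).filter (fun x => N < x.1 ^ 2 ∧ 1 ≤ latLayer K x.1 x.2) with hLg
  set M := ⌈2 * σ * N⌉₊ + 1 with hM
  set cand := Ps ×ˢ (Lg.powerset.filter (fun L => L.card ≤ M)) with hcand
  set Ds := (cand.image (fun SL => SL.1 ∪ SL.2)).filter
    (fun D => IsMask K D ∧ σ ≤ maskQ N K D) with hDs
  have htot := pathcv_total hT hI hH hN hOK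
  -- the number of layers at large primes
  have hLgcard : Lg.card ≤ N := by
    have h4 : (Lg.card : ℝ) * (1 / (2 * (N : ℝ))) ≤ 1 / 2 := by
      calc (Lg.card : ℝ) * (1 / (2 * (N : ℝ))) = ∑ _x ∈ Lg, 1 / (2 * (N : ℝ)) := by
            rw [Finset.sum_const, nsmul_eq_mul]
        _ ≤ ∑ x ∈ Lg, (latLayer K x.1 x.2 : ℝ) * nu N x.1 := by
            refine Finset.sum_le_sum fun x hx => ?_
            obtain ⟨-, hx1, hx2⟩ := Finset.mem_filter.1 hx
            have h5 := pathcv_nu_large hN hx1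
            have h6 : (1 : ℝ) ≤ (latLayer K x.1 x.2 : ℝ) := by exact_mod_cast hx2
            have h7 := pathb_nu_nonneg N x.1
            nlinarith
        _ ≤ ∑ x ∈ latIndex K, (latLayer K x.1 x.2 : ℝ) * nu N x.1 :=
            Finset.sum_le_sum_of_subset_of_nonneg (Finset.filter_subset _ _)
              fun x _ _ => mul_nonneg (Nat.cast_nonneg _) (pathb_nu_nonneg N x.1)
        _ ≤ 1 / 2 := htot
    have h5 : (Lg.card : ℝ) ≤ N := by
      rw [mul_one_div, div_le_iff₀ (by positivity)] at h4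
      linarith
    exact_mod_cast h5
  refine ⟨Ds, ?_, ?_, ?_⟩
  · -- cardinality
    have hc1 : (Ds.card : ℝ) ≤ (Ps.card : ℝ) * ((Lg.powerset.filter (fun L => L.card ≤ M)).card : ℝ) := by
      have : Ds.card ≤ cand.card := (Finset.card_filter_le _ _).trans Finset.card_image_le
      rw [hcand, Finset.card_product] at this
      exact_mod_cast this
    have hc3 := pathcv_card_small_subsets Lg M δ hδ0 hδ1
    have hc4 : (1 + δ) ^ Lg.card ≤ (2 : ℝ) ^ (ε / 4 * N) := by
      calc (1 + δ) ^ Lg.card ≤ (1 + δ) ^ N := pow_le_pow_right₀ (by linarith) hLgcard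
        _ ≤ ((2 : ℝ) ^ (ε / 4)) ^ N := pow_le_pow_left₀ (by linarith) hδ2 N
        _ = (2 : ℝ) ^ (ε / 4 * N) := pathv_two_rpow_pow _ _
    have hMle : (M : ℝ) ≤ 2 * σ * N + 2 := by
      have := Nat.ceil_lt_add_one (a := 2 * σ * N) (by positivity)
      rw [hM]
      push_cast
      linarith
    have hc5 : (δ ^ M)⁻¹ ≤ (2 : ℝ) ^ (ε / 2 * N) := by
      rw [← inv_pow, hc2, pathv_two_rpow_pow]
      refine Real.rpow_le_rpow_of_exponent_le one_le_two ?_
      calc c * M ≤ c * (2 * σ * N + 2) := mul_le_mul_of_nonneg_left hMle hc0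
        _ = 2 * σ * c * N + 2 * c := by ring
        _ ≤ ε / 4 * N + ε / 4 * N := by
            have := mul_le_mul_of_nonneg_right h2 hNpos.le
            linarith
        _ = ε / 2 * N := by ring
    calc (Ds.card : ℝ) ≤ (Ps.card : ℝ) * ((Lg.powerset.filter (fun L => L.card ≤ M)).card : ℝ) := hc1
      _ ≤ (2 : ℝ) ^ ((N : ℝ) ^ ((4 : ℝ) / 5)) * ((2 : ℝ) ^ (ε / 4 * N) * (2 : ℝ) ^ (ε / 2 * N)) := by
          refine mul_le_mul hPs (hc3.trans ?_) (Nat.cast_nonneg _) (by positivity)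
          exact mul_le_mul hc4 hc5 (by positivity) (by positivity)
      _ = (2 : ℝ) ^ ((N : ℝ) ^ ((4 : ℝ) / 5) + (ε / 4 * N + ε / 2 * N)) := by
          rw [Real.rpow_add two_pos, Real.rpow_add two_pos]
      _ ≤ (2 : ℝ) ^ (ε * N) := by
          refine Real.rpow_le_rpow_of_exponent_le one_le_two ?_
          linarith
  · intro D hD
    exact (Finset.mem_filter.1 hD).2
  · intro v hv
    set S := (latIndex K).filter (fun x => x.1 ^ 2 ≤ N ∧ LatRetained K v x.1 x.2) with hS
    set Lv := (latIndex K).filter (fun x => N < x.1 ^ 2 ∧ LatRetained K v x.1 x.2) with hLv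
    have hSmem : S ∈ Ps := hPsv v
    have hLvLg : Lv ⊆ Lg := by
      intro x hx
      obtain ⟨hx0, hx1, hx2⟩ := Finset.mem_filter.1 hx
      exact Finset.mem_filter.2 ⟨hx0, hx1, hx2.1⟩
    -- a general criterion
    have crit : ∀ L' : Finset (ℕ × ℕ), L' ⊆ Lv → L'.card ≤ M → σ ≤ ∑ x ∈ S ∪ L', nu N x.1 →
        ∃ D ∈ Ds, MaskRetained K v D := by
      intro L' hL' hcard hw
      have hret : ∀ x ∈ S ∪ L', LatRetained K v x.1 x.2 := by
        intro x hx
        rcases Finset.mem_union.1 hx with hx | hx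
        · exact (Finset.mem_filter.1 hx).2.2
        · exact (Finset.mem_filter.1 (hL' hx)).2.2
      have hsub : S ∪ L' ⊆ latIndex K := by
        intro x hx
        rcases Finset.mem_union.1 hx with hx | hx
        · exact (Finset.mem_filter.1 hx).1
        · exact (Finset.mem_filter.1 (hL' hx)).1
      refine ⟨S ∪ L', ?_, hret⟩
      refine Finset.mem_filter.2 ⟨Finset.mem_image.2 ⟨(S, L'), ?_, rfl⟩,
        ⟨hsub, fun x hx => (hret x hx).1⟩,
        hw.trans (pathv_maskQ_ge _ fun x hx => (hret x hx).1)⟩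
      exact Finset.mem_product.2 ⟨hSmem, Finset.mem_filter.2
        ⟨Finset.mem_powerset.2 (hL'.trans hLvLg), hcard⟩⟩
    by_cases hcase : Lv.card ≤ M
    · refine crit Lv subset_rfl hcase ?_
      have hunion : S ∪ Lv = (latIndex K).filter (fun x => LatRetained K v x.1 x.2) := by
        ext x
        simp only [hS, hLv, Finset.mem_union, Finset.mem_filter]
        constructor
        · rintro (⟨h0, -, h2⟩ | ⟨h0, -, h2⟩) <;> exact ⟨h0, h2⟩
        · rintro ⟨h0, h2⟩
          rcases le_or_gt (x.1 ^ 2) N with h | h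
          · exact Or.inl ⟨h0, h, h2⟩
          · exact Or.inr ⟨h0, h, h2⟩
      rw [hunion, ← pathv_retW_eq]
      exact hv
    · push Not at hcase
      obtain ⟨L', hL', hL'card⟩ := Finset.exists_subset_card_eq hcase.le
      refine crit L' hL' hL'card.le ?_
      have h4 : (M : ℝ) * (1 / (2 * (N : ℝ))) ≤ ∑ x ∈ L', nu N x.1 := by
        calc (M : ℝ) * (1 / (2 * (N : ℝ))) = ∑ _x ∈ L', 1 / (2 * (N : ℝ)) := by
              rw [Finset.sum_const, nsmul_eq_mul, hL'card]
          _ ≤ ∑ x ∈ L', nu N x.1 := by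
              refine Finset.sum_le_sum fun x hx => ?_
              exact pathcv_nu_large hN (Finset.mem_filter.1 (hL' hx)).2.1
      have h5 : ∑ x ∈ L', nu N x.1 ≤ ∑ x ∈ S ∪ L', nu N x.1 :=
        Finset.sum_le_sum_of_subset_of_nonneg Finset.subset_union_right
          fun x _ _ => pathb_nu_nonneg N x.1
      have h6 : σ ≤ (M : ℝ) * (1 / (2 * (N : ℝ))) := by
        have h7 : 2 * σ * N ≤ (M : ℝ) := by
          have := Nat.le_ceil (2 * σ * N)
          rw [hM]
          push_cast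
          linarith
        rw [mul_one_div, le_div_iff₀ (by positivity)]
        linarith
      linarith

end Claimed.Agent.R293
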