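/-
R293 / PathCommon.lean (owner: helper96).  Leaf PATH-A5: the common quotient
`ℤ^k/(Cℤ^k + Vℤ^h) ≅ G_B/⟨e_{k+1},…,e_{k+h}⟩` (paper A (7.7), (7.11)).
-/
import Claimed.Agent.R293.PathLayer

set_option autoImplicit false

namespace Claimed.Agent.R293

open scoped BigOperators

/-- projection to the first `k` coordinates. -/
def pathqProj (k h : ℕ) : (Fin (k + h) → ℤ) →+ (Fin k → ℤ) where
  toFun := fun x i => x (Fin.castAdd h i)
  map_zero' := rfl
  map_add' := fun _ _ => rfl

theorem pathqProj_apply (k h : ℕ) (x : Fin (k + h) → ℤ) (i : Fin k) :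
    pathqProj k h x i = x (Fin.castAdd h i) := rfl

theorem pathqProj_append (k h : ℕ) (y : Fin k → ℤ) (w : Fin h → ℤ) :
    pathqProj k h (Fin.append y w) = y := by
  funext i
  simp [pathqProj_apply]

theorem pathqProj_surjective (k h : ℕ) : Function.Surjective (pathqProj k h) :=
  fun y => ⟨Fin.append y 0, pathqProj_append k h y 0⟩

theorem pathq_mem_ker {k h : ℕ} {x : Fin (k + h) → ℤ} :
    x ∈ (pathqProj k h).ker ↔ x = Fin.append 0 (fun i => x (Fin.natAdd k i)) := by
  rw [AddMonoidHom.mem_ker]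
  constructor
  · intro hx
    funext i
    refine Fin.addCases (fun a => ?_) (fun b => ?_) i
    · have := congrFun hx a
      simpa [pathqProj_apply] using this
    · simp
  · intro hx
    rw [hx, pathqProj_append]

/-- layers of a lattice and of its preimage under a surjection coincide. -/
theorem pathq_layer_comap {n k : ℕ} (φ : (Fin n → ℤ) →+ (Fin k → ℤ)) (hφ : Function.Surjective φ)
    (P : AddSubgroup (Fin k → ℤ)) (l j : ℕ) :
    latLayer (P.comap φ) l j = latLayer P l j := by
  let ψ : (Fin n → ℤ) →+ (Fin k → ℤ) ⧸ P := (QuotientAddGroup.mk' P).comp φ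
  have hψ : Function.Surjective ψ := (QuotientAddGroup.mk'_surjective P).comp hφ
  have hker : ψ.ker = P.comap φ := by
    ext x
    simp [ψ, AddMonoidHom.mem_ker]
  have e1 : ((Fin n → ℤ) ⧸ P.comap φ) ≃+ ((Fin n → ℤ) ⧸ ψ.ker) :=
    QuotientAddGroup.quotientAddEquivOfEq hker.symm
  have e2 : ((Fin n → ℤ) ⧸ ψ.ker) ≃+ ((Fin k → ℤ) ⧸ P) :=
    QuotientAddGroup.quotientKerEquivOfSurjective ψ hψ
  exact pathl_layer_congr (e1.trans e2) l j

section Lead
variable {m : ℕ} (B : Matrix (Fin m) (Fin m) ℤ)

/-- the first `k` rows of `B' x`. -/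
theorem pathq_proj_mulVec (k h : ℕ) (x : Fin (k + h) → ℤ) :
    pathqProj k h ((lead B (k + h)).mulVec x)
      = (lead B k).mulVec (pathqProj k h x) + ∑ i : Fin h, x (Fin.natAdd k i) • leadCol B k (k + i) := by
  funext a
  simp only [pathqProj_apply, Matrix.mulVec, dotProduct, Fin.sum_univ_add, Pi.add_apply,
    Finset.sum_apply, Pi.smul_apply, smul_eq_mul, lead, leadCol, Fin.val_castAdd, Fin.val_natAdd]
  congr 1
  exact Finset.sum_congr rfl fun i _ => mul_comm _ _

theorem pathq_mem_colLat {k : ℕ} (C : Matrix (Fin k) (Fin k) ℤ) (y : Fin k → ℤ) :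
    C.mulVec y ∈ colLat C := by
  simp only [colLat, Submodule.mem_toAddSubgroup, LinearMap.mem_range]
  exact ⟨y, rfl⟩

theorem pathq_exists_of_mem_colLat {k : ℕ} {C : Matrix (Fin k) (Fin k) ℤ} {z : Fin k → ℤ}
    (hz : z ∈ colLat C) : ∃ y, C.mulVec y = z := by
  simp only [colLat, Submodule.mem_toAddSubgroup, LinearMap.mem_range] at hz
  exact hz

/-- the unit vector `e_{k+i}` of `ℤ^{k+h}`. -/
def pathqE (k h : ℕ) (i : Fin h) : Fin (k + h) → ℤ := Fin.append 0 (Pi.single i 1)

theorem pathq_map_one (k : ℕ) :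
    (colLat (lead B (k + 1))).map (pathqProj k 1) = postLat B k 1 := by
  have hpost : postLat B k 1 = colLat (lead B k) ⊔ AddSubgroup.zmultiples (leadCol B k k) := by
    simp [postLat, preLat, addVec]
  rw [hpost]
  apply le_antisymm
  · rintro _ ⟨z, hz, rfl⟩
    obtain ⟨x, rfl⟩ := pathq_exists_of_mem_colLat hz
    rw [pathq_proj_mulVec]
    refine AddSubgroup.add_mem_sup (pathq_mem_colLat _ _) ?_
    simp only [Fin.sum_univ_one, Fin.val_zero, add_zero]
    exact AddSubgroup.zsmul_mem _ (AddSubgroup.mem_zmultiples _) _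
  · refine sup_le ?_ ?_
    · intro z hz
      obtain ⟨y, rfl⟩ := pathq_exists_of_mem_colLat hz
      refine ⟨(lead B (k + 1)).mulVec (Fin.append y 0), pathq_mem_colLat _ _, ?_⟩
      rw [pathq_proj_mulVec, pathqProj_append]
      simp
    · rw [AddSubgroup.zmultiples_le]
      refine ⟨(lead B (k + 1)).mulVec (pathqE k 1 0), pathq_mem_colLat _ _, ?_⟩
      rw [pathq_proj_mulVec, pathqE, pathqProj_append]
      simp

theorem pathq_map_two (k : ℕ) :
    (colLat (lead B (k + 2))).map (pathqProj k 2) = postLat B k 2 := by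
  have hpost : postLat B k 2 = colLat (lead B k) ⊔ AddSubgroup.zmultiples (leadCol B k k)
      ⊔ AddSubgroup.zmultiples (leadCol B k (k + 1)) := by
    simp [postLat, preLat, addVec]
  rw [hpost]
  apply le_antisymm
  · rintro _ ⟨z, hz, rfl⟩
    obtain ⟨x, rfl⟩ := pathq_exists_of_mem_colLat hz
    rw [pathq_proj_mulVec]
    simp only [Fin.sum_univ_two, Fin.val_zero, add_zero, Fin.val_one, ← add_assoc]
    refine AddSubgroup.add_mem_sup (AddSubgroup.add_mem_sup (pathq_mem_colLat _ _) ?_) ?_
    · exact AddSubgroup.zsmul_mem _ (AddSubgroup.mem_zmultiples _) _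
    · exact AddSubgroup.zsmul_mem _ (AddSubgroup.mem_zmultiples _) _
  · refine sup_le (sup_le ?_ ?_) ?_
    · intro z hz
      obtain ⟨y, rfl⟩ := pathq_exists_of_mem_colLat hz
      refine ⟨(lead B (k + 2)).mulVec (Fin.append y 0), pathq_mem_colLat _ _, ?_⟩
      rw [pathq_proj_mulVec, pathqProj_append]
      simp
    · rw [AddSubgroup.zmultiples_le]
      refine ⟨(lead B (k + 2)).mulVec (pathqE k 2 0), pathq_mem_colLat _ _, ?_⟩
      rw [pathq_proj_mulVec, pathqE, pathqProj_append]
      simp [Fin.sum_univ_two]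
    · rw [AddSubgroup.zmultiples_le]
      refine ⟨(lead B (k + 2)).mulVec (pathqE k 2 1), pathq_mem_colLat _ _, ?_⟩
      rw [pathq_proj_mulVec, pathqE, pathqProj_append]
      simp [Fin.sum_univ_two]

end Lead

theorem pathq_ker_one (k : ℕ) :
    (pathqProj k 1).ker = AddSubgroup.zmultiples (pathqE k 1 0) := by
  apply le_antisymm
  · intro x hx
    rw [pathq_mem_ker] at hx
    rw [AddSubgroup.mem_zmultiples_iff]
    refine ⟨x (Fin.natAdd k 0), ?_⟩
    rw [hx]
    funext i
    refine Fin.addCases (fun a => ?_) (fun b => ?_) i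
    · simp [pathqE]
    · have hb : b = 0 := Subsingleton.elim _ _
      subst hb
      simp [pathqE]
  · rw [AddSubgroup.zmultiples_le, AddMonoidHom.mem_ker, pathqE, pathqProj_append]

theorem pathq_ker_two (k : ℕ) :
    (pathqProj k 2).ker
      = AddSubgroup.zmultiples (pathqE k 2 0) ⊔ AddSubgroup.zmultiples (pathqE k 2 1) := by
  apply le_antisymm
  · intro x hx
    rw [pathq_mem_ker] at hx
    have : x = x (Fin.natAdd k 0) • pathqE k 2 0 + x (Fin.natAdd k 1) • pathqE k 2 1 := by
      conv_lhs => rw [hx]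
      funext i
      refine Fin.addCases (fun a => ?_) (fun b => ?_) i
      · simp [pathqE]
      · fin_cases b <;> simp [pathqE]
    rw [this]
    exact AddSubgroup.add_mem_sup (AddSubgroup.zsmul_mem _ (AddSubgroup.mem_zmultiples _) _)
      (AddSubgroup.zsmul_mem _ (AddSubgroup.mem_zmultiples _) _)
  · refine sup_le ?_ ?_ <;>
    rw [AddSubgroup.zmultiples_le, AddMonoidHom.mem_ker, pathqE, pathqProj_append]

/-- **A (7.7), (7.11)** (common quotient). -/
theorem path_commonQuot (hDrop : StLayerDrop) (hIdx : StIndexDet) : StCommonQuot := by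
  intro m B _ k h hh _ _ hdet l j hl
  have hidx : (colLat (lead B (k + h))).index ≠ 0 := by
    rw [hIdx]
    exact Int.natAbs_ne_zero.mpr hdet
  rcases hh with rfl | rfl
  · have h1 := hDrop (k + 1) (colLat (lead B (k + 1))) hidx (pathqE k 1 0) l j hl
    have e1 : addVec (colLat (lead B (k + 1))) (pathqE k 1 0)
        = (postLat B k 1).comap (pathqProj k 1) := by
      rw [← pathq_map_one, AddSubgroup.comap_map_eq, pathq_ker_one, addVec]
    rw [e1, pathq_layer_comap _ (pathqProj_surjective k 1)] at h1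
    exact h1
  · set K' := colLat (lead B (k + 2)) with hK'
    have h1 := hDrop (k + 2) K' hidx (pathqE k 2 0) l j hl
    have hidx2 : (addVec K' (pathqE k 2 0)).index ≠ 0 := by
      intro h0
      have := AddSubgroup.index_dvd_of_le (show K' ≤ addVec K' (pathqE k 2 0) from le_sup_left)
      rw [h0, zero_dvd_iff] at this
      exact hidx this
    have h2 := hDrop (k + 2) (addVec K' (pathqE k 2 0)) hidx2 (pathqE k 2 1) l j hl
    have e1 : addVec (addVec K' (pathqE k 2 0)) (pathqE k 2 1)
        = (postLat B k 2).comap (pathqProj k 2) := by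
      rw [← pathq_map_two, AddSubgroup.comap_map_eq, pathq_ker_two, addVec, addVec, sup_assoc]
    rw [e1, pathq_layer_comap _ (pathqProj_surjective k 2)] at h2
    constructor
    · exact h2.1.trans h1.1
    · have := h1.2
      have := h2.2
      change latLayer K' l j ≤ _
      omega

end Claimed.Agent.R293
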