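/-
R293 / PathKernel.lean  (owner: helper225).  PATH-A4: the symmetric kernel inequality
(paper A Lemma 7.5), `path_kernelIneq : StKernelIneq`.  Prefix `pathk`.  No sorry.

Proof.  `q = l^t`, `R = ℤ/q`.  For `K ≤ ℤ^n` one has `|(ℤ^n/K)/q(ℤ^n/K)| = [R^n : K mod q]`.
For a square matrix `P` over `R`, `[R^n : P R^n] = |ker P|`.  A kernel vector `(x,y)` of
`B = [[C,V],[Vᵀ,D]]` has `V y ∈ C R^k`, and two kernel vectors with the same `y` differ by an element of
`{x | C x = 0, Vᵀ x = 0} ⊆ (C R^k + V R^h)^⊥`, a set with at most `[R^k : C R^k + V R^h]` elements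
(characters of the quotient).
-/
import Claimed.Agent.R293.PathBasic

set_option autoImplicit false

namespace Claimed.Agent.R293

open scoped BigOperators
open Matrix

/-! ### finite groups -/

theorem pathk_index_range {A : Type*} [AddCommGroup A] [Finite A] (f : A →+ A) :
    f.range.index = Nat.card f.ker := by
  have h1 : Nat.card f.ker * f.ker.index = Nat.card A := f.ker.card_mul_index
  have h2 : Nat.card f.range * f.range.index = Nat.card A := f.range.card_mul_index
  rw [AddSubgroup.index_ker] at h1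
  have h3 : 0 < Nat.card f.range := Nat.card_pos
  refine Nat.eq_of_mul_eq_mul_left h3 ?_
  rw [h2, ← h1, mul_comm]

theorem pathk_card_ker_mul {X A : Type*} [AddCommGroup X] [AddCommGroup A] [Finite X] [Finite A]
    (f : X →+ A) : Nat.card f.ker * Nat.card A = Nat.card X * f.range.index := by
  have h1 : Nat.card f.ker * f.ker.index = Nat.card X := f.ker.card_mul_index
  have h2 : Nat.card f.range * f.range.index = Nat.card A := f.range.card_mul_index
  rw [AddSubgroup.index_ker] at h1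
  rw [← h1, ← h2]
  ring

/-! ### the annihilator of a subgroup of `(ℤ/q)^k` -/

section Abstract

variable {q : ℕ} [NeZero q] {k h : ℕ}

theorem pathk_card_perp_le (M : AddSubgroup (Fin k → ZMod q)) (T : Set (Fin k → ZMod q))
    (hT : ∀ x ∈ T, ∀ m ∈ M, x ⬝ᵥ m = 0) : Nat.card T ≤ M.index := by
  classical
  let d : (Fin k → ZMod q) → ((Fin k → ZMod q) →+ ZMod q) := fun x =>
    AddMonoidHom.mk' (fun m => x ⬝ᵥ m) (dotProduct_add x)
  let χ : T → AddChar ((Fin k → ZMod q) ⧸ M) ℂ := fun x =>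
    (ZMod.stdAddChar (N := q)).compAddMonoidHom
      (QuotientAddGroup.lift M (d x) (fun m hm => hT x x.2 m hm))
  have hχ : Function.Injective χ := by
    intro x x' hxx
    apply Subtype.ext
    funext i
    have h1 := DFunLike.congr_fun hxx (QuotientAddGroup.mk (Pi.single i 1))
    simp only [χ, AddChar.compAddMonoidHom_apply] at h1
    have h2 := ZMod.injective_stdAddChar h1
    have h3 : (x : Fin k → ZMod q) ⬝ᵥ Pi.single i 1 = (x' : Fin k → ZMod q) ⬝ᵥ Pi.single i 1 := h2
    simpa using h3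
  have : Fintype ((Fin k → ZMod q) ⧸ M) := Fintype.ofFinite _
  calc Nat.card T ≤ Nat.card (AddChar ((Fin k → ZMod q) ⧸ M) ℂ) :=
        Nat.card_le_card_of_injective χ hχ
    _ = Nat.card ((Fin k → ZMod q) ⧸ M) := by
        rw [Nat.card_eq_fintype_card, Nat.card_eq_fintype_card, AddChar.card_eq]
    _ = M.index := rfl

/-- the map `(x,y) ↦ C x + V y`. -/
noncomputable def pathkPhi (C : Matrix (Fin k) (Fin k) (ZMod q)) (V : Matrix (Fin k) (Fin h) (ZMod q)) :
    (Fin k → ZMod q) × (Fin h → ZMod q) →+ (Fin k → ZMod q) :=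
  (C.mulVecLin.toAddMonoidHom).coprod (V.mulVecLin.toAddMonoidHom)

theorem pathkPhi_apply (C : Matrix (Fin k) (Fin k) (ZMod q)) (V : Matrix (Fin k) (Fin h) (ZMod q))
    (x : Fin k → ZMod q) (y : Fin h → ZMod q) : pathkPhi C V (x, y) = C *ᵥ x + V *ᵥ y := rfl

theorem pathk_mulVec_castAdd (P : Matrix (Fin (k + h)) (Fin (k + h)) (ZMod q))
    (C : Matrix (Fin k) (Fin k) (ZMod q)) (V : Matrix (Fin k) (Fin h) (ZMod q))
    (hC : ∀ i j, P (Fin.castAdd h i) (Fin.castAdd h j) = C i j)
    (hV : ∀ i j, P (Fin.castAdd h i) (Fin.natAdd k j) = V i j)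
    (z : Fin (k + h) → ZMod q) (i : Fin k) :
    (P *ᵥ z) (Fin.castAdd h i)
      = (C *ᵥ (fun a => z (Fin.castAdd h a))) i + (V *ᵥ (fun b => z (Fin.natAdd k b))) i := by
  simp only [mulVec, dotProduct, Fin.sum_univ_add, hC, hV]

theorem pathk_mulVec_natAdd (P : Matrix (Fin (k + h)) (Fin (k + h)) (ZMod q))
    (V : Matrix (Fin k) (Fin h) (ZMod q))
    (hV' : ∀ i j, P (Fin.natAdd k j) (Fin.castAdd h i) = V i j)
    (z : Fin (k + h) → ZMod q) (j : Fin h) :
    (P *ᵥ z) (Fin.natAdd k j)
      = (Vᵀ *ᵥ (fun a => z (Fin.castAdd h a))) j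
        + ((fun b b' => P (Fin.natAdd k b) (Fin.natAdd k b') : Matrix (Fin h) (Fin h) (ZMod q)) *ᵥ
            (fun b => z (Fin.natAdd k b))) j := by
  simp only [mulVec, dotProduct, Fin.sum_univ_add, hV', transpose_apply]

theorem pathk_core (P : Matrix (Fin (k + h)) (Fin (k + h)) (ZMod q))
    (C : Matrix (Fin k) (Fin k) (ZMod q)) (V : Matrix (Fin k) (Fin h) (ZMod q)) (hCs : C.IsSymm)
    (hC : ∀ i j, P (Fin.castAdd h i) (Fin.castAdd h j) = C i j)
    (hV : ∀ i j, P (Fin.castAdd h i) (Fin.natAdd k j) = V i j)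
    (hV' : ∀ i j, P (Fin.natAdd k j) (Fin.castAdd h i) = V i j) :
    (P.mulVecLin.toAddMonoidHom.range).index * (C.mulVecLin.toAddMonoidHom.range).index
      ≤ q ^ h * (pathkPhi C V).range.index ^ 2 := by
  classical
  rw [pathk_index_range, pathk_index_range]
  set Kγ : Set (Fin k → ZMod q) := {x | C *ᵥ x = 0 ∧ Vᵀ *ᵥ x = 0} with hKγ
  set Kα : Set (Fin h → ZMod q) := {y | ∃ x, C *ᵥ x + V *ᵥ y = 0} with hKα
  set D : Matrix (Fin h) (Fin h) (ZMod q) := fun b b' => P (Fin.natAdd k b) (Fin.natAdd k b') with hD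
  -- kernel of `P` in coordinates
  have hker : ∀ z : Fin (k + h) → ZMod q, z ∈ P.mulVecLin.toAddMonoidHom.ker ↔
      (C *ᵥ (fun a => z (Fin.castAdd h a)) + V *ᵥ (fun b => z (Fin.natAdd k b)) = 0 ∧
        Vᵀ *ᵥ (fun a => z (Fin.castAdd h a)) + D *ᵥ (fun b => z (Fin.natAdd k b)) = 0) := by
    intro z
    rw [AddMonoidHom.mem_ker]
    change P *ᵥ z = 0 ↔ _
    constructor
    · intro hz
      constructor
      · funext i
        have := pathk_mulVec_castAdd P C V hC hV z i
        rw [hz] at this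
        exact this.symm
      · funext j
        have := pathk_mulVec_natAdd P V hV' z j
        rw [hz] at this
        exact this.symm
    · rintro ⟨h1, h2⟩
      funext i
      refine Fin.addCases (fun a => ?_) (fun b => ?_) i
      · rw [pathk_mulVec_castAdd P C V hC hV z a]
        exact congrFun h1 a
      · rw [pathk_mulVec_natAdd P V hV' z b]
        exact congrFun h2 b
  -- first injection
  have hB : Nat.card P.mulVecLin.toAddMonoidHom.ker ≤ Nat.card Kγ * Nat.card Kα := by
    let s : (Fin h → ZMod q) → (Fin k → ZMod q) := fun y =>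
      if hy : ∃ x, C *ᵥ x + V *ᵥ y = 0 ∧ Vᵀ *ᵥ x + D *ᵥ y = 0 then hy.choose else 0
    have hs : ∀ y, (∃ x, C *ᵥ x + V *ᵥ y = 0 ∧ Vᵀ *ᵥ x + D *ᵥ y = 0) →
        C *ᵥ (s y) + V *ᵥ y = 0 ∧ Vᵀ *ᵥ (s y) + D *ᵥ y = 0 := by
      intro y hy
      simp only [s, dif_pos hy]
      exact hy.choose_spec
    let f : P.mulVecLin.toAddMonoidHom.ker → Kγ × Kα := fun z =>
      (⟨(fun a => z.1 (Fin.castAdd h a)) - s (fun b => z.1 (Fin.natAdd k b)), by
          have h1 := (hker z.1).1 z.2
          have h2 := hs _ ⟨_, h1⟩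
          constructor
          · rw [mulVec_sub, sub_eq_zero]
            exact add_right_cancel (h1.1.trans h2.1.symm)
          · rw [mulVec_sub, sub_eq_zero]
            exact add_right_cancel (h1.2.trans h2.2.symm)⟩,
        ⟨fun b => z.1 (Fin.natAdd k b), ⟨_, ((hker z.1).1 z.2).1⟩⟩)
    have hf : Function.Injective f := by
      intro z z' hzz
      have h1 : (fun b => z.1 (Fin.natAdd k b)) = (fun b => z'.1 (Fin.natAdd k b)) :=
        congrArg (fun w : Kγ × Kα => (w.2 : Fin h → ZMod q)) hzz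
      have h2 : (fun a => z.1 (Fin.castAdd h a)) - s (fun b => z.1 (Fin.natAdd k b))
          = (fun a => z'.1 (Fin.castAdd h a)) - s (fun b => z'.1 (Fin.natAdd k b)) :=
        congrArg (fun w : Kγ × Kα => (w.1 : Fin k → ZMod q)) hzz
      rw [h1] at h2
      have h3 := sub_left_injective h2
      apply Subtype.ext
      funext i
      refine Fin.addCases (fun a => ?_) (fun b => ?_) i
      · exact congrFun h3 a
      · exact congrFun h1 b
    calc Nat.card P.mulVecLin.toAddMonoidHom.ker ≤ Nat.card (Kγ × Kα) :=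
          Nat.card_le_card_of_injective f hf
      _ = Nat.card Kγ * Nat.card Kα := Nat.card_prod _ _
  -- second injection
  have hφ : Nat.card Kα * Nat.card C.mulVecLin.toAddMonoidHom.ker ≤ Nat.card (pathkPhi C V).ker := by
    let g : Kα × C.mulVecLin.toAddMonoidHom.ker → (pathkPhi C V).ker := fun w =>
      ⟨(w.1.2.choose + w.2.1, w.1.1), by
        rw [AddMonoidHom.mem_ker, pathkPhi_apply, mulVec_add]
        have h1 := w.1.2.choose_spec
        have h2 : C *ᵥ w.2.1 = 0 := w.2.2
        rw [h2, add_zero]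
        exact h1⟩
    have hg : Function.Injective g := by
      intro w w' hww
      have h1 : (w.1 : Fin h → ZMod q) = w'.1 :=
        congrArg (fun u : (pathkPhi C V).ker => u.1.2) hww
      have h1' : w.1 = w'.1 := Subtype.ext h1
      have h2 : w.1.2.choose + w.2.1 = w'.1.2.choose + w'.2.1 :=
        congrArg (fun u : (pathkPhi C V).ker => u.1.1) hww
      have h3 : w.2 = w'.2 := by
        apply Subtype.ext
        obtain ⟨w1, w2⟩ := w
        obtain ⟨w1', w2'⟩ := w'
        simp only at h1' h2 ⊢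
        subst h1'
        exact add_left_cancel h2
      exact Prod.ext h1' h3
    calc Nat.card Kα * Nat.card C.mulVecLin.toAddMonoidHom.ker
        = Nat.card (Kα × C.mulVecLin.toAddMonoidHom.ker) := (Nat.card_prod _ _).symm
      _ ≤ Nat.card (pathkPhi C V).ker := Nat.card_le_card_of_injective g hg
  -- the annihilator
  have hγ : Nat.card Kγ ≤ (pathkPhi C V).range.index := by
    refine pathk_card_perp_le _ _ ?_
    rintro x ⟨hx1, hx2⟩ m ⟨⟨a, b⟩, rfl⟩
    rw [pathkPhi_apply, dotProduct_add, dotProduct_mulVec, dotProduct_mulVec,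
      ← mulVec_transpose, ← mulVec_transpose, hCs.eq, hx1, hx2]
    simp
  -- the kernel of `φ`
  have hcard : Nat.card (pathkPhi C V).ker = q ^ h * (pathkPhi C V).range.index := by
    have h1 := pathk_card_ker_mul (pathkPhi C V)
    have h2 : Nat.card (Fin k → ZMod q) = q ^ k := by
      rw [Nat.card_eq_fintype_card, Fintype.card_fun, ZMod.card, Fintype.card_fin]
    have h3 : Nat.card (Fin h → ZMod q) = q ^ h := by
      rw [Nat.card_eq_fintype_card, Fintype.card_fun, ZMod.card, Fintype.card_fin]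
    rw [Nat.card_prod, h2, h3] at h1
    have h4 : 0 < q ^ k := pow_pos (Nat.pos_of_ne_zero (NeZero.ne q)) k
    refine Nat.eq_of_mul_eq_mul_left h4 ?_
    rw [mul_comm, h1]
    ring
  calc Nat.card P.mulVecLin.toAddMonoidHom.ker * Nat.card C.mulVecLin.toAddMonoidHom.ker
      ≤ (Nat.card Kγ * Nat.card Kα) * Nat.card C.mulVecLin.toAddMonoidHom.ker :=
        Nat.mul_le_mul_right _ hB
    _ = Nat.card Kγ * (Nat.card Kα * Nat.card C.mulVecLin.toAddMonoidHom.ker) := by ring
    _ ≤ (pathkPhi C V).range.index * Nat.card (pathkPhi C V).ker := Nat.mul_le_mul hγ hφ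
    _ = q ^ h * (pathkPhi C V).range.index ^ 2 := by rw [hcard]; ring

end Abstract

/-! ### reduction modulo `q` -/

section Bridge

variable {n : ℕ}

/-- reduction of integer vectors modulo `q`. -/
def pathkRed (q n : ℕ) : (Fin n → ℤ) →+ (Fin n → ZMod q) :=
  (Int.castAddHom (ZMod q)).compLeft (Fin n)

theorem pathkRed_apply (q : ℕ) (x : Fin n → ℤ) (i : Fin n) : pathkRed q n x i = (x i : ZMod q) := rfl

theorem pathkRed_surjective (q : ℕ) : Function.Surjective (pathkRed q n) := by
  intro y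
  choose x hx using fun i => ZMod.intCast_surjective (y i)
  exact ⟨x, funext hx⟩

theorem pathkRed_mem_ker (q : ℕ) (x : Fin n → ℤ) :
    x ∈ (pathkRed q n).ker ↔ ∃ y : Fin n → ℤ, x = q • y := by
  rw [AddMonoidHom.mem_ker]
  constructor
  · intro hx
    have h1 : ∀ i, (q : ℤ) ∣ x i := fun i =>
      (ZMod.intCast_zmod_eq_zero_iff_dvd (x i) q).1 (congrFun hx i)
    choose y hy using h1
    refine ⟨y, funext fun i => ?_⟩
    rw [hy i]
    simp
  · rintro ⟨y, rfl⟩
    funext i
    rw [pathkRed_apply]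
    simp

theorem pathk_card_quot (q : ℕ) (K : AddSubgroup (Fin n → ℤ)) :
    Nat.card (((Fin n → ℤ) ⧸ K) ⧸ mulSub ((Fin n → ℤ) ⧸ K) q) = (K.map (pathkRed q n)).index := by
  change (mulSub ((Fin n → ℤ) ⧸ K) q).index = _
  rw [← AddSubgroup.index_comap_of_surjective (mulSub ((Fin n → ℤ) ⧸ K) q)
      (QuotientAddGroup.mk'_surjective K),
    ← AddSubgroup.index_comap_of_surjective (K.map (pathkRed q n)) (pathkRed_surjective q),
    AddSubgroup.comap_map_eq]
  congr 1
  ext x
  rw [AddSubgroup.mem_comap, AddSubgroup.mem_sup]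
  constructor
  · rintro ⟨g, hg⟩
    obtain ⟨y, rfl⟩ := QuotientAddGroup.mk'_surjective K g
    have h1 : ((q • y : Fin n → ℤ) : (Fin n → ℤ) ⧸ K) = (x : (Fin n → ℤ) ⧸ K) := hg
    rw [QuotientAddGroup.eq] at h1
    exact ⟨-(q • y) + x, h1, q • y, (pathkRed_mem_ker q _).2 ⟨y, rfl⟩, by abel⟩
  · rintro ⟨a, ha, b, hb, rfl⟩
    obtain ⟨y, rfl⟩ := (pathkRed_mem_ker q _).1 hb
    refine ⟨QuotientAddGroup.mk' K y, ?_⟩
    change ((q • y : Fin n → ℤ) : (Fin n → ℤ) ⧸ K) = ((a + q • y : Fin n → ℤ) : (Fin n → ℤ) ⧸ K)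
    rw [QuotientAddGroup.eq]
    simpa using ha

theorem pathkRed_mulVec (q : ℕ) {n' : ℕ} (A : Matrix (Fin n) (Fin n') ℤ) (x : Fin n' → ℤ) :
    pathkRed q n (A *ᵥ x) = (A.map (Int.cast : ℤ → ZMod q)) *ᵥ (pathkRed q n' x) := by
  funext i
  exact RingHom.map_mulVec (Int.castRingHom (ZMod q)) A x i

theorem pathk_map_colLat (q : ℕ) (A : Matrix (Fin n) (Fin n) ℤ) :
    (colLat A).map (pathkRed q n)
      = ((A.map (Int.cast : ℤ → ZMod q)).mulVecLin.toAddMonoidHom).range := by
  ext y
  constructor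
  · rintro ⟨_, ⟨x, rfl⟩, rfl⟩
    exact ⟨pathkRed q n x, (pathkRed_mulVec q A x).symm⟩
  · rintro ⟨x, rfl⟩
    obtain ⟨x', rfl⟩ := pathkRed_surjective q x
    exact ⟨A *ᵥ x', ⟨x', rfl⟩, pathkRed_mulVec q A x'⟩

theorem pathk_index_eq_pow {l : ℕ} (hl : l.Prime) (t : ℕ) (S : AddSubgroup (Fin n → ZMod (l ^ t))) :
    ∃ a, S.index = l ^ a := by
  haveI : NeZero (l ^ t) := ⟨pow_ne_zero t hl.ne_zero⟩
  have h1 : S.index ∣ Nat.card (Fin n → ZMod (l ^ t)) := S.index_dvd_card
  rw [Nat.card_eq_fintype_card, Fintype.card_fun, ZMod.card, Fintype.card_fin, ← pow_mul] at h1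
  obtain ⟨a, _, ha⟩ := (Nat.dvd_prime_pow hl).1 h1
  exact ⟨a, ha⟩

theorem pathk_latPrefix {l : ℕ} (hl : l.Prime) (t : ℕ) (K : AddSubgroup (Fin n → ℤ)) :
    (K.map (pathkRed (l ^ t) n)).index = l ^ latPrefix K l t := by
  obtain ⟨a, ha⟩ := pathk_index_eq_pow hl t (K.map (pathkRed (l ^ t) n))
  haveI := Fact.mk hl
  have : latPrefix K l t = a := by
    unfold latPrefix prefixLog
    rw [pathk_card_quot, ha, padicValNat.prime_pow]
  rw [this, ha]

end Bridge

/-! ### the theorem -/

theorem pathk_postLat_le {m : ℕ} (B : Matrix (Fin m) (Fin m) ℤ) (k h : ℕ) (hh : h = 1 ∨ h = 2)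
    (S : AddSubgroup (Fin k → ℤ)) (h0 : colLat (lead B k) ≤ S)
    (h1 : ∀ j : Fin h, leadCol B k (k + j) ∈ S) : postLat B k h ≤ S := by
  rcases hh with rfl | rfl
  · have e1 : leadCol B k k ∈ S := h1 0
    simp only [postLat, if_true, pathb_preLat_zero, addVec]
    exact sup_le h0 (AddSubgroup.zmultiples_le_of_mem e1)
  · have e1 : leadCol B k k ∈ S := h1 0
    have e2 : leadCol B k (k + 1) ∈ S := h1 1
    have : postLat B k 2 = addVec (preLat B k 1) (leadCol B k (k + 1)) := by
      simp [postLat]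
    rw [this, pathb_preLat_one]
    simp only [addVec]
    exact sup_le (sup_le h0 (AddSubgroup.zmultiples_le_of_mem e1))
      (AddSubgroup.zmultiples_le_of_mem e2)

theorem pathk_colLat_le_postLat {m : ℕ} (B : Matrix (Fin m) (Fin m) ℤ) (k h : ℕ) :
    colLat (lead B k) ≤ postLat B k h := by
  unfold postLat
  split_ifs
  · exact (pathb_colLat_le_preLat B k 0).trans le_sup_left
  · exact (pathb_colLat_le_preLat B k 1).trans le_sup_left

/-- **A Lemma 7.5** (symmetric kernel inequality). -/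
theorem path_kernelIneq : StKernelIneq := by
  intro m B hB k h hh _ _ _ l t hl
  haveI : NeZero (l ^ t) := ⟨pow_ne_zero t hl.ne_zero⟩
  set q : ℕ := l ^ t with hq
  set P : Matrix (Fin (k + h)) (Fin (k + h)) (ZMod q) :=
    (lead B (k + h)).map (Int.cast : ℤ → ZMod q) with hP
  set C : Matrix (Fin k) (Fin k) (ZMod q) := (lead B k).map (Int.cast : ℤ → ZMod q) with hC
  set V : Matrix (Fin k) (Fin h) (ZMod q) := fun i j => (natMat B i (k + j) : ZMod q) with hV
  have hCs : C.IsSymm := by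
    refine Matrix.IsSymm.ext fun i j => ?_
    simp only [hC, Matrix.map_apply]
    rw [(pathb_lead_isSymm hB k).apply]
  have key := pathk_core P C V hCs (fun i j => rfl) (fun i j => rfl)
    (fun i j => by
      simp only [hP, hV, Matrix.map_apply, pathb_lead_apply, Fin.val_natAdd, Fin.val_castAdd]
      rw [pathb_natMat_symm hB])
  rw [← pathk_map_colLat, ← pathk_map_colLat, pathk_latPrefix hl, pathk_latPrefix hl] at key
  -- the common quotient
  have hle : (postLat B k h).map (pathkRed q k) ≤ (pathkPhi C V).range := by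
    rw [AddSubgroup.map_le_iff_le_comap]
    refine pathk_postLat_le B k h hh _ ?_ ?_
    · rintro _ ⟨x, rfl⟩
      refine ⟨(pathkRed q k x, 0), ?_⟩
      rw [pathkPhi_apply, mulVec_zero, add_zero]
      exact (pathkRed_mulVec q (lead B k) x).symm
    · intro j
      refine ⟨(0, Pi.single j 1), ?_⟩
      rw [pathkPhi_apply, mulVec_zero, zero_add, mulVec_single_one]
      rfl
  have hidx : (pathkPhi C V).range.index ≤ l ^ latPrefix (postLat B k h) l t := by
    rw [← pathk_latPrefix hl]
    refine Nat.le_of_dvd ?_ (AddSubgroup.index_dvd_of_le hle)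
    exact Nat.pos_of_ne_zero AddSubgroup.index_ne_zero_of_finite
  have hmono : latPrefix (postLat B k h) l t ≤ latPrefix (colLat (lead B k)) l t := by
    have h1 : ((postLat B k h).map (pathkRed q k)).index ∣ ((colLat (lead B k)).map (pathkRed q k)).index :=
      AddSubgroup.index_dvd_of_le (AddSubgroup.map_mono (pathk_colLat_le_postLat B k h))
    rw [pathk_latPrefix hl, pathk_latPrefix hl] at h1
    exact (Nat.pow_dvd_pow_iff_le_right hl.one_lt).1 h1
  have hfin : latPrefix (colLat (lead B (k + h))) l t + latPrefix (colLat (lead B k)) l t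
      ≤ t * h + 2 * latPrefix (postLat B k h) l t := by
    have h1 : l ^ (latPrefix (colLat (lead B (k + h))) l t + latPrefix (colLat (lead B k)) l t)
        ≤ l ^ (t * h + 2 * latPrefix (postLat B k h) l t) := by
      calc l ^ (latPrefix (colLat (lead B (k + h))) l t + latPrefix (colLat (lead B k)) l t)
          = l ^ latPrefix (colLat (lead B (k + h))) l t * l ^ latPrefix (colLat (lead B k)) l t :=
            pow_add _ _ _
        _ ≤ q ^ h * (pathkPhi C V).range.index ^ 2 := key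
        _ ≤ q ^ h * (l ^ latPrefix (postLat B k h) l t) ^ 2 :=
            Nat.mul_le_mul_left _ (Nat.pow_le_pow_left hidx 2)
        _ = l ^ (t * h + 2 * latPrefix (postLat B k h) l t) := by
            rw [hq, pow_add, pow_mul, mul_comm 2, pow_mul]
    exact (Nat.pow_le_pow_iff_right hl.one_lt).1 h1
  rw [pathb_preLat_zero]
  change latPrefix (colLat (lead B (k + h))) l t + _ ≤ _
  rw [mul_comm h t]
  omega

end Claimed.Agent.R293
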