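/-
R293 / PathLatForm.lean  (owner: helper144).  Layers of `ℤ^k / K` in LATTICE FORM: everything is expressed through indices
of the subgroups `levLat K l t = K + l^t ℤ^k` of `ℤ^k`.  Prefix `pathlf`.  No sorry.
Main results: `pathlf_pow_latPrefix`, `pathlf_pow_latLayer`, `pathlf_retained_iff`, `path_layerDrop : StLayerDrop` (A Lemma 7.3).
-/
import Claimed.Agent.R293.PathBasic

set_option autoImplicit false

namespace Claimed.Agent.R293

open scoped BigOperators

variable {k : ℕ}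

/-- `K + l^t ℤ^k`. -/
def levLat (K : AddSubgroup (Fin k → ℤ)) (l t : ℕ) : AddSubgroup (Fin k → ℤ) :=
  K ⊔ mulSub (Fin k → ℤ) (l ^ t)

theorem pathlf_mem_mulSub {G : Type*} [AddCommGroup G] (n : ℕ) (x : G) :
    x ∈ mulSub G n ↔ ∃ y : G, n • y = x := by
  simp [mulSub, AddMonoidHom.mem_range]

theorem pathlf_mulSub_quot (K : AddSubgroup (Fin k → ℤ)) (n : ℕ) :
    mulSub ((Fin k → ℤ) ⧸ K) n = (mulSub (Fin k → ℤ) n).map (QuotientAddGroup.mk' K) := by
  ext x
  rw [pathlf_mem_mulSub, AddSubgroup.mem_map]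
  constructor
  · rintro ⟨y, rfl⟩
    obtain ⟨y', rfl⟩ := QuotientAddGroup.mk'_surjective K y
    exact ⟨n • y', (pathlf_mem_mulSub n _).2 ⟨y', rfl⟩, by simp⟩
  · rintro ⟨z, hz, rfl⟩
    obtain ⟨y, rfl⟩ := (pathlf_mem_mulSub n z).1 hz
    exact ⟨QuotientAddGroup.mk' K y, by simp⟩

theorem pathlf_card_quot (K : AddSubgroup (Fin k → ℤ)) (n : ℕ) :
    Nat.card (((Fin k → ℤ) ⧸ K) ⧸ mulSub ((Fin k → ℤ) ⧸ K) n) = (K ⊔ mulSub (Fin k → ℤ) n).index := by
  rw [← AddSubgroup.index_eq_card, pathlf_mulSub_quot, AddSubgroup.index_map,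
    QuotientAddGroup.ker_mk', AddMonoidHom.range_eq_top_of_surjective _ (QuotientAddGroup.mk'_surjective K),
    AddSubgroup.index_top, mul_one, sup_comm]

theorem pathlf_latPrefix (K : AddSubgroup (Fin k → ℤ)) (l t : ℕ) :
    latPrefix K l t = padicValNat l (levLat K l t).index := by
  unfold latPrefix prefixLog levLat
  rw [pathlf_card_quot]

theorem pathlf_le_levLat (K : AddSubgroup (Fin k → ℤ)) (l t : ℕ) : K ≤ levLat K l t := le_sup_left

theorem pathlf_levLat_index_ne_zero {K : AddSubgroup (Fin k → ℤ)} (hK : K.index ≠ 0) (l t : ℕ) :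
    (levLat K l t).index ≠ 0 := fun h =>
  hK (Nat.eq_zero_of_zero_dvd (h ▸ AddSubgroup.index_dvd_of_le (pathlf_le_levLat K l t)))

theorem pathlf_mulSub_anti {G : Type*} [AddCommGroup G] (l : ℕ) {t t' : ℕ} (h : t ≤ t') :
    mulSub G (l ^ t') ≤ mulSub G (l ^ t) := by
  intro x hx
  obtain ⟨y, rfl⟩ := (pathlf_mem_mulSub _ x).1 hx
  refine (pathlf_mem_mulSub _ _).2 ⟨l ^ (t' - t) • y, ?_⟩
  rw [smul_smul, ← pow_add, Nat.add_sub_cancel' h]

theorem pathlf_levLat_anti (K : AddSubgroup (Fin k → ℤ)) (l : ℕ) {t t' : ℕ} (h : t ≤ t') :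
    levLat K l t' ≤ levLat K l t :=
  sup_le_sup_left (pathlf_mulSub_anti l h) K

theorem pathlf_levLat_zero (K : AddSubgroup (Fin k → ℤ)) (l : ℕ) : levLat K l 0 = ⊤ := by
  refine top_unique fun x _ => ?_
  exact AddSubgroup.mem_sup_right ((pathlf_mem_mulSub _ x).2 ⟨x, by simp⟩)

theorem pathlf_pow_smul_mem (K : AddSubgroup (Fin k → ℤ)) (l t : ℕ) (x : Fin k → ℤ) :
    l ^ t • x ∈ levLat K l t :=
  AddSubgroup.mem_sup_right ((pathlf_mem_mulSub _ _).2 ⟨x, rfl⟩)

/-- multiplication by `l` maps level `t` into level `t+1`. -/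
theorem pathlf_smul_mem_succ {K : AddSubgroup (Fin k → ℤ)} {l t : ℕ} {x : Fin k → ℤ}
    (hx : x ∈ levLat K l t) : l • x ∈ levLat K l (t + 1) := by
  obtain ⟨a, ha, b, hb, rfl⟩ := AddSubgroup.mem_sup.1 hx
  obtain ⟨y, rfl⟩ := (pathlf_mem_mulSub _ b).1 hb
  rw [smul_add]
  refine AddSubgroup.add_mem _ (AddSubgroup.mem_sup_left (K.nsmul_mem ha l)) ?_
  refine AddSubgroup.mem_sup_right ((pathlf_mem_mulSub _ _).2 ⟨y, ?_⟩)
  rw [smul_smul, pow_succ, mul_comm]

theorem pathlf_pow_smul_mem_add {K : AddSubgroup (Fin k → ℤ)} {l t : ℕ} {x : Fin k → ℤ}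
    (hx : x ∈ levLat K l t) (a : ℕ) : l ^ a • x ∈ levLat K l (t + a) := by
  induction a with
  | zero => simpa using hx
  | succ a ih =>
    have := pathlf_smul_mem_succ ih
    rwa [smul_smul, ← pow_succ'] at this

/-- a finite-index subgroup `M` of `ℤ^k` containing `l^t ℤ^k` has index a power of `l`. -/
theorem pathlf_index_eq_pow {l : ℕ} (hl : l.Prime) {M : AddSubgroup (Fin k → ℤ)} (hM : M.index ≠ 0)
    {t : ℕ} (h : mulSub (Fin k → ℤ) (l ^ t) ≤ M) : ∃ a : ℕ, M.index = l ^ a := by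
  have : M.FiniteIndex := ⟨hM⟩
  have : Finite ((Fin k → ℤ) ⧸ M) := AddSubgroup.finite_quotient_of_finiteIndex
  have : Fintype ((Fin k → ℤ) ⧸ M) := Fintype.ofFinite _
  refine ⟨(M.index).primeFactorsList.length, ?_⟩
  refine Nat.eq_prime_pow_of_unique_prime_dvd hM ?_
  intro q hq hqd
  rw [AddSubgroup.index_eq_card, Nat.card_eq_fintype_card] at hqd
  have := Fact.mk hq
  obtain ⟨x, hx⟩ := exists_prime_addOrderOf_dvd_card q hqd
  have h0 : l ^ t • x = 0 := by
    obtain ⟨y, rfl⟩ := QuotientAddGroup.mk_surjective x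
    rw [← QuotientAddGroup.mk_nsmul, QuotientAddGroup.eq_zero_iff]
    exact h ((pathlf_mem_mulSub _ _).2 ⟨y, rfl⟩)
  have h1 : q ∣ l ^ t := hx ▸ addOrderOf_dvd_of_nsmul_eq_zero h0
  exact (Nat.prime_dvd_prime_iff_eq hq hl).1 (hq.dvd_of_dvd_pow h1)

theorem pathlf_pow_latPrefix {l : ℕ} (hl : l.Prime) {K : AddSubgroup (Fin k → ℤ)} (hK : K.index ≠ 0)
    (t : ℕ) : l ^ latPrefix K l t = (levLat K l t).index := by
  obtain ⟨a, ha⟩ := pathlf_index_eq_pow hl (pathlf_levLat_index_ne_zero hK l t) (t := t) le_sup_right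
  have := Fact.mk hl
  rw [pathlf_latPrefix, ha, padicValNat.prime_pow]

theorem pathlf_latPrefix_mono {l : ℕ} (hl : l.Prime) {K : AddSubgroup (Fin k → ℤ)} (hK : K.index ≠ 0)
    {t t' : ℕ} (h : t ≤ t') : latPrefix K l t ≤ latPrefix K l t' := by
  have h1 := AddSubgroup.index_dvd_of_le (pathlf_levLat_anti K l h)
  rw [← pathlf_pow_latPrefix hl hK, ← pathlf_pow_latPrefix hl hK] at h1
  exact (Nat.pow_dvd_pow_iff_le_right hl.one_lt).1 h1

/-- `l^{k_G(l,t)} = [K + l^{t-1} ℤ^k : K + l^t ℤ^k]`. -/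
theorem pathlf_pow_latLayer {l : ℕ} (hl : l.Prime) {K : AddSubgroup (Fin k → ℤ)} (hK : K.index ≠ 0)
    (t : ℕ) : l ^ latLayer K l (t + 1) = (levLat K l (t + 1)).relIndex (levLat K l t) := by
  have h1 := AddSubgroup.relIndex_mul_index (pathlf_levLat_anti K l (Nat.le_succ t))
  rw [← pathlf_pow_latPrefix hl hK, ← pathlf_pow_latPrefix hl hK] at h1
  have h2 : latLayer K l (t + 1) + latPrefix K l t = latPrefix K l (t + 1) := by
    show prefixLog _ l (t + 1) - prefixLog _ l (t + 1 - 1) + _ = _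
    rw [Nat.add_sub_cancel]
    exact Nat.sub_add_cancel (pathlf_latPrefix_mono hl hK (Nat.le_succ t))
  rw [← h2, pow_add] at h1
  exact (Nat.eq_of_mul_eq_mul_right (pow_pos hl.pos _) h1).symm

theorem pathlf_latLayer_zero (K : AddSubgroup (Fin k → ℤ)) (l : ℕ) : latLayer K l 0 = 0 := by
  show prefixLog _ l 0 - prefixLog _ l (0 - 1) = 0
  simp

/-! ### one-element quotients -/

theorem pathlf_addVec_index_ne_zero {K : AddSubgroup (Fin k → ℤ)} (hK : K.index ≠ 0) (v : Fin k → ℤ) :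
    (addVec K v).index ≠ 0 := fun h =>
  hK (Nat.eq_zero_of_zero_dvd (h ▸ AddSubgroup.index_dvd_of_le (le_sup_left : K ≤ addVec K v)))

theorem pathlf_levLat_addVec (K : AddSubgroup (Fin k → ℤ)) (v : Fin k → ℤ) (l t : ℕ) :
    levLat (addVec K v) l t = levLat K l t ⊔ AddSubgroup.zmultiples v := by
  unfold levLat addVec
  rw [sup_assoc, sup_assoc, sup_comm (AddSubgroup.zmultiples v)]

/-- the intermediate lattice `(K + l^{t+1}ℤ^k + ℤ v) ∩ (K + l^t ℤ^k)`. -/
def midLat (K : AddSubgroup (Fin k → ℤ)) (v : Fin k → ℤ) (l t : ℕ) : AddSubgroup (Fin k → ℤ) :=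
  (levLat K l (t + 1) ⊔ AddSubgroup.zmultiples v) ⊓ levLat K l t

theorem pathlf_lev_le_mid (K : AddSubgroup (Fin k → ℤ)) (v : Fin k → ℤ) (l t : ℕ) :
    levLat K l (t + 1) ≤ midLat K v l t :=
  le_inf le_sup_left (pathlf_levLat_anti K l (Nat.le_succ t))

theorem pathlf_mid_le_lev (K : AddSubgroup (Fin k → ℤ)) (v : Fin k → ℤ) (l t : ℕ) :
    midLat K v l t ≤ levLat K l t := inf_le_right

/-- `l^{k_H(l,t+1)} = [K + l^t ℤ^k : midLat]`  for `H = ℤ^k/(K + ℤ v)`. -/
theorem pathlf_pow_latLayer_addVec {l : ℕ} (hl : l.Prime) {K : AddSubgroup (Fin k → ℤ)} (hK : K.index ≠ 0)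
    (v : Fin k → ℤ) (t : ℕ) :
    l ^ latLayer (addVec K v) l (t + 1) = (midLat K v l t).relIndex (levLat K l t) := by
  rw [pathlf_pow_latLayer hl (pathlf_addVec_index_ne_zero hK v), pathlf_levLat_addVec, pathlf_levLat_addVec]
  have h : levLat K l t ⊔ AddSubgroup.zmultiples v =
      (levLat K l (t + 1) ⊔ AddSubgroup.zmultiples v) ⊔ levLat K l t := by
    rw [sup_right_comm, sup_of_le_right (pathlf_levLat_anti K l (Nat.le_succ t)), sup_comm]
  rw [h, AddSubgroup.relIndex_sup_left, midLat, AddSubgroup.inf_relIndex_right]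

/-- product formula `l^{k_G} = [mid : lev (t+1)] · l^{k_H}`. -/
theorem pathlf_layer_mul {l : ℕ} (hl : l.Prime) {K : AddSubgroup (Fin k → ℤ)} (hK : K.index ≠ 0)
    (v : Fin k → ℤ) (t : ℕ) :
    (levLat K l (t + 1)).relIndex (midLat K v l t) * l ^ latLayer (addVec K v) l (t + 1)
      = l ^ latLayer K l (t + 1) := by
  rw [pathlf_pow_latLayer_addVec hl hK, pathlf_pow_latLayer hl hK]
  exact AddSubgroup.relIndex_mul_relIndex _ _ _ (pathlf_lev_le_mid K v l t) (pathlf_mid_le_lev K v l t)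

/-- **retention criterion**: the layer `(l,t+1)` keeps its height iff every multiple of `v` in level `t` is in level `t+1`. -/
theorem pathlf_layer_eq_iff {l : ℕ} (hl : l.Prime) {K : AddSubgroup (Fin k → ℤ)} (hK : K.index ≠ 0)
    (v : Fin k → ℤ) (t : ℕ) :
    latLayer (addVec K v) l (t + 1) = latLayer K l (t + 1) ↔
      ∀ x ∈ AddSubgroup.zmultiples v, x ∈ levLat K l t → x ∈ levLat K l (t + 1) := by
  have hmul := pathlf_layer_mul hl hK v t
  constructor
  · intro h x hx hxt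
    rw [h] at hmul
    have h1 : (levLat K l (t + 1)).relIndex (midLat K v l t) = 1 :=
      Nat.eq_of_mul_eq_mul_right (pow_pos hl.pos _) (by rw [hmul, one_mul])
    exact AddSubgroup.relIndex_eq_one.1 h1 ⟨AddSubgroup.mem_sup_right hx, hxt⟩
  · intro h
    have h1 : midLat K v l t ≤ levLat K l (t + 1) := by
      rintro x ⟨hx1, hx2⟩
      obtain ⟨a, ha, b, hb, rfl⟩ := AddSubgroup.mem_sup.1 hx1
      have hb' : b ∈ levLat K l t := by
        have := AddSubgroup.sub_mem _ hx2 (pathlf_levLat_anti K l (Nat.le_succ t) ha)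
        simpa using this
      exact AddSubgroup.add_mem _ ha (h b hb hb')
    rw [AddSubgroup.relIndex_eq_one.2 h1, one_mul] at hmul
    exact Nat.pow_right_injective hl.two_le hmul

/-- subgroups `A ≤ B` of `ℤ` with `l B ≤ A` have relative index dividing `l`. -/
theorem pathlf_int_relIndex_dvd {A B : AddSubgroup ℤ} (hAB : A ≤ B) {l : ℕ}
    (h : ∀ x ∈ B, l • x ∈ A) : A.relIndex B ∣ l := by
  obtain ⟨a, rfl⟩ : ∃ a, A = AddSubgroup.zmultiples a := by
    obtain ⟨a, ha⟩ := Int.subgroup_cyclic A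
    exact ⟨a, by rw [ha, AddSubgroup.zmultiples_eq_closure]⟩
  obtain ⟨b, rfl⟩ : ∃ b, B = AddSubgroup.zmultiples b := by
    obtain ⟨b, hb⟩ := Int.subgroup_cyclic B
    exact ⟨b, by rw [hb, AddSubgroup.zmultiples_eq_closure]⟩
  by_cases hb : b = 0
  · subst hb
    simp
  · have h1 := AddSubgroup.relIndex_mul_index hAB
    rw [Int.index_zmultiples, Int.index_zmultiples] at h1
    have h2 : a ∣ l * b := by
      have := h b (AddSubgroup.mem_zmultiples b)
      rw [Int.mem_zmultiples_iff] at this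
      simpa using this
    have h3 : a.natAbs ∣ l * b.natAbs := by
      have := Int.natAbs_dvd_natAbs.2 h2
      rwa [Int.natAbs_mul, Int.natAbs_natCast] at this
    rw [← h1] at h3
    exact Nat.dvd_of_mul_dvd_mul_right (Int.natAbs_pos.2 hb) h3

theorem pathlf_relIndex_mid_dvd (K : AddSubgroup (Fin k → ℤ)) (v : Fin k → ℤ) (l t : ℕ) :
    (levLat K l (t + 1)).relIndex (midLat K v l t) ∣ l := by
  set φ : ℤ →+ (Fin k → ℤ) := (zmultiplesHom (Fin k → ℤ)) v with hφ
  have hφa : ∀ c : ℤ, φ c = c • v := fun c => rfl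
  have hmid : midLat K v l t = levLat K l (t + 1) ⊔ ((levLat K l t).comap φ).map φ := by
    apply le_antisymm
    · rintro x ⟨hx1, hx2⟩
      obtain ⟨a, ha, b, hb, rfl⟩ := AddSubgroup.mem_sup.1 hx1
      have hb' : b ∈ levLat K l t := by
        have := AddSubgroup.sub_mem _ hx2 (pathlf_levLat_anti K l (Nat.le_succ t) ha)
        simpa using this
      obtain ⟨c, rfl⟩ := AddSubgroup.mem_zmultiples_iff.1 hb
      exact AddSubgroup.add_mem _ (AddSubgroup.mem_sup_left ha)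
        (AddSubgroup.mem_sup_right ⟨c, hb', rfl⟩)
    · refine sup_le (pathlf_lev_le_mid K v l t) ?_
      rintro x ⟨c, hc, rfl⟩
      exact ⟨AddSubgroup.mem_sup_right (AddSubgroup.mem_zmultiples_iff.2 ⟨c, rfl⟩), hc⟩
  rw [hmid, AddSubgroup.relIndex_sup_left, ← AddSubgroup.relIndex_comap]
  refine pathlf_int_relIndex_dvd (AddSubgroup.comap_mono (pathlf_levLat_anti K l (Nat.le_succ t))) ?_
  intro c hc
  have : l • φ c ∈ levLat K l (t + 1) := pathlf_smul_mem_succ hc
  rw [AddSubgroup.mem_comap, map_nsmul]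
  exact this

/-- **A Lemma 7.3**: in a one-element quotient every layer height drops by `0` or `1`. -/
theorem path_layerDrop : StLayerDrop := by
  intro k K hK v l j hl
  cases j with
  | zero => simp [pathlf_latLayer_zero]
  | succ t =>
    have hmul := pathlf_layer_mul hl hK v t
    constructor
    · exact (Nat.pow_dvd_pow_iff_le_right hl.one_lt).1 (hmul ▸ Dvd.intro_left _ rfl)
    · have h1 : l ^ latLayer K l (t + 1) ∣ l ^ (latLayer (addVec K v) l (t + 1) + 1) := by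
        rw [← hmul, pow_succ, mul_comm]
        exact Nat.mul_dvd_mul_left _ (pathlf_relIndex_mid_dvd K v l t)
      exact (Nat.pow_dvd_pow_iff_le_right hl.one_lt).1 h1

end Claimed.Agent.R293
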