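/-
R293 / PathTail.lean  (owner: helper207).  PATH-A6: the tail recursion  A Lemma 11.1 = B (6.5)
(`path_tail1`, `path_tail2`) and the shift `W_{s+1}(B) ≤ W_s(C)` (`path_shift1`).  Prefix `patht`.  No sorry.
-/
import Claimed.Agent.R293.PathLayer
import Claimed.Agent.R293.PathBasic
import Claimed.Agent.R293.PathLatForm
import Claimed.Agent.R293.PathKernel
import Claimed.Agent.R293.PathCommon
import Claimed.Agent.R293.PathIndex
set_option autoImplicit false
namespace Claimed.Agent.R293
open scoped BigOperators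

/-- combinatorial core of the tail recursion at one prime. -/
theorem patht_core (h s T : ℕ) (kB kC kH r : ℕ → ℕ)
    (hanti : ∀ e e', 1 ≤ e → e ≤ e' → kB e' ≤ kB e)
    (hker : ∀ t, ∑ e ∈ Finset.Icc 1 t, kB e
        + 2 * (∑ e ∈ Finset.Icc 1 t, kC e - ∑ e ∈ Finset.Icc 1 t, kH e)
        ≤ ∑ e ∈ Finset.Icc 1 t, kC e + h * t)
    (hHC : ∀ e, kH e ≤ kC e)
    (hr : ∀ e, 1 ≤ e → s < kB e → h ≤ (kC e - kH e) + r e) :
    ∑ e ∈ Finset.Icc 1 T, (kB e - s)
      ≤ ∑ e ∈ Finset.Icc 1 T, (kC e - (s + h)) + 2 * ∑ e ∈ Finset.Icc 1 T, r e := by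
  classical
  set t := Nat.findGreatest (fun e => s < kB e) T with ht
  have htT : t ≤ T := Nat.findGreatest_le T
  have hbig : ∀ e, 1 ≤ e → e ≤ t → s < kB e := by
    intro e he1 het
    have ht0 : t ≠ 0 := by omega
    have h1 : s < kB t := Nat.findGreatest_of_ne_zero (P := fun e => s < kB e) ht.symm ht0
    exact lt_of_lt_of_le h1 (hanti e t he1 het)
  have hsmall : ∀ e, t < e → e ≤ T → kB e - s = 0 := by
    intro e hte heT
    have : ¬ s < kB e := Nat.findGreatest_is_greatest (P := fun e => s < kB e) hte heT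
    omega
  have hsub : Finset.Icc 1 t ⊆ Finset.Icc 1 T := Finset.Icc_subset_Icc le_rfl htT
  have hL : ∑ e ∈ Finset.Icc 1 T, (kB e - s) = ∑ e ∈ Finset.Icc 1 t, (kB e - s) := by
    symm
    refine Finset.sum_subset hsub fun e he he' => ?_
    rw [Finset.mem_Icc] at he he'
    exact hsmall e (by omega) he.2
  have h1 : ∑ e ∈ Finset.Icc 1 t, (kB e - s) + s * t = ∑ e ∈ Finset.Icc 1 t, kB e := by
    have : s * t = ∑ _e ∈ Finset.Icc 1 t, s := by simp [mul_comm]
    rw [this, ← Finset.sum_add_distrib]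
    refine Finset.sum_congr rfl fun e he => ?_
    rw [Finset.mem_Icc] at he
    have := hbig e he.1 he.2
    omega
  have h2 : ∑ e ∈ Finset.Icc 1 t, kC e ≤ ∑ e ∈ Finset.Icc 1 t, (kC e - (s + h)) + (s + h) * t := by
    have : (s + h) * t = ∑ _e ∈ Finset.Icc 1 t, (s + h) := by simp [mul_comm]
    rw [this, ← Finset.sum_add_distrib]
    refine Finset.sum_le_sum fun e _ => ?_
    omega
  have h3 : ∑ e ∈ Finset.Icc 1 t, (kC e - kH e) + ∑ e ∈ Finset.Icc 1 t, kH e
      = ∑ e ∈ Finset.Icc 1 t, kC e := by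
    rw [← Finset.sum_add_distrib]
    refine Finset.sum_congr rfl fun e _ => ?_
    have := hHC e
    omega
  have h4 : h * t ≤ ∑ e ∈ Finset.Icc 1 t, (kC e - kH e) + ∑ e ∈ Finset.Icc 1 t, r e := by
    have : h * t = ∑ _e ∈ Finset.Icc 1 t, h := by simp [mul_comm]
    rw [this, ← Finset.sum_add_distrib]
    refine Finset.sum_le_sum fun e he => ?_
    rw [Finset.mem_Icc] at he
    exact hr e he.1 (hbig e he.1 he.2)
  have h5 := hker t
  have h6 : ∑ e ∈ Finset.Icc 1 t, (kC e - (s + h)) ≤ ∑ e ∈ Finset.Icc 1 T, (kC e - (s + h)) :=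
    Finset.sum_le_sum_of_subset hsub
  have h7 : ∑ e ∈ Finset.Icc 1 t, r e ≤ ∑ e ∈ Finset.Icc 1 T, r e :=
    Finset.sum_le_sum_of_subset hsub
  rw [hL]
  have h8 : (s + h) * t = s * t + h * t := by ring
  omega


/-- a box of (prime, exponent) pairs. -/
def patht_box (M : ℕ) : Finset (ℕ × ℕ) :=
  ((Finset.range (M + 1)).filter Nat.Prime) ×ˢ Finset.Icc 1 M

theorem patht_box_prime {M : ℕ} {x : ℕ × ℕ} (hx : x ∈ patht_box M) : x.1.Prime := by
  simp only [patht_box, Finset.mem_product, Finset.mem_filter] at hx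
  exact hx.1.2

theorem patht_layerIndex_subset (G : Type*) [AddCommGroup G] [Finite G] {M : ℕ}
    (hM : Nat.card G ≤ M) : layerIndex G ⊆ patht_box M := by
  intro x hx
  simp only [layerIndex, Finset.mem_product, Finset.mem_Icc, Nat.mem_primeFactors] at hx
  simp only [patht_box, Finset.mem_product, Finset.mem_filter, Finset.mem_range, Finset.mem_Icc]
  obtain ⟨⟨hp, hd, h0⟩, h1, h2⟩ := hx
  refine ⟨⟨?_, hp⟩, h1, ?_⟩
  · have := Nat.le_of_dvd (Nat.pos_of_ne_zero h0) hd
    omega
  · have : Nat.log 2 (Nat.card G) ≤ Nat.card G := Nat.log_le_self 2 _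
    omega

theorem patht_tailW_box (G : Type*) [AddCommGroup G] [Finite G] {M : ℕ} (hM : Nat.card G ≤ M)
    (N s : ℕ) :
    tailW G N s = ∑ x ∈ patht_box M, ((layer G x.1 x.2 - s : ℕ) : ℝ) * nu N x.1 :=
  pathl_layerSum_eq_of_subset G (patht_layerIndex_subset G hM) (fun _ hx => patht_box_prime hx) N
    (by simp)

open Classical in
theorem patht_retWge_box {k : ℕ} (N h : ℕ) (K : AddSubgroup (Fin k → ℤ)) (hK : K.index ≠ 0)
    (v : Fin k → ℤ) {M : ℕ} (hM : K.index ≤ M) :
    retWge N h K v = ∑ x ∈ patht_box M,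
      ((if LatRetained K v x.1 x.2 ∧ h ≤ latLayer K x.1 x.2 then 1 else 0 : ℕ) : ℝ) * nu N x.1 := by
  have : Finite ((Fin k → ℤ) ⧸ K) := pathl_finite_quot hK
  unfold retWge
  have hsub : latIndex K ⊆ patht_box M := patht_layerIndex_subset _ hM
  rw [← Finset.sum_subset hsub]
  · refine Finset.sum_congr rfl fun x _ => ?_
    split_ifs <;> simp
  · intro x hx hx'
    have h0 : latLayer K x.1 x.2 = 0 := pathl_layer_eq_zero_of_notMem _ (patht_box_prime hx) hx'
    have : ¬ (LatRetained K v x.1 x.2 ∧ h ≤ latLayer K x.1 x.2) := by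
      rintro ⟨⟨h1, -⟩, -⟩
      omega
    rw [if_neg this]; simp

/-- summing the one-prime inequalities with the weights `ν_l`. -/
theorem patht_sum_box (N M : ℕ) (a c r : ℕ → ℕ → ℕ)
    (h : ∀ l, l.Prime → ∑ e ∈ Finset.Icc 1 M, a l e
      ≤ ∑ e ∈ Finset.Icc 1 M, c l e + 2 * ∑ e ∈ Finset.Icc 1 M, r l e) :
    ∑ x ∈ patht_box M, (a x.1 x.2 : ℝ) * nu N x.1
      ≤ ∑ x ∈ patht_box M, (c x.1 x.2 : ℝ) * nu N x.1
        + 2 * ∑ x ∈ patht_box M, (r x.1 x.2 : ℝ) * nu N x.1 := by
  unfold patht_box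
  rw [Finset.sum_product, Finset.sum_product, Finset.sum_product, Finset.mul_sum,
    ← Finset.sum_add_distrib]
  refine Finset.sum_le_sum fun l hl => ?_
  have hlp : l.Prime := (Finset.mem_filter.1 hl).2
  simp only
  rw [← Finset.sum_mul, ← Finset.sum_mul, ← Finset.sum_mul, ← mul_assoc, ← add_mul]
  refine mul_le_mul_of_nonneg_right ?_ (pathb_nu_nonneg N l)
  have := h l hlp
  exact_mod_cast this

/-- abstract tail recursion: `G_B` against `ℤ^k/K0` with common quotient `ℤ^k/KH`. -/
theorem patht_tail_abs (N h s : ℕ) (GB : Type) [AddCommGroup GB] [Finite GB] {k : ℕ}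
    (K0 KH : AddSubgroup (Fin k → ℤ)) (hK0 : K0.index ≠ 0) (hKH : KH.index ≠ 0)
    (hker : ∀ l t : ℕ, l.Prime →
      prefixLog GB l t + 2 * (latPrefix K0 l t - latPrefix KH l t) ≤ latPrefix K0 l t + h * t)
    (hHC : ∀ l e : ℕ, l.Prime → latLayer KH l e ≤ latLayer K0 l e)
    (r : ℕ → ℕ → ℕ)
    (hr : ∀ l e : ℕ, l.Prime → 1 ≤ e → s < layer GB l e →
      h ≤ (latLayer K0 l e - latLayer KH l e) + r l e)
    {M : ℕ} (hM1 : Nat.card GB ≤ M) (hM2 : K0.index ≤ M) :
    tailW GB N s ≤ tailW ((Fin k → ℤ) ⧸ K0) N (s + h)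
      + 2 * ∑ x ∈ patht_box M, (r x.1 x.2 : ℝ) * nu N x.1 := by
  have f0 : Finite ((Fin k → ℤ) ⧸ K0) := pathl_finite_quot hK0
  have fH : Finite ((Fin k → ℤ) ⧸ KH) := pathl_finite_quot hKH
  rw [patht_tailW_box GB hM1, patht_tailW_box ((Fin k → ℤ) ⧸ K0) hM2]
  refine patht_sum_box N M (fun l e => layer GB l e - s) (fun l e => latLayer K0 l e - (s + h)) r ?_
  intro l hl
  refine patht_core h s M (fun e => layer GB l e) (fun e => latLayer K0 l e)
      (fun e => latLayer KH l e) (r l) ?_ ?_ (fun e => hHC l e hl) (fun e he hs => hr l e hl he hs)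
  · intro e e' he hee
    exact pathl_layer_anti GB hl he hee
  · intro t
    have := hker l t hl
    have e0 : latPrefix K0 l t = ∑ j ∈ Finset.Icc 1 t, latLayer K0 l j :=
      pathl_prefixLog_eq_sum _ hl t
    have eH : latPrefix KH l t = ∑ j ∈ Finset.Icc 1 t, latLayer KH l j :=
      pathl_prefixLog_eq_sum _ hl t
    rw [pathl_prefixLog_eq_sum GB hl, e0, eH] at this
    exact this

theorem patht_colLat_index_ne_zero {k : ℕ} {C : Matrix (Fin k) (Fin k) ℤ} (h : C.det ≠ 0) :
    (colLat C).index ≠ 0 := by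
  rw [pathi_index_of_det_ne_zero h]
  exact Int.natAbs_ne_zero.2 h

/-- **A Lemma 11.1 = B (6.5)**, width one. -/
theorem path_tail1 : StTail1 := by
  classical
  intro N m B hB k hk hC hB' s hs
  have hQ := path_commonQuot path_layerDrop path_indexDet m B hB k 1 (Or.inl rfl) hk hC hB'
  have hKer := path_kernelIneq m B hB k 1 (Or.inl rfl) hk hC hB'
  have hpost : postLat B k 1 = addVec (colLat (lead B k)) (leadCol B k k) := by
    simp [postLat, pathb_preLat_zero]
  rw [hpost] at hQ hKer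
  rw [pathb_preLat_zero] at hKer ⊢
  set K0 := colLat (lead B k) with hK0def
  set v := leadCol B k k with hv
  have hK0 : K0.index ≠ 0 := patht_colLat_index_ne_zero hC
  have hK1 : (addVec K0 v).index ≠ 0 := pathlf_addVec_index_ne_zero hK0 v
  have fB : Finite (DiscGroup (lead B (k + 1))) := pathi_finite_discGroup hB'
  set M := max (Nat.card (DiscGroup (lead B (k + 1)))) K0.index with hM
  have h1 := patht_tail_abs N 1 s (DiscGroup (lead B (k + 1))) K0 (addVec K0 v) hK0 hK1
    (fun l t hl => hKer l t hl) (fun l e hl => (path_layerDrop k K0 hK0 v l e hl).1)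
    (fun l e => if LatRetained K0 v l e ∧ s ≤ latLayer K0 l e then 1 else 0) ?_
    (M := M) (le_max_left _ _) (le_max_right _ _)
  · rw [patht_retWge_box N s K0 hK0 v (le_max_right _ _ : K0.index ≤ M)]
    exact h1
  · intro l e hl he hse
    have hq := hQ l e hl
    have hd := path_layerDrop k K0 hK0 v l e hl
    by_cases hret : LatRetained K0 v l e ∧ s ≤ latLayer K0 l e
    · simp only [if_pos hret]; omega
    · simp only [if_neg hret]
      by_contra hcon
      apply hret
      refine ⟨⟨?_, ?_⟩, ?_⟩ <;> omega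

/-- **A Lemma 11.1 = B (6.5)**, width two. -/
theorem path_tail2 : StTail2 := by
  classical
  intro N m B hB k hk hC hB' s hs
  have hQ := path_commonQuot path_layerDrop path_indexDet m B hB k 2 (Or.inr rfl) hk hC hB'
  have hKer := path_kernelIneq m B hB k 2 (Or.inr rfl) hk hC hB'
  have hpost : postLat B k 2
      = addVec (addVec (colLat (lead B k)) (leadCol B k k)) (leadCol B k (k + 1)) := by
    simp [postLat, pathb_preLat_one]
  rw [hpost] at hQ hKer
  rw [pathb_preLat_zero] at hKer ⊢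
  rw [pathb_preLat_one]
  set K0 := colLat (lead B k) with hK0def
  set v := leadCol B k k with hv
  set v' := leadCol B k (k + 1) with hv'
  have hK0 : K0.index ≠ 0 := patht_colLat_index_ne_zero hC
  have hK1 : (addVec K0 v).index ≠ 0 := pathlf_addVec_index_ne_zero hK0 v
  have hK2 : (addVec (addVec K0 v) v').index ≠ 0 := pathlf_addVec_index_ne_zero hK1 v'
  have fB : Finite (DiscGroup (lead B (k + 2))) := pathi_finite_discGroup hB'
  set M := max (Nat.card (DiscGroup (lead B (k + 2)))) (max K0.index (addVec K0 v).index) with hM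
  have hM0 : K0.index ≤ M := le_trans (le_max_left _ _) (le_max_right _ _)
  have hM1 : (addVec K0 v).index ≤ M := le_trans (le_max_right _ _) (le_max_right _ _)
  have h1 := patht_tail_abs N 2 s (DiscGroup (lead B (k + 2))) K0 (addVec (addVec K0 v) v') hK0 hK2
    (fun l t hl => hKer l t hl)
    (fun l e hl => le_trans (path_layerDrop k _ hK1 v' l e hl).1 (path_layerDrop k K0 hK0 v l e hl).1)
    (fun l e => (if LatRetained K0 v l e ∧ s - 1 ≤ latLayer K0 l e then 1 else 0)
      + (if LatRetained (addVec K0 v) v' l e ∧ s - 1 ≤ latLayer (addVec K0 v) l e then 1 else 0)) ?_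
    (M := M) (le_max_left _ _) hM0
  · rw [patht_retWge_box N (s - 1) K0 hK0 v hM0, patht_retWge_box N (s - 1) _ hK1 v' hM1,
      ← Finset.sum_add_distrib]
    refine le_trans h1 (le_of_eq ?_)
    congr 2
    refine Finset.sum_congr rfl fun x _ => ?_
    push_cast
    ring
  · intro l e hl he hse
    have hq := hQ l e hl
    have hd := path_layerDrop k K0 hK0 v l e hl
    have hd' := path_layerDrop k _ hK1 v' l e hl
    by_cases hret : LatRetained K0 v l e ∧ s - 1 ≤ latLayer K0 l e
    · by_cases hret' : LatRetained (addVec K0 v) v' l e ∧ s - 1 ≤ latLayer (addVec K0 v) l e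
      · simp only [if_pos hret, if_pos hret']; omega
      · simp only [if_pos hret, if_neg hret']
        by_contra hcon
        apply hret'
        refine ⟨⟨?_, ?_⟩, ?_⟩ <;> omega
    · by_cases hret' : LatRetained (addVec K0 v) v' l e ∧ s - 1 ≤ latLayer (addVec K0 v) l e
      · simp only [if_neg hret, if_pos hret']
        by_contra hcon
        apply hret
        refine ⟨⟨?_, ?_⟩, ?_⟩ <;> omega
      · simp only [if_neg hret, if_neg hret']
        by_contra hcon
        by_cases h01 : latLayer (addVec K0 v) l e = latLayer K0 l e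
        · apply hret
          refine ⟨⟨?_, ?_⟩, ?_⟩ <;> omega
        · apply hret'
          refine ⟨⟨?_, ?_⟩, ?_⟩ <;> omega

/-- **A (7.11)**: `W_{s+1}(B) ≤ W_s(C)` for a width-one extension. -/
theorem path_shift1 : StShift1 := by
  intro N m B hB k hk hC hB' s
  have hQ := path_commonQuot path_layerDrop path_indexDet m B hB k 1 (Or.inl rfl) hk hC hB'
  have hpost : postLat B k 1 = addVec (colLat (lead B k)) (leadCol B k k) := by
    simp [postLat, pathb_preLat_zero]
  rw [hpost] at hQ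
  set K0 := colLat (lead B k) with hK0def
  set v := leadCol B k k with hv
  have hK0 : K0.index ≠ 0 := patht_colLat_index_ne_zero hC
  have fB : Finite (DiscGroup (lead B (k + 1))) := pathi_finite_discGroup hB'
  have fC : Finite (DiscGroup (lead B k)) := pathi_finite_discGroup hC
  set M := max (Nat.card (DiscGroup (lead B (k + 1)))) (Nat.card (DiscGroup (lead B k))) with hM
  change tailW (DiscGroup (lead B (k + 1))) N (s + 1) ≤ tailW (DiscGroup (lead B k)) N s
  rw [patht_tailW_box _ (le_max_left _ _ : _ ≤ M), patht_tailW_box _ (le_max_right _ _ : _ ≤ M)]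
  refine Finset.sum_le_sum fun x hx => ?_
  refine mul_le_mul_of_nonneg_right ?_ (pathb_nu_nonneg N x.1)
  have hl := patht_box_prime hx
  have hq := hQ x.1 x.2 hl
  have hd := path_layerDrop k K0 hK0 v x.1 x.2 hl
  have : layer (DiscGroup (lead B (k + 1))) x.1 x.2 - (s + 1) ≤ layer (DiscGroup (lead B k)) x.1 x.2 - s := by
    have e : layer (DiscGroup (lead B k)) x.1 x.2 = latLayer K0 x.1 x.2 := rfl
    omega
  exact_mod_cast this

end Claimed.Agent.R293
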