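/-
R293 / PathTwoCostly.lean  (owner: helper271).  Package PATH, leaf P6: two costly positions
(B (6.15)).  Prefix `pathy`.
-/
import Claimed.Agent.R293.PathCol

set_option autoImplicit false

namespace Claimed.Agent.R293

open Filter
open scoped BigOperators

section One
variable {m : ℕ}

/-- the one-column bound of `StRetCost` at a fixed `N`, with the bound called `c`. -/
def PathyCol (p α c : ℝ) (N : ℕ) : Prop :=
  ∀ (k : ℕ) (C : Matrix (Fin k) (Fin k) ℤ) (K : AddSubgroup (Fin k → ℤ)), LatOK N k C K →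
    SmallInt α (ell N ^ (-(20 : ℝ))) N k C → ∀ ρ : Fin k → ℝ, ColModel p ρ →
      prb ρ {z | scaleSigma N ≤ retW N K (bitVecZ z)} ≤ c

/-- one column test. -/
theorem pathy_col {p α c : ℝ} {N : ℕ} (hp0 : 0 < p) (hp : p ≤ 1 / 2) (hc0 : 0 ≤ c)
    (hcol : PathyCol p α c N) {π : Sym2 (Fin m) → ℝ} (hπ : BitModel p π) {k i : ℕ}
    (hk : InRange N k) (hki : k + i < m) {F : Set (Sym2 (Fin m) → Bool)}
    (hF : pbFreeSet (pathcSet m k (k + i)) F) :
    prb π ({s | (lead (bitMat s) k).det ≠ 0 ∧ SmallInt α (ell N ^ (-(20 : ℝ))) N k (lead (bitMat s) k)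
      ∧ CostlyCol N (bitMat s) k i} ∩ F) ≤ c * prb π F := by
  have hP : IsProbArray π := pb_bitModel_isProbArray hp0.le (by linarith) hπ
  set A := pathcSet m k (k + i) with hA
  set E : Set (Sym2 (Fin m) → Bool) := {s | CostlyCol N (bitMat s) k i} with hE
  set F0 : Set (Sym2 (Fin m) → Bool) := {s | (lead (bitMat s) k).det ≠ 0 ∧
    SmallInt α (ell N ^ (-(20 : ℝ))) N k (lead (bitMat s) k)} with hF0
  have hset : {s | (lead (bitMat s) k).det ≠ 0 ∧
      SmallInt α (ell N ^ (-(20 : ℝ))) N k (lead (bitMat s) k) ∧ CostlyCol N (bitMat s) k i} ∩ F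
      = E ∩ (F0 ∩ F) := by
    ext s
    simp only [hE, hF0, Set.mem_ofPred_eq, Set.mem_inter_iff]
    tauto
  have hfF0 : pbFreeSet A F0 :=
    pathc_freeSet k (Nat.le_add_right k i)
      (fun B => (lead B k).det ≠ 0 ∧ SmallInt α (ell N ^ (-(20 : ℝ))) N k (lead B k))
      (fun C => C.det ≠ 0 ∧ SmallInt α (ell N ^ (-(20 : ℝ))) N k C) fun B => Iff.rfl
  have hcond : ∀ s ∈ F0 ∩ F, prb π {x | pbMix A x s ∈ E} ≤ c := by
    intro s hs
    have hs0 : (lead (bitMat s) k).det ≠ 0 ∧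
      SmallInt α (ell N ^ (-(20 : ℝ))) N k (lead (bitMat s) k) := hs.1
    have h1 : {x | pbMix A x s ∈ E} = {x | x ∘ pathcEmb (Nat.le_add_right k i) hki ∈
        {z | scaleSigma N ≤ retW N (preLat (bitMat s) k i) (bitVecZ z)}} := by
      ext x
      have h2 : preLat (bitMat (pbMix A x s)) k i = preLat (bitMat s) k i := by
        rw [← pathc_preLat_lead _ (le_refl (k + i)), hA, pathc_lead_mix (le_refl (k + i)),
          pathc_preLat_lead _ (le_refl (k + i))]
      simp only [hE, Set.mem_ofPred_eq, CostlyCol, h2]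
      rw [hA, pathc_leadCol_mix (Nat.le_add_right k i) hki]
    rw [h1, pb_prb_comp π (pathcEmb_injective _ _)]
    exact hcol k (lead (bitMat s) k) (preLat (bitMat s) k i)
      ⟨hk, pathb_lead_isBit (pathb_bitMat_isBit s) k, hs0.1, pathb_colLat_le_preLat _ k i⟩ hs0.2 _
      (pathc_colModel hπ _ _)
  rw [hset]
  calc prb π (E ∩ (F0 ∩ F)) ≤ c * prb π (F0 ∩ F) :=
        pb_prb_inter_le hP A E (hfF0.inter hF) hcond
    _ ≤ c * prb π F := mul_le_mul_of_nonneg_left (pb_prb_mono hP Set.inter_subset_right) hc0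

/-- one costly position. -/
theorem pathy_one {p α c : ℝ} {N : ℕ} (hp0 : 0 < p) (hp : p ≤ 1 / 2) (hc0 : 0 ≤ c)
    (hcol : PathyCol p α c N) {π : Sym2 (Fin m) → ℝ} (hπ : BitModel p π) {k wd : ℕ}
    (hk : InRange N k) (hwd : wd ≤ 2) (hkm : k + wd ≤ m) {F : Set (Sym2 (Fin m) → Bool)}
    (hF : ∀ i < wd, pbFreeSet (pathcSet m k (k + i)) F) :
    prb π ({s | CostlyEv α N (bitMat s) k wd} ∩ F) ≤ 2 * c * prb π F := by
  have hP : IsProbArray π := pb_bitModel_isProbArray hp0.le (by linarith) hπ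
  have hsub : {s | CostlyEv α N (bitMat s) k wd} ∩ F ⊆ ⋃ i ∈ Finset.range wd,
      ({s | (lead (bitMat s) k).det ≠ 0 ∧ SmallInt α (ell N ^ (-(20 : ℝ))) N k (lead (bitMat s) k)
      ∧ CostlyCol N (bitMat s) k i} ∩ F) := by
    rintro s ⟨⟨h1, h2, i, hi, h3⟩, hsF⟩
    simp only [Set.mem_iUnion, Finset.mem_range]
    exact ⟨i, hi, ⟨h1, h2, h3⟩, hsF⟩
  have hF0 : 0 ≤ prb π F := pb_prb_nonneg hP F
  calc prb π ({s | CostlyEv α N (bitMat s) k wd} ∩ F)
      ≤ prb π (⋃ i ∈ Finset.range wd,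
      ({s | (lead (bitMat s) k).det ≠ 0 ∧ SmallInt α (ell N ^ (-(20 : ℝ))) N k (lead (bitMat s) k)
      ∧ CostlyCol N (bitMat s) k i} ∩ F)) := pb_prb_mono hP hsub
    _ ≤ (Finset.range wd).card * (c * prb π F) :=
        pb_prb_biUnion_le_card_mul hP _ _ fun i hi =>
          pathy_col hp0 hp hc0 hcol hπ hk (by have := Finset.mem_range.1 hi; omega)
            (hF i (Finset.mem_range.1 hi))
    _ ≤ 2 * (c * prb π F) := by
        rw [Finset.card_range]
        have : (wd : ℝ) ≤ 2 := by exact_mod_cast hwd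
        exact mul_le_mul_of_nonneg_right this (mul_nonneg hc0 hF0)
    _ = 2 * c * prb π F := by ring

/-- two costly positions, non-asymptotic form. -/
theorem pathy_two {p α c : ℝ} {N : ℕ} (hp0 : 0 < p) (hp : p ≤ 1 / 2) (hc0 : 0 ≤ c)
    (hcol : PathyCol p α c N) {π : Sym2 (Fin m) → ℝ} (hπ : BitModel p π) {k wd k' wd' : ℕ}
    (hk : InRange N k) (hk' : InRange N k') (hwd : wd ≤ 2) (hwd' : wd' ≤ 2) (hkk : k + wd ≤ k')
    (hkm : k' + wd' ≤ m) :
    prb π {s | CostlyEv α N (bitMat s) k wd ∧ CostlyEv α N (bitMat s) k' wd'} ≤ (2 * c) ^ 2 := by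
  have hP : IsProbArray π := pb_bitModel_isProbArray hp0.le (by linarith) hπ
  have hset : {s : Sym2 (Fin m) → Bool |
        CostlyEv α N (bitMat s) k wd ∧ CostlyEv α N (bitMat s) k' wd'}
      = {s | CostlyEv α N (bitMat s) k' wd'} ∩ {s | CostlyEv α N (bitMat s) k wd} := by
    ext s
    simp only [Set.mem_ofPred_eq, Set.mem_inter_iff]
    tauto
  have hfree : ∀ i < wd', pbFreeSet (pathcSet m k' (k' + i)) {s | CostlyEv α N (bitMat s) k wd} :=
    fun i _ => pathc_freeSet k' (hkk.trans (Nat.le_add_right k' i))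
      (fun B => CostlyEv α N B k wd) (fun C => CostlyEv α N C k wd)
      fun B => (pathc_costlyEv_lead α N B le_rfl).symm
  have h1 := pathy_one hp0 hp hc0 hcol hπ hk' hwd' hkm hfree
  have h2 := pathy_one hp0 hp hc0 hcol hπ hk hwd (by omega)
    (F := Set.univ) fun i _ => pbFreeSet_univ _
  rw [Set.inter_univ] at h2
  have h3 : prb π (Set.univ : Set (Sym2 (Fin m) → Bool)) ≤ 1 := pb_prb_le_one hP _
  rw [hset, sq]
  calc prb π ({s | CostlyEv α N (bitMat s) k' wd'} ∩ {s | CostlyEv α N (bitMat s) k wd})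
      ≤ 2 * c * prb π {s | CostlyEv α N (bitMat s) k wd} := h1
    _ ≤ 2 * c * (2 * c * prb π Set.univ) := mul_le_mul_of_nonneg_left h2 (by positivity)
    _ ≤ 2 * c * (2 * c * 1) := by gcongr
    _ = _ := by ring

end One

/-- **B (6.15).** -/
theorem path_twoCostly (hRC : StRetCost) : StTwoCostly := by
  intro p hp0 hp e0 he0 α hα0 hαe hα1
  have hev := hRC p hp0 hp α hα0 hα1 (e0 / 2) (by positivity)
  filter_upwards [hev, eventually_ge_atTop ⌈2 / e0⌉₊] with N hN hNbig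
  intro m π hπ k wd k' wd' hk hk' _ h2 _ h2' hkk hkm
  have hNr : 2 / e0 ≤ (N : ℝ) := (Nat.le_ceil _).trans (by exact_mod_cast hNbig)
  have hNe : 2 ≤ e0 * N := by
    rw [div_le_iff₀ he0] at hNr
    linarith
  have hmain := pathy_two (c := (2 : ℝ) ^ (-((cA p - α - e0 / 2) * N))) hp0 hp (by positivity)
    hN hπ hk hk' h2 h2' hkk hkm
  refine hmain.trans ?_
  have hN0 : (0 : ℝ) ≤ N := Nat.cast_nonneg N
  have h3 : 2 * (2 : ℝ) ^ (-((cA p - α - e0 / 2) * N)) ≤ (2 : ℝ) ^ (-((cA p - 2 * e0) * N)) := by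
    calc 2 * (2 : ℝ) ^ (-((cA p - α - e0 / 2) * N))
        = (2 : ℝ) ^ (1 + -((cA p - α - e0 / 2) * N)) := by
          rw [Real.rpow_add (by norm_num), Real.rpow_one]
      _ ≤ (2 : ℝ) ^ (-((cA p - 2 * e0) * N)) := by
          apply Real.rpow_le_rpow_of_exponent_le (by norm_num)
          nlinarith
  exact pow_le_pow_left₀ (by positivity) h3 2

end Claimed.Agent.R293
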