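/-
R293 / PathWindow.lean  (owner: helper136).  PATH-P5: the terminal-window alternative (B Lemma 6.7).  Prefix `patho`.  No sorry.
-/
import Claimed.Agent.R293.PathAsymp

set_option autoImplicit false

namespace Claimed.Agent.R293

open Filter

/-! ### the abstract lemma on real sequences -/

/-- hypotheses of the abstract window lemma. -/
structure PathoSys (H R : ℕ) (σ η : ℝ) (W : ℕ → ℕ → ℝ) (wd : ℕ → ℕ) (cost : ℕ → Prop) : Prop where
  sig : 0 ≤ σ
  wd12 : ∀ u < H, wd u = 1 ∨ wd u = 2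
  anti : ∀ t s s', s ≤ s' → W s' t ≤ W s t
  step : ∀ u < H, ¬ cost u → ∀ s, wd u ≤ s → W s (u + 1) ≤ W (s + wd u) u + 4 * σ
  shift : ∀ u < H, wd u = 1 → ∀ s, W (s + 1) (u + 1) ≤ W s u
  win : ∀ t, H ≤ t + 5 * R → t ≤ H → W R t ≤ η

variable {H R : ℕ} {σ η : ℝ} {W : ℕ → ℕ → ℝ} {wd : ℕ → ℕ} {cost : ℕ → Prop}

/-- going back over `j` noncostly steps raises the threshold by at least `j`. -/
theorem patho_back (h : PathoSys H R σ η W wd cost) (j : ℕ) :
    ∀ t s : ℕ, 2 ≤ s → j ≤ t → t ≤ H → (∀ u, t ≤ u + j → u < t → ¬ cost u) →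
      W s t ≤ W (s + j) (t - j) + 4 * j * σ := by
  induction j with
  | zero => intro t s _ _ _ _; simp
  | succ j ih =>
    intro t s hs hjt htH hc
    obtain ⟨t', rfl⟩ : ∃ t', t = t' + 1 := ⟨t - 1, by omega⟩
    have hu : t' < H := by omega
    have hw := h.wd12 t' hu
    have h1 := h.step t' hu (hc t' (by omega) (by omega)) s (by rcases hw with hw | hw <;> omega)
    have h2 : W (s + wd t') t' ≤ W (s + 1) t' := h.anti _ _ _ (by rcases hw with hw | hw <;> omega)
    have h3 := ih t' (s + 1) (by omega) (by omega) (by omega)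
      (fun u hu1 hu2 => hc u (by omega) (by omega))
    have e1 : s + 1 + j = s + (j + 1) := by omega
    have e2 : t' + 1 - (j + 1) = t' - j := by omega
    rw [e1] at h3
    rw [e2]
    push_cast
    linarith

/-- the end of a block of `R` noncostly steps inside the window has `W_2 ≤ η + 4 R σ`. -/
theorem patho_block (h : PathoSys H R σ η W wd cost) {t : ℕ} (hRt : R ≤ t) (htH : t ≤ H)
    (hwin : H + R ≤ t + 5 * R) (hc : ∀ u, t ≤ u + R → u < t → ¬ cost u) :
    W 2 t ≤ η + 4 * R * σ := by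
  have h1 := patho_back h R t 2 le_rfl hRt htH hc
  have h2 : W (2 + R) (t - R) ≤ W R (t - R) := h.anti _ _ _ (by omega)
  have h3 := h.win (t - R) (by omega) (by omega)
  linarith

/-- `j` noncostly steps increase `W_2` by at most `4 j σ`. -/
theorem patho_forward (h : PathoSys H R σ η W wd cost) (j : ℕ) :
    ∀ t : ℕ, t + j ≤ H → (∀ u, t ≤ u → u < t + j → ¬ cost u) →
      W 2 (t + j) ≤ W 2 t + 4 * j * σ := by
  induction j with
  | zero => intro t _ _; simp
  | succ j ih =>
    intro t ht hc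
    have hu : t + j < H := by omega
    have hw := h.wd12 (t + j) hu
    have h1 := h.step (t + j) hu (hc _ (by omega) (by omega)) 2 (by rcases hw with hw | hw <;> omega)
    have h2 : W (2 + wd (t + j)) (t + j) ≤ W 2 (t + j) := h.anti _ _ _ (by omega)
    have h3 := ih t (by omega) (fun u hu1 hu2 => hc u hu1 (by omega))
    have e : t + (j + 1) = t + j + 1 := by omega
    rw [e]
    push_cast
    linarith

/-- **abstract form of B Lemma 6.7.** -/
theorem patho_abstract (h : PathoSys H R σ η W wd cost) {ζ : ℝ} (hR : 1 ≤ R) (hRH : 5 * R ≤ H)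
    (hζ : η + 8 * R * σ < ζ) (hterm : ζ < W 2 H) :
    (∃ r t : ℕ, H ≤ r + 5 * R ∧ r < t ∧ t < H ∧ cost r ∧ cost t) ∨
      (∃ t : ℕ, H ≤ t + 5 * R ∧ t < H ∧ wd t = 2 ∧ W 2 t ≤ ζ) := by
  classical
  by_contra hcon
  rw [not_or] at hcon
  obtain ⟨hno2, hnow⟩ := hcon
  have hσ := h.sig
  have hRσ : 0 ≤ (R : ℝ) * σ := mul_nonneg (Nat.cast_nonneg R) hσ
  -- uniqueness of the costly step in the window
  have huniq : ∀ r t : ℕ, H ≤ r + 5 * R → r < H → H ≤ t + 5 * R → t < H → cost r → cost t → r = t := by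
    intro r t hr1 hr2 ht1 ht2 hcr hct
    by_contra hne
    rcases lt_or_gt_of_ne hne with hlt | hlt
    · exact hno2 ⟨r, t, hr1, hlt, ht2, hcr, hct⟩
    · exact hno2 ⟨t, r, ht1, hlt, hr2, hct, hcr⟩
  by_cases hex : ∃ c, H ≤ c + R ∧ c < H ∧ cost c
  · obtain ⟨c, hc1, hc2, hcc⟩ := hex
    have hother : ∀ u, H ≤ u + 5 * R → u < H → u ≠ c → ¬ cost u := by
      intro u hu1 hu2 hne hcu
      exact hne (huniq u c hu1 hu2 (by omega) hc2 hcu hcc)
    have hb1 : W 2 c ≤ η + 4 * R * σ :=
      patho_block h (by omega) (by omega) (by omega)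
        (fun u hu1 hu2 => hother u (by omega) (by omega) (by omega))
    have hb2 : W 2 (c - 1) ≤ η + 4 * R * σ :=
      patho_block h (by omega) (by omega) (by omega)
        (fun u hu1 hu2 => hother u (by omega) (by omega) (by omega))
    have hw1 : wd c = 1 := by
      rcases h.wd12 c hc2 with hw | hw
      · exact hw
      · exact absurd ⟨c, by omega, hc2, hw, by nlinarith⟩ hnow
    have hw2 : wd (c - 1) = 1 := by
      rcases h.wd12 (c - 1) (by omega) with hw | hw
      · exact hw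
      · exact absurd ⟨c - 1, by omega, by omega, hw, by nlinarith⟩ hnow
    have hs1 := h.step (c - 1) (by omega) (hother (c - 1) (by omega) (by omega) (by omega)) 1
      (by omega)
    have e1 : c - 1 + 1 = c := by omega
    rw [e1, hw2] at hs1
    have hs2 := h.shift c hc2 hw1 1
    have hs3 := patho_forward h (H - (c + 1)) (c + 1) (by omega)
      (fun u hu1 hu2 => hother u (by omega) (by omega) (by omega))
    have e2 : c + 1 + (H - (c + 1)) = H := by omega
    rw [e2] at hs3
    have hcnt : ((H - (c + 1) : ℕ) : ℝ) ≤ (R : ℝ) - 1 := by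
      have : H - (c + 1) + 1 ≤ R := by omega
      have h' : ((H - (c + 1) + 1 : ℕ) : ℝ) ≤ (R : ℝ) := by exact_mod_cast this
      push_cast at h'
      linarith
    have hmul : 4 * ((H - (c + 1) : ℕ) : ℝ) * σ ≤ 4 * ((R : ℝ) - 1) * σ := by
      apply mul_le_mul_of_nonneg_right _ hσ
      linarith
    norm_num at hs1 hs2
    nlinarith
  · push Not at hex
    have hb := patho_block h (t := H) (by omega) le_rfl (by omega)
      (fun u hu1 hu2 => hex u hu1 hu2)
    nlinarith

/-! ### asymptotics -/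

theorem patho_ell_tendsto : Tendsto (fun N : ℕ => ell N) atTop atTop :=
  Real.tendsto_log_atTop.comp (Real.tendsto_log_atTop.comp tendsto_natCast_atTop_atTop)

theorem patho_scaleR_tendsto : Tendsto (fun N : ℕ => (scaleR N : ℝ)) atTop atTop := by
  refine tendsto_atTop_mono (fun N => patha_scaleR_ge N) ?_
  exact (tendsto_pow_atTop (by norm_num)).comp patho_ell_tendsto

theorem patho_scaleSigma_nonneg (N : ℕ) : 0 ≤ scaleSigma N := by
  unfold scaleSigma
  positivity

/-- `R σ ≤ 1 / R`. -/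
theorem patho_R_mul_sigma_le {N : ℕ} (h : 1 ≤ scaleR N) :
    (scaleR N : ℝ) * scaleSigma N ≤ 1 / (scaleR N : ℝ) := by
  have h1 : (1 : ℝ) ≤ (scaleR N : ℝ) := by exact_mod_cast h
  have h0 : (0 : ℝ) < (scaleR N : ℝ) := by linarith
  unfold scaleSigma
  rw [← div_eq_mul_inv, div_le_div_iff₀ (by positivity) h0]
  have h4 : (1 : ℝ) ≤ (scaleR N : ℝ) ^ 4 := one_le_pow₀ h1
  nlinarith [mul_pos h0 h0]

theorem patho_ev_small {c : ℝ} (hc : 0 < c) :
    ∀ᶠ N : ℕ in atTop, 1 ≤ scaleR N ∧ 8 * (scaleR N : ℝ) * scaleSigma N < c := by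
  filter_upwards [patho_scaleR_tendsto.eventually_gt_atTop (8 / c + 1)] with N hN
  have h8 : 0 < 8 / c := by positivity
  have h1 : 1 ≤ scaleR N := by
    have : (1 : ℝ) < (scaleR N : ℝ) := by linarith
    exact_mod_cast this.le
  refine ⟨h1, ?_⟩
  have h2 := patho_R_mul_sigma_le h1
  have h0 : (0 : ℝ) < (scaleR N : ℝ) := by linarith
  have h3 : 8 / (scaleR N : ℝ) < c := by
    rw [div_lt_iff₀ h0]
    have : 8 / c < (scaleR N : ℝ) := by linarith
    rw [div_lt_iff₀ hc] at this
    linarith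
  calc 8 * (scaleR N : ℝ) * scaleSigma N = 8 * ((scaleR N : ℝ) * scaleSigma N) := by ring
    _ ≤ 8 * (1 / (scaleR N : ℝ)) := by linarith
    _ = 8 / (scaleR N : ℝ) := by ring
    _ < c := h3

theorem patho_ev_window : ∀ᶠ N : ℕ in atTop, 5 * scaleR N ≤ pathLen N := by
  filter_upwards [patha_log_le (c := 1 / 3) (r := 3 / 10) (by norm_num) (by norm_num),
    patho_ell_tendsto.eventually_ge_atTop 1, eventually_ge_atTop 3] with N hlog hell hN
  have hR := patha_scaleR_le hell
  have hNpos : (0 : ℝ) ≤ (N : ℝ) := Nat.cast_nonneg N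
  have hl0 : 0 < Real.log N := by
    by_contra hcon
    have h0 : Real.log N ≤ 0 := not_lt.1 hcon
    have : ell N ≤ 0 := by
      unfold ell
      rcases eq_or_lt_of_le h0 with h | h
      · rw [h]; simp
      · have hN1 : (1 : ℝ) ≤ (N : ℝ) := by exact_mod_cast (by omega : 1 ≤ N)
        have := Real.log_nonneg hN1
        linarith
    linarith
  have hle : ell N ≤ Real.log N := by
    unfold ell
    have := Real.log_le_sub_one_of_pos hl0
    linarith
  have hsq : ell N ^ 2 ≤ (1 / 9) * (N : ℝ) ^ ((3 : ℝ) / 5) := by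
    have h1 : ell N ≤ 1 / 3 * (N : ℝ) ^ ((3 : ℝ) / 10) := hle.trans hlog
    have h2 : ell N ^ 2 ≤ (1 / 3 * (N : ℝ) ^ ((3 : ℝ) / 10)) ^ 2 :=
      pow_le_pow_left₀ (by linarith) h1 2
    have h3 : ((N : ℝ) ^ ((3 : ℝ) / 10)) ^ 2 = (N : ℝ) ^ ((3 : ℝ) / 5) := by
      rw [← Real.rpow_natCast, ← Real.rpow_mul hNpos]
      norm_num
    calc ell N ^ 2 ≤ (1 / 3 * (N : ℝ) ^ ((3 : ℝ) / 10)) ^ 2 := h2
      _ = (1 / 9) * ((N : ℝ) ^ ((3 : ℝ) / 10)) ^ 2 := by ring
      _ = (1 / 9) * (N : ℝ) ^ ((3 : ℝ) / 5) := by rw [h3]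
  have hP : 2 * (N : ℝ) ^ ((3 : ℝ) / 5) ≤ (pathLen N : ℝ) := by
    unfold pathLen
    push_cast
    have := Nat.le_ceil ((N : ℝ) ^ ((3 : ℝ) / 5))
    linarith
  have hpos : 0 ≤ (N : ℝ) ^ ((3 : ℝ) / 5) := Real.rpow_nonneg hNpos _
  have : ((5 * scaleR N : ℕ) : ℝ) ≤ (pathLen N : ℝ) := by
    push_cast
    linarith
  exact_mod_cast this

/-! ### instantiation -/

section Inst
variable {m H : ℕ}

theorem patho_det_succ {B : Matrix (Fin m) (Fin m) ℤ} {w : Fin H → Bool} (hm : 2 * H ≤ m)
    (hdet : ∀ t ≤ H, (node B w t).det ≠ 0) {u : ℕ} (hu : u < H) :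
    (lead B (nodeSize m w u + wdt w u)).det ≠ 0 := by
  have h := hdet (u + 1) hu
  unfold node at h
  rw [pathb_nodeSize_succ w hm hu] at h
  exact h

theorem patho_size_succ_le (w : Fin H → Bool) (hm : 2 * H ≤ m) {u : ℕ} (hu : u < H) :
    nodeSize m w u + wdt w u ≤ m := by
  rw [← pathb_nodeSize_succ w hm hu]
  exact pathb_nodeSize_le m w (u + 1)

theorem patho_sys (h1 : StTail1) (h2 : StTail2) (h3 : StShift1) (N : ℕ) {η : ℝ}
    {B : Matrix (Fin m) (Fin m) ℤ} (hB : IsBitMatrix B) (w : Fin H → Bool) (hm : 2 * H ≤ m)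
    (hdet : ∀ t ≤ H, (node B w t).det ≠ 0)
    (hwin : ∀ t : ℕ, H ≤ t + 5 * scaleR N → t ≤ H → matW N (scaleR N) (node B w t) ≤ η) :
    PathoSys H (scaleR N) (scaleSigma N) η (fun s t => matW N s (node B w t)) (wdt w)
      (fun u => Costly N B (nodeSize m w u) (wdt w u)) where
  sig := patho_scaleSigma_nonneg N
  wd12 := fun u hu => pathb_wdt_of_lt w hu
  anti := fun t s s' hs => pathb_tailW_anti _ N hs
  step := by
    intro u hu hnc s hs
    have hd0 : (lead B (nodeSize m w u)).det ≠ 0 := hdet u hu.le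
    have hd1 := patho_det_succ hm hdet hu
    have hle := patho_size_succ_le w hm hu
    have hσ := patho_scaleSigma_nonneg N
    have hcol : ∀ i < wdt w u, retW N (preLat B (nodeSize m w u) i)
        (leadCol B (nodeSize m w u) (nodeSize m w u + i)) < scaleSigma N := by
      intro i hi
      by_contra hcon
      exact hnc ⟨i, hi, not_lt.1 hcon⟩
    show matW N s (lead B (nodeSize m w (u + 1))) ≤ matW N (s + wdt w u) (lead B (nodeSize m w u)) + _
    rw [pathb_nodeSize_succ w hm hu]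
    rcases pathb_wdt_of_lt w hu with hw | hw
    · rw [hw] at hd1 hle hs hcol ⊢
      have key := h1 N m B hB.1 (nodeSize m w u) hle hd0 hd1 s hs
      have c0 := hcol 0 (by omega)
      have r0 := pathb_retWge_le_retW N s (preLat B (nodeSize m w u) 0)
        (leadCol B (nodeSize m w u) (nodeSize m w u))
      rw [add_zero] at c0
      linarith
    · rw [hw] at hd1 hle hs hcol ⊢
      have key := h2 N m B hB.1 (nodeSize m w u) hle hd0 hd1 s hs
      have c0 := hcol 0 (by omega)
      have c1 := hcol 1 (by omega)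
      have r0 := pathb_retWge_le_retW N (s - 1) (preLat B (nodeSize m w u) 0)
        (leadCol B (nodeSize m w u) (nodeSize m w u))
      have r1 := pathb_retWge_le_retW N (s - 1) (preLat B (nodeSize m w u) 1)
        (leadCol B (nodeSize m w u) (nodeSize m w u + 1))
      rw [add_zero] at c0
      linarith
  shift := by
    intro u hu hw s
    have hd0 : (lead B (nodeSize m w u)).det ≠ 0 := hdet u hu.le
    have hd1 := patho_det_succ hm hdet hu
    have hle := patho_size_succ_le w hm hu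
    show matW N (s + 1) (lead B (nodeSize m w (u + 1))) ≤ matW N s (lead B (nodeSize m w u))
    rw [pathb_nodeSize_succ w hm hu]
    rw [hw] at hd1 hle ⊢
    exact h3 N m B hB.1 (nodeSize m w u) hle hd0 hd1 s
  win := hwin

end Inst

theorem path_window (h1 : StTail1) (h2 : StTail2) (h3 : StShift1) : StWindow := by
  intro ζ hζ η hη hηζ
  filter_upwards [patha_pathLen_fit 2 1, patho_ev_window,
    patho_ev_small (c := ζ - η) (by linarith)] with N e1 e2 e3
  intro m hm B hB w hdet hwin hterm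
  have hm2 : 2 * pathLen N ≤ m := by omega
  exact patho_abstract (patho_sys h1 h2 h3 N hB w hm2 hdet hwin) e3.1 e2 (by linarith [e3.2]) hterm

end Claimed.Agent.R293
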