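/-
R293 / PathAll.lean  (owner: helper144).  Final glue of the package PATH:
`StColumn` (B Proposition 2.5) from `StSmallInt` (INT), `StPrimeCorank` (TYP), `StStatic` (PAIR).
-/
import Claimed.Agent.R293.PathMain
import Claimed.Agent.R293.PathFixed
import Claimed.Agent.R293.PathNodes
import Claimed.Agent.R293.PathExists
import Claimed.Agent.R293.PathCount
import Claimed.Agent.R293.PathWindow
import Claimed.Agent.R293.PathHigh
import Claimed.Agent.R293.PathMoment
import Claimed.Agent.R293.PathHeavyCost
import Claimed.Agent.R293.PathHeavyCover
import Claimed.Agent.R293.PathPattern
import Claimed.Agent.R293.PathRetLat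
import Claimed.Agent.R293.PathDissoc
import Claimed.Agent.R293.PathTwoCostly
import Claimed.Agent.R293.PathGate
import Claimed.Agent.R293.PathTail
import Claimed.Agent.R293.PathIndex
import Claimed.Agent.R293.PathLayer
import Claimed.Agent.R293.PathRetCost
import Claimed.Agent.R293.PathRetCover
import Claimed.Agent.R293.PathHighDet

set_option autoImplicit false

namespace Claimed.Agent.R293

theorem path_smallPattern' : StSmallPattern :=
  path_smallPattern path_layerAnti path_layerDrop path_layerTotal path_indexDet path_hadamardBit

theorem path_heavyCover' : StHeavyCover :=
  path_heavyCover path_smallPattern' path_layerTotal path_indexDet path_hadamardBit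

theorem path_heavyCost' : StHeavyCost :=
  path_heavyCost path_heavyCover' path_retLat (path_dissoc path_indexDet)

theorem path_heavyMoment' : StHeavyMoment :=
  path_heavyMoment (path_heavyMoment1 path_heavyCost' path_layerTotal path_indexDet path_hadamardBit)

theorem path_window' : StWindow := path_window path_tail1 path_tail2 path_shift1

/-- the package PATH, modulo the two leaves still in progress. -/
theorem path_all_of (hRC : StRetCost) (hHD : StHighTailDet)
    (hSI : StSmallInt) (hPC : StPrimeCorank) (hSt : StStatic) : StColumn :=
  path_column hSI hPC hSt (path_typicalNodes path_count)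
    (path_fixedPath (path_highTail path_heavyMoment' hHD) path_window' (path_twoCostly hRC)
      path_gateCost)
    path_exists path_count path_admPerm

theorem path_retCost' : StRetCost :=
  path_retCost (path_retCover path_smallPattern' path_layerTotal path_indexDet path_hadamardBit)
    path_retLat

theorem path_highTailDet' : StHighTailDet :=
  path_highTailDet path_tail1 path_tail2 (path_layerCorank path_layerAnti)

/-- **THE PACKAGE PATH** (B Section 6): B Proposition 2.5 from B Theorem 4.1, B Lemma 3.1 and B Proposition 5.1. -/
theorem path_all (hSI : StSmallInt) (hPC : StPrimeCorank) (hSt : StStatic) : StColumn :=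
  path_all_of path_retCost' path_highTailDet' hSI hPC hSt

end Claimed.Agent.R293
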