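/-
R293 / RedIface.lean  (drafted by helper79 for the RED package; owner of RED: helper26).
Interface statements of paper B, Section 2 (reduction of `StUpper` to the column estimate `StColumn`).
Definitions and `def St… : Prop` only, no sorry.
-/
import Claimed.Agent.R293.Iface

set_option autoImplicit false

namespace Claimed.Agent.R293

open Finset Filter

/-- law of the symmetric sign model: every unordered pair is `+1` with probability `p`. -/
abbrev sgnLaw (p : ℝ) (n : ℕ) : Sym2 (Fin n) → ℝ := fun _ => p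

variable {n : ℕ}

/-- `v` is a real kernel vector of the sign matrix of `s`. -/
def IsKer (s : Sym2 (Fin n) → Bool) (v : Fin n → ℝ) : Prop := (toR (sgnMat s)).mulVec v = 0

/-- `a` is an anchor of `v`: a coordinate of largest absolute value. -/
def IsAnchor (v : Fin n → ℝ) (a : Fin n) : Prop := ∀ i, |v i| ≤ |v a|

/-- the off-anchor part (the tail) has Euclidean norm one. -/
def TailNormed (v : Fin n → ℝ) (a : Fin n) : Prop := ∑ i ∈ univ.erase a, v i ^ 2 = 1

/-- number of positive entries of row `i`. -/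
def rowCount (s : Sym2 (Fin n) → Bool) (i : Fin n) : ℕ := (univ.filter fun j => s s(i, j) = true).card

/-- corank exactly one. -/
def redCorankOne (n : ℕ) : Set (Sym2 (Fin n) → Bool) := {s | (toR (sgnMat s)).rank + 1 = n}

/-- B Lemma 2.2 event: some kernel vector has, for some anchor, a normalised tail within `δ` of a vector
supported on at most `λ n` coordinates (equivalently: the mass outside some such `T` is `≤ δ²`). -/
def redComp (lam del : ℝ) (n : ℕ) : Set (Sym2 (Fin n) → Bool) :=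
  {s | ∃ (v : Fin n → ℝ) (a : Fin n), IsKer s v ∧ IsAnchor v a ∧ TailNormed v a ∧
    ∃ T : Finset (Fin n), a ∉ T ∧ (T.card : ℝ) ≤ lam * n ∧ ∑ i ∈ (univ.erase a) \ T, v i ^ 2 ≤ del ^ 2}

/-- B Lemma 2.6 event: at least `ρ n` rows have a number of positive entries outside `[pn - wn, pn + wn]`. -/
def redBadRows (rho w p : ℝ) (n : ℕ) : Set (Sym2 (Fin n) → Bool) :=
  {s | rho * n ≤ ((univ.filter fun i : Fin n => w * n < |(rowCount s i : ℝ) - p * n|).card : ℝ)}

/-- event for a fixed anchor `a` and deletion index `i`: corank one, row `i` has a typical count,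
and the kernel vector (anchor `a`, normalised tail) has `|v_i| ≥ c/√n`. -/
def redCol (c w p : ℝ) (n : ℕ) (a i : Fin n) : Set (Sym2 (Fin n) → Bool) :=
  {s | (toR (sgnMat s)).rank + 1 = n ∧ |(rowCount s i : ℝ) - p * n| ≤ w * n ∧
    ∃ v : Fin n → ℝ, IsKer s v ∧ IsAnchor v a ∧ TailNormed v a ∧ c ^ 2 / n ≤ v i ^ 2}

/-- **B Lemma 2.1** (reduction to corank one). -/
def StRedCorank : Prop :=
  ∀ p : ℝ, 0 < p → p ≤ 1 / 2 → ∀ ε : ℝ, 0 < ε → ∀ A0 : ℝ, ∀ᶠ n : ℕ in atTop,
    sgnProb p n ≤ (2 : ℝ) ^ (ε * n) * prb (sgnLaw p n) (redCorankOne n) + (2 : ℝ) ^ (-(A0 * n))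

/-- **B Lemma 2.2** (tails close to sparse vectors). -/
def StRedComp : Prop :=
  ∀ p : ℝ, 0 < p → p ≤ 1 / 2 → ∀ ε : ℝ, 0 < ε → ∃ lam del : ℝ, 0 < lam ∧ lam < 1 / 4 ∧ 0 < del ∧ del < 1 / 4 ∧
    ∀ᶠ n : ℕ in atTop, prb (sgnLaw p n) (redComp lam del n) ≤ (2 : ℝ) ^ (-((cD p - ε) * n))

/-- **B Lemma 2.6** (row counts). -/
def StRedRows : Prop :=
  ∀ p : ℝ, 0 < p → p ≤ 1 / 2 → ∀ rho : ℝ, 0 < rho → ∀ w : ℝ, 0 < w → ∀ A0 : ℝ, ∀ᶠ n : ℕ in atTop,
    prb (sgnLaw p n) (redBadRows rho w p n) ≤ (2 : ℝ) ^ (-(A0 * n))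

/-- deterministic covering of the corank-one event (first half of the proof of B Theorem 1.1). -/
def StRedCover : Prop :=
  ∀ (p lam del c w : ℝ), 0 < lam → 0 < c → c ≤ del → ∀ n : ℕ,
    redCorankOne n ⊆ redComp lam del n ∪ redBadRows (lam / 4) w p n ∪
      ⋃ (a : Fin n) (i : Fin n) (_ : a ≠ i), redCol c w p n a i

/-- **B Lemma 2.3 + column step** (second half of the proof of B Theorem 1.1): for a fixed anchor and a fixed
deletion index, conditionally on the anchor row the Schur complement is a bit-model matrix, the deleted column is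
admissible with `L₀ = max 1 (2/c)` and has point probability `≤ 2^{-(h_* - C_p w) n}`. -/
def StRedCol : Prop :=
  ∀ p : ℝ, 0 < p → p ≤ 1 / 2 → ∀ c : ℝ, 0 < c → ∃ e1 : ℝ, 0 < e1 ∧ ∀ e0 : ℝ, 0 < e0 → e0 ≤ e1 →
    ∀ w : ℝ, 0 < w → ∀ η : ℝ, 0 < η → ∀ᶠ n : ℕ in atTop, ∀ a i : Fin n, a ≠ i →
      prb (sgnLaw p n) (redCol c w p n a i) ≤
        (2 : ℝ) ^ (-((cH p - e0 - Real.logb 2 ((1 - p) / p) * w - η) * n))
          + (2 : ℝ) ^ (-((2 * cA p - 10 * e0 - η) * n))

/-
GLUE (leaves of RED):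
  RED-1  red_corank  : StRedCorank
  RED-2  red_comp    : StRedComp          (largest: operator norm via Hoeffding + net; nets; two-sign / Esseen concentration; rows independent)
  RED-3  red_rows    : StRedRows
  RED-4  red_cover   : StRedCover
  RED-5  red_col     : StColumn → StRedCol
  RED-6  red_upper   : StRedCorank → StRedComp → StRedRows → StRedCover → StRedCol → StUpper     (needs cD ≤ cH, cD ≤ 2 cA)
-/

end Claimed.Agent.R293
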