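/-
R293 / RedColDet.lean  (owner: helper26).  RED-5, part 1: the deterministic half of paper B, Lemma 2.3 and of the
column step.  For a sign pattern `s` on `Sym2 (Fin n)`, an anchor index `a`, a deletion index `i` and an enumeration
`φ : Fin m → Fin n` of the other indices, the transformed bits
`M_{jk} = (1 - t u_j u_k A_{jk}) / 2` (`t = A_{aa}`, `u_j = A_{aj}`) are obtained from the bits of `s` by a xor with a mask
that only depends on the anchor row.  If `A` has corank one and a kernel vector `v` with `v_i ≠ 0`, then the minor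
`B = M[φ, φ]` is nonsingular, `B⁻¹ z = - y_rest / y_i` for the column `z = M[φ, i]`, and `zᵀ B⁻¹ z ∈ {0, 1}`.
Prefix `redl`.
-/
import Claimed.Agent.R293.RedIface

set_option autoImplicit false

namespace Claimed.Agent.R293

open Finset

variable {m n : ℕ}

/-! ### The transformed bits -/

/-- the mask of the sign-to-bit congruence: `true` iff `t u_j u_k = 1`; it only reads the anchor row. -/
def redlMask (s : Sym2 (Fin n) → Bool) (a : Fin n) (e : Sym2 (Fin n)) : Bool :=
  xor (s s(a, a)) (Sym2.lift ⟨fun j k => xor (s s(a, j)) (s s(a, k)), fun _ _ => Bool.xor_comm _ _⟩ e)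

theorem redlMask_mk (s : Sym2 (Fin n) → Bool) (a j k : Fin n) :
    redlMask s a s(j, k) = xor (s s(a, a)) (xor (s s(a, j)) (s s(a, k))) := rfl

/-- all transformed bits. -/
def redlBit (s : Sym2 (Fin n) → Bool) (a : Fin n) (e : Sym2 (Fin n)) : Bool := xor (s e) (redlMask s a e)

/-- the bits of the minor `B`. -/
def redlY (φ : Fin m → Fin n) (a : Fin n) (s : Sym2 (Fin n) → Bool) : Sym2 (Fin m) → Bool :=
  fun e => redlBit s a (e.map φ)

/-- the bits of the deleted column `z`. -/
def redlZ (φ : Fin m → Fin n) (a i : Fin n) (s : Sym2 (Fin n) → Bool) : Fin m → Bool :=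
  fun k => redlBit s a s(i, φ k)

/-- symmetric matrices with entries `±1`. -/
structure RedlSign (A : Matrix (Fin n) (Fin n) ℝ) : Prop where
  sq : ∀ j k, A j k * A j k = 1
  symm : ∀ j k, A j k = A k j

theorem redl_toR_sgnMat (s : Sym2 (Fin n) → Bool) (j k : Fin n) :
    toR (sgnMat s) j k = if s s(j, k) then 1 else -1 := by
  simp only [toR, sgnMat, Matrix.map_apply]
  split_ifs <;> simp

theorem redl_sign (s : Sym2 (Fin n) → Bool) : RedlSign (toR (sgnMat s)) where
  sq j k := by
    rw [redl_toR_sgnMat]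
    split_ifs <;> norm_num
  symm j k := by
    rw [redl_toR_sgnMat, redl_toR_sgnMat, Sym2.eq_swap]

/-- the transformed entry `M_{jk} = (1 - t u_j u_k A_{jk}) / 2`. -/
noncomputable def redlM (A : Matrix (Fin n) (Fin n) ℝ) (a j k : Fin n) : ℝ :=
  (1 - A a a * A a j * A a k * A j k) / 2

theorem redl_bit_eq (s : Sym2 (Fin n) → Bool) (a j k : Fin n) :
    (if redlBit s a s(j, k) then (1 : ℝ) else 0) = redlM (toR (sgnMat s)) a j k := by
  rw [redlBit, redlMask_mk, redlM]
  simp only [redl_toR_sgnMat]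
  cases s s(a, a) <;> cases s s(a, j) <;> cases s s(a, k) <;> cases s s(j, k) <;> norm_num

theorem redl_toR_bitMat (φ : Fin m → Fin n) (a : Fin n) (s : Sym2 (Fin n) → Bool) (j k : Fin m) :
    toR (bitMat (redlY φ a s)) j k = redlM (toR (sgnMat s)) a (φ j) (φ k) := by
  rw [← redl_bit_eq]
  simp only [toR, bitMat, Matrix.map_apply, redlY, Sym2.map_mk]
  by_cases h : redlBit s a s(φ j, φ k) = true <;> simp [h]

theorem redl_bitVec (φ : Fin m → Fin n) (a i : Fin n) (s : Sym2 (Fin n) → Bool) (k : Fin m) :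
    bitVec (redlZ φ a i s) k = redlM (toR (sgnMat s)) a i (φ k) := by
  rw [← redl_bit_eq]
  rfl

theorem redlM_diag (s : Sym2 (Fin n) → Bool) (a j : Fin n) :
    redlM (toR (sgnMat s)) a j j = 0 ∨ redlM (toR (sgnMat s)) a j j = 1 := by
  rw [← redl_bit_eq]
  split_ifs <;> simp

/-! ### Linear algebra of the congruence -/

section LinAlg

variable {A : Matrix (Fin n) (Fin n) ℝ}

theorem redlM_comm (hA : RedlSign A) (a j k : Fin n) : redlM A a j k = redlM A a k j := by
  rw [redlM, redlM, hA.symm j k]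
  ring

theorem redlM_anchor (hA : RedlSign A) (a j : Fin n) : redlM A a j a = 0 := by
  rw [redlM, hA.symm j a]
  have h1 := hA.sq a a
  have h2 := hA.sq a j
  linear_combination (-(1 : ℝ) / 2) * h1 * (A a j * A a j) - (1 : ℝ) / 2 * h2

/-- **Key identity**: `∑_k M_{rk} (t u_k v_k) = (t (A v)_a - u_r (A v)_r) / 2`, for every vector `v`. -/
theorem redl_key (hA : RedlSign A) (a r : Fin n) (v : Fin n → ℝ) :
    ∑ k, redlM A a r k * (A a a * A a k * v k) = (A a a * A.mulVec v a - A a r * A.mulVec v r) / 2 := by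
  simp only [Matrix.mulVec, dotProduct]
  rw [Finset.mul_sum, Finset.mul_sum, ← Finset.sum_sub_distrib, Finset.sum_div]
  refine Finset.sum_congr rfl fun k _ => ?_
  have h1 := hA.sq a a
  have h2 := hA.sq a k
  rw [redlM]
  linear_combination (-(1 : ℝ) / 2) * (A a r * A r k * v k) * (h1 * (A a k * A a k) + h2)

/-- `φ` enumerates the indices other than the anchor `a` and the deletion index `i`. -/
structure RedlEnum (φ : Fin m → Fin n) (a i : Fin n) : Prop where
  inj : Function.Injective φ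
  ne_a : ∀ k, φ k ≠ a
  ne_i : ∀ k, φ k ≠ i
  ne : a ≠ i
  sum : ∀ f : Fin n → ℝ, ∑ j, f j = f a + f i + ∑ k, f (φ k)

theorem redl_exists_enum (a i : Fin (m + 2)) (h : a ≠ i) : ∃ φ : Fin m → Fin (m + 2), RedlEnum φ a i := by
  obtain ⟨i', rfl⟩ := Fin.exists_succAbove_eq h.symm
  refine ⟨fun k => a.succAbove (i'.succAbove k), ?_, ?_, ?_, h, ?_⟩
  · intro j k hjk
    exact Fin.succAbove_right_injective (Fin.succAbove_right_injective hjk)
  · intro k
    exact Fin.succAbove_ne _ _
  · intro k hk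
    exact Fin.succAbove_ne _ _ (Fin.succAbove_right_injective hk)
  · intro f
    rw [Fin.sum_univ_succAbove f a, Fin.sum_univ_succAbove (fun j => f (a.succAbove j)) i', add_assoc]

/-- the kernel of a corank-one matrix is a line. -/
theorem redl_ker_unique (hrank : A.rank + 1 = n) {v q : Fin n → ℝ} (hv : A.mulVec v = 0) (hv0 : v ≠ 0)
    (hq : A.mulVec q = 0) : ∃ c : ℝ, c • v = q := by
  set L := A.mulVecLin with hL
  have h1 := LinearMap.finrank_range_add_finrank_ker L
  have h2 : Module.finrank ℝ (LinearMap.range L) = A.rank := rfl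
  rw [h2, Module.finrank_fin_fun] at h1
  have h3 : Module.finrank ℝ (LinearMap.ker L) = 1 := by omega
  have hvL : v ∈ LinearMap.ker L := by
    rw [LinearMap.mem_ker, hL, Matrix.mulVecLin_apply]; exact hv
  have hqL : q ∈ LinearMap.ker L := by
    rw [LinearMap.mem_ker, hL, Matrix.mulVecLin_apply]; exact hq
  have hne : (⟨v, hvL⟩ : LinearMap.ker L) ≠ 0 := fun h => hv0 (congrArg Subtype.val h)
  obtain ⟨c, hc⟩ := (finrank_eq_one_iff_of_nonzero' _ hne).1 h3 ⟨q, hqL⟩
  exact ⟨c, congrArg Subtype.val hc⟩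

variable {φ : Fin m → Fin n} {a i : Fin n}

/-- the transformed kernel vector `y_k = t u_k v_k` is killed by every row of `M`. -/
theorem redl_rel (hA : RedlSign A) (hE : RedlEnum φ a i) {v : Fin n → ℝ} (hv : A.mulVec v = 0) (r : Fin n) :
    ∑ k, redlM A a r (φ k) * (A a a * A a (φ k) * v (φ k)) + redlM A a r i * (A a a * A a i * v i) = 0 := by
  have h := redl_key hA a r v
  rw [hv, hE.sum, redlM_anchor hA] at h
  simp only [Pi.zero_apply] at h
  linarith

/-- the minor `M[φ, φ]` has trivial kernel. -/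
theorem redl_minor_inj (hA : RedlSign A) (hE : RedlEnum φ a i) (hrank : A.rank + 1 = n) {v : Fin n → ℝ}
    (hv : A.mulVec v = 0) (hvi : v i ≠ 0) {x : Fin m → ℝ}
    (hx : ∀ j, ∑ k, redlM A a (φ j) (φ k) * x k = 0) : x = 0 := by
  have htt : A a a * A a a = 1 := hA.sq a a
  have huu : ∀ k, A a k * A a k = 1 := fun k => hA.sq a k
  obtain ⟨yt, hyt⟩ : ∃ yt : Fin n → ℝ, yt = Function.update (Function.extend φ x 0) a (-∑ k, x k) := ⟨_, rfl⟩
  have hya : yt a = -∑ k, x k := by rw [hyt, Function.update_self]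
  have hyφ : ∀ k, yt (φ k) = x k := by
    intro k
    rw [hyt, Function.update_of_ne (hE.ne_a k), hE.inj.extend_apply]
  have hyi : yt i = 0 := by
    rw [hyt, Function.update_of_ne hE.ne.symm, Function.extend_apply']
    · rfl
    · rintro ⟨k, hk⟩
      exact hE.ne_i k hk
  obtain ⟨q, hq⟩ : ∃ q : Fin n → ℝ, q = fun k => A a a * A a k * yt k := ⟨_, rfl⟩
  have hqy : ∀ k, A a a * A a k * q k = yt k := by
    intro k
    rw [hq]
    linear_combination (yt k) * (htt * (A a k * A a k) + huu k)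
  -- row `a` of `A q`
  have hrowa : A.mulVec q a = 0 := by
    simp only [Matrix.mulVec, dotProduct]
    have : ∀ k, A a k * q k = A a a * yt k := fun k => by
      rw [hq]
      linear_combination (A a a * yt k) * huu k
    simp only [this]
    rw [← Finset.mul_sum, hE.sum, hya, hyi]
    simp only [hyφ]
    ring
  -- a general row
  have hrow : ∀ r, A a r * A.mulVec q r = -2 * ∑ k, redlM A a r (φ k) * x k := by
    intro r
    have h := redl_key hA a r q
    simp only [hqy] at h
    rw [hrowa, hE.sum, redlM_anchor hA, hyi] at h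
    simp only [hyφ] at h
    linarith
  have hrowφ : ∀ j, A.mulVec q (φ j) = 0 := by
    intro j
    have h := hrow (φ j)
    rw [hx j] at h
    have h2 := huu (φ j)
    have : A.mulVec q (φ j) = A a (φ j) * (A a (φ j) * A.mulVec q (φ j)) := by
      linear_combination (-(A.mulVec q (φ j))) * h2
    rw [this, h]
    ring
  -- row `i`, by symmetry
  have hsymm : v ⬝ᵥ A.mulVec q = A.mulVec v ⬝ᵥ q := by
    rw [Matrix.dotProduct_mulVec, ← Matrix.mulVec_transpose]
    congr 2
    ext j k
    exact hA.symm k j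
  have hrowi : A.mulVec q i = 0 := by
    rw [hv, zero_dotProduct, dotProduct, hE.sum, hrowa] at hsymm
    simp only [hrowφ] at hsymm
    simp only [mul_zero, Finset.sum_const_zero, add_zero, zero_add] at hsymm
    exact (mul_eq_zero.1 hsymm).resolve_left hvi
  have hAq : A.mulVec q = 0 := by
    funext r
    have h1 : ∑ j, (A.mulVec q j) ^ 2 = 0 := by
      rw [hE.sum, hrowa, hrowi]
      simp only [hrowφ]
      simp
    have h2 := (Finset.sum_eq_zero_iff_of_nonneg fun j _ => sq_nonneg (A.mulVec q j)).1 h1 r (Finset.mem_univ r)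
    simpa using h2
  have hv0 : v ≠ 0 := fun h => hvi (by rw [h]; rfl)
  obtain ⟨c, hc⟩ := redl_ker_unique hrank hv hv0 hAq
  have hqi : q i = 0 := by rw [hq]; simp only [hyi, mul_zero]
  have hc0 : c = 0 := by
    have := congrFun hc i
    rw [Pi.smul_apply, smul_eq_mul, hqi] at this
    exact (mul_eq_zero.1 this).resolve_right hvi
  funext k
  rw [← hyφ k, ← hqy (φ k), ← hc, hc0]
  simp

end LinAlg

/-! ### The deterministic column step -/

theorem redl_det_toR {k : ℕ} (B : Matrix (Fin k) (Fin k) ℤ) : (toR B).det = (B.det : ℝ) :=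
  (Int.cast_det B).symm

/-- **Deterministic column step.**  On the event `redCol` the minor `B` is nonsingular and the deleted column is
admissible with `L₀ = max 1 (2/c)`. -/
theorem redl_adm {φ : Fin m → Fin n} {a i : Fin n} (hE : RedlEnum φ a i) (hn : n = m + 2)
    {s : Sym2 (Fin n) → Bool} (hrank : (toR (sgnMat s)).rank + 1 = n) {v : Fin n → ℝ} (hv : IsKer s v)
    (hT : TailNormed v a) {c : ℝ} (hc : 0 < c) (hvi : c ^ 2 / n ≤ v i ^ 2) :
    (bitMat (redlY φ a s)).det ≠ 0 ∧
      IsAdmCol (max 1 (2 / c)) (m + 1) (bitMat (redlY φ a s)) (redlZ φ a i s) := by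
  have hA := redl_sign s
  obtain ⟨A, hAdef⟩ : ∃ A, A = toR (sgnMat s) := ⟨_, rfl⟩
  obtain ⟨B, hBdef⟩ : ∃ B, B = toR (bitMat (redlY φ a s)) := ⟨_, rfl⟩
  obtain ⟨z, hzdef⟩ : ∃ z, z = bitVec (redlZ φ a i s) := ⟨_, rfl⟩
  have hBe : ∀ j k, B j k = redlM A a (φ j) (φ k) := fun j k => by
    rw [hBdef, hAdef, redl_toR_bitMat]
  have hze : ∀ k, z k = redlM A a i (φ k) := fun k => by
    rw [hzdef, hAdef, redl_bitVec]
  have hdiag : redlM A a i i = 0 ∨ redlM A a i i = 1 := by
    rw [hAdef]; exact redlM_diag s a i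
  rw [IsKer, ← hAdef] at hv
  rw [← hAdef] at hA hrank
  have hnpos : (0 : ℝ) < n := by
    have : 0 < n := by omega
    exact_mod_cast this
  have hvi2 : 0 < v i ^ 2 := lt_of_lt_of_le (by positivity) hvi
  have hvi0 : v i ≠ 0 := fun h => by rw [h] at hvi2; norm_num at hvi2
  -- nonsingularity
  have hdetB : B.det ≠ 0 := by
    intro hdet
    obtain ⟨x, hx0, hx⟩ := Matrix.exists_mulVec_eq_zero_iff.2 hdet
    refine hx0 (redl_minor_inj hA hE hrank hv hvi0 fun j => ?_)
    have := congrFun hx j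
    simpa only [Matrix.mulVec, dotProduct, hBe, Pi.zero_apply] using this
  refine ⟨fun h => hdetB (by rw [hBdef, redl_det_toR, h, Int.cast_zero]), ?_⟩
  rw [IsAdmCol, ← hBdef, ← hzdef]
  -- the transformed kernel vector
  obtain ⟨y, hy⟩ : ∃ y : Fin m → ℝ, y = fun k => A a a * A a (φ k) * v (φ k) := ⟨_, rfl⟩
  obtain ⟨yi, hyi⟩ : ∃ yi : ℝ, yi = A a a * A a i * v i := ⟨_, rfl⟩
  have hyi2 : yi ^ 2 = v i ^ 2 := by
    rw [hyi]
    linear_combination (v i ^ 2) * (hA.sq a a * (A a i * A a i) + hA.sq a i)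
  have hyi0 : yi ≠ 0 := fun h => by rw [h] at hyi2; exact hvi2.ne (by rw [← hyi2]; norm_num)
  have hy2 : ∀ k, y k ^ 2 = v (φ k) ^ 2 := by
    intro k
    rw [hy]
    linear_combination (v (φ k) ^ 2) * (hA.sq a a * (A a (φ k) * A a (φ k)) + hA.sq a (φ k))
  have hrel : ∀ r, ∑ k, redlM A a r (φ k) * y k + redlM A a r i * yi = 0 := by
    intro r
    rw [hy, hyi]
    exact redl_rel hA hE hv r
  have hBy : B.mulVec (-(1 / yi) • y) = z := by
    funext j
    rw [Matrix.mulVec_smul, Pi.smul_apply, smul_eq_mul]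
    simp only [Matrix.mulVec, dotProduct, hBe]
    have h := hrel (φ j)
    rw [hze j, redlM_comm hA a i (φ j)]
    have h' : ∑ k, redlM A a (φ j) (φ k) * y k = -(redlM A a (φ j) i * yi) := by linarith
    rw [h']
    field_simp
  have hinv : B⁻¹.mulVec z = -(1 / yi) • y := by
    rw [← hBy, Matrix.mulVec_mulVec, Matrix.nonsing_inv_mul _ (isUnit_iff_ne_zero.2 hdetB), Matrix.one_mulVec]
  rw [hinv]
  constructor
  · have h1 : z ⬝ᵥ (-(1 / yi) • y) = redlM A a i i := by
      rw [dotProduct_smul, smul_eq_mul]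
      simp only [dotProduct, hze]
      have h := hrel i
      have h' : ∑ k, redlM A a i (φ k) * y k = -(redlM A a i i * yi) := by linarith
      rw [h']
      field_simp
    rw [h1]
    exact hdiag
  · have h1 : ∑ k, ((-(1 / yi) • y) k) ^ 2 = (∑ k, v (φ k) ^ 2) / v i ^ 2 := by
      rw [Finset.sum_div]
      refine Finset.sum_congr rfl fun k _ => ?_
      rw [Pi.smul_apply, smul_eq_mul, mul_pow, hy2, neg_sq, div_pow, hyi2]
      ring
    have h2 : ∑ k, v (φ k) ^ 2 ≤ 1 := by
      have h3 := hE.sum fun j => v j ^ 2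
      have h4 : ∑ j, v j ^ 2 = v a ^ 2 + ∑ j ∈ univ.erase a, v j ^ 2 :=
        (Finset.add_sum_erase univ (fun j => v j ^ 2) (Finset.mem_univ a)).symm
      rw [TailNormed] at hT
      rw [hT] at h4
      nlinarith [sq_nonneg (v i)]
    rw [h1]
    have hL : 2 / c ≤ max 1 (2 / c) := le_max_right _ _
    have hL2 : (2 / c) ^ 2 ≤ (max 1 (2 / c)) ^ 2 := pow_le_pow_left₀ (by positivity) hL 2
    have hnm : (n : ℝ) = m + 2 := by rw [hn]; push_cast; ring
    have h5 : (∑ k, v (φ k) ^ 2) / v i ^ 2 ≤ 1 / (c ^ 2 / n) := by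
      apply div_le_div₀ (by norm_num) h2 (by positivity) hvi
    refine h5.trans ?_
    have h6 : 1 / (c ^ 2 / n) = (n : ℝ) / c ^ 2 := by field_simp
    rw [h6]
    have h7 : (n : ℝ) / c ^ 2 ≤ (2 / c) ^ 2 * ((m + 1 : ℕ) : ℝ) := by
      rw [div_pow, hnm, div_mul_eq_mul_div, div_le_div_iff_of_pos_right (by positivity)]
      push_cast
      have : (0 : ℝ) ≤ m := Nat.cast_nonneg m
      linarith
    exact h7.trans (mul_le_mul_of_nonneg_right hL2 (Nat.cast_nonneg _))

end Claimed.Agent.R293
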