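/-
R293 / RedColProb.lean  (owner: helper26).  RED-5, part 2: the probabilistic half of paper B, Lemma 2.3 and of the column
step.  Xor with a fixed mask turns a product Bernoulli law into another one (`redl_prb_xor`); conditionally on the anchor
row the minor `B` follows a bit model (`redl_bitModel`), and the deleted column is independent of it.
Prefix `redl`.
-/
import Claimed.Agent.R293.RedColDet
import Claimed.Agent.R293.ProbMarg

set_option autoImplicit false
set_option linter.unusedSectionVars false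

namespace Claimed.Agent.R293

open Finset

/-! ### Xor with a fixed mask -/

section Xor

variable {κ : Type*}

/-- xor of a bit pattern with a fixed mask `g`. -/
def redlXor (g x : κ → Bool) : κ → Bool := fun k => xor (x k) (g k)

/-- the parameters of the law of `redlXor g x`. -/
def redlFlip (g : κ → Bool) (π : κ → ℝ) : κ → ℝ := fun k => if g k then 1 - π k else π k

theorem redlXor_xor (g x : κ → Bool) : redlXor g (redlXor g x) = x := by
  funext k
  simp [redlXor]

theorem redlXor_injective (g : κ → Bool) : Function.Injective (redlXor g) :=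
  fun x y h => by rw [← redlXor_xor g x, h, redlXor_xor]

/-- xor with `g`, as a permutation of the patterns. -/
def redlXorEquiv (g : κ → Bool) : Equiv.Perm (κ → Bool) :=
  Function.Involutive.toPerm (redlXor g) (redlXor_xor g)

variable [Fintype κ] [DecidableEq κ]

theorem redl_bern_xor (π : κ → ℝ) (g x : κ → Bool) : bern π (redlXor g x) = bern (redlFlip g π) x := by
  unfold bern
  refine Finset.prod_congr rfl fun k _ => ?_
  cases hx : x k <;> cases hg : g k <;> simp [redlXor, redlFlip, hx, hg]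

/-- **Flip lemma**: the law of `redlXor g x` is the product law with the flipped parameters. -/
theorem redl_prb_xor (π : κ → ℝ) (g : κ → Bool) (F : Set (κ → Bool)) :
    prb π {x | redlXor g x ∈ F} = prb (redlFlip g π) F := by
  unfold prb
  refine Fintype.sum_equiv (redlXorEquiv g) _ _ fun x => ?_
  change _ = F.indicator (bern (redlFlip g π)) (redlXor g x)
  by_cases h : redlXor g x ∈ F
  · rw [Set.indicator_of_mem h, Set.indicator_of_mem (show x ∈ {x | redlXor g x ∈ F} from h),
      ← redl_bern_xor, redlXor_xor]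
  · rw [Set.indicator_of_notMem h, Set.indicator_of_notMem (show x ∉ {x | redlXor g x ∈ F} from h)]

end Xor

/-! ### The masks only read the anchor row -/

variable {m n : ℕ}

theorem redlMask_congr {s s' : Sym2 (Fin n) → Bool} {a : Fin n} (h : ∀ j, s s(a, j) = s' s(a, j))
    (e : Sym2 (Fin n)) : redlMask s a e = redlMask s' a e := by
  induction e using Sym2.inductionOn with
  | _ j k => rw [redlMask_mk, redlMask_mk, h a, h j, h k]

variable {φ : Fin m → Fin n} {a i : Fin n}

/-- the entries of the minor. -/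
def redlAP (φ : Fin m → Fin n) : Set (Sym2 (Fin n)) := Set.range (Sym2.map φ)

/-- the entries of the deleted column (off the anchor and off the diagonal). -/
def redlAZ (φ : Fin m → Fin n) (i : Fin n) : Set (Sym2 (Fin n)) := Set.range fun k => s(i, φ k)

theorem redl_anchor_notMem_AP (hE : RedlEnum φ a i) (j : Fin n) : s(a, j) ∉ redlAP φ := by
  rintro ⟨e, he⟩
  have h1 : a ∈ Sym2.map φ e := by rw [he]; exact Sym2.mem_mk_left a j
  obtain ⟨k, _, hk⟩ := Sym2.mem_map.1 h1
  exact hE.ne_a k hk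

theorem redl_anchor_notMem_AZ (hE : RedlEnum φ a i) (j : Fin n) : s(a, j) ∉ redlAZ φ i := by
  rintro ⟨k, hk⟩
  have h1 : a ∈ s(i, φ k) := by
    have : s(i, φ k) = s(a, j) := hk
    rw [this]; exact Sym2.mem_mk_left a j
  rcases Sym2.mem_iff.1 h1 with h | h
  · exact hE.ne h
  · exact hE.ne_a k h.symm

theorem redl_minor_notMem_AZ (hE : RedlEnum φ a i) (e : Sym2 (Fin m)) : e.map φ ∉ redlAZ φ i := by
  rintro ⟨k, hk⟩
  have h1 : i ∈ Sym2.map φ e := by
    have : s(i, φ k) = Sym2.map φ e := hk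
    rw [← this]; exact Sym2.mem_mk_left i _
  obtain ⟨l, _, hl⟩ := Sym2.mem_map.1 h1
  exact hE.ne_i l hl

theorem redl_diag_notMem_AZ (hE : RedlEnum φ a i) : s(i, i) ∉ redlAZ φ i := by
  rintro ⟨k, hk⟩
  have h1 : φ k ∈ s(i, i) := by
    have : s(i, φ k) = s(i, i) := hk
    rw [← this]; exact Sym2.mem_mk_right i _
  rcases Sym2.mem_iff.1 h1 with h | h <;> exact hE.ne_i k h

theorem redl_colEntry_injective (hE : RedlEnum φ a i) : Function.Injective fun k => s(i, φ k) := by
  intro k l h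
  have h' : s(i, φ k) = s(i, φ l) := h
  rcases Sym2.eq_iff.1 h' with ⟨_, h2⟩ | ⟨h1, _⟩
  · exact hE.inj h2
  · exact absurd h1.symm (hE.ne_i l)

/-- the mask of the minor. -/
def redlGP (φ : Fin m → Fin n) (a : Fin n) (s : Sym2 (Fin n) → Bool) : Sym2 (Fin m) → Bool :=
  fun e => redlMask s a (e.map φ)

/-- the mask of the deleted column. -/
def redlGZ (φ : Fin m → Fin n) (a i : Fin n) (s : Sym2 (Fin n) → Bool) : Fin m → Bool :=
  fun k => redlMask s a s(i, φ k)

/-- resampling the entries of the minor. -/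
theorem redlY_mix_AP (hE : RedlEnum φ a i) (x s : Sym2 (Fin n) → Bool) :
    redlY φ a (pbMix (redlAP φ) x s) = redlXor (redlGP φ a s) (x ∘ Sym2.map φ) := by
  funext e
  rw [redlY, redlBit, pbMix_of_mem (show e.map φ ∈ redlAP φ from ⟨e, rfl⟩),
    redlMask_congr (s' := s) fun j => pbMix_of_notMem (redl_anchor_notMem_AP hE j) x s]
  rfl

/-- resampling the entries of the deleted column does not change the minor. -/
theorem redlY_mix_AZ (hE : RedlEnum φ a i) (x s : Sym2 (Fin n) → Bool) :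
    redlY φ a (pbMix (redlAZ φ i) x s) = redlY φ a s := by
  funext e
  rw [redlY, redlBit, pbMix_of_notMem (redl_minor_notMem_AZ hE e),
    redlMask_congr (s' := s) fun j => pbMix_of_notMem (redl_anchor_notMem_AZ hE j) x s]
  rfl

theorem redlZ_mix_AZ (hE : RedlEnum φ a i) (x s : Sym2 (Fin n) → Bool) :
    redlZ φ a i (pbMix (redlAZ φ i) x s) = redlXor (redlGZ φ a i s) (x ∘ fun k => s(i, φ k)) := by
  funext k
  rw [redlZ, redlBit, pbMix_of_mem (show s(i, φ k) ∈ redlAZ φ i from ⟨k, rfl⟩),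
    redlMask_congr (s' := s) fun j => pbMix_of_notMem (redl_anchor_notMem_AZ hE j) x s]
  rfl

/-! ### The conditioned minor follows a bit model -/

theorem redl_flip_mask (p : ℝ) (s : Sym2 (Fin n) → Bool) (a j k : Fin n) :
    (if redlMask s a s(j, k) then 1 - p else p) =
      1 / 2 - (2 * p - 1) / 2 * (toR (sgnMat s) a a * toR (sgnMat s) a j * toR (sgnMat s) a k) := by
  rw [redlMask_mk]
  simp only [redl_toR_sgnMat]
  cases s s(a, a) <;> cases s s(a, j) <;> cases s s(a, k) <;> simp <;> ring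

/-- **B Lemma 2.3 (i), (ii)**: the conditional law of the minor is a bit model. -/
theorem redl_bitModel (p : ℝ) (φ : Fin m → Fin n) (a : Fin n) (s : Sym2 (Fin n) → Bool) :
    BitModel p (redlFlip (redlGP φ a s) fun _ => p) where
  val e := by
    unfold redlFlip
    split_ifs
    · exact Or.inr rfl
    · exact Or.inl rfl
  rank_le := by
    set A := toR (sgnMat s) with hA
    have h : meanMat (redlFlip (redlGP φ a s) fun _ => p) =
        (Matrix.of fun (j : Fin m) (l : Fin 2) => if l = 0 then (1 / 2 : ℝ) else -((2 * p - 1) / 2) * (A a a * A a (φ j))) *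
          (Matrix.of fun (l : Fin 2) (k : Fin m) => if l = 0 then (1 : ℝ) else A a (φ k)) := by
      ext j k
      have h0 : meanMat (redlFlip (redlGP φ a s) fun _ => p) j k =
          if redlMask s a s(φ j, φ k) then 1 - p else p := rfl
      rw [h0, redl_flip_mask, Matrix.mul_apply, Fin.sum_univ_two]
      simp only [Matrix.of_apply, if_true, one_ne_zero, if_false]
      ring
    rw [h]
    refine (Matrix.rank_mul_le_left _ _).trans ((Matrix.rank_le_width _).trans ?_)
    simp

/-! ### Row counts and point masses -/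

theorem redl_rowCount (hE : RedlEnum φ a i) (s : Sym2 (Fin n) → Bool) :
    (rowCount s i : ℝ) = (if s s(i, a) then 1 else 0) + (if s s(i, i) then 1 else 0)
      + ∑ k, bitVec (s ∘ fun k => s(i, φ k)) k := by
  rw [rowCount, Finset.card_filter]
  push_cast
  rw [hE.sum]
  rfl

/-- point masses of the constant law in exponential form. -/
theorem redl_bern_const {p : ℝ} (hp0 : 0 < p) (hp1 : p < 1) (ζ : Fin m → Bool) :
    bern (fun _ => p) ζ =
      (2 : ℝ) ^ (m * Real.logb 2 (1 - p) - (∑ k, bitVec ζ k) * Real.logb 2 ((1 - p) / p)) := by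
  have h1 : ∀ k, (if ζ k then p else 1 - p) =
      (2 : ℝ) ^ (Real.logb 2 (1 - p) - bitVec ζ k * Real.logb 2 ((1 - p) / p)) := by
    intro k
    rw [Real.logb_div (by linarith) hp0.ne']
    cases hk : ζ k
    · simp only [bitVec, hk, Bool.false_eq_true, if_false, zero_mul, sub_zero]
      rw [Real.rpow_logb (by norm_num) (by norm_num) (by linarith)]
    · simp only [bitVec, hk, if_true, one_mul, sub_sub_cancel]
      rw [Real.rpow_logb (by norm_num) (by norm_num) hp0]
  unfold bern
  simp only [h1]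
  rw [← Real.rpow_sum_of_pos (by norm_num), Finset.sum_sub_distrib, Finset.sum_mul]
  simp

/-! ### The two events of the column step -/

/-- the exceptional event: the (nonsingular) minor has too many admissible columns. -/
def redlE2 (φ : Fin m → Fin n) (a : Fin n) (L0 e0 : ℝ) (N : ℕ) : Set (Sym2 (Fin n) → Bool) :=
  {s | (bitMat (redlY φ a s)).det ≠ 0 ∧ (2 : ℝ) ^ (e0 * N) < (admCount L0 N (bitMat (redlY φ a s)) : ℝ)}

/-- the main event: few admissible columns, the deleted column is one of them, and its row count is typical. -/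
def redlE1 (φ : Fin m → Fin n) (a i : Fin n) (L0 e0 w p : ℝ) (N : ℕ) : Set (Sym2 (Fin n) → Bool) :=
  {s | (admCount L0 N (bitMat (redlY φ a s)) : ℝ) ≤ (2 : ℝ) ^ (e0 * N) ∧
    IsAdmCol L0 N (bitMat (redlY φ a s)) (redlZ φ a i s) ∧ |(rowCount s i : ℝ) - p * n| ≤ w * n}

theorem redl_prb_E2 (hE : RedlEnum φ a i) {p : ℝ} (hp0 : 0 ≤ p) (hp1 : p ≤ 1) {L0 e0 c2 : ℝ} {N : ℕ}
    (hcol : ∀ π : Sym2 (Fin m) → ℝ, BitModel p π →
      prb π {s | (bitMat s).det ≠ 0 ∧ (2 : ℝ) ^ (e0 * N) < (admCount L0 N (bitMat s) : ℝ)} ≤ c2) :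
    prb (sgnLaw p n) (redlE2 φ a L0 e0 N) ≤ c2 := by
  have hπ : IsProbArray (sgnLaw p n) := fun _ => ⟨hp0, hp1⟩
  refine pb_prb_le_of_cond hπ (redlAP φ) _ fun s => ?_
  have hset : {x | pbMix (redlAP φ) x s ∈ redlE2 φ a L0 e0 N} =
      {x | x ∘ Sym2.map φ ∈ {y | redlXor (redlGP φ a s) y ∈
        {t | (bitMat t).det ≠ 0 ∧ (2 : ℝ) ^ (e0 * N) < (admCount L0 N (bitMat t) : ℝ)}}} := by
    ext x
    simp only [redlE2, Set.mem_ofPred_eq, redlY_mix_AP hE]
  rw [hset, pb_prb_comp _ (Sym2.map.injective hE.inj), redl_prb_xor]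
  exact hcol _ (redl_bitModel p φ a s)

theorem redl_prb_E1 (hE : RedlEnum φ a i) {p : ℝ} (hp0 : 0 < p) (hp : p ≤ 1 / 2) (L0 e0 w : ℝ) (N : ℕ) :
    prb (sgnLaw p n) (redlE1 φ a i L0 e0 w p N) ≤
      (2 : ℝ) ^ (e0 * N) *
        (2 : ℝ) ^ (m * Real.logb 2 (1 - p) - (p * n - w * n - 2) * Real.logb 2 ((1 - p) / p)) := by
  have hπ : IsProbArray (sgnLaw p n) := fun _ => ⟨hp0.le, by linarith⟩
  have hΛ : 0 ≤ Real.logb 2 ((1 - p) / p) := by
    apply Real.logb_nonneg (by norm_num)
    rw [le_div_iff₀ hp0]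
    linarith
  refine pb_prb_le_of_cond hπ (redlAZ φ i) _ fun s => ?_
  by_cases hT : (admCount L0 N (bitMat (redlY φ a s)) : ℝ) ≤ (2 : ℝ) ^ (e0 * N)
  · set S : Set (Fin m → Bool) := {ζ | IsAdmCol L0 N (bitMat (redlY φ a s)) (redlXor (redlGZ φ a i s) ζ) ∧
      p * n - w * n - 2 ≤ ∑ k, bitVec ζ k} with hS
    have hsub : {x | pbMix (redlAZ φ i) x s ∈ redlE1 φ a i L0 e0 w p N} ⊆
        {x | x ∘ (fun k => s(i, φ k)) ∈ S} := by
      intro x hx
      obtain ⟨_, h2, h3⟩ := hx
      rw [redlY_mix_AZ hE, redlZ_mix_AZ hE] at h2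
      refine ⟨h2, ?_⟩
      have hmix : pbMix (redlAZ φ i) x s ∘ (fun k => s(i, φ k)) = x ∘ fun k => s(i, φ k) :=
        pbMix_comp_of_mem (A := redlAZ φ i) (e := fun k => s(i, φ k)) (fun k => ⟨k, rfl⟩) x s
      rw [redl_rowCount hE, hmix] at h3
      have h4 := (abs_le.1 h3).1
      have h5 : (if pbMix (redlAZ φ i) x s s(i, a) = true then (1 : ℝ) else 0) ≤ 1 := by split_ifs <;> norm_num
      have h6 : (if pbMix (redlAZ φ i) x s s(i, i) = true then (1 : ℝ) else 0) ≤ 1 := by split_ifs <;> norm_num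
      linarith
    refine (pb_prb_mono hπ hsub).trans ?_
    rw [pb_prb_comp _ (redl_colEntry_injective hE)]
    have hcard : (Nat.card S : ℝ) ≤ (2 : ℝ) ^ (e0 * N) := by
      refine le_trans ?_ hT
      rw [admCount]
      norm_cast
      refine Nat.card_le_card_of_injective
        (fun ζ : S => (⟨redlXor (redlGZ φ a i s) ζ.1, ζ.2.1⟩ :
          {z : Fin m → Bool // IsAdmCol L0 N (bitMat (redlY φ a s)) z})) ?_
      intro ζ ζ' h
      exact Subtype.ext (redlXor_injective _ (congrArg Subtype.val h))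
    refine (pb_prb_le_card_mul _ S (c := (2 : ℝ) ^ (m * Real.logb 2 (1 - p)
      - (p * n - w * n - 2) * Real.logb 2 ((1 - p) / p))) fun ζ hζ => ?_).trans
      (mul_le_mul_of_nonneg_right hcard (by positivity))
    have hb : bern (sgnLaw p n ∘ fun k => s(i, φ k)) ζ = bern (fun _ => p) ζ := rfl
    rw [hb, redl_bern_const hp0 (by linarith)]
    apply Real.rpow_le_rpow_of_exponent_le (by norm_num)
    have := mul_le_mul_of_nonneg_right hζ.2 hΛ
    linarith
  · have hempty : {x | pbMix (redlAZ φ i) x s ∈ redlE1 φ a i L0 e0 w p N} = ∅ := by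
      ext x
      simp only [redlE1, Set.mem_ofPred_eq, redlY_mix_AZ hE, Set.mem_empty_iff_false, iff_false]
      exact fun h => hT h.1
    rw [hempty, pb_prb_empty]
    positivity

/-- **Column step, non-asymptotic form.** -/
theorem redl_prb_redCol (hE : RedlEnum φ a i) (hn : n = m + 2) {p : ℝ} (hp0 : 0 < p) (hp : p ≤ 1 / 2)
    {c : ℝ} (hc : 0 < c) (e0 w : ℝ) {c2 : ℝ}
    (hcol : ∀ π : Sym2 (Fin m) → ℝ, BitModel p π →
      prb π {s | (bitMat s).det ≠ 0 ∧
        (2 : ℝ) ^ (e0 * (m + 1 : ℕ)) < (admCount (max 1 (2 / c)) (m + 1) (bitMat s) : ℝ)} ≤ c2) :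
    prb (sgnLaw p n) (redCol c w p n a i) ≤
      (2 : ℝ) ^ (e0 * (m + 1 : ℕ)) *
        (2 : ℝ) ^ (m * Real.logb 2 (1 - p) - (p * n - w * n - 2) * Real.logb 2 ((1 - p) / p)) + c2 := by
  have hπ : IsProbArray (sgnLaw p n) := fun _ => ⟨hp0.le, by linarith⟩
  have hsub : redCol c w p n a i ⊆
      redlE1 φ a i (max 1 (2 / c)) e0 w p (m + 1) ∪ redlE2 φ a (max 1 (2 / c)) e0 (m + 1) := by
    rintro s ⟨hrank, hrow, v, hv, _, hT, hvi⟩
    obtain ⟨hdet, hadm⟩ := redl_adm hE hn hrank hv hT hc hvi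
    by_cases h : (admCount (max 1 (2 / c)) (m + 1) (bitMat (redlY φ a s)) : ℝ) ≤ (2 : ℝ) ^ (e0 * (m + 1 : ℕ))
    · exact Or.inl ⟨h, hadm, hrow⟩
    · exact Or.inr ⟨hdet, not_le.1 h⟩
  refine (pb_prb_mono hπ hsub).trans ((pb_prb_union_le hπ _ _).trans ?_)
  exact add_le_add (redl_prb_E1 hE hp0 hp _ _ _ _) (redl_prb_E2 hE hp0.le (by linarith) hcol)

end Claimed.Agent.R293
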