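/-
R293 / RedCol.lean  (owner: helper26).  RED-5, part 3: `red_col : StColumn → StRedCol`
(paper B, Lemma 2.3 + the column step of the proof of Theorem 1.1).  Prefix `redl`.
-/
import Claimed.Agent.R293.RedColProb

set_option autoImplicit false

namespace Claimed.Agent.R293

open Finset Filter

theorem redl_eventually_le (K : ℝ) {η : ℝ} (hη : 0 < η) : ∀ᶠ n : ℕ in atTop, K ≤ η * n :=
  (tendsto_natCast_atTop_atTop.const_mul_atTop hη).eventually_ge_atTop K

/-- **RED-5**: the column estimate implies the bound for a fixed anchor and a fixed deletion index. -/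
theorem red_col : StColumn → StRedCol := by
  intro hC p hp0 hp c hc
  obtain ⟨e1, he1, hC1⟩ := hC p hp0 hp (max 1 (2 / c)) (le_max_left _ _)
  refine ⟨e1, he1, fun e0 he0 he01 w _ η hη => ?_⟩
  have hev := (tendsto_sub_atTop_nat 1).eventually (hC1 e0 he0 he01)
  filter_upwards [hev, redl_eventually_le (-2 * Real.logb 2 p) hη, redl_eventually_le (2 * cA p) hη,
    eventually_ge_atTop 2] with n h1 h2 h3 h4 a i hai
  obtain ⟨m, rfl⟩ : ∃ m, n = m + 2 := ⟨n - 2, by omega⟩
  obtain ⟨φ, hE⟩ := redl_exists_enum a i hai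
  have hcol := h1 m (by omega)
  have hN : m + 2 - 1 = m + 1 := by omega
  rw [hN] at hcol
  refine (redl_prb_redCol hE rfl hp0 hp hc e0 w hcol).trans (add_le_add ?_ ?_)
  · rw [← Real.rpow_add (by norm_num)]
    apply Real.rpow_le_rpow_of_exponent_le (by norm_num)
    rw [Real.logb_div (by linarith) hp0.ne', cH]
    push_cast at h2 ⊢
    nlinarith
  · apply Real.rpow_le_rpow_of_exponent_le (by norm_num)
    push_cast at h3 ⊢
    nlinarith

end Claimed.Agent.R293
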