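/-
R293 / ProbCount.lean  (owner: helper271).  PROB package, part 5: binomial sums and the entropy bound.
Prefix `pb`.
-/
import Mathlib

set_option autoImplicit false

namespace Claimed.Agent.R293

open Finset

/-- one term of the binomial law at `γ` is at least `exp (-n H(γ))` as long as `i ≤ γ n`. -/
theorem pb_exp_neg_entropy_le {n i : ℕ} (hi : i ≤ n) {γ : ℝ} (h0 : 0 < γ) (h1 : γ ≤ 1 / 2)
    (hiγ : (i : ℝ) ≤ γ * n) :
    Real.exp (-(n * Real.binEntropy γ)) ≤ γ ^ i * (1 - γ) ^ (n - i) := by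
  have h1γ : 0 < 1 - γ := by linarith
  have e1 : γ ^ i = Real.exp (i * Real.log γ) := by
    rw [Real.exp_nat_mul, Real.exp_log h0]
  have e2 : (1 - γ) ^ (n - i) = Real.exp ((n - i : ℕ) * Real.log (1 - γ)) := by
    rw [Real.exp_nat_mul, Real.exp_log h1γ]
  rw [e1, e2, ← Real.exp_add, Real.exp_le_exp, Nat.cast_sub hi, Real.binEntropy, Real.log_inv,
    Real.log_inv]
  have hlog : Real.log γ ≤ Real.log (1 - γ) := Real.log_le_log h0 (by linarith)
  nlinarith [mul_nonneg (sub_nonneg.2 hiγ) (sub_nonneg.2 hlog)]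

/-- **Entropy bound for binomial sums**: `∑_{i ≤ γ n} C(n, i) ≤ exp (n H(γ))` for `0 < γ ≤ 1/2`
(`H = Real.binEntropy`, natural logarithm). -/
theorem pb_sum_choose_le_exp (n : ℕ) {γ : ℝ} (h0 : 0 < γ) (h1 : γ ≤ 1 / 2) :
    ∑ i ∈ (Finset.range (n + 1)).filter (fun i : ℕ => (i : ℝ) ≤ γ * n), (n.choose i : ℝ) ≤
      Real.exp (n * Real.binEntropy γ) := by
  have h1γ : 0 < 1 - γ := by linarith
  have hbin : ∑ i ∈ Finset.range (n + 1), γ ^ i * (1 - γ) ^ (n - i) * (n.choose i : ℝ) = 1 := by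
    rw [← add_pow]
    simp
  have hle : ∑ i ∈ (Finset.range (n + 1)).filter (fun i : ℕ => (i : ℝ) ≤ γ * n),
      Real.exp (-(n * Real.binEntropy γ)) * (n.choose i : ℝ) ≤ 1 := by
    rw [← hbin]
    refine (Finset.sum_le_sum fun i hi => ?_).trans
      (Finset.sum_le_sum_of_subset_of_nonneg (Finset.filter_subset _ _) fun i _ _ => by positivity)
    rw [Finset.mem_filter, Finset.mem_range] at hi
    exact mul_le_mul_of_nonneg_right (pb_exp_neg_entropy_le (by omega) h0 h1 hi.2)
      (Nat.cast_nonneg _)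
  rw [← Finset.mul_sum, Real.exp_neg, inv_mul_le_iff₀ (Real.exp_pos _), mul_one] at hle
  exact hle

/-- the same bound for the number of subsets of size `≤ γ n` of an `n`-element type. -/
theorem pb_card_small_subsets_le {α : Type*} [Fintype α] [DecidableEq α] {γ : ℝ} (h0 : 0 < γ)
    (h1 : γ ≤ 1 / 2) :
    (((Finset.univ : Finset (Finset α)).filter
      (fun T => (T.card : ℝ) ≤ γ * Fintype.card α)).card : ℝ) ≤
      Real.exp (Fintype.card α * Real.binEntropy γ) := by
  refine le_trans (le_of_eq ?_) (pb_sum_choose_le_exp (Fintype.card α) h0 h1)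
  have hdisj : ((Finset.univ : Finset (Finset α)).filter
      (fun T => (T.card : ℝ) ≤ γ * Fintype.card α)) =
      ((Finset.range (Fintype.card α + 1)).filter
        (fun i : ℕ => (i : ℝ) ≤ γ * Fintype.card α)).biUnion
        (fun i => Finset.powersetCard i Finset.univ) := by
    ext T
    simp only [Finset.mem_filter, Finset.mem_univ, true_and, Finset.mem_biUnion, Finset.mem_range,
      Finset.mem_powersetCard, Finset.subset_univ]
    constructor
    · intro h
      exact ⟨T.card, ⟨Nat.lt_succ_of_le (Finset.card_le_univ T), h⟩, rfl⟩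
    · rintro ⟨i, ⟨-, hi⟩, rfl⟩
      exact hi
  rw [hdisj, Finset.card_biUnion]
  · push_cast
    refine Finset.sum_congr rfl fun i _ => ?_
    rw [Finset.card_powersetCard, Finset.card_univ]
  · intro i _ j _ hij
    exact Finset.pairwise_disjoint_powersetCard _ hij

/-- base-two form: `exp (n H(γ)) = 2 ^ (n H₂(γ))`, `H₂ = H / log 2`. -/
theorem pb_exp_entropy_eq_two_rpow (n : ℕ) (γ : ℝ) :
    Real.exp (n * Real.binEntropy γ) = (2 : ℝ) ^ (n * (Real.binEntropy γ / Real.log 2)) := by
  rw [Real.rpow_def_of_pos two_pos]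
  congr 1
  have : Real.log 2 ≠ 0 := (Real.log_pos one_lt_two).ne'
  field_simp

/-- crude bound `∑_{i ≤ k} C(n, i) ≤ (n + 1) ^ k`. -/
theorem pb_sum_choose_le_pow (n k : ℕ) :
    ∑ i ∈ Finset.range (k + 1), n.choose i ≤ (n + 1) ^ k := by
  induction k with
  | zero => simp
  | succ k ih =>
    rw [Finset.sum_range_succ]
    have h1 : n.choose (k + 1) ≤ n ^ (k + 1) := Nat.choose_le_pow n (k + 1)
    have h2 : n ^ (k + 1) = n * n ^ k := by ring
    have h3 : n ^ k ≤ (n + 1) ^ k := Nat.pow_le_pow_left (Nat.le_succ n) k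
    calc ∑ i ∈ Finset.range (k + 1), n.choose i + n.choose (k + 1)
        ≤ (n + 1) ^ k + n * (n + 1) ^ k := by
          refine add_le_add ih (h1.trans ?_)
          rw [h2]
          exact Nat.mul_le_mul_left n h3
      _ = (n + 1) ^ (k + 1) := by ring

end Claimed.Agent.R293
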