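/-
R293 / ProbTail.lean  (owner: helper271).  PROB package, part 4: Hoeffding's inequality for weighted
sums of independent bits (sharp constant), both tails.  Prefix `pb`.
-/
import Claimed.Agent.R293.ProbBasic

set_option autoImplicit false

namespace Claimed.Agent.R293

open Finset MeasureTheory ProbabilityTheory

/-- Hoeffding's lemma for one bit. -/
theorem pb_hoeffding_scalar {p : ℝ} (hp0 : 0 ≤ p) (hp1 : p ≤ 1) (t : ℝ) :
    p * Real.exp (t * (1 - p)) + (1 - p) * Real.exp (t * (0 - p)) ≤ Real.exp (t ^ 2 / 8) := by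
  set μ : Measure Bool := ENNReal.ofReal p • Measure.dirac true +
    ENNReal.ofReal (1 - p) • Measure.dirac false with hμ
  have hprob : IsProbabilityMeasure μ := by
    constructor
    simp only [hμ, Measure.coe_add, Measure.coe_smul, Pi.add_apply, Pi.smul_apply, measure_univ,
      smul_eq_mul, mul_one]
    rw [← ENNReal.ofReal_add hp0 (by linarith)]
    simp
  set X : Bool → ℝ := fun b => (if b then 1 else 0) - p with hX
  have hint : ∀ f : Bool → ℝ, ∫ b, f b ∂μ = p * f true + (1 - p) * f false := by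
    intro f
    have : IsFiniteMeasure (ENNReal.ofReal p • (Measure.dirac true : Measure Bool)) :=
      Measure.smul_finite _ ENNReal.ofReal_ne_top
    have : IsFiniteMeasure (ENNReal.ofReal (1 - p) • (Measure.dirac false : Measure Bool)) :=
      Measure.smul_finite _ ENNReal.ofReal_ne_top
    rw [hμ, integral_add_measure (Integrable.of_finite) (Integrable.of_finite),
      integral_smul_measure, integral_smul_measure, integral_dirac, integral_dirac,
      ENNReal.toReal_ofReal hp0, ENNReal.toReal_ofReal (by linarith)]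
    simp
  have hsub := hasSubgaussianMGF_of_mem_Icc_of_integral_eq_zero (μ := μ) (X := X) (a := -p)
    (b := 1 - p) (measurable_of_finite X).aemeasurable
    (Filter.Eventually.of_forall fun b => by cases b <;> simp [hX])
    (by rw [hint]; simp [hX]; ring)
  have h := hsub.mgf_le t
  rw [mgf, hint] at h
  simp only [hX, if_true, Bool.false_eq_true, if_false] at h
  refine h.trans (le_of_eq ?_)
  congr 1
  have : (1 - p - -p) = 1 := by ring
  simp [this]
  ring

section Tail

variable {κ : Type*} [Fintype κ] [DecidableEq κ] {π : κ → ℝ}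

/-- the centred weighted sum `∑ a k (bit k - π k)`. -/
noncomputable def pbSum (π a : κ → ℝ) (s : κ → Bool) : ℝ := ∑ k, a k * (bitVec s k - π k)

omit [DecidableEq κ] in
theorem pbSum_neg (π a : κ → ℝ) (s : κ → Bool) : pbSum π (fun k => -a k) s = -pbSum π a s := by
  simp [pbSum, Finset.sum_neg_distrib]

theorem pb_exq_pbSum (π a : κ → ℝ) : exq π (pbSum π a) = 0 := by
  have h1 : ∀ k, exq π (fun s => a k * (bitVec s k - π k)) = 0 := by
    intro k
    have h2 := pb_exq_prod π (fun (j : κ) (b : Bool) =>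
      if j = k then a k * ((if b then 1 else 0) - π k) else 1)
    have h3 : ∀ s : κ → Bool, (∏ j, (fun (j : κ) (b : Bool) =>
        if j = k then a k * ((if b then (1 : ℝ) else 0) - π k) else 1) j (s j)) =
        a k * (bitVec s k - π k) := by
      intro s
      rw [Finset.prod_eq_single k]
      · simp [bitVec]
      · intro j _ hj; simp [hj]
      · simp
    rw [pb_exq_congr π h3] at h2
    rw [h2]
    refine Finset.prod_eq_zero (Finset.mem_univ k) ?_
    simp
    ring
  unfold pbSum
  rw [pb_exq_sum]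
  exact Finset.sum_eq_zero fun k _ => h1 k

/-- moment generating function of a centred weighted sum of independent bits. -/
theorem pb_mgf_le (hπ : IsProbArray π) (a : κ → ℝ) (l : ℝ) :
    exq π (fun s => Real.exp (l * pbSum π a s)) ≤ Real.exp (l ^ 2 * (∑ k, a k ^ 2) / 8) := by
  set g : κ → Bool → ℝ := fun k b => Real.exp (l * a k * ((if b then 1 else 0) - π k)) with hg
  have h1 : ∀ s : κ → Bool, Real.exp (l * pbSum π a s) = ∏ k, g k (s k) := by
    intro s
    rw [hg, ← Real.exp_sum, pbSum, Finset.mul_sum]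
    congr 1
    refine Finset.sum_congr rfl fun k _ => ?_
    simp only [bitVec]
    ring
  rw [pb_exq_congr π h1, pb_exq_prod π g]
  have h2 : Real.exp (l ^ 2 * (∑ k, a k ^ 2) / 8) = ∏ k, Real.exp ((l * a k) ^ 2 / 8) := by
    rw [← Real.exp_sum]
    congr 1
    rw [Finset.mul_sum, Finset.sum_div]
    exact Finset.sum_congr rfl fun k _ => by ring
  rw [h2]
  refine Finset.prod_le_prod (fun k _ => ?_) fun k _ => ?_
  · have := (hπ k).1
    have := (hπ k).2
    positivity
  · simpa [hg] using pb_hoeffding_scalar (hπ k).1 (hπ k).2 (l * a k)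

/-- **Hoeffding's inequality**, upper tail, with an upper bound `V` for `∑ a k ^ 2`. -/
theorem pb_hoeffding_ge (hπ : IsProbArray π) (a : κ → ℝ) {V t : ℝ} (hV : ∑ k, a k ^ 2 ≤ V)
    (hV0 : 0 < V) (ht : 0 ≤ t) : prb π {s | t ≤ pbSum π a s} ≤ Real.exp (-2 * t ^ 2 / V) := by
  set l : ℝ := 4 * t / V with hl
  have hl0 : 0 ≤ l := by positivity
  have h1 : prb π {s | t ≤ pbSum π a s} ≤ prb π {s | Real.exp (l * t) ≤ Real.exp (l * pbSum π a s)} := by
    refine pb_prb_mono hπ fun s hs => ?_
    exact Real.exp_le_exp.2 (mul_le_mul_of_nonneg_left hs hl0)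
  have h2 := pb_markov hπ (f := fun s => Real.exp (l * pbSum π a s)) (fun s => (Real.exp_pos _).le)
    (Real.exp_pos (l * t))
  have h3 : exq π (fun s => Real.exp (l * pbSum π a s)) ≤ Real.exp (l ^ 2 * V / 8) := by
    refine (pb_mgf_le hπ a l).trans (Real.exp_le_exp.2 ?_)
    have : l ^ 2 * (∑ k, a k ^ 2) ≤ l ^ 2 * V := mul_le_mul_of_nonneg_left hV (sq_nonneg l)
    linarith
  calc prb π {s | t ≤ pbSum π a s} ≤ exq π (fun s => Real.exp (l * pbSum π a s)) / Real.exp (l * t) :=
        h1.trans h2
    _ ≤ Real.exp (l ^ 2 * V / 8) / Real.exp (l * t) := by gcongr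
    _ = Real.exp (-2 * t ^ 2 / V) := by
        rw [← Real.exp_sub]
        congr 1
        rw [hl]
        field_simp
        ring

/-- **Hoeffding's inequality**, lower tail. -/
theorem pb_hoeffding_le (hπ : IsProbArray π) (a : κ → ℝ) {V t : ℝ} (hV : ∑ k, a k ^ 2 ≤ V)
    (hV0 : 0 < V) (ht : 0 ≤ t) : prb π {s | pbSum π a s ≤ -t} ≤ Real.exp (-2 * t ^ 2 / V) := by
  have h := pb_hoeffding_ge hπ (fun k => -a k) (V := V) (t := t) (by simpa using hV) hV0 ht
  refine le_trans (le_of_eq ?_) h
  congr 1
  ext s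
  simp only [Set.mem_ofPred_eq, pbSum_neg]
  constructor <;> intro h <;> linarith

/-- **Hoeffding's inequality**, two-sided. -/
theorem pb_hoeffding_abs (hπ : IsProbArray π) (a : κ → ℝ) {V t : ℝ} (hV : ∑ k, a k ^ 2 ≤ V)
    (hV0 : 0 < V) (ht : 0 ≤ t) : prb π {s | t ≤ |pbSum π a s|} ≤ 2 * Real.exp (-2 * t ^ 2 / V) := by
  have hsub : {s : κ → Bool | t ≤ |pbSum π a s|} ⊆
      {s | t ≤ pbSum π a s} ∪ {s | pbSum π a s ≤ -t} := by
    intro s hs
    rcases le_abs.1 (show t ≤ |pbSum π a s| from hs) with h | h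
    · exact Or.inl h
    · exact Or.inr (by simp only [Set.mem_ofPred_eq]; linarith)
  have := (pb_prb_mono hπ hsub).trans (pb_prb_union_le hπ _ _)
  linarith [pb_hoeffding_ge hπ a hV hV0 ht, pb_hoeffding_le hπ a hV hV0 ht]

end Tail

end Claimed.Agent.R293
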