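/-
R293 / RedCompIface.lean  (owner: helper66, sub-captain of RED-2).
Interface of RED-2 = paper B Lemma 2.2 (tails close to sparse vectors), `red_comp : StRedComp`.
Definitions and `def StRedk… : Prop` only, no sorry.  Prefix `redk`.

PROOF DESIGN (simplified with respect to the paper: no operator norm, no net of a sphere).
`A = sgnMat s`, `μ = 2p-1`, `W = A - μ 11ᵀ`, `Q = cQ p`, `η = θ/√n`.
* OP    : except with probability `2^(-2n)`:  `u'ᵀ W u ≤ 8 n √n` for ALL sign vectors `u u' ∈ {-1,0,1}^n`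
          (Hoeffding + union bound over `9^n` pairs).
* DET   : on `redComp ∩ OP`: round `v` to multiples of `η` on `{a} ∪ {j | η < |v j|}`, put `0` elsewhere: `c`.
          `r = v - c` has `‖r‖_∞ ≤ η`; row identity `(A c)_i - z* = -(W r)_i`, `z* = -μ ∑ r`;
          `∑_{i ∈ R} |(W r)_i| ≤ η ‖W‖_{∞→1} ≤ θ L n`, hence at most `γ n` rows fail `|(A c)_i - z| ≤ w`.
* COUNT : the number of sparse integer vectors with small `ℓ¹` norm is `2^{o(n)}` (weighted count).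
* SB    : every row test has probability `≤ Q` (two large coefficients: two-bit square; else Esseen).
* IND   : the rows outside the support of `c` are independent: `≤ e^{n H(γ)} Q^{n - |supp| - γ n}`.
* MAIN  : union bound and choice of the constants `w, γ, θ, λ', λ, δ` (in this order).
-/
import Claimed.Agent.R293.RedIface
import Claimed.Agent.R293.ProbTail
import Claimed.Agent.R293.ProbCount
import Claimed.Agent.R293.ProbMarg

set_option autoImplicit false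

namespace Claimed.Agent.R293

open Finset Filter

/-- real sign of a bit. -/
def redkSgn (b : Bool) : ℝ := if b then 1 else -1

/-- the signed sum `∑ c_k ξ_k`, `ξ_k = ±1` the sign of the bit `σ k`. -/
def redkLin {κ : Type*} [Fintype κ] (c : κ → ℝ) (σ : κ → Bool) : ℝ := ∑ k, c k * redkSgn (σ k)

/-- `(A c)_i` for the sign matrix `A` of `s`. -/
def redkRow {n : ℕ} (s : Sym2 (Fin n) → Bool) (c : Fin n → ℝ) (i : Fin n) : ℝ :=
  redkLin c fun j => s s(i, j)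

/-- the event `‖W‖_{∞→1} ≤ L n^{3/2}`, tested on sign vectors. -/
def redkOp (p L : ℝ) (n : ℕ) : Set (Sym2 (Fin n) → Bool) :=
  {s | ∀ u u' : Fin n → SignType,
    ∑ i, ∑ j, (u' i : ℝ) * (redkSgn (s s(i, j)) - (2 * p - 1)) * (u j : ℝ) ≤ L * n * Real.sqrt n}

/-- at most `g` rows fail the test `|(A c)_i - z| ≤ w`. -/
def redkTest (n : ℕ) (c : Fin n → ℝ) (z w g : ℝ) : Set (Sym2 (Fin n) → Bool) :=
  {s | ((univ.filter fun i : Fin n => w < |redkRow s c i - z|).card : ℝ) ≤ g}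

/-- coefficient vector of the data `(a, ka, k)`: `η ka` at the anchor `a`, `η k_j` elsewhere. -/
def redkVec {n : ℕ} (η : ℝ) (a : Fin n) (ka : ℤ) (k : Fin n → ℤ) : Fin n → ℝ :=
  fun j => η * (if j = a then (ka : ℝ) else (k j : ℝ))

/-- integer vectors with at most `m` nonzero entries and `ℓ¹` norm at most `K` (`m K` real). -/
noncomputable def redkInts (n : ℕ) (m K : ℝ) : Finset (Fin n → ℤ) :=
  (Fintype.piFinset fun _ : Fin n => Finset.Icc (-(⌈K⌉₊ : ℤ)) (⌈K⌉₊ : ℤ)).filter fun k =>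
    ((univ.filter fun j => k j ≠ 0).card : ℝ) ≤ m ∧ ((∑ j, |k j| : ℤ) : ℝ) ≤ K

/-- the finite set of data `(a, ka, k, mz)`. -/
noncomputable def redkData (n : ℕ) (m K : ℝ) (M M' : ℕ) : Finset (Fin n × ℤ × (Fin n → ℤ) × ℤ) :=
  univ ×ˢ Finset.Icc (-(M : ℤ)) (M : ℤ) ×ˢ redkInts n m K ×ˢ Finset.Icc (-(M' : ℤ)) (M' : ℤ)

/-- the two properties of the coefficient vector used by the small-ball bound. -/
def RedkGood {κ : Type*} [Fintype κ] [DecidableEq κ] (w : ℝ) (c : κ → ℝ) (a : κ) : Prop :=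
  1 / 8 ≤ ∑ j ∈ univ.erase a, c j ^ 2 ∧ ∀ j, |c j| ≤ |c a| + w

/-- the event attached to the data `d = (a, ka, k, mz)`: good coefficient vector, shift `z = w mz`,
at most `g` failing rows. -/
def redkEv (n : ℕ) (η w g : ℝ) (d : Fin n × ℤ × (Fin n → ℤ) × ℤ) : Set (Sym2 (Fin n) → Bool) :=
  {s | RedkGood w (redkVec η d.1 d.2.1 d.2.2.1) d.1 ∧
    s ∈ redkTest n (redkVec η d.1 d.2.1 d.2.2.1) (w * (d.2.2.2 : ℝ)) w g}

/-! ### The leaves -/

/-- **OP** (file RedCompOp.lean, `redk_op`). -/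
def StRedkOp : Prop :=
  ∀ p : ℝ, 0 < p → p ≤ 1 / 2 → ∀ n : ℕ,
    prb (sgnLaw p n) (redkOp p 8 n)ᶜ ≤ (2 : ℝ) ^ (-(2 * (n : ℝ)))

/-- **DET** (file RedCompDet*.lean, `redk_det`). -/
def StRedkDet : Prop :=
  ∀ p L w θ lam del lam' γ : ℝ, 0 < p → p ≤ 1 / 2 → 0 < L → 0 < w → 0 < θ → θ ≤ w → θ ≤ 1 →
    0 < lam → lam < 1 / 4 → 0 < del → del < 1 / 4 → lam + del ^ 2 / θ ^ 2 ≤ lam' →
    2 * θ * L / w ≤ γ → ∀ n : ℕ, 0 < n →
    redComp lam del n ∩ redkOp p L n ⊆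
      ⋃ d ∈ redkData n (lam' * n) (3 / 2 * Real.sqrt lam' / θ * n) (⌈(n : ℝ) / θ⌉₊ + 1)
        (⌈θ * n / w⌉₊ + 1), redkEv n (θ / Real.sqrt n) w (γ * n) d

/-- **COUNT** (file RedCompCount.lean, `redk_count`). -/
def StRedkCount : Prop :=
  ∀ (n : ℕ) (m K β : ℝ), 0 ≤ m → 0 ≤ K → 0 < β → β ≤ 1 →
    ((redkInts n m K).card : ℝ) ≤ (1 + 2 * β) ^ n * β ^ (-m) * (2 : ℝ) ^ K

/-- **IND** (file RedCompInd.lean, `redk_ind`). -/
def StRedkInd : Prop :=
  ∀ p : ℝ, 0 ≤ p → p ≤ 1 → ∀ (n : ℕ) (c : Fin n → ℝ) (z w q γ m : ℝ), 0 < q → q ≤ 1 →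
    0 < γ → γ ≤ 1 / 2 →
    prb (fun _ : Fin n => p) {σ | |redkLin c σ - z| ≤ w} ≤ q →
    ((univ.filter fun j => c j ≠ 0).card : ℝ) ≤ m →
    prb (sgnLaw p n) (redkTest n c z w (γ * n)) ≤
      Real.exp (n * Real.binEntropy γ) * q ^ ((n : ℝ) - m - γ * n)

/-- **SB-two** (file RedCompTwo.lean, `redk_two`): two coefficients larger than the window. -/
def StRedkTwo : Prop :=
  ∀ p : ℝ, 0 ≤ p → p ≤ 1 → ∀ (κ : Type) [Fintype κ] [DecidableEq κ] (c : κ → ℝ) (k0 k1 : κ) (w : ℝ),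
    k0 ≠ k1 → w < |c k0| → w < |c k1| → ∀ z : ℝ,
    prb (fun _ : κ => p) {σ | |redkLin c σ - z| ≤ w} ≤ cQ p

/-- **SB-Esseen** (file RedCompEsseen*.lean, `redk_esseen`): all coefficients small. -/
def StRedkEsseen : Prop :=
  ∀ p : ℝ, 0 < p → p ≤ 1 / 2 → ∃ w1 : ℝ, 0 < w1 ∧
    ∀ (κ : Type) [Fintype κ] [DecidableEq κ] (c : κ → ℝ), (∀ k, |c k| ≤ w1) → 1 / 8 ≤ ∑ k, c k ^ 2 →
      ∀ z : ℝ, prb (fun _ : κ => p) {σ | |redkLin c σ - z| ≤ w1} ≤ 1 / 2

/-- **SB** (file RedCompSB.lean, `redk_sb : StRedkTwo → StRedkEsseen → StRedkSB`). -/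
def StRedkSB : Prop :=
  ∀ p : ℝ, 0 < p → p ≤ 1 / 2 → ∃ w : ℝ, 0 < w ∧
    ∀ (κ : Type) [Fintype κ] [DecidableEq κ] (c : κ → ℝ) (a : κ), RedkGood w c a →
      ∀ z : ℝ, prb (fun _ : κ => p) {σ | |redkLin c σ - z| ≤ w} ≤ cQ p

/-
GLUE:  RedCompMain.lean  redk_main : StRedkOp → StRedkDet → StRedkCount → StRedkInd → StRedkSB → StRedComp
       RedComp.lean      red_comp  : StRedComp
-/

end Claimed.Agent.R293
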