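/-
R293 / RedCompCount.lean  (helper245).  Leaf REDK-COUNT: sparse integer vectors of small l1 norm (weighted count).
-/
import Claimed.Agent.R293.RedCompIface

set_option autoImplicit false

namespace Claimed.Agent.R293

open Finset

/-- the weight of one coordinate. -/
noncomputable def redkcW (β : ℝ) (x : ℤ) : ℝ := (if x = 0 then 1 else β) * (1 / 2 : ℝ) ^ x.natAbs

theorem redkcW_nonneg {β : ℝ} (hβ : 0 ≤ β) (x : ℤ) : 0 ≤ redkcW β x := by
  unfold redkcW
  split_ifs <;> positivity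

theorem redkc_sum (β : ℝ) (B : ℕ) :
    ∑ x ∈ Finset.Icc (-(B : ℤ)) (B : ℤ), redkcW β x = 1 + 2 * β * (1 - (1 / 2 : ℝ) ^ B) := by
  induction B with
  | zero => simp [redkcW]
  | succ B ih =>
    have hI : Finset.Icc (-((B + 1 : ℕ) : ℤ)) ((B + 1 : ℕ) : ℤ) =
        insert ((B : ℤ) + 1) (insert (-((B : ℤ) + 1)) (Finset.Icc (-(B : ℤ)) (B : ℤ))) := by
      ext x
      simp only [Finset.mem_Icc, Finset.mem_insert]
      push_cast
      omega
    rw [hI, Finset.sum_insert, Finset.sum_insert, ih]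
    · have h1 : redkcW β ((B : ℤ) + 1) = β * (1 / 2 : ℝ) ^ (B + 1) := by
        unfold redkcW
        have : ((B : ℤ) + 1).natAbs = B + 1 := by omega
        rw [this, if_neg (by omega)]
      have h2 : redkcW β (-((B : ℤ) + 1)) = β * (1 / 2 : ℝ) ^ (B + 1) := by
        unfold redkcW
        have : (-((B : ℤ) + 1)).natAbs = B + 1 := by omega
        rw [this, if_neg (by omega)]
      rw [h1, h2, pow_succ]
      ring
    · simp only [Finset.mem_Icc]
      omega
    · simp only [Finset.mem_Icc, Finset.mem_insert]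
      omega

theorem redkc_sum_le {β : ℝ} (hβ : 0 ≤ β) (B : ℕ) :
    ∑ x ∈ Finset.Icc (-(B : ℤ)) (B : ℤ), redkcW β x ≤ 1 + 2 * β := by
  rw [redkc_sum]
  have : 0 ≤ (1 / 2 : ℝ) ^ B := by positivity
  nlinarith

theorem redkc_prod {n : ℕ} (β : ℝ) (k : Fin n → ℤ) :
    ∏ j, redkcW β (k j) =
      β ^ (univ.filter fun j => k j ≠ 0).card * (1 / 2 : ℝ) ^ (∑ j, (k j).natAbs) := by
  unfold redkcW
  rw [Finset.prod_mul_distrib, Finset.prod_pow_eq_pow_sum]
  congr 1
  rw [Finset.prod_ite, Finset.prod_const_one, one_mul, Finset.prod_const]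

theorem redk_count : StRedkCount := by
  intro n m K β hm hK hβ hβ1
  set B : ℕ := ⌈K⌉₊ with hB
  have hlow : ∀ k ∈ redkInts n m K, β ^ m * (2 : ℝ) ^ (-K) ≤ ∏ j, redkcW β (k j) := by
    intro k hk
    unfold redkInts at hk
    rw [Finset.mem_filter] at hk
    obtain ⟨-, h1, h2⟩ := hk
    rw [redkc_prod]
    have e1 : β ^ m ≤ β ^ (univ.filter fun j => k j ≠ 0).card := by
      rw [← Real.rpow_natCast]
      exact Real.rpow_le_rpow_of_exponent_ge hβ hβ1 h1
    have hs : ((∑ j, (k j).natAbs : ℕ) : ℝ) ≤ K := by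
      have : ((∑ j, (k j).natAbs : ℕ) : ℝ) = ((∑ j, |k j| : ℤ) : ℝ) := by
        push_cast
        apply Finset.sum_congr rfl
        intro j _
        rw [Nat.cast_natAbs]
        push_cast
        rfl
      rw [this]
      exact h2
    have e2 : (2 : ℝ) ^ (-K) ≤ (1 / 2 : ℝ) ^ (∑ j, (k j).natAbs) := by
      rw [one_div, inv_pow, ← Real.rpow_natCast, ← Real.rpow_neg (by norm_num)]
      apply Real.rpow_le_rpow_of_exponent_le (by norm_num)
      linarith
    exact mul_le_mul e1 e2 (Real.rpow_nonneg (by norm_num) _) (by positivity)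
  have hsum : ∑ k ∈ redkInts n m K, ∏ j, redkcW β (k j) ≤ (1 + 2 * β) ^ n := by
    calc ∑ k ∈ redkInts n m K, ∏ j, redkcW β (k j)
        ≤ ∑ k ∈ Fintype.piFinset fun _ : Fin n => Finset.Icc (-(B : ℤ)) (B : ℤ),
            ∏ j, redkcW β (k j) := by
          apply Finset.sum_le_sum_of_subset_of_nonneg
          · unfold redkInts
            exact Finset.filter_subset _ _
          · intro k _ _
            exact Finset.prod_nonneg fun j _ => redkcW_nonneg hβ.le _
      _ = ∏ _j : Fin n, ∑ x ∈ Finset.Icc (-(B : ℤ)) (B : ℤ), redkcW β x := by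
          rw [Finset.prod_univ_sum]
      _ = (∑ x ∈ Finset.Icc (-(B : ℤ)) (B : ℤ), redkcW β x) ^ n := by
          rw [Finset.prod_const, Finset.card_univ, Fintype.card_fin]
      _ ≤ (1 + 2 * β) ^ n := by
          apply pow_le_pow_left₀ _ (redkc_sum_le hβ.le B)
          exact Finset.sum_nonneg fun x _ => redkcW_nonneg hβ.le _
  have hcard : ((redkInts n m K).card : ℝ) * (β ^ m * (2 : ℝ) ^ (-K)) ≤ (1 + 2 * β) ^ n := by
    refine le_trans ?_ hsum
    rw [← nsmul_eq_mul]
    exact Finset.card_nsmul_le_sum _ _ _ hlow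
  have p1 : 0 < β ^ m := Real.rpow_pos_of_pos hβ _
  have p2 : 0 < (2 : ℝ) ^ (-K) := Real.rpow_pos_of_pos (by norm_num) _
  have i1 : β ^ (-m) = (β ^ m)⁻¹ := Real.rpow_neg hβ.le _
  have i2 : (2 : ℝ) ^ K = ((2 : ℝ) ^ (-K))⁻¹ := by
    rw [Real.rpow_neg (by norm_num), inv_inv]
  rw [i1, i2, mul_assoc, ← mul_inv, ← div_eq_mul_inv, le_div_iff₀ (by positivity)]
  exact hcard

end Claimed.Agent.R293
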