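/-
R293 / RedCompDet.lean  (helper155; leaf REDK-DET of RED-2, sub-captain helper66).  Prefix `redkd`.

`redk_det : StRedkDet` (RedCompIface.lean): the deterministic rounding step.  Pure finite real algebra.

`η = θ/√n`, `B = {j ≠ a | η < |v j|}`, `k j = round (v j/η)` on `B`, `0` elsewhere, `ka = round (v a/η)`,
`c = redkVec η a ka k`, `r = v - c`, `zs = -(2p-1) ∑ r`, `mz = round (zs/w)`.
-/
import Claimed.Agent.R293.RedCompIface

set_option autoImplicit false

namespace Claimed.Agent.R293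

open Finset

/-! ### Rounding, signs -/

theorem redkd_round {η : ℝ} (hη : 0 < η) (x : ℝ) : |x - η * (round (x / η) : ℝ)| ≤ η / 2 := by
  have h := abs_sub_round (x / η)
  have e : x - η * (round (x / η) : ℝ) = η * (x / η - (round (x / η) : ℝ)) := by field_simp
  rw [e, abs_mul, abs_of_pos hη]
  nlinarith

theorem redkd_abs_round (y : ℝ) : |(round y : ℝ)| ≤ |y| + 1 / 2 := by
  have h := abs_sub_round y
  have h2 := abs_sub_abs_le_abs_sub (round y : ℝ) y
  rw [abs_sub_comm] at h2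
  linarith

theorem redkd_abs_sgn (b : Bool) : |redkSgn b| = 1 := by
  cases b <;> simp [redkSgn]

theorem redkd_ker {n : ℕ} {s : Sym2 (Fin n) → Bool} {v : Fin n → ℝ} (h : IsKer s v) (i : Fin n) :
    redkRow s v i = 0 := by
  have h1 := congrFun h i
  simp only [Matrix.mulVec, dotProduct, toR, sgnMat, Matrix.map_apply, Pi.zero_apply] at h1
  unfold redkRow redkLin
  rw [← h1]
  refine Finset.sum_congr rfl fun j _ => ?_
  unfold redkSgn
  split_ifs <;> simp

/-! ### (vii) few failing rows -/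

/-- `∑_{i ∈ R} |(W r)_i| ≤ η ‖W‖_{∞→1}`. -/
theorem redkd_rows {n : ℕ} {p L η w : ℝ} {s : Sym2 (Fin n) → Bool} (hop : s ∈ redkOp p L n)
    (hη : 0 ≤ η) (r : Fin n → ℝ) (hr : ∀ j, |r j| ≤ η) (R : Finset (Fin n))
    (hR : ∀ i ∈ R, w / 2 ≤ |∑ j, (redkSgn (s s(i, j)) - (2 * p - 1)) * r j|) :
    (R.card : ℝ) * (w / 2) ≤ η * (L * n * Real.sqrt n) := by
  obtain ⟨W, hW⟩ : ∃ W : Fin n → Fin n → ℝ, W = fun i j => redkSgn (s s(i, j)) - (2 * p - 1) :=
    ⟨_, rfl⟩
  have hWij : ∀ i j, redkSgn (s s(i, j)) - (2 * p - 1) = W i j := fun i j => by rw [hW]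
  simp only [hWij] at hR
  obtain ⟨u', hu'⟩ : ∃ u' : Fin n → SignType,
      u' = fun i => if i ∈ R then SignType.sign (∑ j, W i j * r j) else 0 := ⟨_, rfl⟩
  obtain ⟨g, hg⟩ : ∃ g : Fin n → ℝ, g = fun j => ∑ i, (u' i : ℝ) * W i j := ⟨_, rfl⟩
  obtain ⟨u, hu⟩ : ∃ u : Fin n → SignType, u = fun j => SignType.sign (g j) := ⟨_, rfl⟩
  have h1 : (R.card : ℝ) * (w / 2) ≤ ∑ i ∈ R, |∑ j, W i j * r j| := by
    have := Finset.card_nsmul_le_sum R (fun i => |∑ j, W i j * r j|) (w / 2) hR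
    rwa [nsmul_eq_mul] at this
  have h2 : ∑ i ∈ R, |∑ j, W i j * r j| = ∑ i, (u' i : ℝ) * ∑ j, W i j * r j := by
    rw [hu']
    have : ∀ i, (((if i ∈ R then SignType.sign (∑ j, W i j * r j) else 0 : SignType)) : ℝ) *
        ∑ j, W i j * r j = if i ∈ R then |∑ j, W i j * r j| else 0 := by
      intro i
      split_ifs
      · exact sign_mul_self _
      · simp
    simp only [this]
    rw [Finset.sum_ite_mem, Finset.univ_inter]
  have h3 : ∑ i, (u' i : ℝ) * ∑ j, W i j * r j = ∑ j, r j * g j := by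
    rw [hg]
    simp only [Finset.mul_sum]
    rw [Finset.sum_comm]
    refine Finset.sum_congr rfl fun j _ => Finset.sum_congr rfl fun i _ => by ring
  have h4 : ∑ j, r j * g j ≤ ∑ j, η * |g j| := by
    refine Finset.sum_le_sum fun j _ => ?_
    calc r j * g j ≤ |r j * g j| := le_abs_self _
      _ = |r j| * |g j| := abs_mul _ _
      _ ≤ η * |g j| := mul_le_mul_of_nonneg_right (hr j) (abs_nonneg _)
  have h5 : ∑ j, η * |g j| = η * ∑ i, ∑ j, (u' i : ℝ) * W i j * (u j : ℝ) := by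
    rw [← Finset.mul_sum, Finset.sum_comm]
    congr 1
    refine Finset.sum_congr rfl fun j _ => ?_
    rw [← Finset.sum_mul, hu]
    have : ∑ i, (u' i : ℝ) * W i j = g j := by rw [hg]
    rw [this, self_mul_sign]
  have h6 : ∑ i, ∑ j, (u' i : ℝ) * W i j * (u j : ℝ) ≤ L * n * Real.sqrt n := by
    have := hop u u'
    simp only [hWij] at this
    exact this
  calc (R.card : ℝ) * (w / 2) ≤ ∑ j, η * |g j| := by rw [h2, h3] at h1; exact le_trans h1 h4
    _ = η * ∑ i, ∑ j, (u' i : ℝ) * W i j * (u j : ℝ) := h5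
    _ ≤ η * (L * n * Real.sqrt n) := mul_le_mul_of_nonneg_left h6 hη

/-- row identity: `(A c)_i - zs = -(W r)_i`. -/
theorem redkd_row_id {n : ℕ} {s : Sym2 (Fin n) → Bool} {v : Fin n → ℝ} (h : IsKer s v) (p : ℝ)
    (c : Fin n → ℝ) (i : Fin n) :
    ∑ j, (redkSgn (s s(i, j)) - (2 * p - 1)) * (v j - c j) =
      -(2 * p - 1) * ∑ j, (v j - c j) - redkRow s c i := by
  have h1 := redkd_ker h i
  unfold redkRow redkLin at h1 ⊢
  have h2 : ∀ j, (redkSgn (s s(i, j)) - (2 * p - 1)) * (v j - c j) =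
      v j * redkSgn (s s(i, j)) - c j * redkSgn (s s(i, j)) + -(2 * p - 1) * (v j - c j) :=
    fun j => by ring
  simp only [h2]
  rw [Finset.sum_add_distrib, Finset.sum_sub_distrib, h1, ← Finset.mul_sum]
  ring

/-! ### The rounded vector -/

section

variable {n : ℕ}

/-- the large coordinates -/
noncomputable def redkdB (η : ℝ) (v : Fin n → ℝ) (a : Fin n) : Finset (Fin n) :=
  univ.filter fun j => j ≠ a ∧ η < |v j|

/-- the rounded tail -/
noncomputable def redkdK (η : ℝ) (v : Fin n → ℝ) (a : Fin n) : Fin n → ℤ :=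
  fun j => if j ∈ redkdB η v a then round (v j / η) else 0

/-- the rounded vector -/
noncomputable def redkdC (η : ℝ) (v : Fin n → ℝ) (a : Fin n) : Fin n → ℝ :=
  redkVec η a (round (v a / η)) (redkdK η v a)

variable {η : ℝ} {v : Fin n → ℝ} {a : Fin n}

theorem redkd_mem_B {j : Fin n} : j ∈ redkdB η v a ↔ j ≠ a ∧ η < |v j| := by
  simp [redkdB]

theorem redkd_B_sub : redkdB η v a ⊆ univ.erase a := by
  intro j hj
  exact Finset.mem_erase.2 ⟨(redkd_mem_B.1 hj).1, Finset.mem_univ _⟩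

theorem redkdC_a : redkdC η v a a = η * (round (v a / η) : ℝ) := by
  simp [redkdC, redkVec]

theorem redkdC_B {j : Fin n} (hj : j ∈ redkdB η v a) :
    redkdC η v a j = η * (round (v j / η) : ℝ) := by
  have hja := (redkd_mem_B.1 hj).1
  simp [redkdC, redkVec, redkdK, hja, hj]

theorem redkdC_out {j : Fin n} (hja : j ≠ a) (hj : j ∉ redkdB η v a) : redkdC η v a j = 0 := by
  simp [redkdC, redkVec, redkdK, hja, hj]

theorem redkd_small {j : Fin n} (hja : j ≠ a) (hj : j ∉ redkdB η v a) : |v j| ≤ η := by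
  by_contra hc
  exact hj (redkd_mem_B.2 ⟨hja, not_le.1 hc⟩)

/-- (0) `|r j| ≤ η`. -/
theorem redkd_r_le (hη : 0 < η) (j : Fin n) : |v j - redkdC η v a j| ≤ η := by
  by_cases hja : j = a
  · subst hja
    rw [redkdC_a]; have := redkd_round hη (v j); linarith
  · by_cases hj : j ∈ redkdB η v a
    · rw [redkdC_B hj]; have := redkd_round hη (v j); linarith
    · rw [redkdC_out hja hj, sub_zero]; exact redkd_small hja hj

/-- (i) `card B ≤ λ' n`. -/
theorem redkd_cardB {θ lam del lam' : ℝ} {T : Finset (Fin n)} (hη : 0 < η)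
    (hηn : η ^ 2 * n = θ ^ 2) (hθ : 0 < θ) (hT : (T.card : ℝ) ≤ lam * n)
    (hdel : ∑ i ∈ (univ.erase a) \ T, v i ^ 2 ≤ del ^ 2) (hlam' : lam + del ^ 2 / θ ^ 2 ≤ lam') :
    ((redkdB η v a).card : ℝ) ≤ lam' * n := by
  have hn0 : (0 : ℝ) ≤ n := Nat.cast_nonneg n
  have h1 : ((redkdB η v a).card : ℝ) ≤ ((redkdB η v a) \ T).card + T.card := by
    exact_mod_cast Finset.card_le_card_sdiff_add_card
  have h2 : (((redkdB η v a) \ T).card : ℝ) * η ^ 2 ≤ del ^ 2 := by
    calc (((redkdB η v a) \ T).card : ℝ) * η ^ 2 = ∑ _i ∈ (redkdB η v a) \ T, η ^ 2 := by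
          rw [Finset.sum_const, nsmul_eq_mul]
      _ ≤ ∑ i ∈ (redkdB η v a) \ T, v i ^ 2 := by
          refine Finset.sum_le_sum fun i hi => ?_
          have := (redkd_mem_B.1 (Finset.mem_sdiff.1 hi).1).2
          rw [← sq_abs (v i)]
          exact pow_le_pow_left₀ hη.le this.le 2
      _ ≤ ∑ i ∈ (univ.erase a) \ T, v i ^ 2 :=
          Finset.sum_le_sum_of_subset_of_nonneg (Finset.sdiff_subset_sdiff redkd_B_sub subset_rfl)
            fun _ _ _ => sq_nonneg _
      _ ≤ del ^ 2 := hdel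
  have h3 : (((redkdB η v a) \ T).card : ℝ) * θ ^ 2 ≤ del ^ 2 * n := by
    rw [← hηn, ← mul_assoc]
    exact mul_le_mul_of_nonneg_right h2 hn0
  have h4 : (((redkdB η v a) \ T).card : ℝ) ≤ del ^ 2 / θ ^ 2 * n := by
    rw [div_mul_eq_mul_div, le_div_iff₀ (by positivity)]; exact h3
  calc ((redkdB η v a).card : ℝ) ≤ (lam + del ^ 2 / θ ^ 2) * n := by rw [add_mul]; linarith
    _ ≤ lam' * n := mul_le_mul_of_nonneg_right hlam' hn0

/-- `∑_S |v| ≤ √(bound of card S)` for `S` inside the tail. -/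
theorem redkd_tail_abs (hv : TailNormed v a) {S : Finset (Fin n)} (hS : S ⊆ univ.erase a) {m : ℝ}
    (hm : (S.card : ℝ) ≤ m) : ∑ j ∈ S, |v j| ≤ Real.sqrt m := by
  have h1 : (∑ j ∈ S, |v j|) ^ 2 ≤ (S.card : ℝ) * ∑ j ∈ S, |v j| ^ 2 := sq_sum_le_card_mul_sum_sq
  have h2 : ∑ j ∈ S, |v j| ^ 2 ≤ 1 := by
    simp only [sq_abs]
    rw [← hv]
    exact Finset.sum_le_sum_of_subset_of_nonneg hS fun _ _ _ => sq_nonneg _
  have h3 : (∑ j ∈ S, |v j|) ^ 2 ≤ m := by
    have : (S.card : ℝ) * ∑ j ∈ S, |v j| ^ 2 ≤ (S.card : ℝ) * 1 :=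
      mul_le_mul_of_nonneg_left h2 (Nat.cast_nonneg _)
    linarith
  exact le_trans (le_abs_self _) (Real.abs_le_sqrt h3)

/-- (ii) the `ℓ¹` norm of the rounded tail. -/
theorem redkd_sumK {θ lam' : ℝ} (hn : 0 < n) (hη : 0 < η) (hηs : η * Real.sqrt n = θ)
    (hv : TailNormed v a)
    (hB : ((redkdB η v a).card : ℝ) ≤ lam' * n) :
    ∑ j, |(redkdK η v a j : ℝ)| ≤ 3 / 2 * Real.sqrt lam' / θ * n := by
  have h1 : ∀ j, |(redkdK η v a j : ℝ)| ≤ if j ∈ redkdB η v a then 3 / 2 / η * |v j| else 0 := by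
    intro j
    unfold redkdK
    split_ifs with hj
    · have h2 := redkd_abs_round (v j / η)
      have h3 := (redkd_mem_B.1 hj).2
      rw [abs_div, abs_of_pos hη] at h2
      have h4 : 1 < |v j| / η := by rw [lt_div_iff₀ hη]; linarith
      have h5 : 3 / 2 / η * |v j| = 3 / 2 * (|v j| / η) := by ring
      rw [h5]; linarith
    · simp
  have h2 := redkd_tail_abs hv redkd_B_sub hB
  have hn0 : (0 : ℝ) < n := by exact_mod_cast hn
  have hsn : 0 < Real.sqrt n := Real.sqrt_pos.2 hn0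
  have hqq : Real.sqrt n * Real.sqrt n = n := Real.mul_self_sqrt hn0.le
  calc ∑ j, |(redkdK η v a j : ℝ)| ≤ ∑ j, if j ∈ redkdB η v a then 3 / 2 / η * |v j| else 0 :=
        Finset.sum_le_sum fun j _ => h1 j
    _ = 3 / 2 / η * ∑ j ∈ redkdB η v a, |v j| := by
        rw [Finset.sum_ite_mem, Finset.univ_inter, Finset.mul_sum]
    _ ≤ 3 / 2 / η * Real.sqrt (lam' * n) := mul_le_mul_of_nonneg_left h2 (by positivity)
    _ = 3 / 2 * Real.sqrt lam' / θ * n := by
        rw [Real.sqrt_mul' _ hn0.le, ← hηs]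
        nth_rewrite 3 [← hqq]
        field_simp

/-- (iii) the rounded tail keeps an eighth of the mass. -/
theorem redkd_mass {θ lam del : ℝ} {T : Finset (Fin n)} (hη : 0 < η) (hηn : η ^ 2 * n = θ ^ 2)
    (hθ : 0 < θ) (hθ1 : θ ≤ 1) (hv : TailNormed v a) (hT : (T.card : ℝ) ≤ lam * n)
    (hlam : 0 < lam) (hlam4 : lam < 1 / 4) (hdel0 : 0 < del) (hdel4 : del < 1 / 4)
    (hdel : ∑ i ∈ (univ.erase a) \ T, v i ^ 2 ≤ del ^ 2) :
    1 / 8 ≤ ∑ j ∈ univ.erase a, redkdC η v a j ^ 2 := by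
  have s1 : ∑ j ∈ redkdB η v a, redkdC η v a j ^ 2 ≤ ∑ j ∈ univ.erase a, redkdC η v a j ^ 2 :=
    Finset.sum_le_sum_of_subset_of_nonneg redkd_B_sub fun _ _ _ => sq_nonneg _
  have s2 : ∑ j ∈ redkdB η v a, v j ^ 2 / 4 ≤ ∑ j ∈ redkdB η v a, redkdC η v a j ^ 2 := by
    refine Finset.sum_le_sum fun j hj => ?_
    have h1 := redkd_round hη (v j)
    rw [← redkdC_B hj] at h1
    have h2 := (redkd_mem_B.1 hj).2
    have h3 := abs_sub_abs_le_abs_sub (v j) (redkdC η v a j)
    have h4 : |v j| / 2 ≤ |redkdC η v a j| := by linarith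
    have h5 := pow_le_pow_left₀ (by positivity) h4 2
    rw [sq_abs, div_pow, sq_abs] at h5
    linarith
  have s3 := Finset.sum_sdiff (f := fun j => v j ^ 2) (redkd_B_sub (η := η) (v := v) (a := a))
  have s4 := Finset.sum_inter_add_sum_sdiff ((univ.erase a) \ redkdB η v a) T fun j => v j ^ 2
  have s5 : ∑ j ∈ ((univ.erase a) \ redkdB η v a) ∩ T, v j ^ 2 ≤ (T.card : ℝ) * η ^ 2 := by
    have h1 : ∑ j ∈ ((univ.erase a) \ redkdB η v a) ∩ T, v j ^ 2 ≤
        (((univ.erase a) \ redkdB η v a) ∩ T).card • η ^ 2 := by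
      refine Finset.sum_le_card_nsmul _ _ _ fun j hj => ?_
      have h2 := Finset.mem_sdiff.1 (Finset.mem_inter.1 hj).1
      have h3 := redkd_small (Finset.mem_erase.1 h2.1).1 h2.2
      rw [← sq_abs (v j)]
      exact pow_le_pow_left₀ (abs_nonneg _) h3 2
    rw [nsmul_eq_mul] at h1
    refine le_trans h1 (mul_le_mul_of_nonneg_right ?_ (sq_nonneg _))
    exact_mod_cast Finset.card_le_card Finset.inter_subset_right
  have s6 : ∑ j ∈ ((univ.erase a) \ redkdB η v a) \ T, v j ^ 2 ≤ del ^ 2 :=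
    le_trans (Finset.sum_le_sum_of_subset_of_nonneg
      (Finset.sdiff_subset_sdiff Finset.sdiff_subset subset_rfl) fun _ _ _ => sq_nonneg _) hdel
  have s7 : (T.card : ℝ) * η ^ 2 ≤ lam := by
    calc (T.card : ℝ) * η ^ 2 ≤ lam * n * η ^ 2 := mul_le_mul_of_nonneg_right hT (sq_nonneg _)
      _ = lam * θ ^ 2 := by rw [← hηn]; ring
      _ ≤ lam * 1 := mul_le_mul_of_nonneg_left (by nlinarith) hlam.le
      _ = lam := mul_one _
  have s8 : del ^ 2 ≤ 1 / 16 := by nlinarith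
  have hv' : ∑ j ∈ univ.erase a, v j ^ 2 = 1 := hv
  rw [← Finset.sum_div] at s2
  linarith

/-- (iv) no coefficient is much larger than the anchor. -/
theorem redkd_anchor {w : ℝ} (hη : 0 < η) (hηw : η ≤ w) (ha : IsAnchor v a) (j : Fin n) :
    |redkdC η v a j| ≤ |redkdC η v a a| + w := by
  have h0 := redkd_round hη (v a)
  rw [← redkdC_a] at h0
  have h0' := abs_sub_abs_le_abs_sub (v a) (redkdC η v a a)
  by_cases hja : j = a
  · subst hja; linarith
  · by_cases hj : j ∈ redkdB η v a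
    · have h1 := redkd_round hη (v j)
      rw [← redkdC_B hj, abs_sub_comm] at h1
      have h2 := abs_sub_abs_le_abs_sub (redkdC η v a j) (v j)
      have h3 := ha j
      linarith
    · rw [redkdC_out hja hj, abs_zero]
      have := abs_nonneg (redkdC η v a a)
      linarith

/-- (v) the anchor is at most `√n`. -/
theorem redkd_anchor_le {s : Sym2 (Fin n) → Bool} (hk : IsKer s v) (hv : TailNormed v a) :
    |v a| ≤ Real.sqrt n := by
  have h1 := redkd_ker hk a
  unfold redkRow redkLin at h1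
  rw [← Finset.add_sum_erase univ _ (Finset.mem_univ a)] at h1
  have h2 : |v a| = |∑ j ∈ univ.erase a, v j * redkSgn (s s(a, j))| := by
    have : v a * redkSgn (s s(a, a)) = -∑ j ∈ univ.erase a, v j * redkSgn (s s(a, j)) := by
      linarith
    rw [← abs_neg (∑ j ∈ univ.erase a, v j * redkSgn (s s(a, j))), ← this, abs_mul, redkd_abs_sgn,
      mul_one]
  have h3 : |∑ j ∈ univ.erase a, v j * redkSgn (s s(a, j))| ≤ ∑ j ∈ univ.erase a, |v j| := by
    refine le_trans (Finset.abs_sum_le_sum_abs _ _) (le_of_eq ?_)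
    refine Finset.sum_congr rfl fun j _ => ?_
    rw [abs_mul, redkd_abs_sgn, mul_one]
  have h4 : ((univ.erase a : Finset (Fin n)).card : ℝ) ≤ n := by
    have : (univ.erase a : Finset (Fin n)).card ≤ n := by
      have := Finset.card_le_card (Finset.erase_subset a (univ : Finset (Fin n)))
      rwa [Finset.card_univ, Fintype.card_fin] at this
    exact_mod_cast this
  have h5 := redkd_tail_abs hv subset_rfl h4
  linarith

end

theorem redkd_mem_Icc {x : ℤ} {M : ℕ} (h : |(x : ℝ)| ≤ M) : x ∈ Finset.Icc (-(M : ℤ)) (M : ℤ) := by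
  rw [Finset.mem_Icc]
  have h1 := abs_le.1 h
  constructor
  · have : ((-(M : ℤ) : ℤ) : ℝ) ≤ (x : ℝ) := by push_cast; exact h1.1
    exact_mod_cast this
  · have : (x : ℝ) ≤ ((M : ℤ) : ℝ) := by push_cast; exact h1.2
    exact_mod_cast this

/-- `|round y| ≤ ⌈b⌉₊ + 1` if `|y| ≤ b`. -/
theorem redkd_round_mem {y b : ℝ} (h : |y| ≤ b) :
    round y ∈ Finset.Icc (-((⌈b⌉₊ + 1 : ℕ) : ℤ)) ((⌈b⌉₊ + 1 : ℕ) : ℤ) := by
  apply redkd_mem_Icc
  have h1 := redkd_abs_round y
  have h2 := Nat.le_ceil b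
  push_cast
  linarith

/-- membership of the rounded tail in `redkInts`. -/
theorem redkd_mem_ints {n : ℕ} {η : ℝ} {v : Fin n → ℝ} {a : Fin n} {m K : ℝ}
    (hB : ((redkdB η v a).card : ℝ) ≤ m) (hK : ∑ j, |(redkdK η v a j : ℝ)| ≤ K) :
    redkdK η v a ∈ redkInts n m K := by
  unfold redkInts
  rw [Finset.mem_filter, Fintype.mem_piFinset]
  refine ⟨fun j => ?_, ?_, ?_⟩
  · apply redkd_mem_Icc
    have h1 : |(redkdK η v a j : ℝ)| ≤ ∑ j, |(redkdK η v a j : ℝ)| :=
      Finset.single_le_sum (f := fun j => |(redkdK η v a j : ℝ)|) (fun _ _ => abs_nonneg _)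
        (Finset.mem_univ j)
    exact le_trans h1 (le_trans hK (Nat.le_ceil K))
  · refine le_trans ?_ hB
    have : (univ.filter fun j => redkdK η v a j ≠ 0) ⊆ redkdB η v a := by
      intro j hj
      by_contra hc
      exact (Finset.mem_filter.1 hj).2 (by simp [redkdK, hc])
    exact_mod_cast Finset.card_le_card this
  · push_cast
    exact hK

/-- (vii) the number of failing rows. -/
theorem redkd_test {n : ℕ} {p L w θ γ η : ℝ} {s : Sym2 (Fin n) → Bool} {v : Fin n → ℝ}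
    (hw : 0 < w) (hη : 0 < η) (hηs : η * Real.sqrt n = θ) (hγ : 2 * θ * L / w ≤ γ)
    (hop : s ∈ redkOp p L n) (hk : IsKer s v) (c : Fin n → ℝ) (hr : ∀ j, |v j - c j| ≤ η) :
    s ∈ redkTest n c (w * (round ((-(2 * p - 1) * ∑ j, (v j - c j)) / w) : ℝ)) w (γ * n) := by
  obtain ⟨zs, hzs⟩ : ∃ zs : ℝ, zs = -(2 * p - 1) * ∑ j, (v j - c j) := ⟨_, rfl⟩
  rw [← hzs]
  have hz := redkd_round hw zs
  show ((univ.filter fun i : Fin n => w < |redkRow s c i - w * (round (zs / w) : ℝ)|).card : ℝ) ≤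
    γ * n
  have h1 := redkd_rows (w := w) hop hη.le (fun j => v j - c j) hr
    (univ.filter fun i : Fin n => w < |redkRow s c i - w * (round (zs / w) : ℝ)|) (by
      intro i hi
      have h2 := (Finset.mem_filter.1 hi).2
      rw [redkd_row_id hk p c i, ← hzs]
      have h3 : redkRow s c i - w * (round (zs / w) : ℝ) =
          -(zs - redkRow s c i) + (zs - w * (round (zs / w) : ℝ)) := by ring
      rw [h3] at h2
      have h4 := abs_add_le (-(zs - redkRow s c i)) (zs - w * (round (zs / w) : ℝ))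
      rw [abs_neg] at h4
      linarith)
  have hn0 : (0 : ℝ) ≤ n := Nat.cast_nonneg n
  have h5 : η * (L * n * Real.sqrt n) = θ * L * n := by rw [← hηs]; ring
  rw [h5] at h1
  have h6 : ((univ.filter fun i : Fin n =>
      w < |redkRow s c i - w * (round (zs / w) : ℝ)|).card : ℝ) ≤ 2 * θ * L / w * n := by
    rw [div_mul_eq_mul_div, le_div_iff₀ hw]
    linarith
  exact le_trans h6 (mul_le_mul_of_nonneg_right hγ hn0)

/-- **Leaf DET.** -/
theorem redk_det : StRedkDet := by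
  intro p L w θ lam del lam' γ hp hp2 hL hw hθ hθw hθ1 hlam hlam4 hdel hdel4 hlam' hγ n hn s hs
  obtain ⟨⟨v, a, hker, hanch, htail, T, -, hT, hTd⟩, hop⟩ := hs
  have hn0 : (0 : ℝ) < n := by exact_mod_cast hn
  have hn1 : (1 : ℝ) ≤ n := by exact_mod_cast hn
  have hsn : 0 < Real.sqrt n := Real.sqrt_pos.2 hn0
  have hsn1 : 1 ≤ Real.sqrt n := by rw [Real.one_le_sqrt]; exact hn1
  have hqq : Real.sqrt n * Real.sqrt n = n := Real.mul_self_sqrt hn0.le
  obtain ⟨η, hηdef⟩ : ∃ η : ℝ, η = θ / Real.sqrt n := ⟨_, rfl⟩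
  rw [← hηdef]
  have hη : 0 < η := by rw [hηdef]; positivity
  have hηs : η * Real.sqrt n = θ := by rw [hηdef]; field_simp
  have hηn : η ^ 2 * n = θ ^ 2 := by
    calc η ^ 2 * n = η ^ 2 * (Real.sqrt n * Real.sqrt n) := by rw [hqq]
      _ = (η * Real.sqrt n) ^ 2 := by ring
      _ = θ ^ 2 := by rw [hηs]
  have hηθ : η ≤ θ := by rw [← hηs]; nlinarith
  have hB := redkd_cardB hη hηn hθ hT hTd hlam'
  have hK := redkd_sumK hn hη hηs htail hB
  have hr := redkd_r_le (v := v) (a := a) hη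
  -- the anchor
  have hka : |v a / η| ≤ (n : ℝ) / θ := by
    rw [abs_div, abs_of_pos hη, div_le_div_iff₀ hη hθ, ← hηs]
    have := redkd_anchor_le hker htail
    calc |v a| * (η * Real.sqrt n) ≤ Real.sqrt n * (η * Real.sqrt n) :=
          mul_le_mul_of_nonneg_right this (by positivity)
      _ = (Real.sqrt n * Real.sqrt n) * η := by ring
      _ = n * η := by rw [hqq]
  -- the shift
  have hzs : |(-(2 * p - 1) * ∑ j, (v j - redkdC η v a j)) / w| ≤ θ * n / w := by
    rw [abs_div, abs_of_pos hw]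
    refine div_le_div_of_nonneg_right ?_ hw.le
    rw [abs_mul]
    have h1 : |-(2 * p - 1)| ≤ 1 := by rw [abs_le]; constructor <;> linarith
    have h2 : |∑ j, (v j - redkdC η v a j)| ≤ n * η := by
      refine le_trans (Finset.abs_sum_le_sum_abs _ _) ?_
      have := Finset.sum_le_card_nsmul univ (fun j => |v j - redkdC η v a j|) η fun j _ => hr j
      rwa [Finset.card_univ, Fintype.card_fin, nsmul_eq_mul] at this
    calc |-(2 * p - 1)| * |∑ j, (v j - redkdC η v a j)| ≤ 1 * (n * η) :=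
          mul_le_mul h1 h2 (abs_nonneg _) zero_le_one
      _ ≤ θ * n := by nlinarith
  simp only [Set.mem_iUnion]
  refine ⟨(a, round (v a / η), redkdK η v a,
    round ((-(2 * p - 1) * ∑ j, (v j - redkdC η v a j)) / w)), ?_, ?_, ?_⟩
  · simp only [redkData, Finset.mem_product, Finset.mem_univ, true_and]
    exact ⟨redkd_round_mem hka, redkd_mem_ints hB hK, redkd_round_mem hzs⟩
  · exact ⟨redkd_mass hη hηn hθ hθ1 htail hT hlam hlam4 hdel hdel4 hTd,
      redkd_anchor hη (le_trans hηθ hθw) hanch⟩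
  · exact redkd_test hw hη hηs hγ hop hker _ hr

end Claimed.Agent.R293
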