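/-
R293 / RedCompEsseen.lean  (owner: helper148; leaf REDK-ESSEEN #1266 of RED-2).
`redk_esseen : StRedkEsseen`: if all coefficients are at most `w1` and `∑ c² ≥ 1/8` then the signed sum
`∑ c_k ξ_k` lies in a window of radius `w1` with probability at most `1/2`.

PROOF (no integrals).  `X = ∑ c_k ξ_k`, `b = 1 - p`, `J = 16`, `δ = 1/(16 w1)`, `w1 = p/100`.
* test function `G(y) = ∑_{j,j'<J} cos((j-j') δ y) = (∑_j cos(j δ y))² + (∑_j sin(j δ y))² ≥ 0`, and
  `G(y) ≥ (J/2)²` for `|y| ≤ w1` since `cos x ≥ 1/2` for `|x| ≤ 1`;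
* characteristic function: `E cos(t (X - z)) ≤ ∏_k |p e^{i t c_k} + b e^{-i t c_k}|`,
  `|..|² = 1 - 4 p b sin²(t c_k) ≤ exp(-2 p b t² c_k²)` for `|t c_k| ≤ 1`;
* hence `P(|X - z| ≤ w1) (J/2)² ≤ E G(X - z) ≤ J + J² exp(-p b δ²/8) ≤ J + J²/16`.
-/
import Claimed.Agent.R293.RedCompIface

set_option autoImplicit false

namespace Claimed.Agent.R293

open Finset

/-- one factor of the characteristic function. -/
noncomputable def redkePhi (p x : ℝ) : ℂ :=
  (p : ℂ) * Complex.exp ((x : ℂ) * Complex.I) + ((1 - p : ℝ) : ℂ) * Complex.exp ((-x : ℝ) * Complex.I)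

lemma redke_phi_eq (p x : ℝ) :
    redkePhi p x = ((Real.cos x : ℝ) : ℂ) + (((2 * p - 1) * Real.sin x : ℝ) : ℂ) * Complex.I := by
  unfold redkePhi
  rw [Complex.exp_mul_I, Complex.exp_mul_I, ← Complex.ofReal_cos, ← Complex.ofReal_sin,
    ← Complex.ofReal_cos, ← Complex.ofReal_sin, Real.cos_neg, Real.sin_neg]
  push_cast
  ring

lemma redke_phi_normSq (p x : ℝ) : ‖redkePhi p x‖ ^ 2 = 1 - 4 * p * (1 - p) * Real.sin x ^ 2 := by
  rw [redke_phi_eq, Complex.sq_norm, Complex.normSq_add_mul_I]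
  have := Real.sin_sq_add_cos_sq x
  nlinarith

lemma redke_sin_sq (x : ℝ) (hx : |x| ≤ 1) : x ^ 2 / 2 ≤ Real.sin x ^ 2 := by
  wlog h : 0 ≤ x with H
  · have := H (-x) (by rwa [abs_neg]) (by linarith)
    simpa using this
  rcases h.eq_or_lt with rfl | h
  · simp
  have h1 : x ≤ 1 := (abs_le.mp hx).2
  have h2 := Real.sin_gt_sub_cube h
  have h0 : 0 ≤ x * (1 - x) * (1 + x) := mul_nonneg (mul_nonneg h.le (by linarith)) (by linarith)
  have h3 : 3 / 4 * x ≤ Real.sin x := by nlinarith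
  nlinarith

lemma redke_phi_le (p x : ℝ) (hp0 : 0 ≤ p) (hp1 : p ≤ 1) (hx : |x| ≤ 1) :
    ‖redkePhi p x‖ ≤ Real.exp (-(p * (1 - p) * x ^ 2)) := by
  have h1 := redke_phi_normSq p x
  have h2 := redke_sin_sq x hx
  have hpb : 0 ≤ p * (1 - p) := mul_nonneg hp0 (by linarith)
  have h3 : ‖redkePhi p x‖ ^ 2 ≤ Real.exp (-(p * (1 - p) * x ^ 2)) ^ 2 := by
    rw [← Real.exp_nat_mul, h1]
    have h4 := Real.add_one_le_exp (((2 : ℕ) : ℝ) * -(p * (1 - p) * x ^ 2))
    push_cast at h4 ⊢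
    nlinarith
  exact (pow_le_pow_iff_left₀ (norm_nonneg _) (Real.exp_pos _).le two_ne_zero).mp h3

section Char
variable {κ : Type*} [Fintype κ] [DecidableEq κ]

lemma redke_sum_prod (g : κ → Bool → ℂ) :
    ∑ s : κ → Bool, ∏ k, g k (s k) = ∏ k, (g k true + g k false) := by
  rw [← Fintype.prod_sum]
  refine Finset.prod_congr rfl fun k _ => ?_
  simp

lemma redke_char (p : ℝ) (c : κ → ℝ) (t : ℝ) :
    ∑ σ : κ → Bool, ((bern (fun _ : κ => p) σ : ℝ) : ℂ) *
        Complex.exp (((t * redkLin c σ : ℝ) : ℂ) * Complex.I)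
      = ∏ k, redkePhi p (t * c k) := by
  let g : κ → Bool → ℂ := fun k β => (((if β then p else 1 - p : ℝ) : ℂ) *
          Complex.exp (((t * c k * redkSgn β : ℝ) : ℂ) * Complex.I))
  have h : ∀ σ : κ → Bool, ((bern (fun _ : κ => p) σ : ℝ) : ℂ) *
        Complex.exp (((t * redkLin c σ : ℝ) : ℂ) * Complex.I) = ∏ k, g k (σ k) := by
    intro σ
    simp only [g]
    rw [Finset.prod_mul_distrib, ← Complex.exp_sum, bern]
    congr 1
    · push_cast
      rfl
    · congr 1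
      rw [← Finset.sum_mul]
      congr 1
      unfold redkLin
      push_cast
      rw [Finset.mul_sum]
      exact Finset.sum_congr rfl fun k _ => by ring
  calc _ = ∑ σ : κ → Bool, ∏ k, g k (σ k) := Finset.sum_congr rfl fun σ _ => h σ
    _ = ∏ k, (g k true + g k false) := redke_sum_prod g
    _ = _ := by
      refine Finset.prod_congr rfl fun k _ => ?_
      simp [g, redkePhi, redkSgn]

lemma redke_cos_le (p : ℝ) (c : κ → ℝ) (t z : ℝ) :
    exq (fun _ : κ => p) (fun σ => Real.cos (t * (redkLin c σ - z)))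
      ≤ ∏ k, ‖redkePhi p (t * c k)‖ := by
  have h1 : ((exq (fun _ : κ => p) (fun σ => Real.cos (t * (redkLin c σ - z))) : ℝ))
      = (Complex.exp (((-(t * z) : ℝ) : ℂ) * Complex.I) * ∑ σ : κ → Bool,
          ((bern (fun _ : κ => p) σ : ℝ) : ℂ) *
            Complex.exp (((t * redkLin c σ : ℝ) : ℂ) * Complex.I)).re := by
    rw [Finset.mul_sum, Complex.re_sum]
    unfold exq
    refine Finset.sum_congr rfl fun σ _ => ?_
    rw [mul_left_comm, ← Complex.exp_add, ← add_mul, ← Complex.ofReal_add, Complex.re_ofReal_mul,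
      Complex.exp_ofReal_mul_I_re]
    have e : -(t * z) + t * redkLin c σ = t * (redkLin c σ - z) := by ring
    rw [e]
  rw [h1, redke_char]
  refine le_trans (Complex.re_le_norm _) ?_
  rw [norm_mul, Complex.norm_exp_ofReal_mul_I, one_mul, norm_prod]

lemma redke_cos_le_exp (p : ℝ) (hp0 : 0 ≤ p) (hp1 : p ≤ 1) (c : κ → ℝ) (t z : ℝ)
    (h : ∀ k, |t * c k| ≤ 1) :
    exq (fun _ : κ => p) (fun σ => Real.cos (t * (redkLin c σ - z)))
      ≤ Real.exp (-(p * (1 - p) * t ^ 2 * ∑ k, c k ^ 2)) := by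
  refine le_trans (redke_cos_le p c t z) ?_
  have h2 : Real.exp (-(p * (1 - p) * t ^ 2 * ∑ k, c k ^ 2))
      = ∏ k, Real.exp (-(p * (1 - p) * (t * c k) ^ 2)) := by
    rw [← Real.exp_sum]
    congr 1
    rw [Finset.mul_sum, ← Finset.sum_neg_distrib]
    exact Finset.sum_congr rfl fun k _ => by ring
  rw [h2]
  exact Finset.prod_le_prod (fun k _ => norm_nonneg _) fun k _ => redke_phi_le p _ hp0 hp1 (h k)

end Char

/-! ### The test function -/

lemma redke_test_eq {J : ℕ} (a : Fin J → ℝ) :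
    ∑ j, ∑ j', Real.cos (a j - a j') = (∑ j, Real.cos (a j)) ^ 2 + (∑ j, Real.sin (a j)) ^ 2 := by
  rw [sq, sq, Finset.sum_mul_sum, Finset.sum_mul_sum, ← Finset.sum_add_distrib]
  refine Finset.sum_congr rfl fun j _ => ?_
  rw [← Finset.sum_add_distrib]
  exact Finset.sum_congr rfl fun j' _ => Real.cos_sub _ _

lemma redke_test_nonneg {J : ℕ} (a : Fin J → ℝ) : 0 ≤ ∑ j, ∑ j', Real.cos (a j - a j') := by
  rw [redke_test_eq]
  positivity

lemma redke_test_ge {J : ℕ} (a : Fin J → ℝ) (h : ∀ j, |a j| ≤ 1) :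
    ((J : ℝ) / 2) ^ 2 ≤ ∑ j, ∑ j', Real.cos (a j - a j') := by
  rw [redke_test_eq]
  have h1 : (J : ℝ) / 2 ≤ ∑ j, Real.cos (a j) := by
    have h2 : ∀ j ∈ (Finset.univ : Finset (Fin J)), (1 / 2 : ℝ) ≤ Real.cos (a j) := by
      intro j _
      have h3 := Real.one_sub_sq_div_two_le_cos (x := a j)
      have h4 : a j ^ 2 ≤ 1 := by
        have := abs_le.mp (h j)
        nlinarith
      linarith
    have := Finset.card_nsmul_le_sum _ _ _ h2
    simp only [Finset.card_univ, Fintype.card_fin, nsmul_eq_mul] at this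
    linarith
  have h5 : ((J : ℝ) / 2) ^ 2 ≤ (∑ j, Real.cos (a j)) ^ 2 :=
    pow_le_pow_left₀ (by positivity) h1 2
  nlinarith [sq_nonneg (∑ j, Real.sin (a j))]

/-- **SB-Esseen.** -/
theorem redk_esseen : StRedkEsseen := by
  intro p hp0 hp1
  refine ⟨p / 100, by positivity, ?_⟩
  intro κ _ _ c hc hS z
  have hπ : IsProbArray (fun _ : κ => p) := fun _ => ⟨hp0.le, by linarith⟩
  set w1 : ℝ := p / 100 with hw1
  have hw0 : 0 < w1 := by positivity
  set δ : ℝ := 1 / (16 * w1) with hδ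
  have hδ0 : 0 < δ := by positivity
  have hδw : 16 * δ * w1 = 1 := by
    rw [hδ]
    field_simp
  -- the test function
  set G : ℝ → ℝ := fun y => ∑ j : Fin 16, ∑ j' : Fin 16, Real.cos (((j : ℕ) : ℝ) * δ * y - ((j' : ℕ) : ℝ) * δ * y)
    with hG
  have hG0 : ∀ y, 0 ≤ G y := fun y => redke_test_nonneg (fun j : Fin 16 => ((j : ℕ) : ℝ) * δ * y)
  have hG1 : ∀ y, |y| ≤ w1 → 64 ≤ G y := by
    intro y hy
    have := redke_test_ge (fun j : Fin 16 => ((j : ℕ) : ℝ) * δ * y) ?_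
    · norm_num at this
      exact this
    · intro j
      have hj : ((j : ℕ) : ℝ) ≤ 16 := by
        have := j.2
        exact_mod_cast this.le
      rw [abs_mul, abs_mul, abs_of_nonneg (Nat.cast_nonneg _), abs_of_pos hδ0]
      calc ((j : ℕ) : ℝ) * δ * |y| ≤ 16 * δ * w1 := by gcongr
        _ = 1 := hδw
  have hq0 : 0 ≤ 1 - p := by linarith
  have hA : 32 ≤ p * (1 - p) * δ ^ 2 := by
    have h1 : p * δ = 25 / 4 := by
      rw [hδ, hw1]
      field_simp
      norm_num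
    have h2 : 25 / 2 ≤ δ := by nlinarith
    have h3 : p * (1 - p) * δ ^ 2 = (p * δ) * ((1 - p) * δ) := by ring
    rw [h3, h1]
    nlinarith
  have hexp4 : Real.exp (-4) ≤ 1 / 16 := by
    have h1 : (2 : ℝ) ≤ Real.exp 1 := by
      have := Real.add_one_le_exp (1 : ℝ)
      linarith
    have h2 : (16 : ℝ) ≤ Real.exp 4 := by
      have h3 : Real.exp 4 = Real.exp 1 ^ 4 := by
        rw [← Real.exp_nat_mul]
        norm_num
      rw [h3]
      calc (16 : ℝ) = 2 ^ 4 := by norm_num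
        _ ≤ Real.exp 1 ^ 4 := pow_le_pow_left₀ (by norm_num) h1 4
    rw [Real.exp_neg, one_div]
    exact inv_anti₀ (by norm_num) h2
  have hterm : ∀ j j' : Fin 16, exq (fun _ : κ => p) (fun σ =>
      Real.cos (((j : ℕ) : ℝ) * δ * (redkLin c σ - z) - ((j' : ℕ) : ℝ) * δ * (redkLin c σ - z)))
        ≤ if j = j' then 1 else 1 / 16 := by
    intro j j'
    set t : ℝ := (((j : ℕ) : ℝ) - ((j' : ℕ) : ℝ)) * δ with ht
    have e : ∀ σ : κ → Bool,
        Real.cos (((j : ℕ) : ℝ) * δ * (redkLin c σ - z) - ((j' : ℕ) : ℝ) * δ * (redkLin c σ - z))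
          = Real.cos (t * (redkLin c σ - z)) := by
      intro σ
      congr 1
      rw [ht]
      ring
    rw [pb_exq_congr _ e]
    have hj : ((j : ℕ) : ℝ) ≤ 16 := by
      have := j.2
      exact_mod_cast this.le
    have hj' : ((j' : ℕ) : ℝ) ≤ 16 := by
      have := j'.2
      exact_mod_cast this.le
    have hj0 : (0 : ℝ) ≤ ((j : ℕ) : ℝ) := Nat.cast_nonneg _
    have hj0' : (0 : ℝ) ≤ ((j' : ℕ) : ℝ) := Nat.cast_nonneg _
    have htabs : |t| ≤ 16 * δ := by
      rw [ht, abs_mul, abs_of_pos hδ0]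
      apply mul_le_mul_of_nonneg_right _ hδ0.le
      rw [abs_le]
      constructor <;> linarith
    have hk : ∀ k, |t * c k| ≤ 1 := by
      intro k
      rw [abs_mul]
      calc |t| * |c k| ≤ 16 * δ * w1 := mul_le_mul htabs (hc k) (abs_nonneg _) (by positivity)
        _ = 1 := hδw
    refine le_trans (redke_cos_le_exp p hp0.le (by linarith) c t z hk) ?_
    have hSn : 0 ≤ ∑ k, c k ^ 2 := Finset.sum_nonneg fun k _ => sq_nonneg _
    split_ifs with hjj
    · apply Real.exp_le_one_iff.mpr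
      apply neg_nonpos.mpr
      positivity
    · refine le_trans ?_ hexp4
      apply Real.exp_le_exp.mpr
      apply neg_le_neg
      have hne : ((j : ℕ) : ℤ) - ((j' : ℕ) : ℤ) ≠ 0 := by
        intro h
        apply hjj
        ext
        omega
      have h1 : (1 : ℤ) ≤ |((j : ℕ) : ℤ) - ((j' : ℕ) : ℤ)| := Int.one_le_abs hne
      have h2 : (1 : ℝ) ≤ |((j : ℕ) : ℝ) - ((j' : ℕ) : ℝ)| := by exact_mod_cast h1
      have h3 : 1 ≤ (((j : ℕ) : ℝ) - ((j' : ℕ) : ℝ)) ^ 2 := by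
        rw [← sq_abs]
        nlinarith
      have h4 : 32 ≤ p * (1 - p) * t ^ 2 := by
        have : p * (1 - p) * t ^ 2 = (((j : ℕ) : ℝ) - ((j' : ℕ) : ℝ)) ^ 2 * (p * (1 - p) * δ ^ 2) := by
          rw [ht]
          ring
        rw [this]
        nlinarith
      calc (4 : ℝ) = 32 * (1 / 8) := by norm_num
        _ ≤ p * (1 - p) * t ^ 2 * ∑ k, c k ^ 2 := mul_le_mul h4 hS (by norm_num) (by positivity)
  have hP : prb (fun _ : κ => p) {σ | |redkLin c σ - z| ≤ w1}
      ≤ exq (fun _ : κ => p) (fun σ => (1 / 64) * G (redkLin c σ - z)) := by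
    rw [pb_prb_eq_exq]
    apply pb_exq_mono hπ
    intro σ
    by_cases hσ : σ ∈ {σ | |redkLin c σ - z| ≤ w1}
    · rw [Set.indicator_of_mem hσ]
      have := hG1 _ hσ
      linarith
    · rw [Set.indicator_of_notMem hσ]
      have := hG0 (redkLin c σ - z)
      linarith
  rw [pb_exq_const_mul] at hP
  have hE : exq (fun _ : κ => p) (fun σ => G (redkLin c σ - z)) ≤ 31 := by
    simp only [hG]
    rw [pb_exq_sum]
    have h31 : ∑ j : Fin 16, ∑ j' : Fin 16, (if j = j' then (1 : ℝ) else 1 / 16) = 31 := by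
      have : ∀ j j' : Fin 16, (if j = j' then (1 : ℝ) else 1 / 16)
          = 1 / 16 + (if j = j' then 15 / 16 else 0) := by
        intro j j'
        split_ifs <;> norm_num
      simp only [this, Finset.sum_add_distrib, Finset.sum_const, Finset.sum_ite_eq, Finset.mem_univ,
        if_true, Finset.card_univ, Fintype.card_fin]
      norm_num
    rw [← h31]
    refine Finset.sum_le_sum fun j _ => ?_
    rw [pb_exq_sum]
    exact Finset.sum_le_sum fun j' _ => hterm j j'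
  linarith


end Claimed.Agent.R293
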