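/-
R293 / RedCompInd.lean  (helper245).  Leaf REDK-IND: the row tests outside the support of `c` are independent.
-/
import Claimed.Agent.R293.RedCompIface
import Claimed.Agent.R293.ProbMix

set_option autoImplicit false

namespace Claimed.Agent.R293

open Finset

section Rows
variable {n : ℕ}

/-- the entries of row `i` in the columns of the support of `c`. -/
def redkiA (c : Fin n → ℝ) (i : Fin n) : Set (Sym2 (Fin n)) := {e | ∃ j, c j ≠ 0 ∧ e = s(i, j)}

/-- the row test. -/
def redkiE (c : Fin n → ℝ) (z w : ℝ) (i : Fin n) : Set (Sym2 (Fin n) → Bool) :=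
  {s | |redkRow s c i - z| ≤ w}

theorem redki_row_congr (c : Fin n → ℝ) (i : Fin n) {s t : Sym2 (Fin n) → Bool}
    (h : ∀ e ∈ redkiA c i, s e = t e) : redkRow s c i = redkRow t c i := by
  unfold redkRow redkLin
  refine Finset.sum_congr rfl fun j _ => ?_
  by_cases hj : c j = 0
  · rw [hj, zero_mul, zero_mul]
  · show c j * redkSgn (s s(i, j)) = c j * redkSgn (t s(i, j))
    rw [h s(i, j) ⟨j, hj, rfl⟩]

theorem redki_disj (c : Fin n → ℝ) {i i' : Fin n} (hi : c i = 0) (hne : i ≠ i')
    {e : Sym2 (Fin n)} (h : e ∈ redkiA c i') : e ∉ redkiA c i := by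
  rintro ⟨j, hj, rfl⟩
  obtain ⟨j', hj', h2⟩ := h
  rcases Sym2.eq_iff.1 h2 with ⟨h3, -⟩ | ⟨h3, -⟩
  · exact hne h3
  · exact hj' (h3 ▸ hi)

theorem redki_free (c : Fin n → ℝ) (z w : ℝ) {i i' : Fin n} (hi : c i = 0) (hne : i ≠ i') :
    pbFreeSet (redkiA c i) (redkiE c z w i') := by
  apply pbFreeSet_of_agree
  intro s t hst
  have : redkRow s c i' = redkRow t c i' :=
    redki_row_congr c i' fun e he => hst e (redki_disj c hi hne he)
  simp only [redkiE, Set.mem_ofPred_eq, this]

theorem redki_mix (c : Fin n → ℝ) (z w : ℝ) (i : Fin n) (s : Sym2 (Fin n) → Bool) :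
    {x | pbMix (redkiA c i) x s ∈ redkiE c z w i} = redkiE c z w i := by
  ext x
  have : redkRow (pbMix (redkiA c i) x s) c i = redkRow x c i :=
    redki_row_congr c i fun e he => pbMix_of_mem he x s
  simp only [redkiE, Set.mem_ofPred_eq, this]

theorem redki_prb_row (p : ℝ) (c : Fin n → ℝ) (z w : ℝ) (i : Fin n) :
    prb (sgnLaw p n) (redkiE c z w i) =
      prb (fun _ : Fin n => p) {σ | |redkLin c σ - z| ≤ w} := by
  have he : Function.Injective (fun j : Fin n => s(i, j)) := by
    intro j j' h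
    rcases Sym2.eq_iff.1 h with ⟨-, h3⟩ | ⟨h3, h4⟩
    · exact h3
    · exact h4.trans h3
  exact pb_prb_comp (sgnLaw p n) he {σ | |redkLin c σ - z| ≤ w}

end Rows

theorem redk_ind : StRedkInd := by
  classical
  intro p hp0 hp1 n c z w q γ m hq0 hq1 hγ0 hγ1 hrow hm
  have hπ : IsProbArray (sgnLaw p n) := fun _ => ⟨hp0, hp1⟩
  set S : Finset (Fin n) := univ.filter fun j => c j ≠ 0 with hS
  set J : Finset (Finset (Fin n)) :=
    (univ : Finset (Finset (Fin n))).filter fun R => (R.card : ℝ) ≤ γ * Fintype.card (Fin n) with hJ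
  have hsub : redkTest n c z w (γ * n) ⊆ ⋃ R ∈ J, ⋂ i ∈ (univ \ S) \ R, redkiE c z w i := by
    intro s hs
    simp only [Set.mem_iUnion, exists_prop]
    refine ⟨univ.filter fun i : Fin n => w < |redkRow s c i - z|, ?_, ?_⟩
    · rw [hJ, Finset.mem_filter]
      refine ⟨Finset.mem_univ _, ?_⟩
      rw [Fintype.card_fin]
      exact hs
    · simp only [Set.mem_iInter]
      intro i hi
      rw [Finset.mem_sdiff, Finset.mem_filter] at hi
      have := hi.2
      simp only [Finset.mem_univ, true_and, not_lt] at this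
      exact this
  have hone : ∀ R ∈ J, prb (sgnLaw p n) (⋂ i ∈ (univ \ S) \ R, redkiE c z w i) ≤
      q ^ ((n : ℝ) - m - γ * n) := by
    intro R hR
    have hzero : ∀ i ∈ (univ \ S) \ R, c i = 0 := by
      intro i hi
      rw [Finset.mem_sdiff, Finset.mem_sdiff, hS, Finset.mem_filter] at hi
      by_contra h
      exact hi.1.2 ⟨Finset.mem_univ _, h⟩
    have h1 := pb_prb_biInter_le_prod hπ ((univ \ S) \ R) (redkiA c) (redkiE c z w) (fun _ => q)
      (fun i hi j _ hij => redki_free c z w (hzero i hi) hij)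
      (fun i _ s => by
        rw [redki_mix, redki_prb_row]
        exact hrow)
    rw [Finset.prod_const] at h1
    refine h1.trans ?_
    rw [← Real.rpow_natCast]
    apply Real.rpow_le_rpow_of_exponent_ge hq0 hq1
    have c1 : (univ \ S).card ≤ ((univ \ S) \ R).card + R.card :=
      Finset.card_le_card_sdiff_add_card
    have c2 : (univ : Finset (Fin n)).card ≤ (univ \ S).card + S.card :=
      Finset.card_le_card_sdiff_add_card
    rw [Finset.card_univ, Fintype.card_fin] at c2
    have c3 : (R.card : ℝ) ≤ γ * n := by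
      have := (Finset.mem_filter.1 hR).2
      rwa [Fintype.card_fin] at this
    have c1' : ((univ \ S).card : ℝ) ≤ (((univ \ S) \ R).card : ℝ) + (R.card : ℝ) := by
      exact_mod_cast c1
    have c2' : (n : ℝ) ≤ ((univ \ S).card : ℝ) + (S.card : ℝ) := by exact_mod_cast c2
    linarith
  have hcard : (J.card : ℝ) ≤ Real.exp (n * Real.binEntropy γ) := by
    have := pb_card_small_subsets_le (α := Fin n) hγ0 hγ1
    rw [← hJ] at this
    rwa [Fintype.card_fin] at this
  calc prb (sgnLaw p n) (redkTest n c z w (γ * n))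
      ≤ prb (sgnLaw p n) (⋃ R ∈ J, ⋂ i ∈ (univ \ S) \ R, redkiE c z w i) := pb_prb_mono hπ hsub
    _ ≤ (J.card : ℝ) * q ^ ((n : ℝ) - m - γ * n) := pb_prb_biUnion_le_card_mul hπ _ _ hone
    _ ≤ Real.exp (n * Real.binEntropy γ) * q ^ ((n : ℝ) - m - γ * n) :=
        mul_le_mul_of_nonneg_right hcard (Real.rpow_nonneg hq0.le _)

end Claimed.Agent.R293
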