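/-
R293 / RedCompMain.lean  (owner: helper66).  RED-2 glue:
`redk_main : StRedkOp → StRedkDet → StRedkCount → StRedkInd → StRedkSB → StRedComp`.
Prefix `redkm`.
-/
import Claimed.Agent.R293.RedCompIface

set_option autoImplicit false

namespace Claimed.Agent.R293

open Finset Filter

theorem redkm_isProbArray {p : ℝ} (hp0 : 0 < p) (hp1 : p ≤ 1 / 2) (n : ℕ) :
    IsProbArray (sgnLaw p n) := fun _ => ⟨hp0.le, by linarith⟩

theorem redkm_cQ_pos (p : ℝ) : 0 < cQ p := by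
  unfold cQ
  nlinarith [sq_nonneg p, sq_nonneg (1 - p), sq_nonneg (2 * p - 1)]

theorem redkm_cQ_ge (p : ℝ) : 1 / 2 ≤ cQ p := by
  unfold cQ
  nlinarith [sq_nonneg (2 * p - 1)]

theorem redkm_cQ_le {p : ℝ} (hp0 : 0 < p) (hp1 : p ≤ 1 / 2) : cQ p ≤ 1 := by
  unfold cQ
  nlinarith

/-- support of the coefficient vector. -/
theorem redkm_supp {n : ℕ} (η : ℝ) (a : Fin n) (ka : ℤ) (k : Fin n → ℤ) :
    (univ.filter fun j => redkVec η a ka k j ≠ 0).card ≤ (univ.filter fun j => k j ≠ 0).card + 1 := by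
  classical
  refine le_trans (Finset.card_le_card ?_) (Finset.card_insert_le a _)
  intro j hj
  rw [Finset.mem_filter] at hj
  rw [Finset.mem_insert]
  by_cases hja : j = a
  · exact Or.inl hja
  · right
    rw [Finset.mem_filter]
    refine ⟨Finset.mem_univ j, fun h0 => hj.2 ?_⟩
    simp [redkVec, hja, h0]

theorem redkm_card_Icc (M : ℕ) : ((Finset.Icc (-(M : ℤ)) (M : ℤ)).card : ℝ) = 2 * M + 1 := by
  rw [Int.card_Icc]
  have : ((M : ℤ) + 1 - -(M : ℤ)).toNat = 2 * M + 1 := by omega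
  rw [this]
  push_cast
  ring

/-- the bound for one datum. -/
theorem redkm_one (hInd : StRedkInd) {p : ℝ} (hp0 : 0 < p) (hp1 : p ≤ 1 / 2) {w : ℝ}
    (hw : ∀ (κ : Type) [Fintype κ] [DecidableEq κ] (c : κ → ℝ) (a : κ), RedkGood w c a →
      ∀ z : ℝ, prb (fun _ : κ => p) {σ | |redkLin c σ - z| ≤ w} ≤ cQ p)
    {γ : ℝ} (hγ0 : 0 < γ) (hγ1 : γ ≤ 1 / 2) (n : ℕ) (η m K : ℝ) (M M' : ℕ)
    (d : Fin n × ℤ × (Fin n → ℤ) × ℤ) (hd : d ∈ redkData n m K M M') :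
    prb (sgnLaw p n) (redkEv n η w (γ * n) d) ≤
      Real.exp (n * Real.binEntropy γ) * cQ p ^ ((n : ℝ) - (m + 1) - γ * n) := by
  have hπ := redkm_isProbArray hp0 hp1 n
  by_cases hg : RedkGood w (redkVec η d.1 d.2.1 d.2.2.1) d.1
  · have hk : d.2.2.1 ∈ redkInts n m K := by
      simp only [redkData, Finset.mem_product] at hd
      exact hd.2.2.1
    have hk1 : ((univ.filter fun j => d.2.2.1 j ≠ 0).card : ℝ) ≤ m := (Finset.mem_filter.1 hk).2.1
    have hs : ((univ.filter fun j => redkVec η d.1 d.2.1 d.2.2.1 j ≠ 0).card : ℝ) ≤ m + 1 := by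
      have := redkm_supp η d.1 d.2.1 d.2.2.1
      have h2 : ((univ.filter fun j => redkVec η d.1 d.2.1 d.2.2.1 j ≠ 0).card : ℝ) ≤
          ((univ.filter fun j => d.2.2.1 j ≠ 0).card : ℝ) + 1 := by exact_mod_cast this
      linarith
    have h := hInd p hp0.le (by linarith) n (redkVec η d.1 d.2.1 d.2.2.1) (w * (d.2.2.2 : ℝ)) w (cQ p) γ
      (m + 1) (redkm_cQ_pos p) (redkm_cQ_le hp0 hp1) hγ0 hγ1 (hw (Fin n) _ d.1 hg _) hs
    exact (pb_prb_mono hπ fun s hs => hs.2).trans h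
  · have : redkEv n η w (γ * n) d = ∅ := by
      ext s
      simp [redkEv, hg]
    rw [this, pb_prb_empty]
    have := redkm_cQ_pos p
    positivity

/-- **non-asymptotic bound.** -/
theorem redkm_bound (hOp : StRedkOp) (hDet : StRedkDet) (hCount : StRedkCount) (hInd : StRedkInd)
    {p : ℝ} (hp0 : 0 < p) (hp1 : p ≤ 1 / 2) {w : ℝ} (hw0 : 0 < w)
    (hw : ∀ (κ : Type) [Fintype κ] [DecidableEq κ] (c : κ → ℝ) (a : κ), RedkGood w c a →
      ∀ z : ℝ, prb (fun _ : κ => p) {σ | |redkLin c σ - z| ≤ w} ≤ cQ p)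
    {γ θ lam del lam' β : ℝ} (hγ0 : 0 < γ) (hγ1 : γ ≤ 1 / 2) (hθ0 : 0 < θ) (hθw : θ ≤ w) (hθ1 : θ ≤ 1)
    (hl0 : 0 < lam) (hl1 : lam < 1 / 4) (hd0 : 0 < del) (hd1 : del < 1 / 4)
    (hl' : lam + del ^ 2 / θ ^ 2 ≤ lam') (hγθ : 2 * θ * 8 / w ≤ γ) (hβ0 : 0 < β) (hβ1 : β ≤ 1)
    {n : ℕ} (hn : 0 < n) :
    prb (sgnLaw p n) (redComp lam del n) ≤
      ((n : ℝ) * ((2 * ((⌈(n : ℝ) / θ⌉₊ + 1 : ℕ) : ℝ) + 1) *
        (((1 + 2 * β) ^ n * β ^ (-(lam' * n)) * (2 : ℝ) ^ (3 / 2 * Real.sqrt lam' / θ * n)) *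
          (2 * ((⌈θ * n / w⌉₊ + 1 : ℕ) : ℝ) + 1)))) *
        (Real.exp (n * Real.binEntropy γ) * cQ p ^ ((n : ℝ) - (lam' * n + 1) - γ * n))
      + (2 : ℝ) ^ (-(2 * (n : ℝ))) := by
  have hπ := redkm_isProbArray hp0 hp1 n
  have hlam' : 0 ≤ lam' := by
    have : 0 ≤ del ^ 2 / θ ^ 2 := by positivity
    linarith
  refine (pb_prb_le_inter_add_compl hπ _ (redkOp p 8 n)).trans (add_le_add ?_ (hOp p hp0 hp1 n))
  refine (pb_prb_mono hπ (hDet p 8 w θ lam del lam' γ hp0 hp1 (by norm_num) hw0 hθ0 hθw hθ1 hl0 hl1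
    hd0 hd1 hl' hγθ n hn)).trans ?_
  refine (pb_prb_biUnion_le_card_mul hπ _ _ fun d hd =>
    redkm_one hInd hp0 hp1 hw hγ0 hγ1 n _ _ _ _ _ d hd).trans ?_
  have hQ := redkm_cQ_pos p
  refine mul_le_mul_of_nonneg_right ?_ (by positivity)
  rw [redkData, Finset.card_product, Finset.card_product, Finset.card_product, Finset.card_univ,
    Fintype.card_fin, Nat.cast_mul, Nat.cast_mul, Nat.cast_mul, redkm_card_Icc, redkm_card_Icc]
  have hc := hCount n (lam' * n) (3 / 2 * Real.sqrt lam' / θ * n) β (by positivity) (by positivity)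
    hβ0 hβ1
  gcongr

/-! ### Exponent arithmetic -/

theorem redkm_log_cQ (p : ℝ) : Real.log (cQ p) = -(cD p * Real.log 2) := by
  have h2 : Real.log 2 ≠ 0 := (Real.log_pos one_lt_two).ne'
  unfold cD Real.logb
  field_simp

theorem redkm_cD_nonneg {p : ℝ} (hp0 : 0 < p) (hp1 : p ≤ 1 / 2) : 0 ≤ cD p := by
  have h2 : 0 < Real.log 2 := Real.log_pos one_lt_two
  have h := redkm_log_cQ p
  have h3 : Real.log (cQ p) ≤ 0 := Real.log_nonpos (redkm_cQ_pos p).le (redkm_cQ_le hp0 hp1)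
  by_contra hneg
  push Not at hneg
  nlinarith

theorem redkm_cD_le_one (p : ℝ) : cD p ≤ 1 := by
  have h2 : 0 < Real.log 2 := Real.log_pos one_lt_two
  have h := redkm_log_cQ p
  have h3 : Real.log (1 / 2) ≤ Real.log (cQ p) := Real.log_le_log (by norm_num) (redkm_cQ_ge p)
  rw [one_div, Real.log_inv] at h3
  by_contra hneg
  push Not at hneg
  nlinarith

theorem redkm_poly (C c : ℝ) (hc : 0 < c) : ∀ᶠ n : ℕ in atTop, C * (n : ℝ) ^ 3 ≤ Real.exp (c * n) := by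
  have h := (isLittleO_pow_exp_pos_mul_atTop (k := 3) hc).def (c := 1 / (|C| + 1)) (by positivity)
  have h' := tendsto_natCast_atTop_atTop.eventually h
  filter_upwards [h'] with n hn
  rw [Real.norm_of_nonneg (by positivity), Real.norm_of_nonneg (Real.exp_pos _).le] at hn
  have h1 : (|C| + 1) * (n : ℝ) ^ 3 ≤ Real.exp (c * n) := by
    have hpos : 0 < |C| + 1 := by positivity
    rw [div_mul_eq_mul_div, one_mul, le_div_iff₀ hpos] at hn
    linarith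
  have h2 : C * (n : ℝ) ^ 3 ≤ (|C| + 1) * (n : ℝ) ^ 3 := by
    have : C ≤ |C| + 1 := by linarith [le_abs_self C]
    gcongr
  linarith

/-- the polynomial factor. -/
theorem redkm_polyfac {θ w : ℝ} (hθ0 : 0 < θ) (hw0 : 0 < w) {n : ℕ} (hn : 0 < n) :
    (n : ℝ) * ((2 * ((⌈(n : ℝ) / θ⌉₊ + 1 : ℕ) : ℝ) + 1) * (2 * ((⌈θ * n / w⌉₊ + 1 : ℕ) : ℝ) + 1)) ≤
      ((2 / θ + 5) * (2 * θ / w + 5)) * (n : ℝ) ^ 3 := by
  have hn1 : (1 : ℝ) ≤ n := by exact_mod_cast hn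
  have h1 : ((⌈(n : ℝ) / θ⌉₊ : ℕ) : ℝ) ≤ (n : ℝ) / θ + 1 := (Nat.ceil_lt_add_one (by positivity)).le
  have h2 : ((⌈θ * n / w⌉₊ : ℕ) : ℝ) ≤ θ * n / w + 1 := (Nat.ceil_lt_add_one (by positivity)).le
  have e1 : 2 * ((⌈(n : ℝ) / θ⌉₊ + 1 : ℕ) : ℝ) + 1 ≤ (2 / θ + 5) * n := by
    push_cast
    have : (2 / θ + 5) * n = 2 * ((n : ℝ) / θ) + 5 * n := by ring
    rw [this]
    linarith
  have e2 : 2 * ((⌈θ * n / w⌉₊ + 1 : ℕ) : ℝ) + 1 ≤ (2 * θ / w + 5) * n := by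
    push_cast
    have : (2 * θ / w + 5) * n = 2 * (θ * n / w) + 5 * n := by ring
    rw [this]
    linarith
  calc (n : ℝ) * ((2 * ((⌈(n : ℝ) / θ⌉₊ + 1 : ℕ) : ℝ) + 1) * (2 * ((⌈θ * n / w⌉₊ + 1 : ℕ) : ℝ) + 1))
      ≤ (n : ℝ) * (((2 / θ + 5) * n) * ((2 * θ / w + 5) * n)) := by gcongr
    _ = ((2 / θ + 5) * (2 * θ / w + 5)) * (n : ℝ) ^ 3 := by ring

/-- **the exponent arithmetic**: under the bracket condition the non-asymptotic bound is eventually
`≤ 2^{-(d-ε)n}`. -/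
theorem redkm_asymp {p : ℝ} (hp0 : 0 < p) (hp1 : p ≤ 1 / 2) {ε w γ θ lam' β : ℝ} (hε : 0 < ε)
    (hw0 : 0 < w) (hθ0 : 0 < θ) (hβ0 : 0 < β)
    (hE : 2 * β + lam' * (-Real.log β) + 3 / 2 * Real.sqrt lam' / θ * Real.log 2 + Real.binEntropy γ
      + (lam' + γ) * (cD p * Real.log 2) ≤ ε / 2 * Real.log 2) :
    ∀ᶠ n : ℕ in atTop,
      ((n : ℝ) * ((2 * ((⌈(n : ℝ) / θ⌉₊ + 1 : ℕ) : ℝ) + 1) *
        (((1 + 2 * β) ^ n * β ^ (-(lam' * n)) * (2 : ℝ) ^ (3 / 2 * Real.sqrt lam' / θ * n)) *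
          (2 * ((⌈θ * n / w⌉₊ + 1 : ℕ) : ℝ) + 1)))) *
        (Real.exp (n * Real.binEntropy γ) * cQ p ^ ((n : ℝ) - (lam' * n + 1) - γ * n))
      + (2 : ℝ) ^ (-(2 * (n : ℝ))) ≤ (2 : ℝ) ^ (-((cD p - ε) * n)) := by
  have hl : 0 < Real.log 2 := Real.log_pos one_lt_two
  have hd0 := redkm_cD_nonneg hp0 hp1
  have hd1 := redkm_cD_le_one p
  have hQ := redkm_cQ_pos p
  have hpoly := redkm_poly (2 * ((2 / θ + 5) * (2 * θ / w + 5))) (ε / 4 * Real.log 2) (by positivity)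
  have hbig : ∀ᶠ n : ℕ in atTop, 4 / ε ≤ (n : ℝ) := tendsto_natCast_atTop_atTop.eventually_ge_atTop _
  filter_upwards [hpoly, hbig, eventually_gt_atTop 0] with n hpn hbn hn
  have hn1 : (1 : ℝ) ≤ n := by exact_mod_cast hn
  have hεn : 4 ≤ ε * n := by
    rw [div_le_iff₀ hε] at hbn
    linarith
  have hfac := redkm_polyfac hθ0 hw0 hn
  -- rewrite everything with `exp`
  have e1 : (1 + 2 * β) ^ n ≤ Real.exp (n * (2 * β)) := by
    rw [Real.exp_nat_mul]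
    have : 1 + 2 * β ≤ Real.exp (2 * β) := by linarith [Real.add_one_le_exp (2 * β)]
    gcongr
  have e2 : β ^ (-(lam' * n)) = Real.exp (n * (lam' * (-Real.log β))) := by
    rw [Real.rpow_def_of_pos hβ0]
    congr 1
    ring
  have e3 : (2 : ℝ) ^ (3 / 2 * Real.sqrt lam' / θ * n) =
      Real.exp (n * (3 / 2 * Real.sqrt lam' / θ * Real.log 2)) := by
    rw [Real.rpow_def_of_pos two_pos]
    congr 1
    ring
  have e4 : cQ p ^ ((n : ℝ) - (lam' * n + 1) - γ * n) =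
      Real.exp (cD p * Real.log 2) * Real.exp (n * (-(cD p * Real.log 2) + (lam' + γ) * (cD p * Real.log 2))) := by
    rw [Real.rpow_def_of_pos hQ, redkm_log_cQ, ← Real.exp_add]
    congr 1
    ring
  have e5 : Real.exp (cD p * Real.log 2) ≤ 2 := by
    calc Real.exp (cD p * Real.log 2) ≤ Real.exp (Real.log 2) := by
          rw [Real.exp_le_exp]
          nlinarith
      _ = 2 := Real.exp_log two_pos
  have e6 : (2 : ℝ) ^ (-(2 * (n : ℝ))) = Real.exp (-(2 * n * Real.log 2)) := by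
    rw [Real.rpow_def_of_pos two_pos]
    congr 1
    ring
  have e7 : (2 : ℝ) ^ (-((cD p - ε) * n)) = Real.exp (-((cD p - ε) * n * Real.log 2)) := by
    rw [Real.rpow_def_of_pos two_pos]
    congr 1
    ring
  have e8 : Real.exp (-((cD p - ε) * n * Real.log 2) - Real.log 2) =
      Real.exp (-((cD p - ε) * n * Real.log 2)) / 2 := by
    rw [Real.exp_sub, Real.exp_log two_pos]
  -- second term
  have t2 : (2 : ℝ) ^ (-(2 * (n : ℝ))) ≤ Real.exp (-((cD p - ε) * n * Real.log 2)) / 2 := by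
    rw [e6, ← e8, Real.exp_le_exp]
    have : (cD p - ε) * n ≤ 2 * n - 1 := by nlinarith
    nlinarith
  -- first term
  set X : ℝ := 2 * β + lam' * (-Real.log β) + 3 / 2 * Real.sqrt lam' / θ * Real.log 2
    + Real.binEntropy γ + (lam' + γ) * (cD p * Real.log 2) with hX
  have t1 : ((n : ℝ) * ((2 * ((⌈(n : ℝ) / θ⌉₊ + 1 : ℕ) : ℝ) + 1) *
        (((1 + 2 * β) ^ n * β ^ (-(lam' * n)) * (2 : ℝ) ^ (3 / 2 * Real.sqrt lam' / θ * n)) *
          (2 * ((⌈θ * n / w⌉₊ + 1 : ℕ) : ℝ) + 1)))) *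
        (Real.exp (n * Real.binEntropy γ) * cQ p ^ ((n : ℝ) - (lam' * n + 1) - γ * n)) ≤
      Real.exp (-((cD p - ε) * n * Real.log 2)) / 2 := by
    rw [e2, e3, e4]
    calc ((n : ℝ) * ((2 * ((⌈(n : ℝ) / θ⌉₊ + 1 : ℕ) : ℝ) + 1) *
        (((1 + 2 * β) ^ n * Real.exp (n * (lam' * (-Real.log β))) *
          Real.exp (n * (3 / 2 * Real.sqrt lam' / θ * Real.log 2))) *
          (2 * ((⌈θ * n / w⌉₊ + 1 : ℕ) : ℝ) + 1)))) *
        (Real.exp (n * Real.binEntropy γ) * (Real.exp (cD p * Real.log 2) *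
          Real.exp (n * (-(cD p * Real.log 2) + (lam' + γ) * (cD p * Real.log 2)))))
        = ((n : ℝ) * ((2 * ((⌈(n : ℝ) / θ⌉₊ + 1 : ℕ) : ℝ) + 1) * (2 * ((⌈θ * n / w⌉₊ + 1 : ℕ) : ℝ) + 1)))
          * Real.exp (cD p * Real.log 2) * ((1 + 2 * β) ^ n) *
          (Real.exp (n * (lam' * (-Real.log β))) *
          Real.exp (n * (3 / 2 * Real.sqrt lam' / θ * Real.log 2)) * Real.exp (n * Real.binEntropy γ) *
          Real.exp (n * (-(cD p * Real.log 2) + (lam' + γ) * (cD p * Real.log 2)))) := by ring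
      _ ≤ (((2 / θ + 5) * (2 * θ / w + 5)) * (n : ℝ) ^ 3) * 2 * Real.exp (n * (2 * β)) *
          (Real.exp (n * (lam' * (-Real.log β))) *
          Real.exp (n * (3 / 2 * Real.sqrt lam' / θ * Real.log 2)) * Real.exp (n * Real.binEntropy γ) *
          Real.exp (n * (-(cD p * Real.log 2) + (lam' + γ) * (cD p * Real.log 2)))) := by
        gcongr
      _ = (2 * ((2 / θ + 5) * (2 * θ / w + 5)) * (n : ℝ) ^ 3) *
          Real.exp (n * (X - cD p * Real.log 2)) := by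
        rw [hX, mul_assoc _ (Real.exp (n * (2 * β))), ← Real.exp_add, ← Real.exp_add, ← Real.exp_add,
          ← Real.exp_add]
        congr 1
        · ring
        · congr 1
          ring
      _ ≤ Real.exp (ε / 4 * Real.log 2 * n) * Real.exp (n * (X - cD p * Real.log 2)) := by
        gcongr
      _ ≤ Real.exp (-((cD p - ε) * n * Real.log 2)) / 2 := by
        rw [← Real.exp_add, ← e8, Real.exp_le_exp]
        have h1 : (n : ℝ) * X ≤ n * (ε / 2 * Real.log 2) := by gcongr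
        have h2 : Real.log 2 * 4 ≤ Real.log 2 * (ε * n) := by gcongr
        nlinarith
  rw [e7]
  linarith

/-- choice of `γ`. -/
theorem redkm_gamma {e : ℝ} (he : 0 < e) :
    ∃ γ : ℝ, 0 < γ ∧ γ ≤ 1 / 2 ∧ Real.binEntropy γ ≤ e ∧ γ ≤ e := by
  have h := Real.binEntropy_continuous.tendsto 0
  rw [Real.binEntropy_zero] at h
  have h2 := h.eventually (Iio_mem_nhds he)
  obtain ⟨r, hr, hr2⟩ := Metric.eventually_nhds_iff.1 h2
  refine ⟨min (r / 2) (min (1 / 2) e), by positivity, ?_, ?_, ?_⟩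
  · exact (min_le_right _ _).trans (min_le_left _ _)
  · refine (hr2 ?_).le
    rw [Real.dist_eq, sub_zero, abs_of_pos (by positivity)]
    exact lt_of_le_of_lt (min_le_left _ _) (by linarith)
  · exact (min_le_right _ _).trans (min_le_right _ _)

/-- the part of the bracket that depends on `λ' = x²`. -/
theorem redkm_lam {x θ e d : ℝ} (hx0 : 0 < x) (hx1 : x ≤ 1 / 4) (hθ0 : 0 < θ)
    (hxe : x * (5 + 3 / (2 * θ)) ≤ e) (hd0 : 0 ≤ d) (hd1 : d ≤ 1) :
    2 * x ^ 2 + x ^ 2 * (-Real.log (x ^ 2)) + 3 / 2 * Real.sqrt (x ^ 2) / θ * Real.log 2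
      + x ^ 2 * (d * Real.log 2) ≤ e := by
  have hl0 : 0 < Real.log 2 := Real.log_pos one_lt_two
  have hl1 : Real.log 2 ≤ 1 := by
    have := Real.log_le_sub_one_of_pos two_pos
    linarith
  have h1 : -Real.log x ≤ 1 / x := by
    have := Real.log_le_sub_one_of_pos (inv_pos.2 hx0)
    rw [Real.log_inv] at this
    rw [one_div]
    linarith
  have h2 : x ^ 2 * (-Real.log (x ^ 2)) ≤ 2 * x := by
    rw [Real.log_pow]
    have : x ^ 2 * (1 / x) = x := by field_simp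
    have h3 : x ^ 2 * (-Real.log x) ≤ x ^ 2 * (1 / x) := by gcongr
    push_cast
    nlinarith
  have h3 : 3 / 2 * Real.sqrt (x ^ 2) / θ * Real.log 2 ≤ x * (3 / (2 * θ)) := by
    rw [Real.sqrt_sq hx0.le]
    have : 3 / 2 * x / θ = x * (3 / (2 * θ)) := by field_simp
    rw [this]
    have h4 : 0 ≤ x * (3 / (2 * θ)) := by positivity
    nlinarith
  have h4 : x ^ 2 * (d * Real.log 2) ≤ x := by
    have : d * Real.log 2 ≤ 1 := by nlinarith
    have h5 : 0 ≤ d * Real.log 2 := by positivity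
    nlinarith
  have h5 : 2 * x ^ 2 ≤ x := by nlinarith
  nlinarith

/-- **RED-2 glue.** -/
theorem redk_main (hOp : StRedkOp) (hDet : StRedkDet) (hCount : StRedkCount) (hInd : StRedkInd)
    (hSB : StRedkSB) : StRedComp := by
  intro p hp0 hp1 ε hε
  obtain ⟨w, hw0, hw⟩ := hSB p hp0 hp1
  have hl0 : 0 < Real.log 2 := Real.log_pos one_lt_two
  have hl1 : Real.log 2 ≤ 1 := by
    have := Real.log_le_sub_one_of_pos two_pos
    linarith
  have hd0 := redkm_cD_nonneg hp0 hp1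
  have hd1 := redkm_cD_le_one p
  obtain ⟨γ, hγ0, hγ1, hγH, hγe⟩ := redkm_gamma (e := ε / 8 * Real.log 2) (by positivity)
  set θ : ℝ := min 1 (γ * w / 16) with hθ
  have hθ0 : 0 < θ := by positivity
  have hθ1 : θ ≤ 1 := min_le_left _ _
  have hθγ : θ ≤ γ * w / 16 := min_le_right _ _
  have hθw : θ ≤ w := by nlinarith
  have hγθ : 2 * θ * 8 / w ≤ γ := by
    rw [div_le_iff₀ hw0]
    linarith
  set x : ℝ := min (1 / 4) (ε / 4 * Real.log 2 / (5 + 3 / (2 * θ))) with hx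
  have hx0 : 0 < x := by positivity
  have hx1 : x ≤ 1 / 4 := min_le_left _ _
  have hxe : x * (5 + 3 / (2 * θ)) ≤ ε / 4 * Real.log 2 := by
    have h5 : 0 < 5 + 3 / (2 * θ) := by positivity
    rw [← le_div_iff₀ h5]
    exact min_le_right _ _
  have hlam := redkm_lam hx0 hx1 hθ0 hxe hd0 hd1
  have hx2 : x ^ 2 ≤ 1 / 16 := by nlinarith
  have hx20 : 0 < x ^ 2 := by positivity
  refine ⟨x ^ 2 / 2, θ * x ^ 2, by positivity, by linarith, by positivity, by nlinarith, ?_⟩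
  have hl' : x ^ 2 / 2 + (θ * x ^ 2) ^ 2 / θ ^ 2 ≤ x ^ 2 := by
    have : (θ * x ^ 2) ^ 2 / θ ^ 2 = (x ^ 2) ^ 2 := by field_simp
    rw [this]
    nlinarith
  have hE : 2 * x ^ 2 + x ^ 2 * (-Real.log (x ^ 2)) + 3 / 2 * Real.sqrt (x ^ 2) / θ * Real.log 2
      + Real.binEntropy γ + (x ^ 2 + γ) * (cD p * Real.log 2) ≤ ε / 2 * Real.log 2 := by
    have h6 : γ * (cD p * Real.log 2) ≤ ε / 8 * Real.log 2 := by
      have h7 : cD p * Real.log 2 ≤ 1 := by nlinarith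
      have h8 : 0 ≤ cD p * Real.log 2 := by positivity
      nlinarith
    nlinarith
  filter_upwards [redkm_asymp hp0 hp1 hε hw0 hθ0 hx20 hE, eventually_gt_atTop 0] with n hn hn0
  exact (redkm_bound hOp hDet hCount hInd hp0 hp1 hw0 hw hγ0 hγ1 hθ0 hθw hθ1 (by positivity)
    (by linarith) (by positivity) (by nlinarith) hl' hγθ hx20 (by linarith) hn0).trans hn

end Claimed.Agent.R293
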