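/-
R293 / RedCompOp.lean  (helper245).  Leaf REDK-OP: cut norm of `W = A - (2p-1) 11ᵀ` (Hoeffding + union over 9^n pairs).
-/
import Claimed.Agent.R293.RedCompIface

set_option autoImplicit false

namespace Claimed.Agent.R293

open Finset

section Coeff
variable {n : ℕ}

/-- the fibre of the map `(i,j) ↦ s(i,j)`. -/
def redkoFib (z : Sym2 (Fin n)) : Finset (Fin n × Fin n) :=
  (univ : Finset (Fin n × Fin n)).filter fun q => s(q.1, q.2) = z

/-- coefficient of the bit `z` in the bilinear form `u'ᵀ W u`. -/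
noncomputable def redkoCoeff (u u' : Fin n → SignType) (z : Sym2 (Fin n)) : ℝ :=
  2 * ∑ q ∈ redkoFib z, (u' q.1 : ℝ) * (u q.2 : ℝ)

theorem redko_fib_card_le (z : Sym2 (Fin n)) : (redkoFib z).card ≤ 2 := by
  induction z using Sym2.ind with
  | _ x y =>
    refine le_trans (Finset.card_le_card ?_) (Finset.card_le_two (a := (x, y)) (b := (y, x)))
    intro q hq
    have h := (Finset.mem_filter.1 hq).2
    rcases Sym2.eq_iff.1 h with ⟨h1, h2⟩ | ⟨h1, h2⟩
    · simp [Prod.ext_iff, h1, h2]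
    · simp [Prod.ext_iff, h1, h2]

theorem redko_sum_eq (p : ℝ) (u u' : Fin n → SignType) (s : Sym2 (Fin n) → Bool) :
    ∑ i, ∑ j, (u' i : ℝ) * (redkSgn (s s(i, j)) - (2 * p - 1)) * (u j : ℝ) =
      pbSum (sgnLaw p n) (redkoCoeff u u') s := by
  rw [pbSum, ← Finset.sum_product (s := univ) (t := univ)
      (f := fun q : Fin n × Fin n =>
        (u' q.1 : ℝ) * (redkSgn (s s(q.1, q.2)) - (2 * p - 1)) * (u q.2 : ℝ)),
    Finset.univ_product_univ,
    ← Finset.sum_fiberwise (univ : Finset (Fin n × Fin n)) (fun q => s(q.1, q.2))]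
  refine Finset.sum_congr rfl fun z _ => ?_
  rw [redkoCoeff, Finset.mul_sum, Finset.sum_mul]
  refine Finset.sum_congr rfl fun q hq => ?_
  rw [(Finset.mem_filter.1 hq).2]
  unfold redkSgn bitVec
  split_ifs <;> ring

theorem redko_sign_sq_le (x : SignType) : ((x : ℝ)) ^ 2 ≤ 1 := by
  cases x <;> simp

theorem redko_coeff_sq_le (u u' : Fin n → SignType) :
    ∑ z, redkoCoeff u u' z ^ 2 ≤ 8 * (n : ℝ) ^ 2 := by
  have h1 : ∀ z, redkoCoeff u u' z ^ 2 ≤ 8 * ((redkoFib z).card : ℝ) := by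
    intro z
    have hc : ((redkoFib z).card : ℝ) ≤ 2 := by exact_mod_cast redko_fib_card_le z
    have hc0 : (0 : ℝ) ≤ ((redkoFib z).card : ℝ) := Nat.cast_nonneg _
    have h2 := sq_sum_le_card_mul_sum_sq (s := redkoFib z)
      (f := fun q : Fin n × Fin n => (u' q.1 : ℝ) * (u q.2 : ℝ))
    have h3 : ∑ q ∈ redkoFib z, ((u' q.1 : ℝ) * (u q.2 : ℝ)) ^ 2 ≤ ((redkoFib z).card : ℝ) := by
      calc ∑ q ∈ redkoFib z, ((u' q.1 : ℝ) * (u q.2 : ℝ)) ^ 2 ≤ ∑ _q ∈ redkoFib z, (1 : ℝ) := by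
            refine Finset.sum_le_sum fun q _ => ?_
            rw [mul_pow]
            have a1 := redko_sign_sq_le (u' q.1)
            have a2 := redko_sign_sq_le (u q.2)
            have b1 := sq_nonneg ((u' q.1 : ℝ))
            have b2 := sq_nonneg ((u q.2 : ℝ))
            nlinarith
        _ = ((redkoFib z).card : ℝ) := by simp
    have h4 : (∑ q ∈ redkoFib z, (u' q.1 : ℝ) * (u q.2 : ℝ)) ^ 2 ≤
        2 * ((redkoFib z).card : ℝ) := by
      refine h2.trans ?_
      exact mul_le_mul hc h3 (Finset.sum_nonneg fun q _ => sq_nonneg _) (by norm_num)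
    rw [redkoCoeff, mul_pow]
    linarith
  have h5 : ∑ z : Sym2 (Fin n), ((redkoFib z).card : ℝ) = (n : ℝ) ^ 2 := by
    have := Finset.card_eq_sum_card_fiberwise (s := (univ : Finset (Fin n × Fin n)))
      (t := (univ : Finset (Sym2 (Fin n)))) (f := fun q => s(q.1, q.2))
      (fun q _ => Finset.mem_coe.2 (Finset.mem_univ _))
    have h6 : ((univ : Finset (Fin n × Fin n)).card : ℝ) = (n : ℝ) ^ 2 := by
      rw [Finset.card_univ, Fintype.card_prod, Fintype.card_fin]
      push_cast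
      ring
    rw [← h6, this]
    push_cast
    rfl
  calc ∑ z, redkoCoeff u u' z ^ 2 ≤ ∑ z : Sym2 (Fin n), 8 * ((redkoFib z).card : ℝ) :=
        Finset.sum_le_sum fun z _ => h1 z
    _ = 8 * (n : ℝ) ^ 2 := by rw [← Finset.mul_sum, h5]

end Coeff

theorem redko_num (n : ℕ) : (9 : ℝ) ^ n * Real.exp (-(16 * (n : ℝ))) ≤ (2 : ℝ) ^ (-(2 * (n : ℝ))) := by
  have h8 : (9 : ℝ) ≤ Real.exp 8 := by
    have := Real.add_one_le_exp (8 : ℝ)
    linarith
  have h16 : (36 : ℝ) ≤ Real.exp 16 := by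
    have : Real.exp 16 = Real.exp 8 * Real.exp 8 := by
      rw [← Real.exp_add]
      norm_num
    rw [this]
    nlinarith
  have e1 : Real.exp (-(16 * (n : ℝ))) = (Real.exp 16)⁻¹ ^ n := by
    rw [← Real.exp_neg, ← Real.exp_nat_mul]
    congr 1
    ring
  have e2 : (2 : ℝ) ^ (-(2 * (n : ℝ))) = ((4 : ℝ)⁻¹) ^ n := by
    rw [Real.rpow_neg (by norm_num), Real.rpow_mul (by norm_num), Real.rpow_natCast, inv_pow]
    norm_num
  rw [e1, e2, ← mul_pow]
  apply pow_le_pow_left₀ (by positivity)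
  rw [← div_eq_mul_inv, div_le_iff₀ (Real.exp_pos _)]
  linarith

theorem redk_op : StRedkOp := by
  classical
  intro p hp0 hp1 n
  have hπ : IsProbArray (sgnLaw p n) := fun _ => ⟨hp0.le, by linarith⟩
  rcases Nat.eq_zero_or_pos n with rfl | hn
  · have : (redkOp p 8 0)ᶜ = ∅ := by
      ext s
      simp [redkOp]
    rw [this, pb_prb_empty]
    positivity
  have hn' : (0 : ℝ) < n := by exact_mod_cast hn
  set t : ℝ := 8 * n * Real.sqrt n with ht
  have hsub : (redkOp p 8 n)ᶜ ⊆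
      ⋃ q ∈ (univ : Finset ((Fin n → SignType) × (Fin n → SignType))),
        {s | t ≤ pbSum (sgnLaw p n) (redkoCoeff q.1 q.2) s} := by
    intro s hs
    simp only [redkOp, Set.mem_compl_iff, Set.mem_ofPred_eq, not_forall, not_le] at hs
    obtain ⟨u, u', h⟩ := hs
    simp only [Set.mem_iUnion, Finset.mem_univ, exists_prop, true_and]
    refine ⟨(u, u'), ?_⟩
    simp only [Set.mem_ofPred_eq]
    rw [← redko_sum_eq]
    exact h.le
  have hone : ∀ q ∈ (univ : Finset ((Fin n → SignType) × (Fin n → SignType))),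
      prb (sgnLaw p n) {s | t ≤ pbSum (sgnLaw p n) (redkoCoeff q.1 q.2) s} ≤
        Real.exp (-(16 * (n : ℝ))) := by
    intro q _
    have h := pb_hoeffding_ge hπ (redkoCoeff q.1 q.2) (V := 8 * (n : ℝ) ^ 2) (t := t)
      (redko_coeff_sq_le q.1 q.2) (by positivity) (by positivity)
    have he : -2 * t ^ 2 / (8 * (n : ℝ) ^ 2) = -(16 * (n : ℝ)) := by
      rw [ht, mul_pow, mul_pow, Real.sq_sqrt hn'.le]
      field_simp
      ring
    rwa [he] at h
  have hcard : ((univ : Finset ((Fin n → SignType) × (Fin n → SignType))).card : ℝ) = 9 ^ n := by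
    rw [Finset.card_univ, Fintype.card_prod, Fintype.card_fun, Fintype.card_fin]
    have : Fintype.card SignType = 3 := rfl
    rw [this]
    push_cast
    rw [← mul_pow]
    norm_num
  calc prb (sgnLaw p n) (redkOp p 8 n)ᶜ
      ≤ prb (sgnLaw p n) (⋃ q ∈ (univ : Finset ((Fin n → SignType) × (Fin n → SignType))),
        {s | t ≤ pbSum (sgnLaw p n) (redkoCoeff q.1 q.2) s}) := pb_prb_mono hπ hsub
    _ ≤ ((univ : Finset ((Fin n → SignType) × (Fin n → SignType))).card : ℝ) *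
        Real.exp (-(16 * (n : ℝ))) := pb_prb_biUnion_le_card_mul hπ _ _ hone
    _ = 9 ^ n * Real.exp (-(16 * (n : ℝ))) := by rw [hcard]
    _ ≤ (2 : ℝ) ^ (-(2 * (n : ℝ))) := redko_num n

end Claimed.Agent.R293
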