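/-
R293 / RedCompSB.lean  (owner: helper141, prefix `redks`).  RED-2 leaf SB:
`redk_sb : StRedkTwo → StRedkEsseen → StRedkSB`  (glue of the two small-ball cases).
-/
import Claimed.Agent.R293.RedCompIface

set_option autoImplicit false

namespace Claimed.Agent.R293

open Finset

section
variable {κ : Type*} [Fintype κ] [DecidableEq κ]

/-- splitting off the anchor coordinate. -/
theorem redks_split (c : κ → ℝ) (a : κ) (x s : κ → Bool) :
    redkLin c (pbMix {a}ᶜ x s) = redkLin (Function.update c a 0) x + c a * redkSgn (s a) := by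
  unfold redkLin
  rw [← Finset.add_sum_erase univ _ (Finset.mem_univ a),
    ← Finset.add_sum_erase univ (fun k => Function.update c a 0 k * redkSgn (x k))
      (Finset.mem_univ a), pbMix_of_notMem (by simp)]
  simp only [Function.update_self, zero_mul, zero_add]
  rw [add_comm]
  congr 1
  refine Finset.sum_congr rfl fun k hk => ?_
  rw [Finset.mem_erase] at hk
  rw [pbMix_of_mem (by simp [hk.1]), Function.update_of_ne hk.1]

theorem redks_sum_sq (c : κ → ℝ) (a : κ) :
    ∑ k, Function.update c a 0 k ^ 2 = ∑ j ∈ univ.erase a, c j ^ 2 := by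
  rw [← Finset.add_sum_erase univ _ (Finset.mem_univ a)]
  simp only [Function.update_self, ne_eq, OfNat.ofNat_ne_zero, not_false_eq_true, zero_pow,
    zero_add]
  refine Finset.sum_congr rfl fun k hk => ?_
  rw [Finset.mem_erase] at hk
  rw [Function.update_of_ne hk.1]

end

/-- **RED-2, SB.** -/
theorem redk_sb (hTwo : StRedkTwo) (hEss : StRedkEsseen) : StRedkSB := by
  intro p hp0 hp1
  obtain ⟨w1, hw1, hE⟩ := hEss p hp0 hp1
  refine ⟨w1 / 2, by positivity, ?_⟩
  intro κ _ _ c a hgood z
  have hπ : IsProbArray (fun _ : κ => p) := fun _ => ⟨hp0.le, by linarith⟩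
  by_cases hbig : ∃ k1, k1 ≠ a ∧ w1 < |c k1|
  · obtain ⟨k1, hk1, hlt⟩ := hbig
    have h1 := hgood.2 k1
    exact hTwo p hp0.le (by linarith) κ c a k1 (w1 / 2) hk1.symm (by linarith) (by linarith) z
  · push Not at hbig
    refine pb_prb_le_of_cond hπ {a}ᶜ _ fun s => ?_
    have h1 := hE κ (Function.update c a 0) (fun k => by
        by_cases hk : k = a
        · subst hk
          simp [hw1.le]
        · rw [Function.update_of_ne hk]
          exact hbig k hk)
      (by rw [redks_sum_sq]; exact hgood.1) (z - c a * redkSgn (s a))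
    have h2 : (1 : ℝ) / 2 ≤ cQ p := by
      unfold cQ
      nlinarith [sq_nonneg (p - 1 / 2)]
    refine le_trans (pb_prb_mono hπ fun x hx => ?_) (h1.trans h2)
    have hx' : |redkLin c (pbMix {a}ᶜ x s) - z| ≤ w1 / 2 := hx
    rw [redks_split] at hx'
    show |redkLin (Function.update c a 0) x - (z - c a * redkSgn (s a))| ≤ w1
    have h3 : redkLin (Function.update c a 0) x - (z - c a * redkSgn (s a)) =
        redkLin (Function.update c a 0) x + c a * redkSgn (s a) - z := by ring
    rw [h3]
    linarith

end Claimed.Agent.R293
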