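/-
R293 / RedCompTwo.lean  (owner: helper141, prefix `redkt`).  RED-2 leaf SB-two: `redk_two : StRedkTwo`.
Two coefficients larger than the window: conditionally on the other bits, the event is contained in
`{x k0 = x k1}` or in `{x k0 ≠ x k1}`, of probability `≤ p² + (1-p)²`.
-/
import Claimed.Agent.R293.RedCompIface

set_option autoImplicit false

namespace Claimed.Agent.R293

open Finset

section
variable {κ : Type*} [Fintype κ] [DecidableEq κ]

/-- probability of a pattern on two distinct coordinates. -/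
theorem redkt_pair (p : ℝ) {k0 k1 : κ} (h01 : k0 ≠ k1) (b0 b1 : Bool) :
    prb (fun _ : κ => p) {x | x k0 = b0 ∧ x k1 = b1} =
      (if b0 then p else 1 - p) * (if b1 then p else 1 - p) := by
  have h := pb_prb_cylinder (fun _ : κ => p) {k0, k1} (fun k => if k = k0 then b0 else b1)
  rw [Finset.prod_pair h01] at h
  simp only [if_true, h01.symm, if_false] at h
  rw [← h]
  congr 1
  ext x
  simp [h01.symm]

theorem redkt_same (p : ℝ) (hp0 : 0 ≤ p) (hp1 : p ≤ 1) {k0 k1 : κ} (h01 : k0 ≠ k1) :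
    prb (fun _ : κ => p) {x | x k0 = x k1} ≤ cQ p := by
  have hπ : IsProbArray (fun _ : κ => p) := fun _ => ⟨hp0, hp1⟩
  have hsub : {x : κ → Bool | x k0 = x k1} ⊆
      {x | x k0 = true ∧ x k1 = true} ∪ {x | x k0 = false ∧ x k1 = false} := by
    intro x hx
    have hx' : x k0 = x k1 := hx
    cases h : x k1
    · right; exact ⟨by rw [hx', h], h⟩
    · left; exact ⟨by rw [hx', h], h⟩
  refine (pb_prb_mono hπ hsub).trans ((pb_prb_union_le hπ _ _).trans ?_)
  rw [redkt_pair p h01, redkt_pair p h01]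
  simp only [if_true, Bool.false_eq_true, if_false, cQ]
  nlinarith

theorem redkt_diff (p : ℝ) (hp0 : 0 ≤ p) (hp1 : p ≤ 1) {k0 k1 : κ} (h01 : k0 ≠ k1) :
    prb (fun _ : κ => p) {x | x k0 ≠ x k1} ≤ cQ p := by
  have hπ : IsProbArray (fun _ : κ => p) := fun _ => ⟨hp0, hp1⟩
  have hsub : {x : κ → Bool | x k0 ≠ x k1} ⊆
      {x | x k0 = true ∧ x k1 = false} ∪ {x | x k0 = false ∧ x k1 = true} := by
    intro x hx
    have hx' : x k0 ≠ x k1 := hx
    cases h : x k1
    · left
      refine ⟨?_, h⟩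
      rw [h] at hx'
      simpa using hx'
    · right
      refine ⟨?_, h⟩
      rw [h] at hx'
      simpa using hx'
  refine (pb_prb_mono hπ hsub).trans ((pb_prb_union_le hπ _ _).trans ?_)
  rw [redkt_pair p h01, redkt_pair p h01]
  simp only [if_true, Bool.false_eq_true, if_false, cQ]
  nlinarith [sq_nonneg (p - (1 - p))]

/-- splitting off two coordinates of the signed sum. -/
theorem redkt_split (c : κ → ℝ) {k0 k1 : κ} (h01 : k0 ≠ k1) (x s : κ → Bool) :
    redkLin c (pbMix {k0, k1} x s) = c k0 * redkSgn (x k0) + c k1 * redkSgn (x k1) +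
      ∑ k ∈ (univ.erase k0).erase k1, c k * redkSgn (s k) := by
  unfold redkLin
  rw [← Finset.add_sum_erase univ _ (Finset.mem_univ k0),
    ← Finset.add_sum_erase (univ.erase k0) _ (Finset.mem_erase.2 ⟨h01.symm, Finset.mem_univ k1⟩),
    pbMix_of_mem (by simp), pbMix_of_mem (by simp), add_assoc]
  congr 2
  refine Finset.sum_congr rfl fun k hk => ?_
  rw [Finset.mem_erase, Finset.mem_erase] at hk
  rw [pbMix_of_notMem]
  simp [hk.1, hk.2.1]

end

/-- **RED-2, SB-two.** -/
theorem redk_two : StRedkTwo := by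
  intro p hp0 hp1 κ _ _ c k0 k1 w h01 h0 h1 z
  have hπ : IsProbArray (fun _ : κ => p) := fun _ => ⟨hp0, hp1⟩
  refine pb_prb_le_of_cond hπ {k0, k1} _ fun s => ?_
  set R : ℝ := ∑ k ∈ (univ.erase k0).erase k1, c k * redkSgn (s k) with hR
  set E' : Set (κ → Bool) := {x | pbMix {k0, k1} x s ∈ {σ | |redkLin c σ - z| ≤ w}} with hE'
  have hmem : ∀ x, x ∈ E' → |c k0 * redkSgn (x k0) + c k1 * redkSgn (x k1) + R - z| ≤ w := by
    intro x hx
    have hx' : |redkLin c (pbMix {k0, k1} x s) - z| ≤ w := hx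
    rwa [redkt_split c h01] at hx'
  by_cases hD : E' ⊆ {x | x k0 = x k1}
  · exact (pb_prb_mono hπ hD).trans (redkt_same p hp0 hp1 h01)
  · refine (pb_prb_mono hπ ?_).trans (redkt_diff p hp0 hp1 h01)
    rw [Set.not_subset] at hD
    obtain ⟨x, hx, hxne⟩ := hD
    have hxne' : x k0 ≠ x k1 := hxne
    intro y hy
    show y k0 ≠ y k1
    intro hye
    have hx1 := abs_le.1 (hmem x hx)
    have hy1 := abs_le.1 (hmem y hy)
    rw [hye] at hy1
    rcases lt_abs.1 h0 with h0 | h0 <;> rcases lt_abs.1 h1 with h1 | h1 <;>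
      cases hx0 : x k0 <;> cases hx1' : x k1 <;> cases hy1' : y k1 <;>
      simp only [hx0, hx1', hy1', redkSgn, if_true, Bool.false_eq_true, if_false, ne_eq,
        not_true_eq_false] at hx1 hy1 hxne' <;>
      linarith [hx1.1, hx1.2, hy1.1, hy1.2]

end Claimed.Agent.R293
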