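/-
R293 / RedComp.lean  (owner: helper66).  RED-2 = paper B Lemma 2.2: `red_comp : StRedComp`.
-/
import Claimed.Agent.R293.RedCompMain
import Claimed.Agent.R293.RedCompOp
import Claimed.Agent.R293.RedCompDet
import Claimed.Agent.R293.RedCompCount
import Claimed.Agent.R293.RedCompInd
import Claimed.Agent.R293.RedCompTwo
import Claimed.Agent.R293.RedCompEsseen
import Claimed.Agent.R293.RedCompSB

set_option autoImplicit false

namespace Claimed.Agent.R293

/-- **B Lemma 2.2** (tails close to sparse vectors). -/
theorem red_comp : StRedComp :=
  redk_main redk_op redk_det redk_count redk_ind (redk_sb redk_two redk_esseen)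

end Claimed.Agent.R293
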