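/-
R293 / RedCorank.lean  (owner: helper246).  Leaf RED-1: reduction to corank one (B Lemma 2.1),
`red_corank : StRedCorank`.

* `redc_prb_flip_le`: flipping one bit changes the probability of an event by a bounded factor;
* `redc_rank_add_diag`: changing a diagonal entry at a coordinate on which the kernel does not
  vanish raises the rank of a symmetric matrix by exactly one;
* hence `P(corank = k + 1) ≤ n ρ P(corank = k)` (no choice of flipped sets, no preimage counting);
* `redc_prb_rank_le`: corank tail `P(corank ≥ t) ≤ 2^n b^{t(t+1)/2}`;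
* asymptotics with `t ≈ m √n`, `m` a large constant.
-/
import Claimed.Agent.R293.RedIface
import Claimed.Agent.R293.ProbMarg
import Claimed.Agent.R293.CrkLinAlg

set_option autoImplicit false

namespace Claimed.Agent.R293

open Finset Filter

/-! ### Flipping one bit -/

section Flip

variable {κ : Type*} [Fintype κ] [DecidableEq κ]

/-- flip the bit at position `k0`. -/
def redcFlip (k0 : κ) (s : κ → Bool) : κ → Bool := Function.update s k0 (!s k0)

omit [Fintype κ] in
theorem redcFlip_flip (k0 : κ) (s : κ → Bool) : redcFlip k0 (redcFlip k0 s) = s := by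
  unfold redcFlip
  simp

omit [Fintype κ] in
theorem redcFlip_same (k0 : κ) (s : κ → Bool) : redcFlip k0 s k0 = !s k0 := by
  unfold redcFlip
  simp

omit [Fintype κ] in
theorem redcFlip_of_ne {k0 k : κ} (h : k ≠ k0) (s : κ → Bool) : redcFlip k0 s k = s k := by
  unfold redcFlip
  rw [Function.update_of_ne h]

theorem redc_bern_flip_le {π : κ → ℝ} (hπ : IsProbArray π) {ρ : ℝ}
    (hρ : ∀ k, π k ≤ ρ * (1 - π k) ∧ 1 - π k ≤ ρ * π k) (k0 : κ) (s : κ → Bool) :
    bern π (redcFlip k0 s) ≤ ρ * bern π s := by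
  unfold bern
  rw [← mul_prod_erase univ _ (mem_univ k0),
    ← mul_prod_erase univ (fun k => if s k then π k else 1 - π k) (mem_univ k0)]
  have h1 : ∏ k ∈ univ.erase k0, (if redcFlip k0 s k then π k else 1 - π k)
      = ∏ k ∈ univ.erase k0, (if s k then π k else 1 - π k) :=
    prod_congr rfl fun k hk => by rw [redcFlip_of_ne (ne_of_mem_erase hk)]
  rw [h1, ← mul_assoc]
  refine mul_le_mul_of_nonneg_right ?_ (prod_nonneg fun k _ => ?_)
  · rw [redcFlip_same]
    cases s k0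
    · simpa using (hρ k0).1
    · simpa using (hρ k0).2
  · split_ifs
    · exact (hπ k).1
    · linarith [(hπ k).2]

theorem redc_prb_flip_le {π : κ → ℝ} (hπ : IsProbArray π) {ρ : ℝ}
    (hρ : ∀ k, π k ≤ ρ * (1 - π k) ∧ 1 - π k ≤ ρ * π k) (k0 : κ) (C : Set (κ → Bool)) :
    prb π {s | redcFlip k0 s ∈ C} ≤ ρ * prb π C := by
  unfold prb
  have h : ∑ s, Set.indicator {s | redcFlip k0 s ∈ C} (bern π) s
      = ∑ s, Set.indicator C (fun s' => bern π (redcFlip k0 s')) s := by
    refine Fintype.sum_equiv (Function.Involutive.toPerm _ (redcFlip_flip k0)) _ _ fun s => ?_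
    have e : (Function.Involutive.toPerm _ (redcFlip_flip k0)) s = redcFlip k0 s := rfl
    rw [e]
    simp [Set.indicator, redcFlip_flip]
  rw [h, mul_sum]
  refine sum_le_sum fun s _ => ?_
  by_cases hs : s ∈ C
  · simpa [hs] using redc_bern_flip_le hπ hρ k0 s
  · simp [hs]

end Flip

/-! ### Linear algebra of one diagonal change -/

theorem redc_rank_add_finrank_ker {n : ℕ} (A : Matrix (Fin n) (Fin n) ℝ) :
    A.rank + Module.finrank ℝ (LinearMap.ker A.mulVecLin) = n := by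
  have h := LinearMap.finrank_range_add_finrank_ker A.mulVecLin
  rw [Module.finrank_fin_fun] at h
  exact h

theorem redc_rank_add_diag {n : ℕ} (A : Matrix (Fin n) (Fin n) ℝ) (hA : A.IsSymm)
    (v : Fin n → ℝ) (hv : A.mulVec v = 0) (i : Fin n) (hi : v i ≠ 0) (d : ℝ) (hd : d ≠ 0) :
    (A + Matrix.diagonal (Pi.single i d)).rank = A.rank + 1 := by
  set A' := A + Matrix.diagonal (Pi.single i d) with hA'
  set K := LinearMap.ker A.mulVecLin with hK
  set K' := LinearMap.ker A'.mulVecLin with hK'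
  have hmul : ∀ y : Fin n → ℝ, A'.mulVec y = A.mulVec y + Pi.single i (d * y i) := by
    intro y
    rw [hA', Matrix.add_mulVec]
    congr 1
    funext j
    rw [Matrix.mulVec_diagonal]
    by_cases hj : j = i
    · subst hj; simp
    · simp [hj]
  -- vectors of the new kernel vanish at `i`
  have hzero : ∀ y, A'.mulVec y = 0 → y i = 0 := by
    intro y hy
    have h1 : v ⬝ᵥ A'.mulVec y = 0 := by rw [hy, dotProduct_zero]
    rw [hmul, dotProduct_add, Matrix.dotProduct_mulVec, ← Matrix.mulVec_transpose, hA.eq, hv,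
      zero_dotProduct, zero_add, dotProduct_single] at h1
    have h2 : d * y i = 0 := (mul_eq_zero.1 h1).resolve_left hi
    exact (mul_eq_zero.1 h2).resolve_left hd
  have hle : K' ≤ K := by
    intro y hy
    rw [hK', LinearMap.mem_ker, Matrix.mulVecLin_apply] at hy
    rw [hK, LinearMap.mem_ker, Matrix.mulVecLin_apply]
    have h0 := hzero y hy
    rw [hmul, h0, mul_zero, Pi.single_zero, add_zero] at hy
    exact hy
  -- the functional `x ↦ x i` on `K`
  let f : Module.Dual ℝ K := (LinearMap.proj i : (Fin n → ℝ) →ₗ[ℝ] ℝ).comp K.subtype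
  have hf : f ≠ 0 := by
    intro h
    have hvK : v ∈ K := by rw [hK, LinearMap.mem_ker, Matrix.mulVecLin_apply, hv]
    have := LinearMap.congr_fun h ⟨v, hvK⟩
    exact hi (by simpa [f] using this)
  have hker : LinearMap.ker f = Submodule.comap K.subtype K' := by
    ext ⟨x, hx⟩
    rw [LinearMap.mem_ker, Submodule.mem_comap]
    have hx' : A.mulVec x = 0 := by
      rw [hK, LinearMap.mem_ker, Matrix.mulVecLin_apply] at hx
      exact hx
    show x i = 0 ↔ x ∈ K'
    rw [hK', LinearMap.mem_ker, Matrix.mulVecLin_apply]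
    constructor
    · intro h
      rw [hmul, hx', h, mul_zero, Pi.single_zero, add_zero]
    · exact hzero x
  have h1 := Module.Dual.finrank_ker_add_one_of_ne_zero hf
  rw [hker, (Submodule.comapSubtypeEquivOfLe hle).finrank_eq] at h1
  have h2 : A.rank + Module.finrank ℝ K = n := redc_rank_add_finrank_ker A
  have h3 : A'.rank + Module.finrank ℝ K' = n := redc_rank_add_finrank_ker A'
  omega

theorem redc_exists_ker {n : ℕ} (A : Matrix (Fin n) (Fin n) ℝ) (h : A.rank < n) :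
    ∃ v : Fin n → ℝ, v ≠ 0 ∧ A.mulVec v = 0 := by
  have hdet : A.det = 0 := by
    by_contra hne
    have hr := Matrix.rank_of_det_ne_zero hne
    rw [Fintype.card_fin] at hr
    omega
  exact Matrix.exists_mulVec_eq_zero_iff.mpr hdet

theorem redc_rank_lt_of_det {n : ℕ} (A : Matrix (Fin n) (Fin n) ℝ) (h : A.det = 0) :
    A.rank < n := by
  obtain ⟨v, hv0, hv⟩ := Matrix.exists_mulVec_eq_zero_iff.mpr h
  have hne : LinearMap.ker A.mulVecLin ≠ ⊥ := by
    intro hbot
    have : v ∈ LinearMap.ker A.mulVecLin := by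
      rw [LinearMap.mem_ker, Matrix.mulVecLin_apply, hv]
    rw [hbot, Submodule.mem_bot] at this
    exact hv0 this
  have h1 : 1 ≤ Module.finrank ℝ (LinearMap.ker A.mulVecLin) :=
    Submodule.one_le_finrank_iff.2 hne
  have h2 := redc_rank_add_finrank_ker A
  omega

/-! ### Corank classes of the sign matrix -/

section Cls

variable {n : ℕ}

/-- corank exactly `k`. -/
def redcCls (n k : ℕ) : Set (Sym2 (Fin n) → Bool) := {s | (toR (sgnMat s)).rank + k = n}

theorem redc_toR_apply (s : Sym2 (Fin n) → Bool) (i j : Fin n) :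
    toR (sgnMat s) i j = if s s(i, j) then 1 else -1 := by
  show (((if s s(i, j) then (1 : ℤ) else -1) : ℤ) : ℝ) = _
  split_ifs <;> simp

theorem redc_toR_symm (s : Sym2 (Fin n) → Bool) : (toR (sgnMat s)).IsSymm := by
  ext i j
  rw [Matrix.transpose_apply, redc_toR_apply, redc_toR_apply, Sym2.eq_swap]

theorem redc_toR_flip (s : Sym2 (Fin n) → Bool) (i : Fin n) :
    toR (sgnMat (redcFlip s(i, i) s))
      = toR (sgnMat s) + Matrix.diagonal (Pi.single i (-2 * toR (sgnMat s) i i)) := by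
  ext a b
  rw [Matrix.add_apply, redc_toR_apply, redc_toR_apply, redc_toR_apply, Matrix.diagonal_apply]
  by_cases h : s(a, b) = s(i, i)
  · have h' : a = i ∧ b = i := by simpa using h
    obtain ⟨ha, hb⟩ := h'
    rw [ha, hb, redcFlip_same]
    cases hh : s s(i, i) <;> norm_num
  · rw [redcFlip_of_ne h]
    by_cases hab : a = b
    · subst hab
      have hai : a ≠ i := fun hh => h (by rw [hh])
      simp [hai]
    · simp [hab]

theorem redc_exists_flip (s : Sym2 (Fin n) → Bool) (k : ℕ) (hs : s ∈ redcCls n (k + 1)) :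
    ∃ i : Fin n, redcFlip s(i, i) s ∈ redcCls n k := by
  have hs' : (toR (sgnMat s)).rank + (k + 1) = n := hs
  obtain ⟨v, hv0, hv⟩ := redc_exists_ker (toR (sgnMat s)) (by omega)
  obtain ⟨i, hi⟩ := Function.ne_iff.1 hv0
  refine ⟨i, ?_⟩
  show (toR (sgnMat (redcFlip s(i, i) s))).rank + k = n
  have hd : -2 * toR (sgnMat s) i i ≠ 0 := by
    rw [redc_toR_apply]
    split_ifs <;> norm_num
  rw [redc_toR_flip, redc_rank_add_diag _ (redc_toR_symm s) v hv i hi _ hd]
  omega

theorem redc_isProbArray {p : ℝ} (hp0 : 0 < p) (hp : p ≤ 1 / 2) (n : ℕ) :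
    IsProbArray (sgnLaw p n) := fun _ => ⟨hp0.le, by linarith⟩

theorem redc_prb_cls_succ_le {p : ℝ} (hp0 : 0 < p) (hp : p ≤ 1 / 2) (n k : ℕ) :
    prb (sgnLaw p n) (redcCls n (k + 1))
      ≤ (n * ((1 - p) / p)) * prb (sgnLaw p n) (redcCls n k) := by
  have hπ := redc_isProbArray hp0 hp n
  have hρ : ∀ e, sgnLaw p n e ≤ (1 - p) / p * (1 - sgnLaw p n e) ∧
      1 - sgnLaw p n e ≤ (1 - p) / p * sgnLaw p n e := by
    intro e
    constructor
    · show p ≤ (1 - p) / p * (1 - p)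
      rw [div_mul_eq_mul_div, le_div_iff₀ hp0]
      nlinarith
    · show 1 - p ≤ (1 - p) / p * p
      rw [div_mul_cancel₀ _ hp0.ne']
  have hsub : redcCls n (k + 1) ⊆ ⋃ i : Fin n, {s | redcFlip s(i, i) s ∈ redcCls n k} := by
    intro s hs
    obtain ⟨i, hi⟩ := redc_exists_flip s k hs
    exact Set.mem_iUnion.2 ⟨i, hi⟩
  calc prb (sgnLaw p n) (redcCls n (k + 1))
      ≤ prb (sgnLaw p n) (⋃ i : Fin n, {s | redcFlip s(i, i) s ∈ redcCls n k}) :=
        pb_prb_mono hπ hsub
    _ ≤ ∑ i : Fin n, prb (sgnLaw p n) {s | redcFlip s(i, i) s ∈ redcCls n k} :=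
        pb_prb_iUnion_le hπ _
    _ ≤ ∑ _i : Fin n, (1 - p) / p * prb (sgnLaw p n) (redcCls n k) :=
        sum_le_sum fun i _ => redc_prb_flip_le hπ hρ _ _
    _ = (n * ((1 - p) / p)) * prb (sgnLaw p n) (redcCls n k) := by
        rw [sum_const, card_univ, Fintype.card_fin, nsmul_eq_mul, mul_assoc]

theorem redc_prb_cls_le {p : ℝ} (hp0 : 0 < p) (hp : p ≤ 1 / 2) (n k : ℕ) :
    prb (sgnLaw p n) (redcCls n (k + 1))
      ≤ (n * ((1 - p) / p)) ^ k * prb (sgnLaw p n) (redcCls n 1) := by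
  induction k with
  | zero => simp
  | succ k ih =>
    have h0 : 0 ≤ (n : ℝ) * ((1 - p) / p) := by
      have : 0 ≤ (1 - p) / p := div_nonneg (by linarith) hp0.le
      positivity
    calc prb (sgnLaw p n) (redcCls n (k + 1 + 1))
        ≤ (n * ((1 - p) / p)) * prb (sgnLaw p n) (redcCls n (k + 1)) :=
          redc_prb_cls_succ_le hp0 hp n (k + 1)
      _ ≤ (n * ((1 - p) / p)) * ((n * ((1 - p) / p)) ^ k * prb (sgnLaw p n) (redcCls n 1)) :=
          mul_le_mul_of_nonneg_left ih h0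
      _ = _ := by ring

end Cls

/-! ### The corank tail -/

section Tail

variable {n : ℕ}

/-- for a fixed candidate principal block: rank `= #I` with invertible block on `I` forces all
entries off `I`. -/
theorem redc_prb_block_le {π : Sym2 (Fin n) → ℝ} (hπ : IsProbArray π) {b : ℝ}
    (hb : ∀ k, π k ≤ b ∧ 1 - π k ≤ b) (I : Finset (Fin n)) :
    prb π {s | (toR (sgnMat s)).rank = I.card ∧ (crkBlock (toR (sgnMat s)) I).det ≠ 0}
      ≤ b ^ (Iᶜ.sym2).card := by
  refine pb_prb_le_of_cond hπ ((Iᶜ.sym2 : Finset (Sym2 (Fin n))) : Set (Sym2 (Fin n))) _ fun s => ?_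
  refine pb_prb_mix_le_pow hπ hb Iᶜ.sym2 _ s ?_
  intro x x' hx hx' k hk
  have hagree : ∀ i j, (i ∈ I ∨ j ∈ I) →
      toR (sgnMat (pbMix ((Iᶜ.sym2 : Finset (Sym2 (Fin n))) : Set (Sym2 (Fin n))) x s)) i j
        = toR (sgnMat (pbMix ((Iᶜ.sym2 : Finset (Sym2 (Fin n))) : Set (Sym2 (Fin n))) x' s)) i j := by
    intro i j hij
    have hnot : s(i, j) ∉ ((Iᶜ.sym2 : Finset (Sym2 (Fin n))) : Set (Sym2 (Fin n))) := by
      rw [mem_coe, mk_mem_sym2_iff, mem_compl, mem_compl]
      tauto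
    rw [redc_toR_apply, redc_toR_apply, pbMix_of_notMem hnot, pbMix_of_notMem hnot]
  have heq := crk_eq_of_agree _ _ I hx.1 hx'.1 hx.2 hagree
  induction k using Sym2.ind with
  | _ i j =>
    have hmem : s(i, j) ∈ ((Iᶜ.sym2 : Finset (Sym2 (Fin n))) : Set (Sym2 (Fin n))) := hk
    have h1 := congrFun (congrFun heq i) j
    rw [redc_toR_apply, redc_toR_apply, pbMix_of_mem hmem, pbMix_of_mem hmem] at h1
    cases hx1 : x s(i, j) <;> cases hx2 : x' s(i, j) <;> simp [hx1, hx2] at h1 ⊢ <;> norm_num at h1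

theorem redc_prb_rank_le {π : Sym2 (Fin n) → ℝ} (hπ : IsProbArray π) {b : ℝ}
    (hb : ∀ k, π k ≤ b ∧ 1 - π k ≤ b) (hb0 : 0 ≤ b) (hb1 : b ≤ 1) (t : ℕ) :
    prb π {s | (toR (sgnMat s)).rank + t ≤ n} ≤ 2 ^ n * b ^ ((t + 1).choose 2) := by
  set J : Finset (Finset (Fin n)) := univ.filter fun I => I.card + t ≤ n with hJ
  have hsub : {s : Sym2 (Fin n) → Bool | (toR (sgnMat s)).rank + t ≤ n} ⊆
      ⋃ I ∈ J, {s | (toR (sgnMat s)).rank = I.card ∧ (crkBlock (toR (sgnMat s)) I).det ≠ 0} := by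
    intro s hs
    obtain ⟨I, hI, hdet⟩ := crk_exists_principal (toR (sgnMat s)) (redc_toR_symm s)
    have hs' : (toR (sgnMat s)).rank + t ≤ n := hs
    simp only [Set.mem_iUnion]
    exact ⟨I, mem_filter.2 ⟨mem_univ _, by omega⟩, hI.symm, hdet⟩
  have hcard : (J.card : ℝ) ≤ 2 ^ n := by
    have h1 : J.card ≤ (univ : Finset (Finset (Fin n))).card := card_le_card (filter_subset _ _)
    rw [card_univ, Fintype.card_finset, Fintype.card_fin] at h1
    exact_mod_cast h1
  have hone : ∀ I ∈ J,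
      prb π {s | (toR (sgnMat s)).rank = I.card ∧ (crkBlock (toR (sgnMat s)) I).det ≠ 0}
        ≤ b ^ ((t + 1).choose 2) := by
    intro I hI
    have hI' : I.card + t ≤ n := (mem_filter.1 hI).2
    refine (redc_prb_block_le hπ hb I).trans ?_
    refine pow_le_pow_of_le_one hb0 hb1 ?_
    rw [card_sym2, card_compl, Fintype.card_fin]
    exact Nat.choose_le_choose 2 (by omega)
  calc prb π {s | (toR (sgnMat s)).rank + t ≤ n}
      ≤ prb π (⋃ I ∈ J,
          {s | (toR (sgnMat s)).rank = I.card ∧ (crkBlock (toR (sgnMat s)) I).det ≠ 0}) :=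
        pb_prb_mono hπ hsub
    _ ≤ J.card * b ^ ((t + 1).choose 2) := pb_prb_biUnion_le_card_mul hπ J _ hone
    _ ≤ 2 ^ n * b ^ ((t + 1).choose 2) :=
        mul_le_mul_of_nonneg_right hcard (pow_nonneg hb0 _)

end Tail

/-! ### The finite inequality -/

theorem redc_det_toR {n : ℕ} (B : Matrix (Fin n) (Fin n) ℤ) : (toR B).det = (B.det : ℝ) :=
  (Int.cast_det B).symm

theorem redc_finite {p : ℝ} (hp0 : 0 < p) (hp : p ≤ 1 / 2) (n t : ℕ) (hn : 1 ≤ n) :
    sgnProb p n ≤ (2 * (n * ((1 - p) / p))) ^ t * prb (sgnLaw p n) (redCorankOne n)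
      + 2 ^ n * (1 - p) ^ ((t + 2).choose 2) := by
  have hπ := redc_isProbArray hp0 hp n
  set R : ℝ := n * ((1 - p) / p) with hR
  set P1 : ℝ := prb (sgnLaw p n) (redCorankOne n) with hP1
  have hP1' : P1 = prb (sgnLaw p n) (redcCls n 1) := rfl
  have hP0 : 0 ≤ P1 := pb_prb_nonneg hπ _
  have hR1 : 1 ≤ R := by
    have h1 : (1 : ℝ) ≤ n := by exact_mod_cast hn
    have h2 : 1 ≤ (1 - p) / p := by
      rw [le_div_iff₀ hp0]
      linarith
    calc (1 : ℝ) = 1 * 1 := (one_mul 1).symm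
      _ ≤ n * ((1 - p) / p) := mul_le_mul h1 h2 zero_le_one (by positivity)
  have hsub : {s : Sym2 (Fin n) → Bool | (sgnMat s).det = 0} ⊆
      (⋃ k ∈ range t, redcCls n (k + 1)) ∪ {s | (toR (sgnMat s)).rank + (t + 1) ≤ n} := by
    intro s hs
    have hs' : (sgnMat s).det = 0 := hs
    have hlt : (toR (sgnMat s)).rank < n :=
      redc_rank_lt_of_det _ (by rw [redc_det_toR, hs', Int.cast_zero])
    by_cases hk : (toR (sgnMat s)).rank + (t + 1) ≤ n
    · exact Or.inr hk
    · refine Or.inl ?_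
      simp only [Set.mem_iUnion]
      refine ⟨n - (toR (sgnMat s)).rank - 1, mem_range.2 (by omega), ?_⟩
      show (toR (sgnMat s)).rank + (n - (toR (sgnMat s)).rank - 1 + 1) = n
      omega
  have hA : prb (sgnLaw p n) (⋃ k ∈ range t, redcCls n (k + 1)) ≤ (2 * R) ^ t * P1 := by
    have h1 : ∀ k ∈ range t, prb (sgnLaw p n) (redcCls n (k + 1)) ≤ R ^ t * P1 := by
      intro k hk
      refine (redc_prb_cls_le hp0 hp n k).trans ?_
      rw [← hP1']
      exact mul_le_mul_of_nonneg_right (pow_le_pow_right₀ hR1 (mem_range.1 hk).le) hP0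
    refine (pb_prb_biUnion_le_card_mul hπ _ _ h1).trans ?_
    rw [card_range, mul_pow 2 R t, ← mul_assoc]
    have h2 : (t : ℝ) ≤ 2 ^ t := by exact_mod_cast (Nat.lt_two_pow_self (n := t)).le
    have h3 : 0 ≤ R ^ t := by positivity
    exact mul_le_mul_of_nonneg_right (mul_le_mul_of_nonneg_right h2 h3) hP0
  have hB : prb (sgnLaw p n) {s | (toR (sgnMat s)).rank + (t + 1) ≤ n}
      ≤ 2 ^ n * (1 - p) ^ ((t + 2).choose 2) :=
    redc_prb_rank_le hπ (fun _ => ⟨by show p ≤ 1 - p; linarith, le_rfl⟩) (by linarith)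
      (by linarith) (t + 1)
  calc sgnProb p n ≤ prb (sgnLaw p n)
        ((⋃ k ∈ range t, redcCls n (k + 1)) ∪ {s | (toR (sgnMat s)).rank + (t + 1) ≤ n}) :=
        pb_prb_mono hπ hsub
    _ ≤ _ := pb_prb_union_le hπ _ _
    _ ≤ _ := add_le_add hA hB

/-! ### Asymptotics -/

theorem redc_two_mul_choose (k : ℕ) : 2 * (k + 1).choose 2 = (k + 1) * k := by
  rw [Nat.choose_two_right, Nat.add_sub_cancel]
  exact Nat.mul_div_cancel' (Nat.even_mul_pred_self (k + 1)).two_dvd

theorem redc_choose_ge (m n : ℕ) : m * n ≤ 2 * (m * (Nat.sqrt n + 1) + 2).choose 2 := by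
  rw [redc_two_mul_choose (m * (Nat.sqrt n + 1) + 1)]
  have h1 : n ≤ (Nat.sqrt n + 1) * (Nat.sqrt n + 1) := (Nat.lt_succ_sqrt n).le
  have h2 : m ≤ m * m := Nat.le_mul_self m
  set q := Nat.sqrt n + 1 with hq
  calc m * n ≤ m * (q * q) := Nat.mul_le_mul_left m h1
    _ ≤ (m * m) * (q * q) := Nat.mul_le_mul_right _ h2
    _ = (m * q) * (m * q) := by ring
    _ ≤ (m * q + 1 + 1) * (m * q + 1) := Nat.mul_le_mul (by omega) (by omega)

theorem redc_asymp_tail {p : ℝ} (hp0 : 0 < p) (hp : p ≤ 1 / 2) (A0 : ℝ) (m : ℕ)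
    (hm : (A0 + 1) * Real.log 2 * 2 ≤ m * (-Real.log (1 - p))) (n : ℕ) :
    (2 : ℝ) ^ n * (1 - p) ^ ((m * (Nat.sqrt n + 1) + 2).choose 2) ≤ (2 : ℝ) ^ (-(A0 * n)) := by
  have hC := redc_choose_ge m n
  set C := (m * (Nat.sqrt n + 1) + 2).choose 2 with hCdef
  have hb : 0 < 1 - p := by linarith
  have hβ : 0 < -Real.log (1 - p) := by
    have := Real.log_neg hb (by linarith)
    linarith
  rw [← Real.rpow_natCast 2 n, ← Real.rpow_natCast (1 - p) C, Real.rpow_def_of_pos two_pos,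
    Real.rpow_def_of_pos hb, Real.rpow_def_of_pos two_pos, ← Real.exp_add]
  apply Real.exp_le_exp.2
  have hC' : (m : ℝ) * n ≤ 2 * C := by exact_mod_cast hC
  have e1 : (A0 + 1) * Real.log 2 * 2 * n ≤ m * (-Real.log (1 - p)) * n :=
    mul_le_mul_of_nonneg_right hm (Nat.cast_nonneg n)
  have e2 : (-Real.log (1 - p)) * ((m : ℝ) * n) ≤ (-Real.log (1 - p)) * (2 * C) :=
    mul_le_mul_of_nonneg_left hC' hβ.le
  nlinarith [e1, e2]

theorem redc_asymp_main (ρ : ℝ) (hρ : 1 ≤ ρ) (m : ℕ) (ε : ℝ) (hε : 0 < ε) :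
    ∀ᶠ n : ℕ in atTop, (2 * (n * ρ)) ^ (m * (Nat.sqrt n + 1)) ≤ (2 : ℝ) ^ (ε * n) := by
  set L := Real.log (2 * ρ) with hLdef
  have hL : 0 ≤ L := Real.log_nonneg (by linarith)
  set ε' := ε * Real.log 2 with hε'def
  have hε' : 0 < ε' := mul_pos hε (Real.log_pos one_lt_two)
  have hy : Tendsto (fun n : ℕ => Real.sqrt (Real.sqrt n)) atTop atTop :=
    Real.tendsto_sqrt_atTop.comp (Real.tendsto_sqrt_atTop.comp tendsto_natCast_atTop_atTop)
  filter_upwards [hy.eventually_ge_atTop 1, hy.eventually_ge_atTop L,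
    hy.eventually_ge_atTop (10 * m / ε'), eventually_ge_atTop 1] with n h1 h2 h3 hn
  set y := Real.sqrt (Real.sqrt n) with hydef
  have hy0 : 0 ≤ y := by linarith
  have hy2 : y ^ 2 = Real.sqrt n := Real.sq_sqrt (Real.sqrt_nonneg _)
  have hy4 : y ^ 4 = n := by
    calc y ^ 4 = (y ^ 2) ^ 2 := by ring
      _ = (Real.sqrt n) ^ 2 := by rw [hy2]
      _ = n := Real.sq_sqrt (Nat.cast_nonneg n)
  have hn0 : (0 : ℝ) < n := by exact_mod_cast hn
  have hpos : 0 < 2 * (n * ρ) := by positivity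
  have hlogn : Real.log n ≤ 4 * y := by
    rw [← hy4, Real.log_pow]
    have := Real.log_le_self hy0
    push_cast
    linarith
  have hlog : Real.log (2 * (n * ρ)) = L + Real.log n := by
    rw [show 2 * ((n : ℝ) * ρ) = (2 * ρ) * n by ring, Real.log_mul (by positivity) hn0.ne']
  have ht : ((m * (Nat.sqrt n + 1) : ℕ) : ℝ) ≤ m * (y ^ 2 + 1) := by
    push_cast
    rw [hy2]
    have := Real.nat_sqrt_le_real_sqrt (a := n)
    gcongr
  have h10 : 10 * (m : ℝ) ≤ ε' * y := by
    rw [div_le_iff₀ hε'] at h3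
    linarith
  have hysq : 1 ≤ y ^ 2 := by nlinarith
  rw [← Real.rpow_natCast, Real.rpow_def_of_pos hpos, Real.rpow_def_of_pos two_pos]
  apply Real.exp_le_exp.2
  calc Real.log (2 * (n * ρ)) * ((m * (Nat.sqrt n + 1) : ℕ) : ℝ)
      ≤ (L + 4 * y) * (m * (y ^ 2 + 1)) := by
        rw [hlog]
        exact mul_le_mul (by linarith) ht (Nat.cast_nonneg _) (by positivity)
    _ ≤ (5 * y) * (m * (2 * y ^ 2)) := by
        refine mul_le_mul (by linarith) ?_ (by positivity) (by positivity)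
        exact mul_le_mul_of_nonneg_left (by linarith) (Nat.cast_nonneg m)
    _ = (10 * m) * y ^ 3 := by ring
    _ ≤ (ε' * y) * y ^ 3 := mul_le_mul_of_nonneg_right h10 (by positivity)
    _ = Real.log 2 * (ε * n) := by rw [← hy4, hε'def]; ring

/-- **RED-1 = B Lemma 2.1** (reduction to corank one). -/
theorem red_corank : StRedCorank := by
  intro p hp0 hp ε hε A0
  have hρ : 1 ≤ (1 - p) / p := by
    rw [le_div_iff₀ hp0]
    linarith
  have hβ : 0 < -Real.log (1 - p) := by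
    have := Real.log_neg (by linarith : 0 < 1 - p) (by linarith)
    linarith
  obtain ⟨m, hm⟩ := exists_nat_ge ((A0 + 1) * Real.log 2 * 2 / (-Real.log (1 - p)))
  rw [div_le_iff₀ hβ] at hm
  filter_upwards [redc_asymp_main ((1 - p) / p) hρ m ε hε, eventually_ge_atTop 1] with n h1 hn
  have hfin := redc_finite hp0 hp n (m * (Nat.sqrt n + 1)) hn
  have h2 := redc_asymp_tail hp0 hp A0 m hm n
  have hP0 : 0 ≤ prb (sgnLaw p n) (redCorankOne n) :=
    pb_prb_nonneg (redc_isProbArray hp0 hp n) _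
  exact hfin.trans (add_le_add (mul_le_mul_of_nonneg_right h1 hP0) h2)

end Claimed.Agent.R293
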