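/-
R293 / RedCover.lean  (owner: helper246).  Leaf RED-4: deterministic covering of the corank-one event
(first half of the proof of B Theorem 1.1): `red_cover : StRedCover`.
-/
import Claimed.Agent.R293.RedIface

set_option autoImplicit false

namespace Claimed.Agent.R293

open Finset Filter

variable {n : ℕ}

/-- a matrix of corank one has a nonzero kernel vector. -/
theorem redv_exists_ker (s : Sym2 (Fin n) → Bool) (h : (toR (sgnMat s)).rank + 1 = n) :
    ∃ v : Fin n → ℝ, v ≠ 0 ∧ IsKer s v := by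
  have hdet : (toR (sgnMat s)).det = 0 := by
    by_contra hne
    have hu : IsUnit (toR (sgnMat s)) :=
      (Matrix.isUnit_iff_isUnit_det _).2 (isUnit_iff_ne_zero.2 hne)
    have hr := Matrix.rank_of_isUnit _ hu
    rw [Fintype.card_fin] at hr
    omega
  exact Matrix.exists_mulVec_eq_zero_iff.mpr hdet

/-- the diagonal entries of a sign matrix do not vanish. -/
theorem redv_diag_ne_zero (s : Sym2 (Fin n) → Bool) (a : Fin n) : toR (sgnMat s) a a ≠ 0 := by
  show ((sgnMat s a a : ℤ) : ℝ) ≠ 0
  have h : sgnMat s a a = 1 ∨ sgnMat s a a = -1 := by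
    show (if s s(a, a) then (1 : ℤ) else -1) = 1 ∨ (if s s(a, a) then (1 : ℤ) else -1) = -1
    split_ifs <;> simp
  rcases h with h | h <;> rw [h] <;> norm_num

/-- the tail of a nonzero kernel vector does not vanish. -/
theorem redv_tail_pos (s : Sym2 (Fin n) → Bool) (v : Fin n → ℝ) (hv : v ≠ 0) (hk : IsKer s v)
    (a : Fin n) : 0 < ∑ i ∈ univ.erase a, v i ^ 2 := by
  have h0 : 0 ≤ ∑ i ∈ univ.erase a, v i ^ 2 := sum_nonneg fun _ _ => sq_nonneg _
  rcases h0.lt_or_eq with h | h
  · exact h
  exfalso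
  have hz : ∀ i ∈ univ.erase a, v i ^ 2 = 0 :=
    (sum_eq_zero_iff_of_nonneg fun _ _ => sq_nonneg _).1 h.symm
  have hz' : ∀ i, i ≠ a → v i = 0 := fun i hi =>
    pow_eq_zero_iff (two_ne_zero) |>.1 (hz i (mem_erase.2 ⟨hi, mem_univ _⟩))
  have hka : (toR (sgnMat s)).mulVec v a = 0 := by
    have := congrFun hk a
    simpa using this
  have hsum : (toR (sgnMat s)).mulVec v a = toR (sgnMat s) a a * v a := by
    unfold Matrix.mulVec dotProduct
    refine sum_eq_single a (fun j _ hj => ?_) (fun hh => absurd (mem_univ a) hh)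
    rw [hz' j hj, mul_zero]
  rw [hsum] at hka
  have hva : v a = 0 := (mul_eq_zero.1 hka).resolve_left (redv_diag_ne_zero s a)
  apply hv
  funext i
  by_cases hi : i = a
  · rw [hi, hva]; rfl
  · rw [hz' i hi]; rfl

/-- corank one: there is a kernel vector with an anchor and a normalised tail. -/
theorem redv_exists_normed (s : Sym2 (Fin n) → Bool) (h : (toR (sgnMat s)).rank + 1 = n) :
    ∃ (v : Fin n → ℝ) (a : Fin n), IsKer s v ∧ IsAnchor v a ∧ TailNormed v a := by
  obtain ⟨v, hv, hk⟩ := redv_exists_ker s h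
  have hne : (univ : Finset (Fin n)).Nonempty := by
    have : 0 < n := by omega
    exact ⟨⟨0, this⟩, mem_univ _⟩
  obtain ⟨a, -, ha⟩ := exists_max_image univ (fun i => |v i|) hne
  have hpos := redv_tail_pos s v hv hk a
  set t : ℝ := ∑ i ∈ univ.erase a, v i ^ 2 with ht
  set r : ℝ := (Real.sqrt t)⁻¹ with hr
  have hr0 : 0 < r := inv_pos.2 (Real.sqrt_pos.2 hpos)
  have hr2 : r ^ 2 * t = 1 := by
    rw [hr, inv_pow, Real.sq_sqrt hpos.le, inv_mul_cancel₀ hpos.ne']
  refine ⟨r • v, a, ?_, ?_, ?_⟩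
  · unfold IsKer at hk ⊢
    rw [Matrix.mulVec_smul, hk, smul_zero]
  · intro i
    simp only [Pi.smul_apply, smul_eq_mul, abs_mul, abs_of_pos hr0]
    exact mul_le_mul_of_nonneg_left (ha i (mem_univ _)) hr0.le
  · unfold TailNormed
    simp only [Pi.smul_apply, smul_eq_mul, mul_pow]
    rw [← mul_sum, ← ht, hr2]

/-- **RED-4**: deterministic covering of the corank-one event. -/
theorem red_cover : StRedCover := by
  intro p lam del c w hlam hc hcd n s hs
  have hs' : (toR (sgnMat s)).rank + 1 = n := hs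
  obtain ⟨v, a, hk, ha, ht⟩ := redv_exists_normed s hs'
  have hn : 0 < n := by omega
  have hn0 : (0 : ℝ) < n := by exact_mod_cast hn
  set T : Finset (Fin n) := (univ.erase a).filter fun i => c ^ 2 / n ≤ v i ^ 2 with hT
  by_cases hcard : (T.card : ℝ) ≤ lam * n
  · -- compressible
    refine Or.inl (Or.inl ⟨v, a, hk, ha, ht, T, ?_, hcard, ?_⟩)
    · simp [hT]
    · have h1 : ∀ i ∈ (univ.erase a) \ T, v i ^ 2 ≤ c ^ 2 / n := by
        intro i hi
        rw [Finset.mem_sdiff] at hi
        have : ¬ c ^ 2 / n ≤ v i ^ 2 := fun hh => hi.2 (mem_filter.2 ⟨hi.1, hh⟩)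
        exact (not_le.1 this).le
      have h2 : (((univ.erase a) \ T).card : ℝ) ≤ n := by
        have : ((univ.erase a) \ T).card ≤ (univ : Finset (Fin n)).card :=
          card_le_card (subset_univ _)
        rw [card_univ, Fintype.card_fin] at this
        exact_mod_cast this
      calc ∑ i ∈ (univ.erase a) \ T, v i ^ 2 ≤ ∑ _i ∈ (univ.erase a) \ T, c ^ 2 / n :=
            sum_le_sum h1
        _ = (((univ.erase a) \ T).card : ℝ) * (c ^ 2 / n) := by
            rw [sum_const, nsmul_eq_mul]
        _ ≤ n * (c ^ 2 / n) := mul_le_mul_of_nonneg_right h2 (by positivity)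
        _ = c ^ 2 := by field_simp
        _ ≤ del ^ 2 := pow_le_pow_left₀ hc.le hcd 2
  · rw [not_le] at hcard
    by_cases hgood : ∃ i ∈ T, |(rowCount s i : ℝ) - p * n| ≤ w * n
    · obtain ⟨i, hi, hrow⟩ := hgood
      rw [hT, mem_filter, mem_erase] at hi
      refine Or.inr ?_
      simp only [Set.mem_iUnion]
      exact ⟨a, i, fun h => hi.1.1 h.symm, hs', hrow, v, hk, ha, ht, hi.2⟩
    · push Not at hgood
      refine Or.inl (Or.inr ?_)
      show lam / 4 * n ≤ ((univ.filter fun i : Fin n => w * n < |(rowCount s i : ℝ) - p * n|).card : ℝ)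
      have hsub : T ⊆ univ.filter fun i : Fin n => w * n < |(rowCount s i : ℝ) - p * n| :=
        fun i hi => mem_filter.2 ⟨mem_univ _, hgood i hi⟩
      have hle : (T.card : ℝ) ≤
          ((univ.filter fun i : Fin n => w * n < |(rowCount s i : ℝ) - p * n|).card : ℝ) := by
        exact_mod_cast card_le_card hsub
      have : lam / 4 * n ≤ lam * n := by
        have : 0 ≤ lam * n := by positivity
        linarith
      linarith

end Claimed.Agent.R293
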