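/-
R293 / RedRows.lean  (owner: helper271).  RED-3: B Lemma 2.6 (row counts), `red_rows : StRedRows`.
Prefix `redr`.
-/
import Claimed.Agent.R293.RedIface
import Claimed.Agent.R293.ProbTail

set_option autoImplicit false

namespace Claimed.Agent.R293

open Finset Filter

section Coeff

variable {n : ℕ}

/-- multiplicity of the unordered pair `z` among the entries of the rows in `I`. -/
def redrCoeff (I : Finset (Fin n)) (z : Sym2 (Fin n)) : ℕ :=
  ((I ×ˢ (univ : Finset (Fin n))).filter fun q => s(q.1, q.2) = z).card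

theorem redr_sum_coeff (I : Finset (Fin n)) (f : Sym2 (Fin n) → ℝ) :
    ∑ z, (redrCoeff I z : ℝ) * f z = ∑ i ∈ I, ∑ j, f s(i, j) := by
  rw [← Finset.sum_product (s := I) (t := univ) (f := fun q => f s(q.1, q.2)),
    ← Finset.sum_fiberwise (I ×ˢ (univ : Finset (Fin n))) (fun q => s(q.1, q.2))]
  refine Finset.sum_congr rfl fun z _ => ?_
  rw [redrCoeff, Finset.card_eq_sum_ones, Nat.cast_sum, Finset.sum_mul]
  refine Finset.sum_congr rfl fun q hq => ?_
  rw [(Finset.mem_filter.1 hq).2]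
  simp

theorem redr_coeff_le_two (I : Finset (Fin n)) (z : Sym2 (Fin n)) : redrCoeff I z ≤ 2 := by
  induction z using Sym2.ind with
  | _ x y =>
    refine le_trans (Finset.card_le_card ?_) (Finset.card_le_two (a := (x, y)) (b := (y, x)))
    intro q hq
    have h := (Finset.mem_filter.1 hq).2
    rcases Sym2.eq_iff.1 h with ⟨h1, h2⟩ | ⟨h1, h2⟩
    · simp [Prod.ext_iff, h1, h2]
    · simp [Prod.ext_iff, h1, h2]

theorem redr_sum_coeff_sq_le (I : Finset (Fin n)) :
    ∑ z, ((redrCoeff I z : ℝ)) ^ 2 ≤ 2 * (I.card * n) := by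
  have h1 : ∑ z, (redrCoeff I z : ℝ) * 1 = I.card * n := by
    rw [redr_sum_coeff I fun _ => 1]
    simp
  have h2 : ∑ z, ((redrCoeff I z : ℝ)) ^ 2 ≤ ∑ z, 2 * ((redrCoeff I z : ℝ) * 1) := by
    refine Finset.sum_le_sum fun z _ => ?_
    have : (redrCoeff I z : ℝ) ≤ 2 := by exact_mod_cast redr_coeff_le_two I z
    have h0 : (0 : ℝ) ≤ redrCoeff I z := Nat.cast_nonneg _
    nlinarith
  rw [← Finset.mul_sum, h1] at h2
  exact h2

theorem redr_rowCount_eq (s : Sym2 (Fin n) → Bool) (i : Fin n) :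
    (rowCount s i : ℝ) = ∑ j, bitVec s s(i, j) := by
  rw [rowCount, ← Finset.sum_boole]
  rfl

/-- the centred sum of the row counts over `I` is a centred weighted sum of independent bits. -/
theorem redr_pbSum_eq (p : ℝ) (I : Finset (Fin n)) (s : Sym2 (Fin n) → Bool) :
    pbSum (sgnLaw p n) (fun z => (redrCoeff I z : ℝ)) s = ∑ i ∈ I, ((rowCount s i : ℝ) - p * n) := by
  rw [pbSum, redr_sum_coeff I fun z => bitVec s z - sgnLaw p n z]
  refine Finset.sum_congr rfl fun i _ => ?_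
  rw [redr_rowCount_eq, Finset.sum_sub_distrib]
  simp [mul_comm]

end Coeff

theorem redr_isProbArray {p : ℝ} (hp0 : 0 < p) (hp1 : p ≤ 1 / 2) (n : ℕ) :
    IsProbArray (sgnLaw p n) := fun _ => ⟨hp0.le, by linarith⟩

/-- all the rows in `I` deviate upwards. -/
theorem redr_up {p : ℝ} (hp0 : 0 < p) (hp1 : p ≤ 1 / 2) {w : ℝ} (hw : 0 < w) {n : ℕ} (hn : 0 < n)
    (I : Finset (Fin n)) (hI : I.Nonempty) :
    prb (sgnLaw p n) {s | ∀ i ∈ I, w * n < (rowCount s i : ℝ) - p * n} ≤
      Real.exp (-(I.card * w ^ 2 * n)) := by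
  have hπ := redr_isProbArray hp0 hp1 n
  have hc : (0 : ℝ) < I.card := by exact_mod_cast hI.card_pos
  have hn' : (0 : ℝ) < n := by exact_mod_cast hn
  have h := pb_hoeffding_ge hπ (fun z => (redrCoeff I z : ℝ)) (V := 2 * (I.card * n))
    (t := I.card * (w * n)) (redr_sum_coeff_sq_le I) (by positivity) (by positivity)
  have he : -2 * (I.card * (w * n)) ^ 2 / (2 * (I.card * n)) = -(I.card * w ^ 2 * n) := by
    field_simp
  rw [he] at h
  refine (pb_prb_mono hπ fun s hs => ?_).trans h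
  simp only [Set.mem_ofPred_eq, redr_pbSum_eq]
  calc (I.card : ℝ) * (w * n) = ∑ _i ∈ I, w * n := by simp
    _ ≤ ∑ i ∈ I, ((rowCount s i : ℝ) - p * n) := Finset.sum_le_sum fun i hi => (hs i hi).le

/-- all the rows in `I` deviate downwards. -/
theorem redr_down {p : ℝ} (hp0 : 0 < p) (hp1 : p ≤ 1 / 2) {w : ℝ} (hw : 0 < w) {n : ℕ} (hn : 0 < n)
    (I : Finset (Fin n)) (hI : I.Nonempty) :
    prb (sgnLaw p n) {s | ∀ i ∈ I, (rowCount s i : ℝ) - p * n < -(w * n)} ≤
      Real.exp (-(I.card * w ^ 2 * n)) := by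
  have hπ := redr_isProbArray hp0 hp1 n
  have hc : (0 : ℝ) < I.card := by exact_mod_cast hI.card_pos
  have hn' : (0 : ℝ) < n := by exact_mod_cast hn
  have h := pb_hoeffding_le hπ (fun z => (redrCoeff I z : ℝ)) (V := 2 * (I.card * n))
    (t := I.card * (w * n)) (redr_sum_coeff_sq_le I) (by positivity) (by positivity)
  have he : -2 * (I.card * (w * n)) ^ 2 / (2 * (I.card * n)) = -(I.card * w ^ 2 * n) := by
    field_simp
  rw [he] at h
  refine (pb_prb_mono hπ fun s hs => ?_).trans h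
  simp only [Set.mem_ofPred_eq, redr_pbSum_eq]
  calc ∑ i ∈ I, ((rowCount s i : ℝ) - p * n) ≤ ∑ _i ∈ I, -(w * n) :=
        Finset.sum_le_sum fun i hi => (hs i hi).le
    _ = -((I.card : ℝ) * (w * n)) := by simp

/-- non-asymptotic form of B Lemma 2.6. -/
theorem redr_bound {p : ℝ} (hp0 : 0 < p) (hp1 : p ≤ 1 / 2) {rho w : ℝ} (hrho : 0 < rho)
    (hw : 0 < w) {n : ℕ} (hn : 0 < n) :
    prb (sgnLaw p n) (redBadRows rho w p n) ≤
      (2 : ℝ) ^ n * (2 * Real.exp (-(rho * n / 2 * w ^ 2 * n))) := by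
  classical
  have hπ := redr_isProbArray hp0 hp1 n
  have hn' : (0 : ℝ) < n := by exact_mod_cast hn
  set J : Finset (Finset (Fin n)) := univ.filter fun I => rho * n / 2 ≤ (I.card : ℝ) with hJ
  set E : Finset (Fin n) → Set (Sym2 (Fin n) → Bool) := fun I =>
    {s | ∀ i ∈ I, w * n < (rowCount s i : ℝ) - p * n} ∪
      {s | ∀ i ∈ I, (rowCount s i : ℝ) - p * n < -(w * n)} with hE
  have hsub : redBadRows rho w p n ⊆ ⋃ I ∈ J, E I := by
    intro s hs
    set U : Finset (Fin n) := univ.filter fun i => w * n < (rowCount s i : ℝ) - p * n with hU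
    set D : Finset (Fin n) := univ.filter fun i => (rowCount s i : ℝ) - p * n < -(w * n) with hD
    have hcard : ((univ.filter fun i : Fin n => w * n < |(rowCount s i : ℝ) - p * n|).card : ℝ) ≤
        U.card + D.card := by
      have : (univ.filter fun i : Fin n => w * n < |(rowCount s i : ℝ) - p * n|) ⊆ U ∪ D := by
        intro i hi
        have h := (Finset.mem_filter.1 hi).2
        rcases lt_abs.1 h with h | h
        · exact Finset.mem_union_left _ (Finset.mem_filter.2 ⟨Finset.mem_univ i, h⟩)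
        · exact Finset.mem_union_right _ (Finset.mem_filter.2 ⟨Finset.mem_univ i, by linarith⟩)
      exact_mod_cast (Finset.card_le_card this).trans (Finset.card_union_le U D)
    have hs' : rho * n ≤ (U.card : ℝ) + D.card := le_trans hs hcard
    simp only [Set.mem_iUnion]
    by_cases hUc : rho * n / 2 ≤ (U.card : ℝ)
    · exact ⟨U, Finset.mem_filter.2 ⟨Finset.mem_univ U, hUc⟩,
        Or.inl fun i hi => (Finset.mem_filter.1 hi).2⟩
    · exact ⟨D, Finset.mem_filter.2 ⟨Finset.mem_univ D, by linarith⟩,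
        Or.inr fun i hi => (Finset.mem_filter.1 hi).2⟩
  have hEI : ∀ I ∈ J, prb (sgnLaw p n) (E I) ≤ 2 * Real.exp (-(rho * n / 2 * w ^ 2 * n)) := by
    intro I hI
    have hIc : rho * n / 2 ≤ (I.card : ℝ) := (Finset.mem_filter.1 hI).2
    have hIne : I.Nonempty := by
      rw [← Finset.card_pos]
      have : (0 : ℝ) < I.card := lt_of_lt_of_le (by positivity) hIc
      exact_mod_cast this
    have hexp : Real.exp (-(I.card * w ^ 2 * n)) ≤ Real.exp (-(rho * n / 2 * w ^ 2 * n)) := by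
      rw [Real.exp_le_exp, neg_le_neg_iff]
      gcongr
    have h1 := redr_up hp0 hp1 hw hn I hIne
    have h2 := redr_down hp0 hp1 hw hn I hIne
    have h3 := pb_prb_union_le hπ {s | ∀ i ∈ I, w * n < (rowCount s i : ℝ) - p * n}
      {s | ∀ i ∈ I, (rowCount s i : ℝ) - p * n < -(w * n)}
    linarith
  have hJc : (J.card : ℝ) ≤ (2 : ℝ) ^ n := by
    have : J.card ≤ 2 ^ n := by
      refine (Finset.card_le_univ J).trans (le_of_eq ?_)
      rw [Fintype.card_finset, Fintype.card_fin]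
    exact_mod_cast this
  calc prb (sgnLaw p n) (redBadRows rho w p n) ≤ prb (sgnLaw p n) (⋃ I ∈ J, E I) :=
        pb_prb_mono hπ hsub
    _ ≤ J.card * (2 * Real.exp (-(rho * n / 2 * w ^ 2 * n))) :=
        pb_prb_biUnion_le_card_mul hπ J E hEI
    _ ≤ (2 : ℝ) ^ n * (2 * Real.exp (-(rho * n / 2 * w ^ 2 * n))) := by gcongr

/-- **B Lemma 2.6** (row counts). -/
theorem red_rows : StRedRows := by
  intro p hp0 hp1 rho hrho w hw A0
  have hc : 0 < rho / 2 * w ^ 2 := by positivity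
  have hev : ∀ᶠ n : ℕ in atTop, (A0 + 2) * Real.log 2 / (rho / 2 * w ^ 2) ≤ (n : ℝ) :=
    tendsto_natCast_atTop_atTop.eventually_ge_atTop _
  filter_upwards [hev, eventually_gt_atTop 0] with n hn hn0
  refine (redr_bound hp0 hp1 hrho hw hn0).trans ?_
  have hn' : (1 : ℝ) ≤ n := by exact_mod_cast hn0
  rw [div_le_iff₀ hc] at hn
  have hlog : 0 < Real.log 2 := Real.log_pos one_lt_two
  have e1 : (2 : ℝ) ^ n = Real.exp (n * Real.log 2) := by
    rw [Real.exp_nat_mul, Real.exp_log two_pos]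
  have e2 : (2 : ℝ) = Real.exp (Real.log 2) := (Real.exp_log two_pos).symm
  have e3 : (2 : ℝ) ^ (-(A0 * n)) = Real.exp (Real.log 2 * (-(A0 * n))) :=
    Real.rpow_def_of_pos two_pos _
  rw [e1, e3]
  nth_rewrite 2 [e2]
  rw [← Real.exp_add, ← Real.exp_add, Real.exp_le_exp]
  have h1 : (A0 + 2) * Real.log 2 * n ≤ n * (rho / 2 * w ^ 2) * n :=
    mul_le_mul_of_nonneg_right hn (by linarith)
  nlinarith

end Claimed.Agent.R293
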