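/-
R293 / RedUpper.lean  (owner: helper54).  Leaf RED-6: glue of paper B, Section 2.
`red_upper : StRedCorank → StRedComp → StRedRows → StRedCover → StRedCol → StUpper`.  No sorry.
-/
import Claimed.Agent.R293.RedIface
import Claimed.Agent.R293.ProbBasic

set_option autoImplicit false

namespace Claimed.Agent.R293

open Finset Filter

/-! ### the three inequalities between the rate constants -/

theorem redu_cQ_pos {p : ℝ} (hp0 : 0 < p) : 0 < cQ p := by
  unfold cQ; positivity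

/-- `d_* ≤ h_*` (Jensen). -/
theorem redu_cD_le_cH {p : ℝ} (hp0 : 0 < p) (hp1 : p < 1) : cD p ≤ cH p := by
  have hb : 0 < 1 - p := by linarith
  have hJ : p * Real.log p + (1 - p) * Real.log (1 - p) ≤ Real.log (p * p + (1 - p) * (1 - p)) := by
    have := strictConcaveOn_log_Ioi.concaveOn.2 (Set.mem_Ioi.mpr hp0) (Set.mem_Ioi.mpr hb)
      hp0.le hb.le (by ring)
    simpa [smul_eq_mul] using this
  have hl2 : 0 < Real.log 2 := Real.log_pos (by norm_num)
  unfold cD cH cQ Real.logb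
  have e : p ^ 2 + (1 - p) ^ 2 = p * p + (1 - p) * (1 - p) := by ring
  rw [e]
  have h2 : (p * Real.log p + (1 - p) * Real.log (1 - p)) / Real.log 2
      ≤ Real.log (p * p + (1 - p) * (1 - p)) / Real.log 2 := by gcongr
  have e2 : (p * Real.log p + (1 - p) * Real.log (1 - p)) / Real.log 2
      = p * (Real.log p / Real.log 2) + (1 - p) * (Real.log (1 - p) / Real.log 2) := by ring
  rw [e2] at h2
  linarith

/-- `d_* ≤ 2 a`. -/
theorem redu_cD_le_two_cA {p : ℝ} (hp0 : 0 < p) (hp1 : p < 1) : cD p ≤ 2 * cA p := by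
  have hb : 0 < 1 - p := by linarith
  unfold cD cA cQ
  have h1 : Real.logb 2 ((1 - p) ^ 2) ≤ Real.logb 2 (p ^ 2 + (1 - p) ^ 2) :=
    Real.logb_le_logb_of_le (by norm_num) (by positivity) (by nlinarith [sq_nonneg p])
  have h2 : Real.logb 2 ((1 - p) ^ 2) = 2 * Real.logb 2 (1 - p) := by
    rw [Real.logb_pow]; norm_num
  rw [h2] at h1
  linarith

/-- `C_p = log₂ ((1-p)/p) ≥ 0` for `p ≤ 1/2`. -/
theorem redu_Cp_nonneg {p : ℝ} (hp0 : 0 < p) (hp : p ≤ 1 / 2) :
    0 ≤ Real.logb 2 ((1 - p) / p) := by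
  apply Real.logb_nonneg (by norm_num)
  rw [le_div_iff₀ hp0]; linarith

/-! ### polynomial factors are absorbed -/

theorem redu_poly_le {c : ℝ} (hc : 0 < c) :
    ∀ᶠ n : ℕ in atTop, 2 * (n : ℝ) ^ 2 + 3 ≤ (2 : ℝ) ^ (c * n) := by
  have hr : 1 < (2 : ℝ) ^ c := Real.one_lt_rpow (by norm_num) hc
  have ht := tendsto_pow_const_div_const_pow_of_one_lt 2 hr
  have hev : ∀ᶠ n : ℕ in atTop, (n : ℝ) ^ 2 / ((2 : ℝ) ^ c) ^ n < 1 / 5 :=
    ht.eventually (gt_mem_nhds (by norm_num))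
  filter_upwards [hev, eventually_ge_atTop 1] with n hn h1
  have hpos : 0 < ((2 : ℝ) ^ c) ^ n := by positivity
  rw [div_lt_iff₀ hpos] at hn
  have e : (2 : ℝ) ^ (c * n) = ((2 : ℝ) ^ c) ^ n := by
    rw [Real.rpow_mul (by norm_num), Real.rpow_natCast]
  rw [e]
  have h1' : (1 : ℝ) ≤ (n : ℝ) := by exact_mod_cast h1
  nlinarith

/-! ### the glue -/

theorem redu_isProb {p : ℝ} (hp0 : 0 < p) (hp1 : p ≤ 1) (n : ℕ) : IsProbArray (sgnLaw p n) :=
  fun _ => ⟨hp0.le, hp1⟩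

theorem redu_union {p : ℝ} (hp0 : 0 < p) (hp1 : p ≤ 1) (n : ℕ)
    (E : Fin n → Fin n → Set (Sym2 (Fin n) → Bool)) {c : ℝ} (hc : 0 ≤ c)
    (h : ∀ a i : Fin n, a ≠ i → prb (sgnLaw p n) (E a i) ≤ c) :
    prb (sgnLaw p n) (⋃ (a : Fin n) (i : Fin n) (_ : a ≠ i), E a i) ≤ (n : ℝ) ^ 2 * c := by
  have hπ := redu_isProb hp0 hp1 n
  refine (pb_prb_iUnion_le hπ _).trans ?_
  have h1 : ∀ a : Fin n, prb (sgnLaw p n) (⋃ (i : Fin n) (_ : a ≠ i), E a i) ≤ n * c := by
    intro a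
    refine (pb_prb_iUnion_le hπ _).trans ?_
    have h2 : ∀ i : Fin n, prb (sgnLaw p n) (⋃ (_ : a ≠ i), E a i) ≤ c := by
      intro i
      by_cases hai : a = i
      · simp [hai, hc]
      · simpa [hai] using h a i hai
    calc ∑ i : Fin n, prb (sgnLaw p n) (⋃ (_ : a ≠ i), E a i) ≤ ∑ _i : Fin n, c :=
          Finset.sum_le_sum fun i _ => h2 i
      _ = n * c := by simp
  calc ∑ a : Fin n, prb (sgnLaw p n) (⋃ (i : Fin n) (_ : a ≠ i), E a i)
      ≤ ∑ _a : Fin n, (n * c) := Finset.sum_le_sum fun a _ => h1 a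
    _ = (n : ℝ) ^ 2 * c := by simp; ring

/-- **RED-6**: the upper bound from the five leaves of Section 2. -/
theorem red_upper (h1 : StRedCorank) (h2 : StRedComp) (h3 : StRedRows) (h4 : StRedCover)
    (h5 : StRedCol) : StUpper := by
  intro p hp0 hp ε hε
  have hp1 : p < 1 := by linarith
  set ε' := ε / 4 with hε'
  have hε'0 : 0 < ε' := by positivity
  obtain ⟨lam, del, hlam0, _, hdel0, _, hcomp⟩ := h2 p hp0 hp ε' hε'0
  obtain ⟨e1, he1, hcol⟩ := h5 p hp0 hp del hdel0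
  set Cp := Real.logb 2 ((1 - p) / p) with hCp
  have hCp0 : 0 ≤ Cp := redu_Cp_nonneg hp0 hp
  set e0 := min e1 (ε' / 20) with he0
  have he00 : 0 < e0 := lt_min he1 (by positivity)
  have he0le : e0 ≤ ε' / 20 := min_le_right _ _
  set w := ε' / (4 * (Cp + 1)) with hw
  have hw0 : 0 < w := by positivity
  have hCw : Cp * w ≤ ε' / 4 := by
    rw [hw]
    have : Cp * (ε' / (4 * (Cp + 1))) = (Cp / (Cp + 1)) * (ε' / 4) := by field_simp
    rw [this]
    have h : Cp / (Cp + 1) ≤ 1 := by rw [div_le_one (by positivity)]; linarith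
    nlinarith
  set η := ε' / 4 with hη
  have hη0 : 0 < η := by positivity
  have hcol' := hcol e0 he00 (min_le_left _ _) w hw0 η hη0
  have hrows := h3 p hp0 hp (lam / 4) (by positivity) w hw0 (cD p)
  have hcor := h1 p hp0 hp ε' hε'0 (cD p)
  have hpoly := redu_poly_le (c := 2 * ε') (by positivity)
  filter_upwards [hcomp, hcol', hrows, hcor, hpoly] with n hA hB hC hD hE
  have hπ := redu_isProb hp0 hp1.le n
  have hn0 : (0 : ℝ) ≤ n := Nat.cast_nonneg n
  set X := (2 : ℝ) ^ (-((cD p - ε') * n)) with hX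
  have hX0 : 0 < X := by positivity
  -- each exponent is at least `(cD - ε') n`
  have hmono : ∀ u : ℝ, cD p - ε' ≤ u → (2 : ℝ) ^ (-(u * n)) ≤ X := by
    intro u hu
    apply Real.rpow_le_rpow_of_exponent_le (by norm_num)
    nlinarith
  have hcolX : ∀ a i : Fin n, a ≠ i → prb (sgnLaw p n) (redCol del w p n a i) ≤ 2 * X := by
    intro a i hai
    refine (hB a i hai).trans ?_
    have hH := redu_cD_le_cH hp0 hp1
    have hAA := redu_cD_le_two_cA hp0 hp1
    have b1 := hmono (cH p - e0 - Cp * w - η) (by linarith)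
    have b2 := hmono (2 * cA p - 10 * e0 - η) (by linarith)
    linarith
  have hcover := h4 p lam del del w hlam0 hdel0 (le_refl _) n
  have hP1 : prb (sgnLaw p n) (redCorankOne n) ≤ (2 * (n : ℝ) ^ 2 + 2) * X := by
    refine (pb_prb_mono hπ hcover).trans ?_
    refine (pb_prb_union_le hπ _ _).trans ?_
    have u1 := pb_prb_union_le hπ (redComp lam del n) (redBadRows (lam / 4) w p n)
    have u2 := redu_union hp0 hp1.le n (fun a i => redCol del w p n a i) (c := 2 * X)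
      (by positivity) hcolX
    have u3 := hmono (cD p) (by linarith)
    nlinarith
  have hY0 : 0 < (2 : ℝ) ^ (ε' * n) := by positivity
  have hY1 : 1 ≤ (2 : ℝ) ^ (ε' * n) := Real.one_le_rpow (by norm_num) (by positivity)
  have hfin : sgnProb p n ≤ (2 * (n : ℝ) ^ 2 + 3) * ((2 : ℝ) ^ (ε' * n) * X) := by
    have u3 := hmono (cD p) (by linarith)
    have u4 := mul_le_mul_of_nonneg_left hP1 hY0.le
    have u5 : X ≤ (2 : ℝ) ^ (ε' * n) * X := by nlinarith
    nlinarith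
  refine hfin.trans ?_
  have hZ : (2 : ℝ) ^ (ε' * n) * X = (2 : ℝ) ^ (-((cD p - 2 * ε') * n)) := by
    rw [hX, ← Real.rpow_add (by norm_num)]; congr 1; ring
  rw [hZ]
  calc (2 * (n : ℝ) ^ 2 + 3) * (2 : ℝ) ^ (-((cD p - 2 * ε') * n))
      ≤ (2 : ℝ) ^ (2 * ε' * n) * (2 : ℝ) ^ (-((cD p - 2 * ε') * n)) := by gcongr
    _ = (2 : ℝ) ^ (-((cD p - ε) * n)) := by
        rw [← Real.rpow_add (by norm_num)]; congr 1; rw [hε']; ring

end Claimed.Agent.R293
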