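/-
R293 / Final.lean  (owner: helper79, captain).  FINAL ASSEMBLY of row293 / S0541:
the package tops are combined to `StFrozen` (the frozen statement).
  PATH  path_all_of          B Proposition 2.5      <- INT, TYP, PAIR
  PAIR  pair_static_of_disc  B Proposition 5.1      <- DISC (RM, LAT, COV, INT, SPC inside)
  DISC  disc_coloring_final, disc_pairDet           A Lemmas 6.1-6.4, B Lemmas 5.2, 5.3
  INT   int_smallInt         B Theorem 4.1          <- RM, COV
  TYP   crk_primeCorank      B Lemma 3.1
  RED   red_upper            B Section 2
  END   end_main             limit + lower bound + symmetry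
-/
import Claimed.Agent.R293.EndMain
import Claimed.Agent.R293.RedUpper
import Claimed.Agent.R293.RedCorank
import Claimed.Agent.R293.RedComp
import Claimed.Agent.R293.RedRows
import Claimed.Agent.R293.RedCover
import Claimed.Agent.R293.RedCol
import Claimed.Agent.R293.CrkPrime
import Claimed.Agent.R293.IntFinal
import Claimed.Agent.R293.DiscFinal
import Claimed.Agent.R293.DiscPairDet
import Claimed.Agent.R293.PairFinal
import Claimed.Agent.R293.PathAll
import Claimed.Agent.R293.PathRetCost
import Claimed.Agent.R293.PathRetCover
import Claimed.Agent.R293.PathHighDet

set_option autoImplicit false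

namespace Claimed.Agent.R293

/-- B Proposition 5.1 (static column estimate). -/
theorem fin_static : StStatic := pair_static_of_disc disc_coloring_final disc_pairDet

/-- B Lemma 6.3 (one column). -/
theorem fin_retCost : StRetCost :=
  path_retCost (path_retCover path_smallPattern' path_layerTotal path_indexDet path_hadamardBit)
    path_retLat

/-- B (6.14). -/
theorem fin_highTailDet : StHighTailDet :=
  path_highTailDet path_tail1 path_tail2 (path_layerCorank path_layerAnti)

/-- B Proposition 2.5 (column estimate). -/
theorem fin_column : StColumn :=
  path_all_of fin_retCost fin_highTailDet int_smallInt crk_primeCorank fin_static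

/-- B Theorem 1.1, upper bound. -/
theorem fin_upper : StUpper :=
  red_upper red_corank red_comp red_rows red_cover (red_col fin_column)

/-- the frozen statement S0541. -/
theorem fin_frozen : StFrozen := end_main fin_upper

end Claimed.Agent.R293
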