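/-
R293 / IntPickJ.lean  (owner: helper141, prefix `ipj`).  INT leaf D4: `int_pickJ : StIntPickJ`.
A random subset `J` of `Fin m` of density `γ/2`: Markov for `|J|`, Chernoff lower tail (via `E exp(-X)`)
for `|J ∩ I_u|`, union bound.
-/
import Claimed.Agent.R293.IntDefs
import Claimed.Agent.R293.ProbBasic

set_option autoImplicit false

namespace Claimed.Agent.R293

open Finset

section
variable {m : ℕ}

/-- the subset coded by a bit vector. -/
def ipjSet (s : Fin m → Bool) : Finset (Fin m) := univ.filter fun i => s i = true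

theorem ipj_card_inter (s : Fin m → Bool) (I : Finset (Fin m)) :
    ((ipjSet s ∩ I).card : ℝ) = ∑ i, (if i ∈ I then (if s i then 1 else 0) else 0) := by
  rw [Finset.card_eq_sum_ones, Nat.cast_sum]
  simp only [Nat.cast_one]
  rw [← Finset.sum_filter_add_sum_filter_not univ (fun i => i ∈ ipjSet s ∩ I)
    (fun i => (if i ∈ I then (if s i then (1 : ℝ) else 0) else 0))]
  have h1 : ∑ i ∈ univ.filter (fun i => ¬ i ∈ ipjSet s ∩ I),
      (if i ∈ I then (if s i then (1 : ℝ) else 0) else 0) = 0 := by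
    refine Finset.sum_eq_zero fun i hi => ?_
    simp only [ipjSet, mem_filter, mem_univ, true_and, mem_inter, not_and] at hi
    by_cases hI : i ∈ I
    · by_cases hs : s i = true
      · exact absurd hI (hi hs)
      · simp [hs]
    · simp [hI]
  rw [h1, add_zero]
  have h2 : univ.filter (fun i => i ∈ ipjSet s ∩ I) = ipjSet s ∩ I := by
    ext i; simp
  rw [h2]
  refine Finset.sum_congr rfl fun i hi => ?_
  simp only [ipjSet, mem_filter, mem_univ, true_and, mem_inter] at hi
  simp [hi.1, hi.2]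

theorem ipj_exq_bit (π : Fin m → ℝ) (c : ℝ) (i : Fin m) :
    exq π (fun s => if s i then c else 0) = π i * c := by
  have h2 := pb_exq_prod π (fun (j : Fin m) (b : Bool) =>
    if j = i then (if b then c else 0) else 1)
  have h3 : ∀ s : Fin m → Bool, (∏ j, (fun (j : Fin m) (b : Bool) =>
      if j = i then (if b then c else 0) else 1) j (s j)) = if s i then c else 0 := by
    intro s
    rw [Finset.prod_eq_single i]
    · simp
    · intro j _ hj; simp [hj]
    · simp
  rw [pb_exq_congr π h3] at h2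
  rw [h2, Finset.prod_eq_single i]
  · simp
  · intro j _ hj; simp [hj]
  · simp

theorem ipj_exq_card (q : ℝ) (I : Finset (Fin m)) :
    exq (fun _ : Fin m => q) (fun s => ((ipjSet s ∩ I).card : ℝ)) = q * I.card := by
  rw [pb_exq_congr _ (fun s => ipj_card_inter s I), pb_exq_sum]
  have h : ∀ i : Fin m, exq (fun _ : Fin m => q)
      (fun s => (if i ∈ I then (if s i then (1 : ℝ) else 0) else 0)) = if i ∈ I then q else 0 := by
    intro i
    by_cases hI : i ∈ I
    · simp only [hI, if_true]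
      rw [ipj_exq_bit]; ring
    · simp only [hI, if_false]
      exact pb_exq_const _ 0
  rw [Finset.sum_congr rfl fun i _ => h i, Finset.sum_ite_mem, univ_inter, Finset.sum_const,
    nsmul_eq_mul]
  ring

theorem ipj_exq_exp (q : ℝ) (I : Finset (Fin m)) :
    exq (fun _ : Fin m => q) (fun s => Real.exp (-((ipjSet s ∩ I).card : ℝ))) =
      (q * Real.exp (-1) + (1 - q)) ^ I.card := by
  set g : Fin m → Bool → ℝ := fun i b => if i ∈ I then (if b then Real.exp (-1) else 1) else 1
    with hg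
  have h1 : ∀ s : Fin m → Bool, Real.exp (-((ipjSet s ∩ I).card : ℝ)) = ∏ i, g i (s i) := by
    intro s
    rw [ipj_card_inter, ← Finset.sum_neg_distrib, Real.exp_sum]
    refine Finset.prod_congr rfl fun i _ => ?_
    by_cases hI : i ∈ I
    · by_cases hs : s i = true <;> simp [hg, hI, hs]
    · simp [hg, hI]
  rw [pb_exq_congr _ h1, pb_exq_prod]
  have h2 : ∀ i : Fin m, q * g i true + (1 - q) * g i false =
      if i ∈ I then q * Real.exp (-1) + (1 - q) else 1 := by
    intro i
    by_cases hI : i ∈ I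
    · simp [hg, hI]
    · simp [hg, hI]
  rw [Finset.prod_congr rfl fun i _ => h2 i, Finset.prod_ite_mem, univ_inter, Finset.prod_const]

theorem ipj_exp_neg_one_le : Real.exp (-1) ≤ 3 / 8 := by
  rw [Real.exp_neg, inv_le_comm₀ (Real.exp_pos 1) (by norm_num)]
  have := Real.exp_one_gt_d9
  norm_num at this ⊢
  linarith

/-- Chernoff lower tail. -/
theorem ipj_chernoff {q : ℝ} (hq0 : 0 ≤ q) (hq1 : q ≤ 1) (I : Finset (Fin m)) {n1 : ℝ}
    (hn : n1 ≤ (I.card : ℝ)) :
    prb (fun _ : Fin m => q) {s | ((ipjSet s ∩ I).card : ℝ) < q * n1 / 2} ≤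
      Real.exp (-(q * n1 / 8)) := by
  have hπ : IsProbArray (fun _ : Fin m => q) := fun _ => ⟨hq0, hq1⟩
  have h1 : prb (fun _ : Fin m => q) {s | ((ipjSet s ∩ I).card : ℝ) < q * n1 / 2} ≤
      prb (fun _ : Fin m => q)
        {s | Real.exp (-(q * n1 / 2)) ≤ Real.exp (-((ipjSet s ∩ I).card : ℝ))} := by
    refine pb_prb_mono hπ fun s hs => ?_
    have hs' : ((ipjSet s ∩ I).card : ℝ) < q * n1 / 2 := hs
    exact Real.exp_le_exp.2 (by linarith)
  have h2 := pb_markov hπ (f := fun s => Real.exp (-((ipjSet s ∩ I).card : ℝ)))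
    (fun s => (Real.exp_pos _).le) (Real.exp_pos (-(q * n1 / 2)))
  rw [ipj_exq_exp] at h2
  have h3 : q * Real.exp (-1) + (1 - q) ≤ Real.exp (-(5 / 8 * q)) := by
    have h4 := Real.add_one_le_exp (-(5 / 8 * q))
    have h5 := mul_le_mul_of_nonneg_left ipj_exp_neg_one_le hq0
    linarith
  have h6 : 0 ≤ q * Real.exp (-1) + (1 - q) := by
    have := (Real.exp_pos (-1)).le
    have := mul_nonneg hq0 this
    linarith
  have h7 : (q * Real.exp (-1) + (1 - q)) ^ I.card ≤ Real.exp (-(5 / 8 * q * n1)) := by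
    calc (q * Real.exp (-1) + (1 - q)) ^ I.card ≤ Real.exp (-(5 / 8 * q)) ^ I.card :=
          pow_le_pow_left₀ h6 h3 _
      _ = Real.exp (I.card * (-(5 / 8 * q))) := by rw [← Real.exp_nat_mul]
      _ ≤ Real.exp (-(5 / 8 * q * n1)) := by
          refine Real.exp_le_exp.2 ?_
          have := mul_le_mul_of_nonneg_left hn (by positivity : 0 ≤ 5 / 8 * q)
          linarith
  calc prb (fun _ : Fin m => q) {s | ((ipjSet s ∩ I).card : ℝ) < q * n1 / 2}
      ≤ (q * Real.exp (-1) + (1 - q)) ^ I.card / Real.exp (-(q * n1 / 2)) := h1.trans h2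
    _ ≤ Real.exp (-(5 / 8 * q * n1)) / Real.exp (-(q * n1 / 2)) := by gcongr
    _ = Real.exp (-(q * n1 / 8)) := by
        rw [← Real.exp_sub]
        congr 1
        ring

/-- Markov for the size of the random set. -/
theorem ipj_markov {q : ℝ} (hq0 : 0 < q) (hq1 : q ≤ 1) (hm : 0 < m) :
    prb (fun _ : Fin m => q) {s | 2 * q * m < ((ipjSet s).card : ℝ)} ≤ 1 / 2 := by
  have hπ : IsProbArray (fun _ : Fin m => q) := fun _ => ⟨hq0.le, hq1⟩
  have hm' : (0 : ℝ) < m := by exact_mod_cast hm
  have h2 := pb_markov hπ (f := fun s => ((ipjSet s ∩ univ).card : ℝ))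
    (fun s => Nat.cast_nonneg _) (a := 2 * q * m) (by positivity)
  rw [ipj_exq_card] at h2
  refine le_trans (pb_prb_mono hπ fun s hs => ?_) (h2.trans (le_of_eq ?_))
  · have hs' : 2 * q * m < ((ipjSet s).card : ℝ) := hs
    show 2 * q * m ≤ ((ipjSet s ∩ univ).card : ℝ)
    rw [inter_univ]
    exact hs'.le
  · rw [card_univ, Fintype.card_fin]
    field_simp

end

/-- **INT leaf D4.** -/
theorem int_pickJ : StIntPickJ := by
  intro m γ hγ0 hγ1 ι _ Iu n1 hn hsum
  rcases Nat.eq_zero_or_pos m with hm | hm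
  · subst hm
    refine ⟨∅, by simp, fun u => ?_⟩
    have h1 := hn u
    have h2 : (Iu u).card = 0 := by
      rw [Finset.card_eq_zero]
      exact Finset.eq_empty_of_isEmpty _
    rw [h2] at h1
    simp only [Nat.cast_zero] at h1
    simp only [empty_inter, card_empty, Nat.cast_zero]
    nlinarith
  set q : ℝ := γ / 2 with hq
  have hq0 : 0 < q := by positivity
  have hq1 : q ≤ 1 := by rw [hq]; linarith
  have hπ : IsProbArray (fun _ : Fin m => q) := fun _ => ⟨hq0.le, hq1⟩
  set E0 : Set (Fin m → Bool) := {s | 2 * q * m < ((ipjSet s).card : ℝ)} with hE0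
  set E : ι → Set (Fin m → Bool) := fun u => {s | ((ipjSet s ∩ Iu u).card : ℝ) < q * n1 / 2}
    with hE
  have h1 : prb (fun _ : Fin m => q) (E0 ∪ ⋃ u, E u) < 1 := by
    have h2 := pb_prb_union_le hπ E0 (⋃ u, E u)
    have h3 := pb_prb_iUnion_le hπ E
    have h4 : ∑ u, prb (fun _ : Fin m => q) (E u) ≤
        (Fintype.card ι : ℝ) * Real.exp (-(γ * n1 / 16)) := by
      have h5 := Finset.sum_le_card_nsmul (univ : Finset ι)
        (fun u => prb (fun _ : Fin m => q) (E u)) (Real.exp (-(γ * n1 / 16))) (fun u _ => by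
          refine (ipj_chernoff hq0.le hq1 (Iu u) (hn u)).trans (le_of_eq ?_)
          congr 1
          rw [hq]; ring)
      simpa using h5
    have h6 := ipj_markov hq0 hq1 hm
    linarith
  have h7 : ∃ s, s ∉ E0 ∪ ⋃ u, E u := by
    by_contra hcon
    push Not at hcon
    have h8 : (E0 ∪ ⋃ u, E u) = Set.univ := Set.eq_univ_of_forall hcon
    rw [h8, pb_prb_univ] at h1
    exact lt_irrefl _ h1
  obtain ⟨s, hs⟩ := h7
  rw [Set.mem_union, not_or, Set.mem_iUnion, not_exists] at hs
  refine ⟨ipjSet s, ?_, fun u => ?_⟩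
  · have h9 : ¬ (2 * q * m < ((ipjSet s).card : ℝ)) := hs.1
    rw [not_lt] at h9
    refine h9.trans (le_of_eq ?_)
    rw [hq]; ring
  · have h9 : ¬ (((ipjSet s ∩ Iu u).card : ℝ) < q * n1 / 2) := hs.2 u
    rw [not_lt] at h9
    refine le_trans (le_of_eq ?_) h9
    rw [hq]; ring

end Claimed.Agent.R293
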