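/-
R293 / PairSetup.lean  (owner: helper118).  Leaf PAIR-SETUP: `pair_setup : StPairSetup`.
Every subgroup of `ℤ^m` has a `ℤ`-basis (PID), and `ℤ`-independent integer vectors are `ℝ`-independent (integer Gram determinant).
-/
import Claimed.Agent.R293.PairLeaves

set_option autoImplicit false

namespace Claimed.Agent.R293

open Matrix

/-- the Gram determinant of `ℤ`-independent integer vectors does not vanish. -/
theorem pairsu_gram_det_ne {r m : ℕ} {x : Fin r → Fin m → ℤ} (hx : LinearIndependent ℤ x) :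
    ((Matrix.of x) * (Matrix.of x)ᵀ).det ≠ 0 := by
  intro h
  obtain ⟨c, hc0, hc⟩ := Matrix.exists_mulVec_eq_zero_iff.2 h
  apply hc0
  have h1 : (c ᵥ* Matrix.of x) ⬝ᵥ (c ᵥ* Matrix.of x) = 0 := by
    have : c ⬝ᵥ (((Matrix.of x) * (Matrix.of x)ᵀ) *ᵥ c) = 0 := by rw [hc, dotProduct_zero]
    rwa [← Matrix.mulVec_mulVec, Matrix.mulVec_transpose, Matrix.dotProduct_mulVec] at this
  have h2 : c ᵥ* Matrix.of x = 0 := dotProduct_self_eq_zero.1 h1
  rw [Matrix.vecMul_eq_sum] at h2
  funext i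
  exact Fintype.linearIndependent_iff.1 hx c h2 i

/-- `ℤ`-independent integer vectors are `ℝ`-independent. -/
theorem pairsu_indepR {r m : ℕ} {x : Fin r → Fin m → ℤ} (hx : LinearIndependent ℤ x) :
    LinearIndependent ℝ (fun i => zToR (x i)) := by
  rw [Fintype.linearIndependent_iff]
  intro g hg
  set X : Matrix (Fin r) (Fin m) ℝ := (Matrix.of x).map (Int.cast : ℤ → ℝ) with hX
  have hdet : (X * Xᵀ).det ≠ 0 := by
    have h1 : X * Xᵀ = ((Matrix.of x) * (Matrix.of x)ᵀ).map (Int.cast : ℤ → ℝ) := by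
      rw [hX, ← Matrix.transpose_map]
      exact (Matrix.map_mul (f := Int.castRingHom ℝ)).symm
    rw [h1]
    have h2 : (((Matrix.of x) * (Matrix.of x)ᵀ).map (Int.cast : ℤ → ℝ)).det =
        ((((Matrix.of x) * (Matrix.of x)ᵀ).det : ℤ) : ℝ) :=
      ((Int.castRingHom ℝ).map_det _).symm
    rw [h2]
    exact_mod_cast pairsu_gram_det_ne hx
  have h3 : g ᵥ* X = 0 := by
    rw [Matrix.vecMul_eq_sum]
    exact hg
  have h4 : (X * Xᵀ) *ᵥ g = 0 := by
    rw [← Matrix.mulVec_mulVec, Matrix.mulVec_transpose, h3, Matrix.mulVec_zero]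
  have h5 := Matrix.eq_zero_of_mulVec_eq_zero hdet h4
  intro i
  rw [h5]
  rfl

/-- **Leaf SETUP.** -/
theorem pair_setup : StPairSetup := by
  intro m Λ
  obtain ⟨r, b⟩ := Submodule.basisOfPid (Pi.basisFun ℤ (Fin m)) (AddSubgroup.toIntSubmodule Λ)
  set x : Fin r → Fin m → ℤ := fun i => ((b i : AddSubgroup.toIntSubmodule Λ) : Fin m → ℤ) with hx
  have hZ : LinearIndependent ℤ x :=
    b.linearIndependent.map' (AddSubgroup.toIntSubmodule Λ).subtype (Submodule.ker_subtype _)
  refine ⟨r, x, pairsu_indepR hZ, hZ, ?_⟩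
  have h1 : Submodule.span ℤ (Set.range x) = AddSubgroup.toIntSubmodule Λ := by
    have : Set.range x = (AddSubgroup.toIntSubmodule Λ).subtype '' Set.range b := by
      rw [← Set.range_comp]
      rfl
    rw [this, Submodule.span_image, b.span_eq, Submodule.map_top, Submodule.range_subtype]
  rw [← Submodule.span_int_eq_addSubgroupClosure, h1]
  rfl

end Claimed.Agent.R293
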