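/-
R293 / PathRetLat.lean  (owner: helper202).  PATH-A3: the retention lattice, `path_retLat : StRetLat` (A Lemma 7.4 = B Lemma 6.2 (i)).
Prefix `pathr`.  No sorry.  Decomposition free, on top of `PathLatForm.lean`.

One prime `l`, layers `e_1 < ... < e_r`:  `T = ⋂_s {v | l^(e_s - s) v ∈ K + l^(e_s) ℤ^k}`, built by inserting the largest layer last.
-/
import Claimed.Agent.R293.PathLatForm

set_option autoImplicit false

namespace Claimed.Agent.R293

open scoped BigOperators

variable {k : ℕ}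

/-- the invariant of the one-prime induction. -/
def PathrInv (K : AddSubgroup (Fin k → ℤ)) (l : ℕ) (E : Finset ℕ) (T : AddSubgroup (Fin k → ℤ)) : Prop :=
  K ≤ T ∧ T.index = ∏ e ∈ E, l ^ latLayer K l e ∧
    (∀ v : Fin k → ℤ, (∀ e ∈ E, latLayer (addVec K v) l e = latLayer K l e) → v ∈ T) ∧
    (∀ v ∈ T, ∀ a : ℕ, (∀ e ∈ E, e ≤ a + E.card) → l ^ a • v ∈ levLat K l (a + E.card)) ∧
    (∀ g : Fin k → ℤ, l ^ E.card • g ∈ T)

theorem pathr_inv_empty (K : AddSubgroup (Fin k → ℤ)) (l : ℕ) : PathrInv K l ∅ ⊤ := by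
  refine ⟨le_top, by simp, fun _ _ => AddSubgroup.mem_top _, ?_, fun _ => AddSubgroup.mem_top _⟩
  intro v _ a _
  simpa using pathlf_pow_smul_mem K l a v

theorem pathr_card_lt {E : Finset ℕ} {e : ℕ} (hpos : ∀ x ∈ E, 1 ≤ x) (hlt : ∀ x ∈ E, x < e) :
    E.card + 1 ≤ e ∨ (E = ∅ ∧ e = 0) := by
  rcases Nat.eq_zero_or_pos e with rfl | he
  · right
    refine ⟨Finset.eq_empty_of_forall_notMem fun x hx => absurd (hlt x hx) (Nat.not_lt_zero _), rfl⟩
  · left
    have h1 : E ⊆ Finset.Icc 1 (e - 1) := fun x hx =>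
      Finset.mem_Icc.2 ⟨hpos x hx, Nat.le_sub_one_of_lt (hlt x hx)⟩
    have h2 := Finset.card_le_card h1
    rw [Nat.card_Icc] at h2
    omega

/-- the induction step: insert a layer above all the others. -/
theorem pathr_inv_insert {l : ℕ} (hl : l.Prime) {K : AddSubgroup (Fin k → ℤ)} (hK : K.index ≠ 0)
    {E : Finset ℕ} {T : AddSubgroup (Fin k → ℤ)} (hT : PathrInv K l E T) {e : ℕ} (he : 1 ≤ e)
    (hpos : ∀ x ∈ E, 1 ≤ x) (hlt : ∀ x ∈ E, x < e) :
    ∃ T' : AddSubgroup (Fin k → ℤ), PathrInv K l (insert e E) T' := by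
  obtain ⟨hKT, hidx, hret, hlev, hpow⟩ := hT
  have hnot : e ∉ E := fun h => lt_irrefl _ (hlt e h)
  have hcard : (insert e E).card = E.card + 1 := Finset.card_insert_of_notMem hnot
  obtain ⟨a, rfl⟩ : ∃ a, e = a + E.card + 1 := by
    rcases pathr_card_lt hpos hlt with h | ⟨_, h⟩
    · exact ⟨e - (E.card + 1), by omega⟩
    · omega
  have hle : ∀ x ∈ E, x ≤ a + E.card := fun x hx => Nat.le_of_lt_succ (hlt x hx)
  set φ : (Fin k → ℤ) →+ (Fin k → ℤ) := nsmulAddMonoidHom (α := Fin k → ℤ) (l ^ a) with hφ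
  have hφa : ∀ v, φ v = l ^ a • v := fun v => rfl
  set L1 := levLat K l (a + E.card + 1) with hL1
  set L0 := levLat K l (a + E.card) with hL0
  have hL10 : L1 ≤ L0 := pathlf_levLat_anti K l (Nat.le_succ _)
  refine ⟨L1.comap φ ⊓ T, ?_, ?_, ?_, ?_, ?_⟩
  · refine le_inf ?_ hKT
    intro v hv
    rw [AddSubgroup.mem_comap, hφa]
    exact pathlf_le_levLat K l _ (K.nsmul_mem hv _)
  · rw [Finset.prod_insert hnot, ← hidx, ← AddSubgroup.relIndex_mul_index (inf_le_right : L1.comap φ ⊓ T ≤ T),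
      AddSubgroup.inf_relIndex_right, AddSubgroup.relIndex_comap, pathlf_pow_latLayer hl hK]
    congr 1
    have hsup : L0 = L1 ⊔ T.map φ := by
      apply le_antisymm
      · intro g hg
        obtain ⟨κ, hκ, b, hb, rfl⟩ := AddSubgroup.mem_sup.1 hg
        obtain ⟨y, rfl⟩ := (pathlf_mem_mulSub _ b).1 hb
        refine AddSubgroup.add_mem _ (AddSubgroup.mem_sup_left (pathlf_le_levLat K l _ hκ))
          (AddSubgroup.mem_sup_right ⟨l ^ E.card • y, hpow y, ?_⟩)
        rw [hφa, smul_smul, ← pow_add]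
      · refine sup_le hL10 ?_
        rintro _ ⟨v, hv, rfl⟩
        exact hlev v hv a hle
    rw [← hL1, ← hL0, hsup, AddSubgroup.relIndex_sup_left]
  · intro v hv
    have hvT : v ∈ T := hret v fun x hx => hv x (Finset.mem_insert_of_mem hx)
    refine AddSubgroup.mem_inf.2 ⟨?_, hvT⟩
    rw [AddSubgroup.mem_comap, hφa]
    refine (pathlf_layer_eq_iff hl hK v (a + E.card)).1 (hv _ (Finset.mem_insert_self _ _)) _ ?_
      (hlev v hvT a hle)
    exact AddSubgroup.nsmul_mem _ (AddSubgroup.mem_zmultiples v) _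
  · rintro v ⟨hv1, _⟩ b hb
    rw [hcard]
    have h1 : a + E.card + 1 ≤ b + (E.card + 1) := by
      have := hb _ (Finset.mem_insert_self _ _)
      rwa [hcard] at this
    obtain ⟨c, rfl⟩ : ∃ c, b = a + c := ⟨b - a, by omega⟩
    have h2 := pathlf_pow_smul_mem_add (show l ^ a • v ∈ levLat K l (a + E.card + 1) from hv1) c
    rw [smul_smul, ← pow_add, add_comm c a] at h2
    have h3 : a + E.card + 1 + c = a + c + (E.card + 1) := by omega
    rwa [h3] at h2
  · intro g
    rw [hcard]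
    refine AddSubgroup.mem_inf.2 ⟨?_, ?_⟩
    · rw [AddSubgroup.mem_comap, hφa, smul_smul, ← pow_add, ← add_assoc]
      exact pathlf_pow_smul_mem K l _ g
    · have := hpow (l • g)
      rwa [smul_smul, ← pow_succ] at this

theorem pathr_inv_exists {l : ℕ} (hl : l.Prime) {K : AddSubgroup (Fin k → ℤ)} (hK : K.index ≠ 0)
    (E : Finset ℕ) : (∀ x ∈ E, 1 ≤ x) → ∃ T : AddSubgroup (Fin k → ℤ), PathrInv K l E T := by
  induction E using Finset.induction_on_max with
  | empty => exact fun _ => ⟨⊤, pathr_inv_empty K l⟩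
  | insert e E hlt ih =>
    intro hpos
    obtain ⟨T, hT⟩ := ih fun x hx => hpos x (Finset.mem_insert_of_mem hx)
    exact pathr_inv_insert hl hK hT (hpos e (Finset.mem_insert_self _ _))
      (fun x hx => hpos x (Finset.mem_insert_of_mem hx)) hlt

/-- index of an intersection, coprime indices. -/
theorem pathr_index_inf {G : Type*} [AddCommGroup G] {A B : AddSubgroup G} (h0 : (A ⊓ B).index ≠ 0)
    (hc : Nat.Coprime A.index B.index) : (A ⊓ B).index = A.index * B.index := by
  refine le_antisymm AddSubgroup.index_inf_le (Nat.le_of_dvd (Nat.pos_of_ne_zero h0) ?_)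
  exact Nat.Coprime.mul_dvd_of_dvd_of_dvd hc (AddSubgroup.index_dvd_of_le inf_le_left)
    (AddSubgroup.index_dvd_of_le inf_le_right)

/-- several primes. -/
theorem pathr_primes {K : AddSubgroup (Fin k → ℤ)} (hK : K.index ≠ 0) (E : ℕ → Finset ℕ)
    (hE : ∀ l, ∀ x ∈ E l, 1 ≤ x) (P : Finset ℕ) : (∀ l ∈ P, l.Prime) →
    ∃ T : AddSubgroup (Fin k → ℤ), K ≤ T ∧ T.index = ∏ l ∈ P, ∏ e ∈ E l, l ^ latLayer K l e ∧
      ∀ v : Fin k → ℤ, (∀ l ∈ P, ∀ e ∈ E l, latLayer (addVec K v) l e = latLayer K l e) → v ∈ T := by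
  induction P using Finset.induction_on with
  | empty => exact fun _ => ⟨⊤, le_top, by simp, fun _ _ => AddSubgroup.mem_top _⟩
  | insert l P hlP ih =>
    intro hP
    obtain ⟨T, hKT, hidx, hret⟩ := ih fun q hq => hP q (Finset.mem_insert_of_mem hq)
    have hl : l.Prime := hP l (Finset.mem_insert_self _ _)
    obtain ⟨T1, hKT1, hidx1, hret1, -, -⟩ := pathr_inv_exists hl hK (E l) (hE l)
    refine ⟨T1 ⊓ T, le_inf hKT1 hKT, ?_, ?_⟩
    · rw [Finset.prod_insert hlP, ← hidx, ← hidx1]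
      refine pathr_index_inf (fun h => hK (Nat.eq_zero_of_zero_dvd
        (h ▸ AddSubgroup.index_dvd_of_le (le_inf hKT1 hKT)))) ?_
      rw [hidx, hidx1]
      refine Nat.Coprime.prod_left fun e _ => Nat.Coprime.prod_right fun q hq =>
        Nat.Coprime.prod_right fun e' _ => Nat.Coprime.pow _ _ ?_
      refine (Nat.coprime_primes hl (hP q (Finset.mem_insert_of_mem hq))).2 ?_
      rintro rfl
      exact hlP hq
    · intro v hv
      exact ⟨hret1 v (hv l (Finset.mem_insert_self _ _)),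
        hret v fun q hq => hv q (Finset.mem_insert_of_mem hq)⟩

/-- **A Lemma 7.4 = B Lemma 6.2 (i)** (retention lattice). -/
theorem path_retLat : StRetLat := by
  intro k K hK D hD
  classical
  set E : ℕ → Finset ℕ := fun l => (D.filter fun x => x.1 = l).image Prod.snd with hE
  have hmemE : ∀ l e, e ∈ E l ↔ (l, e) ∈ D := by
    intro l e
    simp only [hE, Finset.mem_image, Finset.mem_filter]
    constructor
    · rintro ⟨⟨a, b⟩, ⟨h1, h2⟩, h3⟩
      simp only at h2 h3
      subst h2 h3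
      exact h1
    · intro h
      exact ⟨(l, e), ⟨h, rfl⟩, rfl⟩
  have hpos : ∀ l, ∀ x ∈ E l, 1 ≤ x := by
    intro l x hx
    have h1 := hD.1 ((hmemE l x).1 hx)
    have h2 := (Finset.mem_product.1 h1).2
    exact (Finset.mem_Icc.1 h2).1
  have hprime : ∀ l ∈ D.image Prod.fst, l.Prime := by
    intro l hl
    obtain ⟨x, hx, rfl⟩ := Finset.mem_image.1 hl
    have h1 := (Finset.mem_product.1 (hD.1 hx)).1
    exact Nat.prime_of_mem_primeFactors h1
  obtain ⟨T, hKT, hidx, hret⟩ := pathr_primes hK E hpos (D.image Prod.fst) hprime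
  refine ⟨T, hKT, ?_, ?_⟩
  · rw [hidx, ← Finset.prod_fiberwise_of_maps_to (s := D) (t := D.image Prod.fst) (g := Prod.fst)
      (fun x hx => Finset.mem_image_of_mem _ hx)]
    refine Finset.prod_congr rfl fun l _ => ?_
    rw [hE, Finset.prod_image]
    · refine Finset.prod_congr rfl fun x hx => ?_
      rw [(Finset.mem_filter.1 hx).2]
    · intro x hx y hy hxy
      have h1 := (Finset.mem_filter.1 hx).2
      have h2 := (Finset.mem_filter.1 hy).2
      exact Prod.ext (h1.trans h2.symm) hxy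
  · intro v hv
    refine hret v fun l _ e he => ?_
    exact (hv (l, e) ((hmemE l e).1 he)).2

end Claimed.Agent.R293
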